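import Vale.Agent.P236X.Chk
import Vale.Agent.P236B.Ghost2
import Vale.Agent.P236C.Gen

/-!
# P236 / X : semantics of the program, definitions
-/

noncomputable section

namespace Vale.Agent.P236X

open MvPolynomial Vale.Agent.P236A Vale.Agent.P236B Vale.Agent.P236C

/-- the field `p` of a vector -/
def dg (x p : ℕ) : ℕ := x >>> (12 * p) % 4096

/-- the monomial of a code -/
def mono {B : Type} [CommRing B] (c : ℕ) : MvPolynomial ℕ B := ∏ i ∈ Finset.range 7, X (i + 1) ^ fld c i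

/-- the monomial in the `v` with the base `128` digits `L` -/
def vmon {B : Type} [CommRing B] (v : ℕ → B) (L : ℕ) : B :=
  v 0 ^ fld L 0 * v 1 ^ fld L 1 * v 2 ^ fld L 2 * v 3 ^ fld L 3

/-- the polynomial of a program -/
def Pg.den {B : Type} [CommRing B] (v : ℕ → B) : Pg → MvPolynomial ℕ B
  | .zero => 0
  | .t δ A => X 0 ^ A * mono δ
  | .at δ A p => p.den v + X 0 ^ A * mono δ
  | .add p q => p.den v + q.den v
  | .mul k p => (k : MvPolynomial ℕ B) * p.den v
  | .fold _ p => p.den v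
  | .qs _ p => p.den v
  | .mv L p => C (vmon v L) * p.den v
  | .mw L p => C (vmon v L) * p.den v

/-- the ground ring -/
abbrev K9 : Type := ZMod 9

/-- the quotient ring -/
abbrev Ab (a N : ℕ) : Type := Av K9 ⧸ JJ 3 K9 a N

/-- the projection -/
def xq (a N : ℕ) : Av K9 →+* Ab a N := Ideal.Quotient.mk _

/-- the precision of a layer -/
def mu (a N j : ℕ) : K9 := if j < a then 1 else if j < N then 3 else 0

/-- the coefficients of an element of the quotient -/
def cf {a N : ℕ} (x : Ab a N) (L : ℕ →₀ ℕ) : K9 := mu a N (L 0) * coeff L (Quotient.out x)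

/-- the exponent vector with four entries -/
def ex4 (j1 j2 j3 j4 : ℕ) : ℕ →₀ ℕ :=
  Finsupp.single 0 j1 + Finsupp.single 1 j2 + Finsupp.single 2 j3 + Finsupp.single 3 j4

namespace Lay

variable (Y : Lay) (p : ℕ)

/-- the position lies in the range of the layout -/
def pin : Prop := p / Y.S / Y.N ≤ Y.T / 4
/-- the block -/
def pn : ℕ := Y.T / 4 - p / Y.S / Y.N
/-- the exponent of `v_1` -/
def pj : ℕ := Y.N - 1 - p / Y.S % Y.N
/-- the entry of the slab -/
def ph : ℕ := nth 0 Y.sl (p % Y.S)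
/-- the degree -/
def pD : ℕ := 4 * Y.pn p + Y.pj p + h3 (Y.ph p) + hd (Y.ph p) % 4
/-- the first block of the entry -/
def pq : ℕ := 3 * h3 (Y.ph p) + 10 * h4 (Y.ph p) + hd (Y.ph p) / 4
/-- the monomial -/
def pL : ℕ →₀ ℕ := ex4 (Y.pj p) (Y.pn p - Y.pq p) (h3 (Y.ph p)) (h4 (Y.ph p))

end Lay

/-- The vector `x` has fields `≤ V` and its component of degree `d + i` represents `F i`. -/
structure Rep (Y : Lay) (x d V : ℕ) (F : ℕ → ℕ → Ab Y.a Y.N) : Prop where
  bd : ∀ p, dg x p ≤ V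
  out : ∀ p, ¬ Y.pin p → dg x p = 0
  eq : ∀ p, Y.pin p → d ≤ Y.pD p → Y.pD p ≤ Y.T → mu Y.a Y.N (Y.pj p) * (dg x p : K9) =
    if Y.pq p ≤ Y.pn p then cf (F (Y.pD p - d) (hk (Y.ph p))) (Y.pL p) else 0

/-- the polynomial ring of the stages -/
abbrev Pb (a N : ℕ) : Type := MvPolynomial ℕ (Ab a N)

/-- The table `Z` represents the functionals `Φ k`; `b` is the degree of the generator. -/
def TabOK (Y : Lay) (Z : ℕ → ℕ) (b V : ℕ) (Φ : ℕ → Pb Y.a Y.N →ₗ[Ab Y.a Y.N] Ab Y.a Y.N) : Prop :=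
  ∀ c, cdeg c = b + mdeg c → cdeg c ≤ Y.T →
    Rep Y (Z c) (cdeg c) V fun i k => Φ k (X 0 ^ i * mono c)

/-! ### the matrix -/

/-- the combination of columns with the digits of `key` -/
def combV {M : Type} [AddCommMonoid M] (Θ : ℕ → M) (w : ℕ) : List ℕ → ℕ → M
  | [], _ => 0
  | col :: rest, key => (key % 2 ^ w % 9) • Θ col + combV Θ w rest (key >>> w)

/-- the combination of columns with the digits of a row -/
def macV {M : Type} [AddCommMonoid M] (Θ : ℕ → M) (r : ℕ) : GrL → M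
  | .nil => 0
  | .cons _ off w cols rest => macV Θ r rest + combV Θ w cols (r >>> off % 256)

/-- the monomial of a column -/
def lmon (col : ℕ) : ℕ →₀ ℕ := ex4 (fld col 3) (fld col 4) (fld col 5) (fld col 6)

/-- the code of a monomial -/
def kcode (J : ℕ →₀ ℕ) : ℕ := J 0 + 128 * (J 1 + 128 * (J 2 + 128 * J 3))

/-- the degree of a monomial -/
def tdeg (J : ℕ →₀ ℕ) : ℕ := J 0 + 4 * J 1 + 13 * J 2 + 40 * J 3

/-- the entry of a row -/
def dRow (L : Lv) (e k kc t : ℕ) : Av K9 :=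
  macV (fun col => if col % 64 = k then monomial (lmon col) 1 else 0) (rowK L e kc t) (colF L t)

/-- the lift of a coefficient -/
def lift3 (c : ZMod 3) : K9 := (c.val : K9)

open Classical in
/-- the matrix given by the data `D` in degrees `≤ T` -/
def delta (D : ℕ → Lv) (T S : ℕ) : Mat (Io S) (Av K9) := fun g g' J =>
  if (g'.1 : ℕ) = g.1 + 1 then
    if J.support ⊆ Finset.range 4 ∧ tdeg J + gw g.1 g.2 ≤ T then
      dRow (D g.1) g.2 g'.2 (kcode J) (tdeg J + gw g.1 g.2)
    else C (lift3 (xi g.1 g.2 g'.2 J))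
  else 0

end Vale.Agent.P236X
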