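import Vale.Agent.P236X.Sem2
import Vale.Agent.P236M.Algc

/-!
# P236 / X : what the sixteen programs compute (two keys)
-/

namespace Vale.Agent.P236X

open MvPolynomial Vale.Agent.P236M

/-- `β` is the compiled form of a program of degree `w` for the polynomial `b` -/
def ItOK2 (a N : ℕ) (β : Prog2) (w : ℕ) (b : Pb a N) : Prop :=
  ∃ p : Pg, β = run2 p ∧ p.ok 126 w 0 = true ∧ p.bd 126 ≤ 126 ∧ p.den (fun n => xq a N (X n)) = b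

/-- `βs` is the list of the compiled programs for the powers of `b` -/
def DiOK2 (a N : ℕ) (βs : List Prog2) (w V : ℕ) (b : Pb a N) : Prop :=
  ∃ ps : List Pg, βs = ps.map run2 ∧ ∀ j, 1 ≤ j → j * w ≤ 94 →
    (ps.getD j .zero).ok V (j * w) 0 = true ∧ (ps.getD j .zero).bd V ≤ V ∧
      (ps.getD j .zero).den (fun n => xq a N (X n)) = b ^ j

/-- the programs are correct -/
structure PrgOK2 (a N : ℕ) (B : Prg2) : Prop where
  g3 : ItOK2 a N B.g3 13 (g3 3 (xq a N))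
  g4 : ItOK2 a N B.g4 40 (g4 3 (xq a N))
  w4 : ItOK2 a N B.w4 40 (VV 3 (xq a N) 4 3)
  w3 : ItOK2 a N B.w3 13 (VV 3 (xq a N) 4 2)
  w2 : ItOK2 a N B.w2 4 (VV 3 (xq a N) 4 1)
  w1 : DiOK2 a N B.w1 1 10 (VV 3 (xq a N) 4 0)
  b44 : DiOK2 a N B.b44 40 126 (bb 3 (xq a N) 3 3)
  b34 : ItOK2 a N B.b34 40 (bb 3 (xq a N) 2 3)
  b33 : DiOK2 a N B.b33 13 126 (bb 3 (xq a N) 2 2)
  b24 : ItOK2 a N B.b24 40 (bb 3 (xq a N) 1 3)
  b23 : ItOK2 a N B.b23 13 (bb 3 (xq a N) 1 2)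
  b22 : DiOK2 a N B.b22 4 126 (bb 3 (xq a N) 1 1)
  b14 : ItOK2 a N B.b14 40 (bb 3 (xq a N) 0 3)
  b13 : ItOK2 a N B.b13 13 (bb 3 (xq a N) 0 2)
  b12 : ItOK2 a N B.b12 4 (bb 3 (xq a N) 0 1)
  b11 : DiOK2 a N B.b11 1 126 (bb 3 (xq a N) 0 0)

end Vale.Agent.P236X
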