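import Vale.Agent.P236X.Defs

/-!
# P236 / X : side conditions (Boolean checks)
-/

noncomputable section

namespace Vale.Agent.P236X

/-- the degree of the monomial of a code -/
def mdeg (c : Nat) : Nat :=
  4 * fld c 0 + 13 * fld c 1 + 40 * fld c 2 + fld c 3 + 4 * fld c 4 + 13 * fld c 5 + 40 * fld c 6

/-- the degree of a monomial in the `v` -/
def ldeg (L : Nat) : Nat := fld L 0 + 4 * fld L 1 + 13 * fld L 2 + 40 * fld L 3

/-- the bound for the fields of the value of a program -/
def Pg.bd (V : Nat) : Pg → Nat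
  | .zero => 0
  | .t _ _ => V
  | .at _ _ p => p.bd V + V
  | .add p q => p.bd V + q.bd V
  | .mul k p => k * p.bd V
  | .fold _ _ => 126
  | .qs _ p => p.bd V / 64 + 9
  | .mv _ p => p.bd V
  | .mw _ p => p.bd V

/-- a term of degree `W` -/
def okT (W o δ A : Nat) : Bool := Nat.beq (cdeg δ) (mdeg δ) && Nat.beq (cdeg δ + A + o) W

/-- the program is homogeneous of degree `W` and does not overflow -/
def Pg.ok (V W : Nat) : Pg → Nat → Bool
  | .zero, _ => true
  | .t δ A, o => okT W o δ A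
  | .at δ A p, o => okT W o δ A && p.ok V W o && Nat.blt (p.bd V + V) 4096
  | .add p q, o => p.ok V W o && q.ok V W o && Nat.blt (p.bd V + q.bd V) 4096
  | .mul k p, o => p.ok V W o && Nat.blt (k * p.bd V) 4096
  | .fold o' p, o => Nat.beq o' o && p.ok V W o
  | .qs o' p, o => Nat.beq o' o && p.ok V W o && Nat.ble (p.bd V) 585
  | .mv L p, o => p.ok V W (o + ldeg L) && Nat.ble (o + ldeg L) W && Nat.blt (fld L 2) 8 &&
      Nat.blt (fld L 3) 4
  | .mw L p, o => p.ok V W (o + ldeg L) && Nat.ble (o + ldeg L) W && Nat.beq (fld L 0) 0 &&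
      Nat.beq (fld L 2) 0 && Nat.beq (fld L 3) 0

/-- all groups -/
def GrL.all (f : Nat → Nat → List Nat → Bool) : GrL → Bool
  | .nil => true
  | .cons tag _ w cols rest => f tag w cols && rest.all f

/-- the number of groups -/
def GrL.len : GrL → Nat
  | .nil => 0
  | .cons _ _ _ _ rest => rest.len + 1

/-- the degree of the monomial of a column -/
def cdg (col : Nat) : Nat := fld col 3 + 4 * fld col 4 + 13 * fld col 5 + 40 * fld col 6

/-- The columns of a level: degrees, tags (`gm` gives the group of a generator, the columns with a tag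
above `63` have an exponent of `v_1` at least `Nn`), sizes. -/
def lvOK (L : Lv) (gm : List Nat) (T Nn : Nat) : Bool :=
  allN (fun t => Nat.ble (colF L t).len 255 && (colF L t).all fun tag w cols =>
    Nat.ble (cols.length * min (2 ^ w - 1) 8) 16 && allL (fun col =>
      Nat.blt col (2 ^ 49) && Nat.beq (cdg col + gtd L (Nat.land col 63)) t &&
      (Nat.ble tag 63 || Nat.ble Nn (fld col 3)) &&
      Nat.beq (nth 0 gm (Nat.land col 63)) (Nat.land tag 63)) cols) (T + 1)

/-- an entry of a slab -/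
def ent (k j3 j4 d : Nat) : Nat := k + 64 * (j3 + 8 * (j4 + 4 * d))

/-- The layout of a group. -/
def layOK (Y : Lay) : Bool :=
  Nat.beq Y.S Y.sl.length && Nat.blt 0 Y.S && Nat.ble 4 Y.N && Nat.blt Y.a Y.N && Nat.ble Y.T 94 &&
  Nat.ble Y.N 127 &&
  allL (fun h => Nat.ble (h3 h + hd h % 4) Y.um) Y.sl &&
  allN (fun r => allN (fun r' => !Nat.beq (nth 0 Y.sl r) (nth 0 Y.sl r')) r) Y.S &&
  allN (fun r => allN (fun l3 => allN (fun l4 =>
    Nat.blt (r + l3 + Y.s4 * l4) Y.S && Nat.beq (nth 0 Y.sl (r + l3 + Y.s4 * l4))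
      (ent (hk (nth 0 Y.sl r)) (h3 (nth 0 Y.sl r) - l3) (h4 (nth 0 Y.sl r) - l4) (hd (nth 0 Y.sl r))))
    (h4 (nth 0 Y.sl r) + 1)) (h3 (nth 0 Y.sl r) + 1)) Y.S

/-- The slab belongs to the group `gam` of generators of the level `L` and is complete. -/
def grpOK (Y : Lay) (L : Lv) (gm : List Nat) (gam : Nat) : Bool :=
  Nat.ble gam 63 &&
  allL (fun h => Nat.beq (hd h) (gtd L (hk h)) && Nat.beq (nth 0 gm (hk h)) gam) Y.sl &&
  allN (fun k => !Nat.beq (nth 0 gm k) gam || allN (fun j3 => allN (fun j4 =>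
    Nat.blt Y.T (13 * j3 + 40 * j4 + gtd L k) ||
      !allL (fun h => !Nat.beq h (ent k j3 j4 (gtd L k))) Y.sl) 4) 8) 64 &&
  allN (fun t => (colF L t).all fun tag _ cols => !Nat.beq (Nat.land tag 63) gam || allL (fun col =>
    Nat.blt (fld col 3) Y.N && Nat.blt (Nat.land (Nat.shiftRight col 6) 32767) Y.S &&
    Nat.beq (nth 0 Y.sl (Nat.land (Nat.shiftRight col 6) 32767))
      (ent (Nat.land col 63) (fld col 5) (fld col 6) (gtd L (Nat.land col 63)))) cols) (Y.T + 1)

end Vale.Agent.P236X
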