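import Vale.Agent.P236X.Dv3
import Vale.Agent.P236X.Chk

/-!
# P236 / X : the programs of the second and of the third version come from the same terms
-/

namespace Vale.Agent.P236X

/-- The two programs are the values of one term of degree `w`. -/
def ItB (b3 : Prog3) (b2 : Prog2) (w : Nat) : Prop :=
  ∃ (p : Pg) (V : Nat), b3 = run3 w p ∧ b2 = run2 p ∧ p.ok V w 0 = true

/-- The programs number `j` of the two lists are the values of one term of degree `j * w`. -/
def DiB (l3 : List Prog3) (l2 : List Prog2) (w : Nat) : Prop :=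
  ∀ j : Nat, 1 ≤ j → j * w ≤ 94 → ∃ (p : Pg) (V : Nat),
    nth zero3 l3 j = run3 (j * w) p ∧ (nthB l2 j).1 = run2 p ∧ p.ok V (j * w) 0 = true

/-- The programs of the two versions correspond. -/
structure Br (B3 : Prg3) (B2 : Prg2) : Prop where
  /-- `y_3` -/
  g3 : ItB B3.g3 B2.g3 13
  /-- `y_4` -/
  g4 : ItB B3.g4 B2.g4 40
  /-- right unit -/
  w4 : ItB B3.w4 B2.w4 40
  /-- right unit -/
  w3 : ItB B3.w3 B2.w3 13
  /-- right unit -/
  w2 : ItB B3.w2 B2.w2 4
  /-- right unit -/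
  w1 : DiB B3.w1 B2.w1 1
  /-- coproduct -/
  b44 : DiB B3.b44 B2.b44 40
  /-- coproduct -/
  b34 : ItB B3.b34 B2.b34 40
  /-- coproduct -/
  b33 : DiB B3.b33 B2.b33 13
  /-- coproduct -/
  b24 : ItB B3.b24 B2.b24 40
  /-- coproduct -/
  b23 : ItB B3.b23 B2.b23 13
  /-- coproduct -/
  b22 : DiB B3.b22 B2.b22 4
  /-- coproduct -/
  b14 : ItB B3.b14 B2.b14 40
  /-- coproduct -/
  b13 : ItB B3.b13 B2.b13 13
  /-- coproduct -/
  b12 : ItB B3.b12 B2.b12 4
  /-- coproduct -/
  b11 : DiB B3.b11 B2.b11 1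

end Vale.Agent.P236X
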