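import Vale.Agent.P236X.Fin2
import Vale.Agent.P236N.Sq

/-!
# P236 / X : `δ ∘ δ ∈ 𝔞` from the rows in the masks
-/

noncomputable section

namespace Vale.Agent.P236X

open MvPolynomial Vale.Agent.P236A Vale.Agent.P236B Vale.Agent.P236C Vale.Agent.P236N

/-- **all levels, the rows in the masks** -/
theorem sqIn_of_masks {D : ℕ → Lw} {T S : ℕ} (hS : S ≤ 23) (hT : T ≤ 94)
    (hH : HomD 3 (Gam S) (delta2 D T S)) (hb : bar 3 P236T.r3 (delta2 D T S) = xi0 S) {a N : ℕ → ℕ}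
    (ha : Antitone a) (hN : Antitone N) (haN : ∀ s, a s < N s)
    (h : ∀ s < S, LevQ D T S s (a (s + 1)) (N (s + 1)) (InR (MK s)) fun _ => True) :
    SqIn 3 (Gam S) (delta2 D T S) (fun s => JJ 3 (ZMod 9) (a s) (N s)) (2 * T) :=
  sqIn_rows_JJ hS hT hH hb ha hN haN (rows_of hH hT (Q := fun s => InR (MK s)) h)

end Vale.Agent.P236X
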