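import Vale.Agent.P236X.Lev
import Vale.Agent.P236X.Fin3

/-!
# P236 / X : all levels
-/

namespace Vale.Agent.P236X

open Vale.Agent.P236A Vale.Agent.P236B Vale.Agent.P236C Vale.Agent.P236N

/-- **The matrix given by the data is homogeneous, lifts `xi0` and its square lies in the ideals.** -/
theorem k2_of {D : ℕ → Lw} {T S : ℕ} {Z : ℕ → List Zc} {a N : ℕ → ℕ} (hS : S ≤ 23) (hT : T ≤ 94)
    (ha : Antitone a) (hN : Antitone N) (haN : ∀ s, a s < N s)
    (d : ∀ s ≤ S, DatOK (D s) T s (Z s))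
    (h : ∀ s < S, LvOK (D s) (D (s + 1)) (MK s) T s (a (s + 1)) (N (s + 1)) (Z (s + 1))) :
    HomD 3 (Gam S) (delta2 D T S) ∧ bar 3 P236T.r3 (delta2 D T S) = xi0 S ∧
      SqIn 3 (Gam S) (delta2 D T S) (fun s => JJ 3 (ZMod 9) (a s) (N s)) (2 * T) :=
  ⟨homD_of d, bar_of (by omega) d,
    sqIn_of_masks hS hT (homD_of d) (bar_of (by omega) d) ha hN haN (levQ_of d h)⟩

end Vale.Agent.P236X
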