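import Vale.Agent.P236X.Def2
import Vale.Agent.P236X.Chk

/-!
# P236 / X : the checks of the data of one level
-/

noncomputable section

namespace Vale.Agent.P236X

/-- a group of target generators: `U` has the layout and the table, `gm` gives the group of a generator,
`bs` the index in the slab of the entry without `v_3`, `v_4` -/
structure Zc where
  /-- the context that uses the table -/
  U : Ctw
  /-- the group -/
  gam : Nat
  /-- the groups of the generators -/
  gm : List Nat
  /-- the indices of the generators -/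
  bs : List Nat

/-- the group of a generator -/
def zg (Z : Zc) (k : Nat) : Nat := nth 0 Z.gm k
/-- the index of an entry -/
def zi (Z : Zc) (k l3 l4 : Nat) : Nat := Nat.sub (nth 0 Z.bs k) (Nat.add l3 (Nat.mul Z.U.Y.s4 l4))
/-- the index of the entry of a column -/
def zj (Z : Zc) (k h : Nat) : Nat := zi Z k (Nat.land h 7) (Nat.shiftRight h 3)

/-- The slab belongs to the group and is complete for the monomials without `v_4`. -/
def grp2 (Z : Zc) (L : Lw) : Bool :=
  allL (fun h => Nat.beq (hd h) (gtw L (hk h)) && Nat.beq (zg Z (hk h)) Z.gam) Z.U.Y.sl &&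
  allN (fun k => !Nat.beq (zg Z k) Z.gam || allN (fun j3 => allN (fun j4 =>
    Nat.blt Z.U.Y.T (13 * j3 + 40 * j4 + gtw L k) ||
      (Nat.blt (zi Z k j3 j4) Z.U.Y.S &&
        Nat.beq (nth 0 Z.U.Y.sl (zi Z k j3 j4)) (ent k j3 j4 (gtw L k)))) 1) 8) 64

/-- the unit vector of a column -/
def uv (Z : Zc) (L : Lw) (t m : Nat) : Nat :=
  force (Nat.land m 63) fun k => force (gtw L k) fun g =>
    cond (and (Nat.beq (zg Z k) Z.gam) (and (cv g t m) (Nat.blt (c1 m) Z.U.Y.N)))
      (force (Nat.shiftRight m 10) fun h => Nat.shiftLeft 1 (Nat.mul 12 (Nat.add (Nat.mul (Nat.add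
        (Nat.mul (Nat.sub (Nat.div Z.U.Y.T 4) (Nat.add (Nat.add (Nat.add (c2 g t m) (Nat.mul 3 (c3 m)))
          (Nat.mul 10 (c4 m))) (Nat.div g 4))) Z.U.Y.N) (Nat.sub (Nat.sub Z.U.Y.N 1) (c1 m))) Z.U.Y.S)
        (zj Z k h)))) 0

/-- the row with `k1 = i` and the other exponents given by the first key `a` -/
def rwI (L : Lw) (k a i : Nat) : Ou :=
  rwO L k (Nat.add (Nat.shiftLeft i 21) (Nat.shiftLeft (Nat.land a 2097151) 28))

/-- the full mask -/
def mZ (Z : Zc) : Nat := m63 Z.U.Y 0
/-- the end of a segment -/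
def flZ (Z : Zc) (o s : Nat) : Nat := fold (Nat.add o s) (mZ Z)

/-- one more row -/
def zst (Z : Zc) (L : Lw) (k a d i ih : Nat) : Nat :=
  force (Nat.add d i) fun t => flZ Z ih ((rwI L k a i).1 (uv Z L t) (flZ Z))

/-- the table computed from the rows; `d` is the degree of the first row, `n` the number of rows -/
def zsp (Z : Zc) (L : Lw) (k a d n : Nat) : Nat :=
  Nat.rec (motive := fun _ => Nat) 0 (zst Z L k a d) n

/-- the weight of a column -/
def one1 (_ : Nat) : Nat := 1
/-- the weight of a segment is small -/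
def flW (o s : Nat) : Nat := cond (Nat.ble s 396) o 1
/-- the segments of a row are small -/
def wOK (o : Ou) : Bool := Nat.beq (o.1 one1 flW) 0

/-- the checks for the rows with given `k2, k3, k4`; `rc k a i o` is a further check of a row -/
def dc2 (L : Lw) (T : Nat) (Zs : List Zc) (rc : Nat → Nat → Nat → Ou → Bool) (k g a0 i2 : Nat) : Bool :=
  force (Nat.add a0 (Nat.mul i2 2251799813685249)) fun a => force (Nat.add g (cdeg a)) fun d =>
    force (Nat.sub (Nat.succ T) d) fun n =>
      and (allN (fun i => and (wOK (rwI L k a i)) (rc k a i (rwI L k a i))) n)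
        (allL (fun Z => Nat.beq (Z02 Z.U k a 0) (zsp Z L k a d n)) Zs)

/-- the checks for the rows with given `k, k3, k4`; the item is `k + 64 * (k3 + 8 * k4)` -/
def dcI (L : Lw) (gs : List Nat) (T : Nat) (Zs : List Zc) (rc : Nat → Nat → Nat → Ou → Bool)
    (it : Nat) : Bool :=
  force (Nat.land it 63) fun k => force (nth 0 gs k) fun g =>
    force (Nat.add (Nat.mul (Nat.land (Nat.shiftRight it 6) 7) 7318349394477184)
        (Nat.mul (Nat.shiftRight it 9) 22517998136868864)) fun a =>
      cond (Nat.ble (Nat.add g (cdeg a)) T)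
        (allN (dc2 L T Zs rc k g a) (Nat.succ (Nat.div (Nat.sub T (Nat.add g (cdeg a))) 4))) true

/-- the checks of the data -/
def dcU (L : Lw) (gs : List Nat) (T : Nat) (Zs : List Zc) (rc : Nat → Nat → Nat → Ou → Bool)
    (its : List Nat) : Bool := allL (dcI L gs T Zs rc) its

end Vale.Agent.P236X
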