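import Vale.Agent.P236X.Sem
import Vale.Agent.P236X.Def3

/-!
# P236 / X : semantics of the second version, definitions
-/

noncomputable section

namespace Vale.Agent.P236X

open MvPolynomial Vale.Agent.P236A Vale.Agent.P236B Vale.Agent.P236C

/-- a first key -/
def IsI (a : ℕ) : Prop := cdeg a = mdeg a ∧ fld a 3 = 0 ∧ fld a 4 = 0 ∧ fld a 5 = 0 ∧ fld a 6 = 0

/-- a second key -/
def IsX (x : ℕ) : Prop := cdeg x = mdeg x ∧ fld x 0 = 0 ∧ fld x 1 = 0 ∧ fld x 2 = 0

/-- The table `Z` represents the functionals `Φ k`; `b` is the degree of the generator. -/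
def Tab2 (Y : Lay) (Z : Tb) (b V : ℕ) (Φ : ℕ → Pb Y.a Y.N →ₗ[Ab Y.a Y.N] Ab Y.a Y.N) : Prop :=
  ∀ a x, IsI a → IsX x → b + cdeg a + cdeg x ≤ Y.T →
    Rep Y (Z a x) (b + cdeg a + cdeg x) V fun i k => Φ k (X 0 ^ i * mono (a + x))

/-- the operations used to read a row -/
structure Alg (A O : Type) where
  /-- the empty sum -/
  zA : A
  /-- the empty row -/
  zO : O
  /-- add a column -/
  cns : ℕ → A → A
  /-- the end of a group -/
  sep : A → A → A
  /-- the end of a segment -/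
  flu : O → A → O

namespace Alg

variable {A O : Type} (R : Alg A O)

/-- read a group -/
def gV : ℕ → ℕ → A → ℕ × A
  | 0, r, acc => (r, acc)
  | n + 1, r, acc =>
    if r % 65536 = 0 then (r >>> 16, acc) else gV n (r >>> 16) (R.cns (r % 65536 - 1) acc)

/-- read `m` groups -/
def sV : ℕ → ℕ → A → A → ℕ × A
  | 0, r, _, tot => (r, tot)
  | m + 1, r, acc, tot => sV m (R.gV 512 r acc).1 (R.gV 512 r acc).2 (R.sep tot (R.gV 512 r acc).2)

/-- read segments -/
def rV : ℕ → ℕ → O → O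
  | 0, _, out => out
  | n + 1, r, out =>
    if r % 65536 = 0 then out else rV n (R.sV (r % 65536) (r >>> 16) R.zA R.zA).1
      (R.flu out (R.sV (r % 65536) (r >>> 16) R.zA R.zA).2)

/-- read a row -/
def row (r : ℕ) : O := R.rV 64 r R.zO

end Alg

/-- the operations in a commutative monoid; `fl` ends a segment -/
def algF {M : Type} [AddCommMonoid M] (Θ : ℕ → M) (fl : M → M → M) : Alg M M :=
  ⟨0, 0, fun m acc => acc + Θ m, (· + ·), fl⟩

/-- the value of a row -/
def evM {M : Type} [AddCommMonoid M] (Θ : ℕ → M) (r : ℕ) : M := (algF Θ (· + ·)).row r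

/-- the monomial of a column -/
def cmon (g t m : ℕ) : ℕ →₀ ℕ := ex4 (c1 m) (c2 g t m) (c3 m) (c4 m)

/-- the row of a monomial -/
def rwK (L : Lw) (e : ℕ) (J : ℕ →₀ ℕ) : ℕ := rwN (blw L e (J 1 + 128 * (J 2 + 128 * J 3))) (J 0)

/-- the entry of a row of degree `t` -/
def dRow2 (L : Lw) (k t r : ℕ) : Av K9 :=
  evM (fun m => if m % 64 = k ∧ cv (gtw L k) t m = true then monomial (cmon (gtw L k) t m) 1 else 0) r

open Classical in
/-- the operation between two generators -/
def dOp2 (D : ℕ → Lw) (T s e k : ℕ) : (ℕ →₀ ℕ) → Av K9 := fun J =>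
  if J.support ⊆ Finset.range 4 ∧ tdeg J + gw s e ≤ T then
    dRow2 (D s) k (tdeg J + gw s e) (rwK (D s) e J)
  else C (lift3 (xi s e k J))

/-- the matrix given by the data `D` in degrees `≤ T` -/
def delta2 (D : ℕ → Lw) (T S : ℕ) : Mat (Io S) (Av K9) := fun g g' =>
  if (g'.1 : ℕ) = g.1 + 1 then dOp2 D T g.1 g.2 g'.2 else 0

end Vale.Agent.P236X
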