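import Vale.Agent.P236X.Sem

/-!
# P236 / X : the fields of the vectors and the digits of the codes
-/

namespace Vale.Agent.P236X

variable {x y k p s w n : ℕ}

theorem dg_lt (x p : ℕ) : dg x p < 4096 := Nat.mod_lt _ (by norm_num)

theorem dg_zero (p : ℕ) : dg 0 p = 0 := by simp [dg]

theorem dg_fst (x : ℕ) : dg x 0 = x % 4096 := rfl

theorem dg_succ (x p : ℕ) : dg x (p + 1) = dg (x / 4096) p := by
  rw [dg, dg, Nat.mul_succ, add_comm, Nat.shiftRight_add, Nat.shiftRight_eq_div_pow x 12]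

theorem le_of_dg (h : ∀ p, dg y p ≤ dg x p) : y ≤ x := by
  induction y using Nat.strong_induction_on generalizing x with
  | _ y ih =>
    rcases Nat.eq_zero_or_pos y with rfl | h0
    · exact Nat.zero_le _
    have h1 := ih (y / 4096) (by omega) (x := x / 4096) fun p => by
      simpa only [dg_succ] using h (p + 1)
    have h2 := h 0
    rw [dg_fst, dg_fst] at h2
    omega

theorem dg_ext (h : ∀ p, dg x p = dg y p) : x = y :=
  (le_of_dg fun p => (h p).le).antisymm (le_of_dg fun p => (h p).ge)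

theorem dg_add (h : ∀ p, dg x p + dg y p < 4096) (p : ℕ) : dg (x + y) p = dg x p + dg y p := by
  induction p generalizing x y with
  | zero => have := h 0; simp only [dg_fst] at *; omega
  | succ p ih =>
    have h0 := h 0
    simp only [dg_fst] at h0
    rw [dg_succ, dg_succ, dg_succ, ← ih fun p => by simpa only [dg_succ] using h (p + 1),
      show (x + y) / 4096 = x / 4096 + y / 4096 by omega]

theorem dg_mul (h : ∀ p, k * dg x p < 4096) (p : ℕ) : dg (k * x) p = k * dg x p := by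
  induction k generalizing p with
  | zero => simp [dg_zero]
  | succ k ih =>
    have h1 : ∀ p, dg (k * x) p = k * dg x p :=
      ih fun p => ((Nat.mul_le_mul_right _ k.le_succ).trans_lt (h p))
    rw [Nat.succ_mul, dg_add fun p => by rw [h1, ← Nat.succ_mul]; exact h p, h1, Nat.succ_mul]

theorem dg_sub (h : ∀ p, dg y p ≤ dg x p) (p : ℕ) : dg (x - y) p = dg x p - dg y p := by
  induction p generalizing x y with
  | zero => have := h 0; have := le_of_dg h; simp only [dg_fst] at *; omega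
  | succ p ih =>
    have h0 := h 0
    have h1 : ∀ p, dg (y / 4096) p ≤ dg (x / 4096) p := fun p => by
      simpa only [dg_succ] using h (p + 1)
    have h2 := le_of_dg h1
    simp only [dg_fst] at h0
    rw [dg_succ, dg_succ, dg_succ, ← ih h1, show (x - y) / 4096 = x / 4096 - y / 4096 by omega]

theorem dg_land (x y p : ℕ) : dg (x &&& y) p = dg x p &&& dg y p := by
  rw [dg, Nat.shiftRight_and_distrib]
  exact Nat.and_mod_two_pow (n := 12)

theorem dg_shr (x s p : ℕ) : dg (x >>> (12 * s)) p = dg x (p + s) := by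
  rw [dg, dg, ← Nat.shiftRight_add, ← mul_add, add_comm]

theorem dg_shl (x s p : ℕ) : dg (x <<< (12 * s)) p = if s ≤ p then dg x (p - s) else 0 := by
  induction s generalizing p with
  | zero => simp
  | succ s ih =>
    rw [Nat.mul_succ, Nat.shiftLeft_add, Nat.shiftLeft_eq _ 12]
    cases p with
    | zero => simp [dg_fst]
    | succ p => rw [dg_succ, show x <<< (12 * s) * 2 ^ 12 / 4096 = x <<< (12 * s) by omega, ih]; simp

theorem dg_high (h : x < 2 ^ (12 * w)) (hp : w ≤ p) : dg x p = 0 := by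
  rw [dg, Nat.shiftRight_eq_div_pow, Nat.div_eq_of_lt (h.trans_le
    (Nat.pow_le_pow_right two_pos (Nat.mul_le_mul_left _ hp)))]

theorem lt_of_dg (h : ∀ p, w ≤ p → dg x p = 0) : x < 2 ^ (12 * w) := by
  have : x >>> (12 * w) = 0 := dg_ext fun p => by rw [dg_shr, dg_zero, h _ (Nat.le_add_left _ _)]
  rwa [Nat.shiftRight_eq_div_pow, Nat.div_eq_zero_iff_lt (by positivity)] at this

theorem dg_small (h : x < 4096) (p : ℕ) : dg x p = if p = 0 then x else 0 := by
  split_ifs with c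
  · rw [c, dg_fst, Nat.mod_eq_of_lt h]
  · exact dg_high (w := 1) h (by omega)

theorem dg_unit (s p : ℕ) : dg (1 <<< (12 * s)) p = if p = s then 1 else 0 := by
  rw [dg_shl, dg_small (by norm_num)]
  split_ifs <;> omega

theorem dg_cat (h : x < 2 ^ (12 * w)) (y p : ℕ) :
    dg (y <<< (12 * w) + x) p = if p < w then dg x p else dg y (p - w) := by
  rw [dg_add fun p => ?_, dg_shl]
  · by_cases c : w ≤ p
    · simp [c, c.not_gt, dg_high h c]
    · simp [c, not_le.1 c]
  · rw [dg_shl]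
    split_ifs with c
    · rw [dg_high h c]; exact dg_lt _ _
    · rw [zero_add]; exact dg_lt _ _

theorem land_4095 (h : x < 4096) : x &&& 4095 = x :=
  (Nat.and_two_pow_sub_one_eq_mod x 12).trans (Nat.mod_eq_of_lt h)

theorem land_63 (x : ℕ) : x &&& 63 = x % 64 := Nat.and_two_pow_sub_one_eq_mod x 6

/-- a mask selects fields -/
theorem dg_mask {H : ℕ} {P : Prop} [Decidable P] (h : dg H p = if P then 4095 else 0) (x : ℕ) :
    dg (x &&& H) p = if P then dg x p else 0 := by
  rw [dg_land, h]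
  split_ifs
  · exact land_4095 (dg_lt _ _)
  · exact Nat.and_zero _

theorem dg_land_le (x y p : ℕ) : dg (x &&& y) p ≤ dg x p := dg_land x y p ▸ Nat.and_le_left

/-! ### masks -/

theorem rep_succ (x w n : ℕ) : rep x w (n + 1) = rep x w n <<< w + x := rfl

theorem dg_rep (hx : x < 2 ^ (12 * w)) (hw : 0 < w) (n p : ℕ) :
    dg (rep x (12 * w) n) p = if p / w < n then dg x (p % w) else 0 := by
  induction n generalizing p with
  | zero => exact (dg_zero p).trans (by simp)
  | succ n ih =>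
    rw [rep_succ, dg_cat hx]
    by_cases c : p < w
    · simp [c, Nat.div_eq_of_lt c, Nat.mod_eq_of_lt c]
    · obtain ⟨q, rfl⟩ := Nat.exists_eq_add_of_le' (not_lt.1 c)
      simp [c, ih, Nat.add_div_right _ hw]

theorem rep_lt (hx : x < 2 ^ (12 * w)) (hw : 0 < w) (n : ℕ) :
    rep x (12 * w) n < 2 ^ (12 * (w * n)) :=
  lt_of_dg fun p hp => by
    rw [dg_rep hx hw, if_neg (not_lt.2 ((Nat.le_div_iff_mul_le hw).2 (mul_comm w n ▸ hp)))]

theorem dg_rep1 (hx : x < 4096) (n p : ℕ) : dg (rep x 12 n) p = if p < n then x else 0 := by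
  simpa [dg_fst, Nat.mod_one, Nat.mod_eq_of_lt hx] using dg_rep (x := x) (w := 1) hx one_pos n p

theorem rep_63 (n : ℕ) : rep 4095 12 n = 65 * rep 63 12 n ∧ 1 <<< (12 * n) = rep 4095 12 n + 1 := by
  induction n with
  | zero => exact ⟨rfl, rfl⟩
  | succ n ih =>
    rw [rep_succ, rep_succ, Nat.mul_succ 12, Nat.shiftLeft_add, ih.2]
    simp only [Nat.shiftLeft_eq]
    omega

variable (Y : Lay) (d : ℕ)

theorem o12_eq : o12 Y d = rep 4095 12 (lenb Y d * Y.S) :=
  Nat.sub_eq_of_eq_add (rep_63 _).2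

theorem m63_eq : m63 Y d = rep 63 12 (lenb Y d * Y.S) := by
  rw [m63, o12_eq, (rep_63 _).1]
  exact Nat.mul_div_cancel_left _ (by norm_num)

theorem dg_o12 (p : ℕ) : dg (o12 Y d) p = if p < lenb Y d * Y.S then 4095 else 0 := by
  rw [o12_eq, dg_rep1 (by norm_num)]

theorem dg_m63 (p : ℕ) : dg (m63 Y d) p = if p < lenb Y d * Y.S then 63 else 0 := by
  rw [m63_eq, dg_rep1 (by norm_num)]

theorem dg_land_m63 (x p : ℕ) :
    dg (x &&& m63 Y d) p = if p < lenb Y d * Y.S then dg x p % 64 else 0 := by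
  rw [dg_land, dg_m63]
  split_ifs
  · exact land_63 _
  · exact Nat.and_zero _

theorem dg_shr6 (x p : ℕ) : dg (x >>> 6) p % 64 = dg x p / 64 := by
  rw [dg, dg, ← Nat.shiftRight_add, add_comm, Nat.shiftRight_add, Nat.shiftRight_eq_div_pow _ 6]
  omega

theorem dg_slabM (g : ℕ → Bool) (sl : List ℕ) (p : ℕ) :
    dg (slabM g sl) p = if p < sl.length ∧ g (sl.getD p 0) = true then 4095 else 0 := by
  induction sl generalizing p with
  | nil => exact (dg_zero p).trans (by simp)
  | cons h t ih =>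
    have c : cond (g h) 4095 0 < 4096 := by cases g h <;> simp
    refine (dg_cat (w := 1) c (slabM g t) p).trans ?_
    cases p with
    | zero => cases e : g h <;> simp [e, dg_fst]
    | succ p => simp [ih]

theorem slabM_lt (g : ℕ → Bool) (sl : List ℕ) : slabM g sl < 2 ^ (12 * sl.length) :=
  lt_of_dg fun p hp => by rw [dg_slabM, if_neg fun c => c.1.not_ge hp]

theorem dg_fold (x p : ℕ) : dg (fold x (m63 Y d)) p =
    if p < lenb Y d * Y.S then dg x p % 64 + dg x p / 64 else 0 := by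
  have h : ∀ p, dg (x &&& m63 Y d) p + dg (x >>> 6 &&& m63 Y d) p =
      if p < lenb Y d * Y.S then dg x p % 64 + dg x p / 64 else 0 := fun p => by
    rw [dg_land_m63, dg_land_m63, dg_shr6]
    split_ifs <;> rfl
  refine (dg_add (x := x &&& m63 Y d) (y := x >>> 6 &&& m63 Y d) (fun p => ?_) p).trans (h p)
  have := dg_lt x p
  rw [h]
  split_ifs <;> omega

theorem dg_fold_le (x p : ℕ) : dg (fold x (m63 Y d)) p ≤ 126 := by
  have := dg_lt x p
  rw [dg_fold]
  split_ifs <;> omega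

theorem dg_qst (h : ∀ p, dg x p ≤ 585) (p : ℕ) : dg (qst x (m63 Y d) (o12 Y d)) p =
    if p < lenb Y d * Y.S then dg x p - 9 * (7 * dg x p / 64) else 0 := by
  have h1 : ∀ p, dg ((7 * x) >>> 6 &&& m63 Y d) p =
      if p < lenb Y d * Y.S then 7 * dg x p / 64 else 0 := fun p => by
    rw [dg_land_m63, dg_shr6, dg_mul fun p => by have := h p; omega]
  have h2 : ∀ p, dg (9 * ((7 * x) >>> 6 &&& m63 Y d)) p =
      if p < lenb Y d * Y.S then 9 * (7 * dg x p / 64) else 0 := fun p => by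
    rw [dg_mul fun p => by have := h p; rw [h1]; split_ifs <;> omega, h1]
    split_ifs <;> rfl
  refine (dg_sub (x := x &&& o12 Y d) (y := 9 * ((7 * x) >>> 6 &&& m63 Y d))
    (fun p => ?_) p).trans ?_ <;> rw [h2, dg_mask (dg_o12 Y d p)] <;> split_ifs <;> omega

theorem fold_mod (a : ℕ) : (a % 64 + a / 64) % 9 = a % 9 := by omega

theorem qst_mod (a : ℕ) : (a - 9 * (7 * a / 64)) % 9 = a % 9 := by omega

theorem qst_le10 {a : ℕ} (h : a ≤ 126) : a - 9 * (7 * a / 64) ≤ 10 := by omega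

theorem qst_le14 {a : ℕ} (h : a ≤ 378) : a - 9 * (7 * a / 64) ≤ 14 := by omega

theorem qst_le18 {a : ℕ} (h : a ≤ 585) : a - 9 * (7 * a / 64) ≤ 18 := by omega

theorem dg_trip {H : ℕ} (h : ∀ p, dg x p ≤ 1365) {P : Prop} [Decidable P]
    (hH : dg H p = if P then 4095 else 0) : dg (trip x H) p = if P then 3 * dg x p else dg x p := by
  have h1 : ∀ p, dg (2 * (x &&& H)) p = 2 * dg (x &&& H) p :=
    dg_mul fun p => by have := h p; have := dg_land_le x H p; omega
  refine (dg_add (x := x) (y := 2 * (x &&& H)) (fun p => ?_) p).trans ?_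
  · have := h p
    have := dg_land_le x H p
    rw [h1]
    omega
  · rw [h1, dg_mask hH]
    split_ifs <;> omega

theorem nine_spec (h : nine y (m63 Y d) = true) (p : ℕ) : 9 ∣ dg y p := by
  rw [(Nat.eq_of_beq_eq_true h : y = 9 * (y >>> 3 &&& m63 Y d)), dg_mul fun p => ?_]
  · exact Dvd.intro _ rfl
  · rw [dg_land_m63]
    split_ifs <;> omega

variable {Y}

theorem dg_msk (h : Y.S = Y.sl.length) (hS : 0 < Y.S) (hN : 0 < Y.N) (L p : ℕ) :
    dg (msk Y L) p = if p / Y.S / Y.N ≤ Y.T / 4 ∧ p / Y.S % Y.N + fld L 0 < Y.N ∧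
      fld L 2 ≤ h3 (Y.sl.getD (p % Y.S) 0) ∧ fld L 3 ≤ h4 (Y.sl.getD (p % Y.S) 0) then 4095
      else 0 := by
  have h1 := slabM_lt (fun h => and (Nat.ble (fld L 2) (h3 h)) (Nat.ble (fld L 3) (h4 h))) Y.sl
  rw [← h] at h1
  refine (dg_rep ((rep_lt h1 hS (Y.N - fld L 0)).trans_le (Nat.pow_le_pow_right two_pos
    (Nat.mul_le_mul_left _ (Nat.mul_le_mul_left _ (Nat.sub_le _ _))))) (Nat.mul_pos hS hN)
    (Y.T / 4 + 1) p).trans ?_
  rw [dg_rep h1 hS, dg_slabM, Nat.mod_mul_right_div_self, Nat.mod_mul_right_mod,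
    ← Nat.div_div_eq_div_mul, ← h]
  simp only [Nat.lt_succ_iff, Nat.lt_sub_iff_add_lt, Nat.mod_lt p hS, true_and, Bool.and_eq_true,
    Nat.ble_eq, ite_and]

theorem dg_mU (Y : Lay) (u p : ℕ) : dg (mU Y u) p =
    if p < Y.sl.length ∧ h3 (Y.sl.getD p 0) + hd (Y.sl.getD p 0) % 4 = u then 4095 else 0 := by
  rw [mU, dg_slabM]
  exact if_congr (and_congr_right fun _ => Nat.beq_eq ▸ Iff.rfl) rfl rfl

theorem dg_mB (Y : Lay) (d m p : ℕ) : dg (mB Y d m) p =
    if p < Y.sl.length ∧ 4 * (Y.T / 4 - m / Y.N) + (Y.N - 1 - m % Y.N) + h3 (Y.sl.getD p 0) +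
      hd (Y.sl.getD p 0) % 4 = d then 4095 else 0 := by
  change dg (cond (Nat.ble (4 * (Y.T / 4 - m / Y.N) + (Y.N - 1 - m % Y.N)) d)
    (mU Y (d - (4 * (Y.T / 4 - m / Y.N) + (Y.N - 1 - m % Y.N))) % 0) 0) p = _
  generalize 4 * (Y.T / 4 - m / Y.N) + (Y.N - 1 - m % Y.N) = b
  by_cases c : b ≤ d
  · rw [Nat.ble_eq_true_of_le c, cond_true, Nat.mod_zero, dg_mU]
    exact if_congr (and_congr_right fun _ => by omega) rfl rfl
  · rw [Bool.eq_false_iff.2 (mt Nat.le_of_ble_eq_true c), cond_false, dg_zero,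
      if_neg fun e => by omega]

theorem dg_blocks {f : ℕ → ℕ} {S : ℕ} (hS : 0 < S) (hf : ∀ m, f m < 2 ^ (12 * S)) (m0 n p : ℕ) :
    dg (Nat.rec (motive := fun _ => ℕ) 0 (fun i ih => ih + f (m0 + i) <<< (12 * ((m0 + i) * S))) n) p
      = if m0 ≤ p / S ∧ p / S < m0 + n then dg (f (p / S)) (p % S) else 0 := by
  induction n generalizing p with
  | zero => exact (dg_zero p).trans (if_neg (by omega)).symm
  | succ n ih =>
    have h : ∀ p, dg (f (m0 + n) <<< (12 * ((m0 + n) * S))) p =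
        if p / S = m0 + n then dg (f (p / S)) (p % S) else 0 := fun p => by
      rw [dg_shl]
      have h1 := Nat.le_div_iff_mul_le (x := m0 + n) (y := p) hS
      have h2 := Nat.le_div_iff_mul_le (x := m0 + n + 1) (y := p) hS
      rw [Nat.succ_mul] at h2
      split_ifs with a b b
      · rw [Nat.mod_def, b, mul_comm]
      · exact dg_high (hf _) (by omega)
      · omega
      · rfl
    refine (dg_add (fun p => ?_) p).trans ?_
    · have := dg_lt (f (p / S)) (p % S)
      rw [ih, h]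
      split_ifs <;> omega
    · rw [ih, h]
      split_ifs <;> omega

theorem dg_mD (h : Y.S = Y.sl.length) (hS : 0 < Y.S) (d p : ℕ) :
    dg (mD Y d) p = if p < lenb Y d * Y.S ∧ 4 * (Y.T / 4 - p / Y.S / Y.N) +
      (Y.N - 1 - p / Y.S % Y.N) + h3 (Y.sl.getD (p % Y.S) 0) + hd (Y.sl.getD (p % Y.S) 0) % 4 = d
      then 4095 else 0 := by
  refine (dg_blocks (f := mB Y d) hS (fun m => lt_of_dg fun p hp => by
    rw [dg_mB, if_neg fun e => by omega]) ((Y.T / 4 - d / 4) * Y.N)
    (lenb Y d - (Y.T / 4 - d / 4) * Y.N) p).trans ?_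
  have h1 := Nat.div_lt_iff_lt_mul (x := p) (y := lenb Y d) hS
  rw [dg_mB, ← ite_and]
  refine if_congr ⟨fun e => ⟨by omega, e.2.2⟩, fun e => ⟨?_, h ▸ Nat.mod_lt _ hS, e.2⟩⟩ rfl rfl
  have : (Y.T / 4 - d / 4) * Y.N ≤ p / Y.S :=
    (Nat.mul_le_mul_right _ (by have := e.2; generalize p / Y.S / Y.N = j at this ⊢; omega)).trans
      (Nat.div_mul_le_self (p / Y.S) Y.N)
  omega

theorem lenb_eq (Y : Lay) (d : ℕ) : lenb Y d = if Y.um + Y.N ≤ d + 4 then
    (Y.T / 4 - (d + 4 - (Y.um + Y.N)) / 4) * Y.N + (4 - (d + 4 - (Y.um + Y.N)) % 4)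
    else (Y.T / 4 + 1) * Y.N := by
  change cond (Nat.ble (Y.um + Y.N) (d + 4)) _ _ = _
  split_ifs with c
  · rw [Nat.ble_eq_true_of_le c]; rfl
  · rw [Bool.eq_false_iff.2 (mt Nat.le_of_ble_eq_true c)]; rfl

theorem lenb_le (hN : 4 ≤ Y.N) (d : ℕ) : lenb Y d ≤ (Y.T / 4 + 1) * Y.N := by
  rw [lenb_eq]
  split_ifs
  · rw [Nat.succ_mul]
    exact Nat.add_le_add (Nat.mul_le_mul_right _ (Nat.sub_le _ _)) (by omega)
  · rfl

theorem lenb_spec (hN : 0 < Y.N) {d m u : ℕ} (hm : m / Y.N ≤ Y.T / 4) (hu : u ≤ Y.um)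
    (h : d ≤ 4 * (Y.T / 4 - m / Y.N) + (Y.N - 1 - m % Y.N) + u) : m < lenb Y d := by
  have h1 := Nat.mod_lt m hN
  rw [lenb_eq]
  split_ifs with c
  · generalize he : d + 4 - (Y.um + Y.N) = e
    by_cases a : m / Y.N < Y.T / 4 - e / 4
    · exact ((Nat.div_lt_iff_lt_mul hN).1 a).trans_le (Nat.le_add_right _ _)
    · have h2 := Nat.div_add_mod' m Y.N
      rw [show Y.T / 4 - e / 4 = m / Y.N by omega]
      omega
  · exact (Nat.div_lt_iff_lt_mul hN).1 (Nat.lt_succ_of_le hm)

/-! ### codes and lists -/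

theorem fld_eq (c i : ℕ) : fld c i = c / 128 ^ i % 128 := by
  rw [show 128 ^ i = 2 ^ (7 * i) by rw [pow_mul]; rfl, ← Nat.shiftRight_eq_div_pow]
  exact Nat.and_two_pow_sub_one_eq_mod _ 7

theorem cdeg_eq (c : ℕ) : cdeg c = c / 128 ^ 7 := Nat.shiftRight_eq_div_pow c 49

theorem fld_lt (c i : ℕ) : fld c i < 128 := fld_eq c i ▸ Nat.mod_lt _ (by norm_num)

theorem div_add {a b i : ℕ} (h : ∀ j < i, fld a j + fld b j < 128) :
    (a + b) / 128 ^ i = a / 128 ^ i + b / 128 ^ i := by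
  induction i with
  | zero => simp
  | succ i ih =>
    have := h i i.lt_succ_self
    simp only [fld_eq] at this
    simp only [pow_succ, ← Nat.div_div_eq_div_mul, ih fun j c => h j (c.trans i.lt_succ_self)]
    omega

theorem fld_add {a b i : ℕ} (h : ∀ j < 7, fld a j + fld b j < 128) (hi : i < 7) :
    fld (a + b) i = fld a i + fld b i := by
  have := h i hi
  simp only [fld_eq] at this ⊢
  rw [div_add fun j c => h j (c.trans hi)]
  omega

theorem cdeg_add {a b : ℕ} (h : ∀ j < 7, fld a j + fld b j < 128) :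
    cdeg (a + b) = cdeg a + cdeg b := by
  rw [cdeg_eq, cdeg_eq, cdeg_eq, div_add h]

theorem code_eq (c : ℕ) : c = fld c 0 + fld c 1 * 128 + fld c 2 * 128 ^ 2 + fld c 3 * 128 ^ 3 +
    fld c 4 * 128 ^ 4 + fld c 5 * 128 ^ 5 + fld c 6 * 128 ^ 6 + cdeg c * 128 ^ 7 := by
  simp only [fld_eq, cdeg_eq]
  omega

theorem code_ext {a b : ℕ} (h : ∀ j < 7, fld a j = fld b j) (h' : cdeg a = cdeg b) : a = b := by
  rw [code_eq a, code_eq b, h', h 0, h 1, h 2, h 3, h 4, h 5, h 6] <;> norm_num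

theorem fld_unit {i j : ℕ} (hi : i < 7) (hj : j < 7) (ha : k < 128) (w : ℕ) :
    fld (k * (128 ^ i + w * 128 ^ 7)) j = if j = i then k else 0 := by
  rw [fld_eq, mul_add, ← mul_assoc]
  generalize k * w = v
  interval_cases i <;> interval_cases j <;> simp only [reduceIte, Nat.reduceEqDiff] <;> omega

theorem cdeg_unit {i : ℕ} (hi : i < 7) (ha : k < 128) (w : ℕ) :
    cdeg (k * (128 ^ i + w * 128 ^ 7)) = k * w := by
  rw [cdeg_eq, mul_add, ← mul_assoc]
  generalize k * w = v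
  interval_cases i <;> omega

/-- remove the digit `i` -/
theorem code_del {c i : ℕ} (hi : i < 7) (h : fld c i * w ≤ cdeg c) :
    (∀ j < 7, fld (c - fld c i * (128 ^ i + w * 128 ^ 7)) j = if j = i then 0 else fld c j) ∧
      cdeg (c - fld c i * (128 ^ i + w * 128 ^ 7)) = cdeg c - fld c i * w := by
  rw [mul_add, ← mul_assoc]
  generalize fld c i * w = v at h ⊢
  simp only [fld_eq, cdeg_eq] at h ⊢
  refine ⟨fun j hj => ?_, ?_⟩
  · interval_cases i <;> interval_cases j <;> simp only [reduceIte, Nat.reduceEqDiff] <;> omega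
  · interval_cases i <;> omega

theorem nth_eq {α : Type} (z : α) (l : List α) (i : ℕ) : nth z l i = l.getD i z := by
  induction l generalizing i with
  | nil => rfl
  | cons h t ih => cases i with
    | zero => rfl
    | succ i => exact ih i

theorem allN_iff {f : ℕ → Bool} : allN f n = true ↔ ∀ i < n, f i = true := by
  induction n with
  | zero => exact iff_of_true rfl (by simp)
  | succ n ih =>
    rw [Nat.forall_lt_succ_right, ← ih]
    change cond (allN f n) (f n) false = true ↔ _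
    cases allN f n <;> simp

theorem allL_iff {α : Type} {f : α → Bool} {l : List α} : allL f l = true ↔ ∀ a ∈ l, f a = true := by
  induction l with
  | nil => exact iff_of_true rfl (by simp)
  | cons h t ih =>
    rw [List.forall_mem_cons, ← ih]
    change cond (f h) (allL f t) false = true ↔ _
    cases f h <;> simp

end Vale.Agent.P236X
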