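import Vale.Agent.P236X.Rep2
import Vale.Agent.P236X.Sem2

/-!
# P236 / X : reading a row
-/

noncomputable section

namespace Vale.Agent.P236X

namespace Alg

variable {A O A' O' : Type}

/-- relations that are preserved by the operations -/
structure Rel (R : Alg A O) (R' : Alg A' O') (ρ : A → A' → Prop) (σ : O → O' → Prop) : Prop where
  zA : ρ R.zA R'.zA
  zO : σ R.zO R'.zO
  cns : ∀ m a a', ρ a a' → ρ (R.cns m a) (R'.cns m a')
  sep : ∀ t t' a a', ρ t t' → ρ a a' → ρ (R.sep t a) (R'.sep t' a')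
  flu : ∀ o o' t t', σ o o' → ρ t t' → σ (R.flu o t) (R'.flu o' t')

variable {R : Alg A O} {R' : Alg A' O'} {ρ : A → A' → Prop} {σ : O → O' → Prop}

theorem Rel.gV (h : Rel R R' ρ σ) (n r : ℕ) {a : A} {a' : A'} (ha : ρ a a') :
    (R.gV n r a).1 = (R'.gV n r a').1 ∧ ρ (R.gV n r a).2 (R'.gV n r a').2 := by
  induction n generalizing r a a' with
  | zero => exact ⟨rfl, ha⟩
  | succ n ih =>
    rw [Alg.gV, Alg.gV]
    split_ifs
    exacts [⟨rfl, ha⟩, ih _ (h.cns _ _ _ ha)]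

theorem Rel.sV (h : Rel R R' ρ σ) (m r : ℕ) {a t : A} {a' t' : A'} (ha : ρ a a') (ht : ρ t t') :
    (R.sV m r a t).1 = (R'.sV m r a' t').1 ∧ ρ (R.sV m r a t).2 (R'.sV m r a' t').2 := by
  induction m generalizing r a a' t t' with
  | zero => exact ⟨rfl, ht⟩
  | succ m ih =>
    have h1 := h.gV 512 r ha
    rw [Alg.sV, Alg.sV, h1.1]
    exact ih _ h1.2 (h.sep _ _ _ _ ht h1.2)

theorem Rel.rV (h : Rel R R' ρ σ) (n r : ℕ) {o : O} {o' : O'} (ho : σ o o') :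
    σ (R.rV n r o) (R'.rV n r o') := by
  induction n generalizing r o o' with
  | zero => exact ho
  | succ n ih =>
    have h1 := h.sV (r % 65536) (r >>> 16) h.zA h.zA
    rw [Alg.rV, Alg.rV, h1.1]
    split_ifs
    exacts [ho, ih _ (h.flu _ _ _ _ ho h1.2)]

/-- **Rows preserve relations.** -/
theorem Rel.row (h : Rel R R' ρ σ) (r : ℕ) : σ (R.row r) (R'.row r) := h.rV 64 r h.zO

end Alg

/-! ### the program -/

/-- the operations on boxes -/
def algB : Alg Ac Ou := ⟨zA, zO, cns, sep, flu⟩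

theorem land16 (r : ℕ) : Nat.land r 65535 = r % 65536 := Nat.and_two_pow_sub_one_eq_mod r 16

/-- read a group and continue -/
def gC (k : ℕ → Ac → Ou) (n r : ℕ) (acc : Ac) : Ou := k (algB.gV n r acc).1 (algB.gV n r acc).2

theorem g1_eq (k : ℕ → Ac → Ou) (n : ℕ) : g1 k (gC k n) = gC k (n + 1) := by
  funext r acc
  rw [g1, land16, gC, Alg.gV]
  cases r % 65536 <;> rfl

theorem g8_eq (k : ℕ → Ac → Ou) (j : ℕ) :
    Nat.rec (motive := fun _ => ℕ → Ac → Ou) k (g8 k) j = gC k (8 * j) := by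
  induction j with
  | zero => rfl
  | succ j ih =>
    rw [Nat.rec_add_one, ih, g8]
    simp only [g1_eq]
    rfl

theorem sS_eq (j : ℕ) (ih : ℕ → Ac → Ac → Ou) (r : ℕ) (acc tot : Ac) : sS j ih r acc tot =
    ih (algB.gV 512 r acc).1 (algB.gV 512 r acc).2 (sep tot (algB.gV 512 r acc).2) := by
  rw [sS, gL, g8_eq, gC, gK]

theorem sR_eq (ih : ℕ → Ou → Ou) (out : Ou) (m r : ℕ) (acc tot : Ac) :
    Nat.rec (motive := fun _ => ℕ → Ac → Ac → Ou) (sS 0 (rK ih out)) sS m r acc tot =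
      ih (algB.sV (m + 1) r acc tot).1 (flu out (algB.sV (m + 1) r acc tot).2) := by
  induction m generalizing r acc tot with
  | zero => rw [Nat.rec_zero, sS_eq, rK, Alg.sV, Alg.sV]; rfl
  | succ m h => rw [Nat.rec_add_one, sS_eq, h, Alg.sV.eq_2 _ r _ _ (m + 1)]; rfl

theorem rR_eq (n r : ℕ) (out : Ou) :
    Nat.rec (motive := fun _ => ℕ → Ou → Ou) (fun _ out => out) rS n r out = algB.rV n r out := by
  induction n generalizing r out with
  | zero => rfl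
  | succ n h =>
    rw [Nat.rec_add_one, rS, land16, Alg.rV]
    cases r % 65536 with
    | zero => rfl
    | succ m => exact (sR_eq _ _ _ _ _ _).trans (h _ _)

theorem rowO_eq (r : ℕ) : rowO r = algB.row r := rR_eq 64 r zO

/-- **The value of a row.** -/
theorem rowO_val (r : ℕ) (Θ : ℕ → ℕ) (fl : ℕ → ℕ → ℕ) : (rowO r).1 Θ fl = (algF Θ fl).row r :=
  rowO_eq r ▸ Alg.Rel.row (R := algB) (R' := algF Θ fl) (ρ := fun a y => a.1 Θ = y)
    (σ := fun o y => o.1 Θ fl = y)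
    ⟨rfl, rfl, fun _ _ _ h => h ▸ rfl, fun _ _ _ _ h h' => h ▸ h' ▸ rfl,
      fun _ _ _ _ h h' => h ▸ h' ▸ rfl⟩ r

/-! ### values in commutative monoids -/

section Ev

variable {M M' : Type} [AddCommMonoid M] [AddCommMonoid M']

theorem evM_rel {ρ : M → M' → Prop} (h0 : ρ 0 0)
    (ha : ∀ a a' b b', ρ a a' → ρ b b' → ρ (a + b) (a' + b')) {Θ : ℕ → M} {Θ' : ℕ → M'}
    (h : ∀ m, ρ (Θ m) (Θ' m)) (r : ℕ) : ρ (evM Θ r) (evM Θ' r) :=
  Alg.Rel.row (ρ := ρ) ⟨h0, h0, fun m _ _ c => ha _ _ _ _ c (h m), ha, ha⟩ r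

theorem map_evM {F : Type} [FunLike F M M'] [AddMonoidHomClass F M M'] (f : F) (Θ : ℕ → M)
    (r : ℕ) : f (evM Θ r) = evM (fun m => f (Θ m)) r :=
  evM_rel (ρ := fun a b => f a = b) (map_zero f) (fun _ _ _ _ h h' => h ▸ h' ▸ map_add f _ _)
    (fun _ => rfl) r

theorem evM_mem {S : Type} [SetLike S M] [AddSubmonoidClass S M] {U : S} {Θ : ℕ → M}
    (h : ∀ m, Θ m ∈ U) (r : ℕ) : evM Θ r ∈ U :=
  evM_rel (ρ := fun a (_ : M) => a ∈ U) (zero_mem U) (fun _ _ _ _ => add_mem) (Θ' := Θ) h r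

theorem evM_zero (r : ℕ) : evM (fun _ => (0 : M)) r = 0 :=
  evM_mem (U := (⊥ : AddSubmonoid M)) (fun _ => rfl) r

theorem evM_apply {ι : Type} (Θ : ℕ → ι → M) (r : ℕ) (i : ι) :
    evM Θ r i = evM (fun m => Θ m i) r := map_evM (Pi.evalAddMonoidHom _ i) Θ r

theorem sum_evM {ι : Type} (s : Finset ι) (Θ : ι → ℕ → M) (r : ℕ) :
    ∑ k ∈ s, evM (Θ k) r = evM (fun m => ∑ k ∈ s, Θ k m) r := by
  simpa only [AddMonoidHom.finsetSum_apply, Pi.evalAddMonoidHom_apply, evM_apply] using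
    map_evM (∑ k ∈ s, Pi.evalAddMonoidHom (fun _ => M) k) (fun m k => Θ k m) r

end Ev

/-! ### vectors -/

variable {Y : Lay} {x d d' V : ℕ}

theorem Rep.fold' (hY : layOK Y = true) {F : ℕ → ℕ → Ab Y.a Y.N} (h : Rep Y x d V F)
    (hd : d' ≤ d) : Rep Y (P236X.fold x (m63 Y d')) d 126 F :=
  h.of_mod (dg_fold_le Y d' x) (fun p a => by simp [dg_fold, a]) fun p a b => by
    rw [dg_fold, if_pos (lt_len hY a (hd.trans b)), fold_mod]

/-- **The vector of a row.** -/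
theorem Rep.row (hY : layOK Y = true) {Θ : ℕ → ℕ} {F : ℕ → ℕ → ℕ → Ab Y.a Y.N}
    (h : ∀ m, Rep Y (Θ m) d 10 (F m)) {fl : ℕ → ℕ → ℕ} (hd : d' ≤ d)
    (hf : ∀ o s, fl o s = P236X.fold (o + s) (m63 Y d')) {r : ℕ} (hw : wOK (rowO r) = true) :
    Rep Y ((rowO r).1 Θ fl) d 126 fun i k => evM (fun m => F m i k) r := by
  have h1 := Alg.Rel.row (R := algB) (R' := algF F (· + ·))
    (ρ := fun a y => a.1 one1 ≤ 396 → Rep Y (a.1 Θ) d (10 * a.1 one1) y)
    (σ := fun o y => o.1 one1 flW = 0 → Rep Y (o.1 Θ fl) d 126 y)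
    ⟨fun _ => Rep.zero hY d _, fun _ => Rep.zero hY d _, fun m a _ c (e : a.1 one1 + 1 ≤ 396) =>
      Rep.add (V := 10 * a.1 one1) hY (c (by omega)) (h m) (by omega),
      fun t _ a _ c c' (e : t.1 one1 + a.1 one1 ≤ 396) =>
        ((c (by omega)).add hY (c' (by omega)) (by omega)).mono (Nat.mul_add _ _ _).ge,
      fun o _ t _ c c' (e : cond (Nat.ble (t.1 one1) 396) (o.1 one1 flW) 1 = 0) => ?_⟩ r
  · rw [← rowO_eq] at h1
    exact (h1 (Nat.eq_of_beq_eq_true hw)).congr fun i k _ =>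
      (congrFun (evM_apply F r i) k).trans (evM_apply _ r k)
  · cases e' : Nat.ble (t.1 one1) 396 <;> rw [e'] at e
    · cases e
    · have e2 := Nat.le_of_ble_eq_true e'
      change Rep Y (fl _ _) d 126 _
      rw [hf]
      exact ((c e).add hY (c' e2) (by omega)).fold' hY hd

end Vale.Agent.P236X
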