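import Vale.Agent.P236X.Yl2
import Vale.Agent.P236X.Row
import Vale.Agent.P236N.Del2

/-!
# P236 / X : consequences of the checks of the data
-/

noncomputable section

namespace Vale.Agent.P236X

open MvPolynomial Vale.Agent.P236A Vale.Agent.P236B Vale.Agent.P236C Vale.Agent.P236M
  Vale.Agent.P236N

variable {L : Lw} {gs its : List ℕ} {T s : ℕ} {Zs : List Zc} {rc : ℕ → ℕ → ℕ → Ou → Bool}

theorem dc2_eq (k g a0 i2 : ℕ) {a : ℕ} (ha : a0 + i2 * 2251799813685249 = a) :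
    dc2 L T Zs rc k g a0 i2 =
      (allN (fun i => wOK (rwI L k a i) && rc k a i (rwI L k a i)) (T + 1 - (g + cdeg a)) &&
        allL (fun Z => Nat.beq (Z02 Z.U k a 0) (zsp Z L k a (g + cdeg a) (T + 1 - (g + cdeg a))))
          Zs) := by
  rw [dc2, force_eq, force_eq, force_eq, Nat.add_eq, Nat.mul_eq, ha, Nat.add_eq, Nat.sub_eq]

theorem dcI_eq {it k a : ℕ} (he : it % 64 = k)
    (hc : it / 64 % 8 * 7318349394477184 + it / 512 * 22517998136868864 = a)
    (hT : nth 0 gs k + cdeg a ≤ T) : dcI L gs T Zs rc it =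
      allN (dc2 L T Zs rc k (nth 0 gs k) a) ((T - (nth 0 gs k + cdeg a)) / 4 + 1) := by
  have e1 : Nat.land it 63 = k := (land_63 _).trans he
  have e2 : Nat.land (Nat.shiftRight it 6) 7 = it / 64 % 8 := h3_eq _
  have e3 : Nat.shiftRight it 9 = it / 512 := Nat.shiftRight_eq_div_pow _ 9
  rw [dcI, force_eq, force_eq, force_eq, e1, e2, e3, Nat.add_eq, Nat.add_eq, Nat.mul_eq, Nat.mul_eq,
    hc, Nat.ble_eq_true_of_le hT, cond_true]
  exact congrArg _ rfl

theorem IsI.eq {a : ℕ} (h : IsI a) : cdeg a = 4 * fld a 0 + 13 * fld a 1 + 40 * fld a 2 ∧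
    a = fld a 0 + fld a 1 * 128 + fld a 2 * 128 ^ 2 + cdeg a * 128 ^ 7 := by
  obtain ⟨h0, h3, h4, h5, h6⟩ := h
  have := code_eq a
  rw [mdeg] at h0
  omega

/-- **the loops of the checks reach every row** -/
theorem dc_spec (hc : dcU L gs T Zs rc its = true) (hs : gsOK s gs = true)
    (hI : covI s T its = true) (h94 : T ≤ 94) {e a : ℕ} (he : e < 64) (ha : IsI a)
    (hd : gw s e + cdeg a ≤ T) :
    (∀ i, gw s e + cdeg a + i ≤ T → wOK (rwI L e a i) = true ∧ rc e a i (rwI L e a i) = true) ∧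
      ∀ Z ∈ Zs, Z02 Z.U e a 0 = zsp Z L e a (gw s e + cdeg a) (T + 1 - (gw s e + cdeg a)) := by
  obtain ⟨a1, a2⟩ := ha.eq
  have h1 := allN_iff.1 (allN_iff.1 (allN_iff.1 hI e he) (fld a 1) (by omega)) (fld a 2) (by omega)
  rw [Bool.or_eq_true, Nat.blt_eq] at h1
  have h2 := allL_iff.1 hc _ (memL_spec (h1.resolve_left (by omega)))
  obtain ⟨c, hc0⟩ : ∃ c, c = fld a 1 * 7318349394477184 + fld a 2 * 22517998136868864 := ⟨_, rfl⟩
  have d0 : cdeg c = 13 * fld a 1 + 40 * fld a 2 := by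
    rw [cdeg_eq]
    omega
  have e2 : (e + 64 * (fld a 1 + 8 * fld a 2)) / 64 % 8 = fld a 1 := by omega
  have e3 : (e + 64 * (fld a 1 + 8 * fld a 2)) / 512 = fld a 2 := by omega
  have g := gsOK_spec hs e he
  rw [dcI_eq (k := e) (a := c) (by omega) (by rw [e2, e3, hc0]) (by omega), allN_iff, g] at h2
  have h3 := h2 (fld a 0) (by omega)
  rw [dc2_eq (a := a) _ _ _ _ (by omega), Bool.and_eq_true, allN_iff, allL_iff] at h3
  exact ⟨fun i hi => Bool.and_eq_true_iff.1 (h3.1 i (by omega)),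
    fun Z hZ => Nat.eq_of_beq_eq_true (h3.2 Z hZ)⟩

theorem dc_rc (hc : dcU L gs T Zs rc its = true) (hs : gsOK s gs = true)
    (hI : covI s T its = true) (h94 : T ≤ 94) {e a i : ℕ} (he : e < 64) (ha : IsI a)
    (hd : gw s e + cdeg a + i ≤ T) : rc e a i (rwI L e a i) = true :=
  ((dc_spec hc hs hI h94 he ha (by omega)).1 i hd).2

theorem rwO_eq (L : Lw) (e x : ℕ) :
    rwO L e x = rowO (rwN (blw L e (x / 2 ^ 28 % 2 ^ 21)) (fld x 3)) := by
  rw [rwO, rwX, force_eq, ← Nat.shiftRight_eq_div_pow, ← Nat.and_two_pow_sub_one_eq_mod]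
  rfl

theorem rwI_eq (L : Lw) (k a : ℕ) {i : ℕ} (hi : i < 128) :
    rwI L k a i = rowO (rwN (blw L k (a % 2 ^ 21)) i) := by
  have e : ∀ b n, Nat.shiftLeft b n = b * 2 ^ n := Nat.shiftLeft_eq
  rw [rwI, rwO_eq, lo_eq, e, e, Nat.add_eq, fld_eq]
  congr 3 <;> omega

/-- the first key with the exponents `k2, k3, k4` -/
def keyI (k2 k3 k4 : ℕ) : ℕ := k2 + k3 * 128 + k4 * 128 ^ 2 + (4 * k2 + 13 * k3 + 40 * k4) * 128 ^ 7

theorem keyI_spec {k2 k3 k4 : ℕ} (h2 : k2 < 128) (h3 : k3 < 128) (h4 : k4 < 128) :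
    IsI (keyI k2 k3 k4) ∧ cdeg (keyI k2 k3 k4) = 4 * k2 + 13 * k3 + 40 * k4 ∧
      keyI k2 k3 k4 % 2 ^ 21 = k2 + 128 * (k3 + 128 * k4) := by
  have f : fld (keyI k2 k3 k4) 0 = k2 ∧ fld (keyI k2 k3 k4) 1 = k3 ∧ fld (keyI k2 k3 k4) 2 = k4 ∧
      fld (keyI k2 k3 k4) 3 = 0 ∧ fld (keyI k2 k3 k4) 4 = 0 ∧ fld (keyI k2 k3 k4) 5 = 0 ∧
      fld (keyI k2 k3 k4) 6 = 0 ∧ cdeg (keyI k2 k3 k4) = 4 * k2 + 13 * k3 + 40 * k4 := by
    simp only [fld_eq, cdeg_eq, keyI]
    generalize 4 * k2 + 13 * k3 + 40 * k4 = d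
    refine ⟨?_, ?_, ?_, ?_, ?_, ?_, ?_, ?_⟩ <;> omega
  obtain ⟨f0, f1, f2, f3, f4, f5, f6, f7⟩ := f
  refine ⟨⟨by rw [mdeg, f0, f1, f2, f3, f4, f5, f6, f7]; omega, f3, f4, f5, f6⟩, f7, ?_⟩
  rw [keyI]
  omega

/-- A property of the rows in the loops of the check holds for the rows of all second keys. -/
theorem dc_row {P : Ou → Prop}
    (h : ∀ e < 64, ∀ a i, IsI a → gw s e + cdeg a + i ≤ T → P (rwI L e a i)) {e x : ℕ} (he : e < 64)
    (hx : IsX x) (hd : gw s e + cdeg x ≤ T) : P (rwO L e x) := by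
  obtain ⟨a1, a2, a3⟩ := keyI_spec (fld_lt x 4) (fld_lt x 5) (fld_lt x 6)
  have h1 := h e he _ (fld x 3) a1 (by
    have := hx.1
    rw [mdeg] at this
    omega)
  rw [rwI_eq _ _ _ (fld_lt x 3), a3] at h1
  rwa [rwO_eq, show x / 2 ^ 28 % 2 ^ 21 = fld x 4 + 128 * (fld x 5 + 128 * fld x 6) by
    simp only [fld_eq]; omega]

theorem dc_w (hc : dcU L gs T Zs rc its = true) (hs : gsOK s gs = true)
    (hI : covI s T its = true) (h94 : T ≤ 94) : WOK L T s := fun _ he _ hx hd =>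
  dc_row (P := fun o => wOK o = true)
    (fun _ he _ i ha hd => ((dc_spec hc hs hI h94 he ha (by omega)).1 i hd).1) he hx hd

/-! ### the table -/

variable {Z : Zc}

theorem grp2_spec (h : grp2 Z L = true) :
    (∀ h ∈ Z.U.Y.sl, hd h = gtw L (hk h) ∧ zg Z (hk h) = Z.gam) ∧
      ∀ k < 64, zg Z k = Z.gam → ∀ j3, 13 * j3 + gtw L k ≤ Z.U.Y.T → j3 < 8 →
        zi Z k j3 0 < Z.U.Y.S ∧ nth 0 Z.U.Y.sl (zi Z k j3 0) = ent k j3 0 (gtw L k) := by
  simp only [grp2, Bool.and_eq_true, Bool.or_eq_true, allN_iff, allL_iff, Nat.beq_eq, Nat.blt_eq,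
    Bool.not_eq_true'] at h
  refine ⟨h.1, fun k hk' e j3 b a3 => ?_⟩
  refine (((h.2 k hk').resolve_left fun c => ?_) j3 a3 0 one_pos).resolve_left (by omega)
  exact Nat.ne_of_beq_eq_false c e

/-- the value of a column -/
def colV2 (L : Lw) (k t m : ℕ) : Av K9 :=
  if m % 64 = k ∧ cv (gtw L k) t m = true then monomial (cmon (gtw L k) t m) 1 else 0

theorem cv_eq {g t m : ℕ} (h : cv g t m = true) :
    c1 m + 4 * c2 g t m + 13 * c3 m + 40 * c4 m + g = t := (add_comm _ _).trans (cv_spec h)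

theorem uv_eq (Z : Zc) (L : Lw) (t m : ℕ) : uv Z L t m =
    cond (Nat.beq (zg Z (m % 64)) Z.gam && (cv (gtw L (m % 64)) t m && Nat.blt (c1 m) Z.U.Y.N))
      (1 <<< (12 * mkp Z.U.Y (zi Z (m % 64) (c3 m) (c4 m)) (c1 m)
        (c2 (gtw L (m % 64)) t m + 3 * c3 m + 10 * c4 m + gtw L (m % 64) / 4))) 0 := by
  have e : c4 m = Nat.shiftRight (Nat.shiftRight m 10) 3 := Nat.shiftRight_add m 10 3
  rw [uv, force_eq, force_eq, force_eq, show Nat.land m 63 = m % 64 from land_63 m, zj, ← e]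
  rfl

theorem uv_rep (hY : layOK Z.U.Y = true) (h1 : ∀ h ∈ Z.U.Y.sl, zg Z (hk h) = Z.gam) {t m : ℕ}
    (ht : t ≤ Z.U.Y.T) (h2 : zg Z (m % 64) = Z.gam → cv (gtw L (m % 64)) t m = true →
      zi Z (m % 64) (c3 m) (c4 m) < Z.U.Y.S ∧ nth 0 Z.U.Y.sl (zi Z (m % 64) (c3 m) (c4 m)) =
        ent (m % 64) (c3 m) (c4 m) (gtw L (m % 64))) (d : ℕ) :
    Rep Z.U.Y (uv Z L t m) d 10 fun i k => if d + i = t then xq _ _ (colV2 L k t m) else 0 := by
  have h94 := (layP hY).top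
  rw [uv_eq]
  cases c : (Nat.beq (zg Z (m % 64)) Z.gam &&
    (cv (gtw L (m % 64)) t m && Nat.blt (c1 m) Z.U.Y.N))
  · refine (Rep.zero hY d _).congr' fun p _ _ _ => ?_
    rw [colV2]
    split_ifs with b1 b2
    · rw [b2.1, h1 _ (ph_mem hY p), Nat.beq_refl, b2.2, Bool.true_and, Bool.true_and,
        ← Bool.not_eq_true, Nat.blt_eq, not_lt] at c
      exact (Ideal.Quotient.eq_zero_iff_mem.2 (mon_mem (c.trans_eq (ex4_0 _ _ _ _).symm))).symm
    · exact (map_zero _).symm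
    · rfl
  · simp only [Bool.and_eq_true, Nat.beq_eq, Nat.blt_eq] at c
    obtain ⟨c1', c2', c3'⟩ := c
    obtain ⟨b1, b2⟩ := h2 c1' c2'
    have b3 := cv_eq c2'
    obtain ⟨a1, a2, a3, a4, a5⟩ := mkp_spec b1 b2 c3' (Nat.mod_lt _ (by norm_num)) (by omega)
      (by omega) (b3.trans_le ht) rfl
    refine ((Rep.unit hY a1 a3 d).mono (by norm_num)).congr fun i k _ => ?_
    rw [a2, a4, a5, b3, ite_and, colV2]
    refine if_congr Iff.rfl ?_ rfl
    by_cases e : k = m % 64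
    · rw [if_pos e, if_pos ⟨e.symm, e ▸ c2'⟩, e, cmon]
    · rw [if_neg e, if_neg fun c => e c.1.symm, map_zero]

theorem zsp_rep (hY : layOK Z.U.Y = true) {k a d n : ℕ} {G : ℕ → ℕ → Ab Z.U.Y.a Z.U.Y.N}
    (h : ∀ i < n, Rep Z.U.Y ((rwI L k a i).1 (uv Z L (d + i)) (flZ Z)) d 126 fun j k2 =>
      if j = i then G j k2 else 0) :
    Rep Z.U.Y (zsp Z L k a d n) d 126 fun i k2 => if i < n then G i k2 else 0 := by
  induction n with
  | zero => exact Rep.zero hY d _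
  | succ n ih =>
    refine (((ih fun i hi => h i (by omega)).add hY (h n (by omega)) (by norm_num)).fold' hY
      (Nat.zero_le d)).congr fun i k2 _ => ?_
    rcases lt_trichotomy i n with e | rfl | e
    · rw [if_pos e, if_neg (by omega), if_pos (by omega), add_zero]
    · rw [if_neg (lt_irrefl _), if_pos rfl, if_pos (by omega), zero_add]
    · rw [if_neg (by omega), if_neg (by omega), if_neg (by omega), add_zero]

theorem lo_fld (a : ℕ) : fld a 0 + 128 * (fld a 1 + 128 * fld a 2) = a % 2 ^ 21 := by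
  simp only [fld_eq]
  omega

variable {D : ℕ → Lw}

/-- The table is correct if the vectors of the rows are correct. -/
theorem zok_of (hY : layOK Z.U.Y = true) (hT : Z.U.Y.T = T)
    (h : ∀ e < 64, ∀ a, IsI a → gw s e + cdeg a ≤ T →
      Z02 Z.U e a 0 = zsp Z (D s) e a (gw s e + cdeg a) (T + 1 - (gw s e + cdeg a)))
    (hr : ∀ e < 64, ∀ a i d, IsI a → gw s e + cdeg a = d → d + i ≤ T →
      Rep Z.U.Y ((rwI (D s) e a i).1 (uv Z (D s) (d + i)) (flZ Z)) d 126 fun j k2 =>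
        evM (fun m => if d + j = d + i then xq _ _ (colV2 (D s) k2 (d + i) m) else 0)
          (rwN (blw (D s) e (a % 2 ^ 21)) i)) : ZOK Z.U D T s := by
  intro k hk' a x ha hx hd
  have h0 := (layP hY).top
  have hf : ∀ j < 7, fld (a + x) j = fld a j + fld x j := fun j => fld_add fun j hj => by
    have := fld_lt a j
    have := fld_lt x j
    obtain ⟨-, _, _, _, _⟩ := ha
    obtain ⟨-, _, _, _⟩ := hx
    interval_cases j <;> omega
  obtain ⟨a1, a2⟩ := ha.eq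
  have hl : lmon (a + x) = lmon x := by
    rw [lmon, lmon, hf 3, hf 4, hf 5, hf 6, ha.2.1, ha.2.2.1, ha.2.2.2.1, ha.2.2.2.2] <;> norm_num
  simp only [mono_eq, Phi0, lin_one]
  rw [hl, hf 0, hf 1, hf 2, hx.2.1, hx.2.2.1, hx.2.2.2]
  any_goals norm_num
  by_cases e : x = 0
  swap
  · rw [Z02, Bool.eq_false_iff.2 fun c => e (Nat.eq_of_beq_eq_true c), cond_false]
    refine (Rep.zero hY _ _).congr fun i k2 _ => (if_neg fun c => e ?_).symm
    have h2 : ∀ j, lmon x j = 0 := fun j => by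
      have := Finsupp.notMem_support_iff.1 fun a => by simpa using c (a : j + 4 ∈ _)
      rw [Finsupp.add_apply, sh_add] at this
      exact Nat.eq_zero_of_add_eq_zero_left this
    have b3 : fld x 3 = 0 := (ex4_0 _ _ _ _).symm.trans (h2 0)
    have b4 : fld x 4 = 0 := (ex4_1 _ _ _ _).symm.trans (h2 1)
    have b5 : fld x 5 = 0 := (ex4_2 _ _ _ _).symm.trans (h2 2)
    have b6 : fld x 6 = 0 := (ex4_3 _ _ _ _).symm.trans (h2 3)
    obtain ⟨b, b0, b1, b2⟩ := hx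
    have := code_eq x
    rw [mdeg] at b
    omega
  subst e
  have h3 : sh (lmon 0) = 0 := by simp [lmon, fld_eq, ex4, P236M.sh]
  have h4 : cdeg 0 = 0 := rfl
  rw [h4, add_zero] at hd ⊢
  rw [h k hk' a ha (hT ▸ hd), h3]
  refine (zsp_rep hY (G := fun i k2 => xq _ _ (dRow2 (D s) k2 (gw s k + cdeg a + i)
    (rwN (blw (D s) k (a % 2 ^ 21)) i))) fun i hi => ?_).congr fun i k2 hi => ?_
  · refine (hr k hk' a i _ ha rfl (by omega)).congr fun j k2 _ => ?_
    by_cases c : j = i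
    · subst c
      simp only [if_true]
      exact (map_evM _ _ _).symm
    · simp only [c, Nat.add_left_cancel_iff, if_false]
      exact evM_zero _
  · have h5 : tdeg (ex4 i (fld a 0) (fld a 1) (fld a 2)) + gw s k = gw s k + cdeg a + i := by
      rw [tdeg_ex4]
      omega
    rw [if_pos (by omega), add_zero, if_pos (supp_ex4 _ _ _ _), dOp2, h5,
      if_pos ⟨supp_ex4 _ _ _ _, hT ▸ hi⟩, rwK, ex4_0, ex4_1, ex4_2, ex4_3,
      lo_fld]

/-- **The table of the second matrix.** -/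
theorem dc_z (hc : dcU (D s) gs T Zs rc its = true) (hs : gsOK s gs = true)
    (hI : covI s T its = true) (h94 : T ≤ 94) (hZ : Z ∈ Zs) (hY : layOK Z.U.Y = true)
    (hT : Z.U.Y.T = T) (hG : grp2 Z (D s) = true) : ZOK Z.U D T s := by
  obtain ⟨g1, g2⟩ := grp2_spec hG
  refine zok_of hY hT (fun e he a ha hd => (dc_spec hc hs hI h94 he ha hd).2 Z hZ)
    fun e he a i d ha hd hi => ?_
  have h1 := ((dc_spec hc hs hI h94 he ha (by omega)).1 i (by omega)).1
  rw [rwI_eq _ _ _ (by omega)] at h1 ⊢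
  refine Rep.row hY (fun m => uv_rep hY (fun h hh => (g1 h hh).2) (by omega) (fun b1 b2 => ?_) d)
    (Nat.zero_le d) (fun _ _ => rfl) h1
  have := cv_eq b2
  rw [cv_four b2]
  exact g2 _ (Nat.mod_lt _ (by norm_num)) b1 _ (by omega) (by omega)

end Vale.Agent.P236X
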