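import Vale.Agent.P236X.Def2
import Vale.Agent.P236N.Msk

/-!
# P236 / X : the check of the rows in a mask
-/

noncomputable section

namespace Vale.Agent.P236X

open Vale.Agent.P236N

/-- the check of one row -/
def cmR (U : Ctw) (e c0 m k1 : Nat) : Bool :=
  cond (Nat.beq (Nat.land (Nat.shiftRight m k1) 1) 1) (ckR U e c0 k1) true

/-- the check of the rows with given `k2` -/
def cm2 (U : Ctw) (M : List (List Nat)) (e j c0 k2 : Nat) : Bool :=
  cond (Nat.beq (mrow M e j k2) 0) true
    (force (Nat.add c0 (Nat.mul k2 2251800082120704)) fun c =>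
      allN (cmR U e c (mrow M e j k2)) (Nat.sub (Nat.succ U.Y.T) (Nat.add (g0 U e) (cdeg c))))

/-- the check of the rows with given `e, k3, k4`; the item is `e + 64 * (k3 + 8 * k4)` -/
def cmI (U : Ctw) (M : List (List Nat)) (it : Nat) : Bool :=
  force (Nat.land it 63) fun e => force (Nat.shiftRight it 6) fun j =>
    force (Nat.add (Nat.mul (Nat.land j 7) 7318383754215424)
        (Nat.mul (Nat.shiftRight j 3) 22522396183363584)) fun c =>
      cond (Nat.ble (Nat.add (g0 U e) (cdeg c)) U.Y.T)
        (allN (cm2 U M e j c) (Nat.succ (Nat.div (Nat.sub U.Y.T (Nat.add (g0 U e) (cdeg c))) 4))) true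

/-- the check of a unit -/
def cmU (U : Ctw) (M : List (List Nat)) (its : List Nat) : Bool := allL (cmI U M) its

end Vale.Agent.P236X
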