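import Vale.Agent.P236X.Def3

/-!
# P236 / X : items that carry their own masks

An item is `e + 64 * (k3 + 8 * (k4 + 4 * mm))`; the row `t ^ K e` is checked if the bit `96 * k2 + k1` of
`mm` is set.
-/

noncomputable section

namespace Vale.Agent.P236X

/-- the check of one row -/
def ckRm (U : Ctw) (e c0 mr k1 : Nat) : Bool :=
  cond (Nat.beq (Nat.land (Nat.shiftRight mr k1) 1) 0) true (ckR U e c0 k1)

/-- the check of the rows with given `k2` -/
def ck2m (U : Ctw) (e c0 mm k2 : Nat) : Bool :=
  force (Nat.land (Nat.shiftRight mm (Nat.mul 96 k2)) 79228162514264337593543950335) fun mr =>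
    cond (Nat.beq mr 0) true (force (Nat.add c0 (Nat.mul k2 2251800082120704)) fun c =>
      allN (ckRm U e c mr) (Nat.sub (Nat.succ U.Y.T) (Nat.add (g0 U e) (cdeg c))))

/-- the check of the rows of an item -/
def ckIm (U : Ctw) (im : Nat) : Bool :=
  force (Nat.land im 63) fun e => force (Nat.shiftRight im 11) fun mm =>
    force (Nat.add (Nat.mul (Nat.land (Nat.shiftRight im 6) 7) 7318383754215424)
        (Nat.mul (Nat.land (Nat.shiftRight im 9) 3) 22522396183363584)) fun c =>
      cond (Nat.ble (Nat.add (g0 U e) (cdeg c)) U.Y.T)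
        (allN (ck2m U e c mm) (Nat.succ (Nat.div (Nat.sub U.Y.T (Nat.add (g0 U e) (cdeg c))) 4))) true

/-- the check of a unit -/
def ckUm (U : Ctw) (ims : List Nat) : Bool := allL (ckIm U) ims

/-- the union of the masks of the items with the code `it` -/
def orM (it : Nat) (ims : List Nat) : Nat :=
  List.rec (motive := fun _ => Nat) 0 (fun im _ ih =>
    cond (Nat.beq (Nat.land im 2047) it) (Nat.lor ih (Nat.shiftRight im 11)) ih) ims

/-- the items cover the masks `M` -/
def covO (M : List (List Nat)) (ims : List Nat) : Bool :=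
  allN (fun e => allN (fun j => force (nth 0 (nth [] M e) j) fun m =>
    cond (Nat.beq m 0) true (Nat.beq (Nat.land m (orM (Nat.add e (Nat.mul 64 j)) ims)) m)) 32) 64

end Vale.Agent.P236X
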