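import Vale.Agent.P236X.Yl2
import Vale.Agent.P236X.Def4
import Vale.Agent.P236X.Def5
import Vale.Agent.P236N.Del2
import Vale.Agent.P236N.NoV

/-!
# P236 / X : from the final tests to `δ ∘ δ ∈ 𝔞`, second version
-/

noncomputable section

namespace Vale.Agent.P236X

open MvPolynomial Vale.Agent.P236A Vale.Agent.P236B Vale.Agent.P236C Vale.Agent.P236N

/-! ### the loops -/

theorem ckR_eq (U : Ctw) (e c k : ℕ) : ckR U e c k = fin U.Y (R11 U e 0 (c + k * 562949955518464))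
    (g0 U e + cdeg (c + k * 562949955518464)) := by
  rw [ckR, force_eq, force_eq, Nat.add_eq, Nat.add_eq, Nat.mul_eq]

theorem ck2_eq (U : Ctw) (e c k : ℕ) : ck2 U e c k = allN (ckR U e (c + k * 2251800082120704))
    (U.Y.T + 1 - (g0 U e + cdeg (c + k * 2251800082120704))) := by
  rw [ck2, force_eq, Nat.add_eq, Nat.add_eq, Nat.mul_eq, Nat.sub_eq]

theorem ckI_eq (U : Ctw) {it e c : ℕ} (he : it % 64 = e)
    (hc : it / 64 % 8 * 7318383754215424 + it / 512 * 22522396183363584 = c)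
    (hT : g0 U e + cdeg c ≤ U.Y.T) :
    ckI U it = allN (ck2 U e c) ((U.Y.T - (g0 U e + cdeg c)) / 4 + 1) := by
  have e1 : Nat.land it 63 = e := (land_63 _).trans he
  have e2 : Nat.land (Nat.shiftRight it 6) 7 = it / 64 % 8 := h3_eq _
  have e3 : Nat.shiftRight it 9 = it / 512 := Nat.shiftRight_eq_div_pow _ 9
  rw [ckI, force_eq, force_eq, e1, e2, e3, Nat.add_eq, Nat.add_eq, Nat.mul_eq, Nat.mul_eq, hc,
    Nat.ble_eq_true_of_le hT, cond_true]
  exact congrArg _ rfl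

theorem ckIm_eq (U : Ctw) {im e c : ℕ} (he : im % 64 = e)
    (hc : im / 64 % 8 * 7318383754215424 + im / 512 % 4 * 22522396183363584 = c)
    (hT : g0 U e + cdeg c ≤ U.Y.T) :
    ckIm U im = allN (ck2m U e c (im >>> 11)) ((U.Y.T - (g0 U e + cdeg c)) / 4 + 1) := by
  have e1 : Nat.land im 63 = e := (land_63 _).trans he
  have e2 : Nat.land (Nat.shiftRight im 6) 7 = im / 64 % 8 := h3_eq _
  have e3 : Nat.land (Nat.shiftRight im 9) 3 = im / 512 % 4 := h4_eq _
  rw [ckIm, force_eq, force_eq, force_eq, e1, e2, e3, Nat.add_eq, Nat.add_eq, Nat.mul_eq, Nat.mul_eq,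
    hc, Nat.ble_eq_true_of_le hT, cond_true]
  exact congrArg _ rfl

/-- the mask of the rows with given `k2` -/
def mbits (mm k2 : ℕ) : ℕ := Nat.land (Nat.shiftRight mm (Nat.mul 96 k2)) 79228162514264337593543950335

theorem mbits_bit {mm k1 k2 : ℕ} :
    (mbits mm k2).testBit k1 = true ↔ k1 < 96 ∧ mm.testBit (96 * k2 + k1) = true := by
  have h : mbits mm k2 = mm >>> (96 * k2) &&& (2 ^ 96 - 1) := rfl
  rw [h, Nat.testBit_and, Nat.testBit_two_pow_sub_one, Nat.testBit_shiftRight, Bool.and_eq_true,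
    decide_eq_true_eq, and_comm]

theorem ck2m_eq (U : Ctw) (e c mm k : ℕ) (h : mbits mm k ≠ 0) : ck2m U e c mm k =
    allN (ckRm U e (c + k * 2251800082120704) (mbits mm k))
      (U.Y.T + 1 - (g0 U e + cdeg (c + k * 2251800082120704))) := by
  rw [ck2m, force_eq, ← mbits, Bool.eq_false_iff.2 fun c => h (Nat.eq_of_beq_eq_true c), cond_false,
    force_eq, Nat.add_eq, Nat.add_eq, Nat.mul_eq, Nat.sub_eq]

theorem ckRm_eq (U : Ctw) (e c : ℕ) {mr k : ℕ} (h : mr.testBit k = true) :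
    ckRm U e c mr k = ckR U e c k := by
  have h1 : Nat.beq (Nat.land (Nat.shiftRight mr k) 1) 0 = false := Bool.eq_false_iff.2 fun c => by
    rw [Nat.testBit, Nat.and_comm] at h
    exact bne_iff_ne.1 h (Nat.eq_of_beq_eq_true c)
  rw [ckRm, h1, cond_false]

theorem key_spec {K : ℕ →₀ ℕ} (h : tdeg K ≤ 94) {c : ℕ}
    (hc : c = K 2 * 7318383754215424 + K 3 * 22522396183363584) : cdeg c = 13 * K 2 + 40 * K 3 ∧
      cdeg (c + K 1 * 2251800082120704) = 4 * K 1 + 13 * K 2 + 40 * K 3 ∧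
      c + K 1 * 2251800082120704 + K 0 * 562949955518464 = rcode K 0 := by
  rw [tdeg] at h
  refine ⟨?_, ?_, ?_⟩
  · rw [cdeg_eq]
    omega
  · rw [cdeg_eq]
    omega
  · rw [rcode, kcode, tdeg]
    omega

/-- The final test succeeds on the rows with `Q`. -/
def FinOK (U : Ctw) (s : ℕ) (Q : ℕ → (ℕ →₀ ℕ) → Prop) : Prop :=
  ∀ e < 64, ∀ K, Q e K → tdeg K + gw s e ≤ U.Y.T →
    fin U.Y (R11 U e 0 (rcode K 0)) (tdeg K + gw s e) = true

/-- **the loops of the check reach every row** -/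
theorem finOK_of_ckU {U : Ctw} {s : ℕ} {its : List ℕ} (h94 : U.Y.T ≤ 94) (hs : gsOK s U.gs = true)
    (hI : covI s U.Y.T its = true) (hc : ckU U its = true) : FinOK U s fun _ _ => True := by
  intro e he K _ hT
  have hb : g0 U e = gw s e := gsOK_spec hs e he
  have h0 : tdeg K ≤ 94 := by omega
  have hd := hT
  rw [tdeg] at hd
  obtain ⟨d0, d1, d2⟩ := key_spec h0 rfl
  have h1 := allN_iff.1 (allN_iff.1 (allN_iff.1 hI e he) (K 2) (by omega)) (K 3) (by omega)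
  rw [Bool.or_eq_true, Nat.blt_eq] at h1
  have h2 := allL_iff.1 hc _ (memL_spec (h1.resolve_left (by omega)))
  have e2 : (e + 64 * (K 2 + 8 * K 3)) / 64 % 8 = K 2 := by omega
  have e3 : (e + 64 * (K 2 + 8 * K 3)) / 512 = K 3 := by omega
  rw [ckI_eq U (e := e) (by omega) (by rw [e2, e3]) (by omega), allN_iff] at h2
  have h3 := h2 (K 1) (by omega)
  rw [ck2_eq, allN_iff] at h3
  have h4 := h3 (K 0) (by omega)
  rwa [ckR_eq, d2, cdeg_rcode h0, hb, add_zero, add_comm] at h4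

/-- the row `t ^ K e` lies in the masks `M` -/
def InR (M : List (List ℕ)) (e : ℕ) (K : ℕ →₀ ℕ) : Prop :=
  (mrow M e (K 2 + 8 * K 3) (K 1)).testBit (K 0) = true

theorem mrow_eq (M : List (List ℕ)) (e j k2 : ℕ) :
    mrow M e j k2 = mbits (nth 0 (nth [] M e) j) k2 := rfl

theorem cmI_eq (U : Ctw) (M : List (List ℕ)) {it e j c : ℕ} (he : it % 64 = e) (hj : it / 64 = j)
    (hc : j % 8 * 7318383754215424 + j / 8 * 22522396183363584 = c)
    (hT : g0 U e + cdeg c ≤ U.Y.T) :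
    cmI U M it = allN (cm2 U M e j c) ((U.Y.T - (g0 U e + cdeg c)) / 4 + 1) := by
  have e1 : Nat.land it 63 = e := (land_63 _).trans he
  have e0 : Nat.shiftRight it 6 = j := (Nat.shiftRight_eq_div_pow _ 6).trans hj
  have e2 : Nat.land j 7 = j % 8 := Nat.and_two_pow_sub_one_eq_mod j 3
  have e3 : Nat.shiftRight j 3 = j / 8 := Nat.shiftRight_eq_div_pow _ 3
  rw [cmI, force_eq, force_eq, force_eq, e1, e0, e2, e3, Nat.add_eq, Nat.add_eq, Nat.mul_eq,
    Nat.mul_eq, hc, Nat.ble_eq_true_of_le hT, cond_true]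
  exact congrArg _ rfl

theorem cm2_eq (U : Ctw) (M : List (List ℕ)) (e j c k : ℕ) (h : mrow M e j k ≠ 0) :
    cm2 U M e j c k = allN (cmR U e (c + k * 2251800082120704) (mrow M e j k))
      (U.Y.T + 1 - (g0 U e + cdeg (c + k * 2251800082120704))) := by
  rw [cm2, Bool.eq_false_iff.2 fun c => h (Nat.eq_of_beq_eq_true c), cond_false,
    force_eq, Nat.add_eq, Nat.add_eq, Nat.mul_eq, Nat.sub_eq]

theorem cmR_eq (U : Ctw) (e c : ℕ) {mr k : ℕ} (h : mr.testBit k = true) :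
    cmR U e c mr k = ckR U e c k := by
  have h1 : Nat.land (Nat.shiftRight mr k) 1 = 1 := by
    rw [Nat.testBit, Nat.and_comm, bne_iff_ne, Nat.and_one_is_mod] at h
    exact (Nat.and_one_is_mod (mr >>> k)).trans (by omega)
  rw [cmR, h1, Nat.beq_refl, cond_true]

/-- the items cover the masks `M` -/
def covM (M : List (List Nat)) (its : List Nat) : Bool :=
  allN (fun e => allN (fun j => Nat.beq (nth 0 (nth [] M e) j) 0 || memL (e + 64 * j) its) 32) 64

/-- **the loops of the check reach every row in the masks** -/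
theorem finOK_of_cmU {U : Ctw} {s : ℕ} {M : List (List ℕ)} {its : List ℕ} (h94 : U.Y.T ≤ 94)
    (hs : gsOK s U.gs = true) (hI : covM M its = true) (hc : cmU U M its = true) :
    FinOK U s (InR M) := by
  intro e he K hQ hT
  have hb : g0 U e = gw s e := gsOK_spec hs e he
  have h0 : tdeg K ≤ 94 := by omega
  have hd := hT
  rw [tdeg] at hd
  obtain ⟨d0, d1, d2⟩ := key_spec h0 rfl
  have h1 := allN_iff.1 (allN_iff.1 hI e he) (K 2 + 8 * K 3) (by omega)
  rw [Bool.or_eq_true, Nat.beq_eq] at h1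
  have h2 := allL_iff.1 hc _ (memL_spec (h1.resolve_left fun c => by
    have h7 := (mbits_bit.1 hQ).2
    rw [c, Nat.zero_testBit] at h7
    cases h7))
  have e2 : (K 2 + 8 * K 3) % 8 = K 2 := by omega
  have e3 : (K 2 + 8 * K 3) / 8 = K 3 := by omega
  rw [cmI_eq U M (e := e) (j := K 2 + 8 * K 3) (by omega) (by omega) (by rw [e2, e3]) (by omega),
    allN_iff] at h2
  have h3 := h2 (K 1) (by omega)
  rw [InR] at hQ
  rw [cm2_eq _ _ _ _ _ _ fun c => by simp [c] at hQ, allN_iff] at h3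
  have h4 := h3 (K 0) (by omega)
  rwa [cmR_eq _ _ _ hQ, ckR_eq, d2, cdeg_rcode h0, hb, add_zero, add_comm] at h4

theorem orM_bit {it b : ℕ} {ims : List ℕ} (h : (orM it ims).testBit b = true) :
    ∃ im ∈ ims, im % 2048 = it ∧ (im >>> 11).testBit b = true := by
  induction ims with
  | nil => exact absurd h (by simp [orM])
  | cons im l ih =>
    have e : orM it (im :: l) =
        cond (Nat.beq (Nat.land im 2047) it) (orM it l ||| im >>> 11) (orM it l) := rfl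
    have e1 : Nat.land im 2047 = im % 2048 := Nat.and_two_pow_sub_one_eq_mod im 11
    have h2 : (orM it l).testBit b = true → ∃ x ∈ im :: l, x % 2048 = it ∧
        (x >>> 11).testBit b = true := fun c =>
      (ih c).imp fun _ hx => ⟨List.mem_cons_of_mem _ hx.1, hx.2⟩
    rw [e, e1] at h
    cases c : Nat.beq (im % 2048) it
    · rw [c, cond_false] at h
      exact h2 h
    · rw [c, cond_true, Nat.testBit_or, Bool.or_eq_true] at h
      exact h.elim h2 fun h => ⟨im, List.mem_cons_self, Nat.eq_of_beq_eq_true c, h⟩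

theorem covO_spec {M : List (List ℕ)} {ims : List ℕ} (h : covO M ims = true) {e j b : ℕ}
    (he : e < 64) (hj : j < 32) (hb : (nth 0 (nth [] M e) j).testBit b = true) :
    ∃ im ∈ ims, im % 2048 = e + 64 * j ∧ (im >>> 11).testBit b = true := by
  have h1 := allN_iff.1 (allN_iff.1 h e he) j hj
  rw [force_eq] at h1
  generalize nth 0 (nth [] M e) j = m at h1 hb
  have h0 : Nat.beq m 0 = false := Bool.eq_false_iff.2 fun c => by
    rw [Nat.eq_of_beq_eq_true c, Nat.zero_testBit] at hb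
    cases hb
  rw [h0, cond_false] at h1
  have h2 : m &&& orM (e + 64 * j) ims = m := Nat.eq_of_beq_eq_true h1
  rw [← h2, Nat.testBit_and, Bool.and_eq_true] at hb
  exact orM_bit hb.2

/-- **the loops of the check reach every row in the masks** -/
theorem finOK_of_ckUm {U : Ctw} {s : ℕ} {M : List (List ℕ)} {ims : List ℕ} (h94 : U.Y.T ≤ 94)
    (hs : gsOK s U.gs = true) (hI : covO M ims = true) (hc : ckUm U ims = true) :
    FinOK U s (InR M) := by
  intro e he K hQ hT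
  have hb : g0 U e = gw s e := gsOK_spec hs e he
  have h0 : tdeg K ≤ 94 := by omega
  have hd := hT
  rw [tdeg] at hd
  obtain ⟨d0, d1, d2⟩ := key_spec h0 rfl
  obtain ⟨q1, q2⟩ := mbits_bit.1 hQ
  obtain ⟨im, h1, h5, h6⟩ := covO_spec hI he (by omega) q2
  have h7 := mbits_bit.2 ⟨q1, h6⟩
  have h2 := allL_iff.1 hc _ h1
  have e2 : im / 64 % 8 = K 2 := by omega
  have e3 : im / 512 % 4 = K 3 := by
    have : K 2 < 8 ∧ K 3 < 4 := by omega
    clear e2 d0 d1 d2 hd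
    omega
  rw [ckIm_eq U (e := e) (by omega) (by rw [e2, e3]) (by omega), allN_iff] at h2
  have h3 := h2 (K 1) (by omega)
  rw [ck2m_eq _ _ _ _ _ fun c => by simp [c] at h7, allN_iff] at h3
  have h4 := h3 (K 0) (by omega)
  rwa [ckRm_eq _ _ _ h7, ckR_eq, d2, cdeg_rcode h0, hb, add_zero, add_comm] at h4

theorem ckU_nil (U : Ctw) : ckU U [] = true := rfl

theorem allL_append {α : Type} {f : α → Bool} {l l' : List α} (h : allL f l = true)
    (h' : allL f l' = true) : allL f (l ++ l') = true :=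
  allL_iff.2 fun a ha => (List.mem_append.1 ha).elim (allL_iff.1 h a) (allL_iff.1 h' a)

theorem ckU_append {U : Ctw} {l l' : List ℕ} (h : ckU U l = true) (h' : ckU U l' = true) :
    ckU U (l ++ l') = true := allL_append h h'

theorem ckUm_nil (U : Ctw) : ckUm U [] = true := rfl

theorem ckUm_append {U : Ctw} {l l' : List ℕ} (h : ckUm U l = true) (h' : ckUm U l' = true) :
    ckUm U (l ++ l') = true := allL_append h h'

theorem cmU_nil (U : Ctw) (M : List (List ℕ)) : cmU U M [] = true := rfl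

theorem cmU_append {U : Ctw} {M : List (List ℕ)} {l l' : List ℕ} (h : cmU U M l = true)
    (h' : cmU U M l' = true) : cmU U M (l ++ l') = true := allL_append h h'

theorem dcU_nil (L : Lw) (gs : List ℕ) (T : ℕ) (Zs : List Zc) (rc : ℕ → ℕ → ℕ → Ou → Bool) :
    dcU L gs T Zs rc [] = true := rfl

theorem dcU_append {L : Lw} {gs : List ℕ} {T : ℕ} {Zs : List Zc} {rc : ℕ → ℕ → ℕ → Ou → Bool}
    {l l' : List ℕ} (h : dcU L gs T Zs rc l = true) (h' : dcU L gs T Zs rc l' = true) :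
    dcU L gs T Zs rc (l ++ l') = true := allL_append h h'

/-! ### the final test -/

/-- **the final test gives membership in the ideal** -/
theorem mem_of_fin2 {Y : Lay} (hY : layOK Y = true) {x d k g : ℕ} {F : ℕ → ℕ → Ab Y.a Y.N}
    (R : Rep Y x d 126 F) (hf : fin Y x d = true) (hT : d ≤ Y.T) (hk' : k < 64) {r : Av K9}
    (hr : r ∈ (gA 3 K9).G (2 * (d : ℤ) - 2 * (g : ℤ))) (hF : F 0 k = xq Y.a Y.N r)
    (hS : ∀ J, coeff J r ≠ 0 → J 2 < 8 → J 3 < 4 → 13 * J 2 + 40 * J 3 + g ≤ Y.T →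
      ent k (J 2) (J 3) g ∈ Y.sl) : r ∈ JJ 3 K9 Y.a Y.N := by
  have h := layP hY
  refine mem_of_mu fun J hJ => ?_
  by_cases h0 : coeff J r = 0
  · rw [h0, mul_zero]
  have h1 : mz 3 J = 2 * (d : ℤ) - 2 * (g : ℤ) := (mem_gA 3).1 hr h0
  have h94 := h.top
  have h4' : J.support ⊆ Finset.range 4 := P236M.supp_of_mz (p := 3) (by
    rw [h1, show wz 3 4 = 242 from rfl]
    omega)
  rw [mz_eq h4', tdeg] at h1
  obtain ⟨p, a1, a2, a3, a4, a5⟩ := exists_pos hY (j1 := J 0) (j2 := J 1)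
    (hS J h0 (by omega) (by omega) (by omega)) hJ hk' (by omega) (by omega) (by omega)
  have h2 := R.fin hY hf hT p a1 (by omega) a3
  rwa [a4, a5, ← eq_ex4 h4', hF, cf_mk h.aN] at h2

theorem nth_mem {α : Type} (z : α) {l : List α} {i : ℕ} (h : i < l.length) : nth z l i ∈ l := by
  rw [nth_eq, List.getD_eq_getElem _ _ h]
  exact List.getElem_mem h

/-- the slab of a group is complete -/
theorem ent_mem2 {Z : Zc} {L : Lw} (hY : layOK Z.U.Y = true) (hG : grp2 Z L = true) {k j3 : ℕ}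
    (hk' : k < 64) (h3' : j3 < 8) (hg : nth 0 Z.gm k = Z.gam)
    (hT : 13 * j3 + gtw L k ≤ Z.U.Y.T) : ent k j3 0 (gtw L k) ∈ Z.U.Y.sl := by
  rw [grp2, Bool.and_eq_true] at hG
  have h1 := allN_iff.1 hG.2 k hk'
  rw [zg, hg, Nat.beq_refl, Bool.not_true, Bool.false_or, allN_iff] at h1
  have h2 := allN_iff.1 (h1 j3 h3') 0 Nat.one_pos
  rw [Bool.or_eq_true, Nat.blt_eq, Bool.and_eq_true, Nat.blt_eq, Nat.beq_eq] at h2
  obtain ⟨h5, h6⟩ := h2.resolve_left (by omega)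
  exact h6 ▸ nth_mem 0 ((layP hY).len ▸ h5)

variable {D : ℕ → Lw} {T S : ℕ}

/-- The matrix does not contain `v_4`. -/
theorem pi3_dl2 (g g' : Io S) (J : ℕ →₀ ℕ) :
    pi3 (delta2 D T S g g' J) = delta2 D T S g g' J := by
  rw [delta2]
  split_ifs with h2
  · rw [dOp2]
    split_ifs with h1
    · rw [dRow2, map_evM]
      refine congrArg (evM · _) (funext fun m => ?_)
      split_ifs with h3
      · refine (pi3_monomial _ _).trans (if_pos fun i hi => Finset.mem_range.2 ?_)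
        have h4 := Finset.mem_range.1 (supp_ex4 _ _ _ _ hi)
        refine lt_of_le_of_ne (by omega) fun c => Finsupp.mem_support_iff.1 hi ?_
        obtain rfl : i = 3 := by omega
        exact (ex4_3 _ _ _ _).trans (cv_four h3.2)
      · exact map_zero _
    · exact pi3_C _
  · exact map_zero _

/-- The last table of the context represents the rows of `δ ∘ δ` on the level `s`. -/
def RowOK2 (U : Ctw) (D : ℕ → Lw) (T S s : ℕ) : Prop :=
  ∀ g g'' : Io S, (g.1 : ℕ) = s → (g''.1 : ℕ) = s + 2 → ∀ K : ℕ →₀ ℕ, K.support ⊆ Finset.range 4 →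
    tdeg K + gw s g.2 ≤ U.Y.T → ∃ F, Rep U.Y (R11 U g.2 0 (rcode K 0)) (tdeg K + gw s g.2)
      126 F ∧ F 0 g''.2 = xq U.Y.a U.Y.N (RR 3 (delta2 D T S) (delta2 D T S) g g'' K)

theorem isI_zero : IsI 0 := ⟨rfl, rfl, rfl, rfl, rfl⟩

theorem isX_rcode {K : ℕ →₀ ℕ} (hK : K.support ⊆ Finset.range 4) (h : tdeg K ≤ 94) :
    IsX (rcode K 0) := by
  refine ⟨by rw [cdeg_rcode h, (mono_rcode (B := ℤ) hK h 0).1, add_zero], ?_⟩
  simp only [fld_eq]
  rw [rcode]
  refine ⟨?_, ?_, ?_⟩ <;> omega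

theorem rowOK2_of (hH : HomD 3 (Gam S) (delta2 D T S)) {U : Ctw} {s : ℕ} (h94 : U.Y.T ≤ 94)
    {Φ : ℕ → ℕ → Pb U.Y.a U.Y.N →ₗ[Ab U.Y.a U.Y.N] Ab U.Y.a U.Y.N}
    (h : ∀ e < 64, Tab2 U.Y (R11 U e) (gw s e) 126 (Φ e))
    (hΦ : ∀ e k q, Φ e k q = Ymap2 U.Y.a U.Y.N D T s e k (P236M.sB 3 (xq U.Y.a U.Y.N) q)) :
    RowOK2 U D T S s := fun g g'' e1 e2 K hK hd => by
  have h1 : tdeg K ≤ 94 := by omega
  have d : gw s g.2 + cdeg 0 + cdeg (rcode K 0) = tdeg K + gw s g.2 := by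
    rw [cdeg_rcode h1, show cdeg 0 = 0 from rfl]
    omega
  have h2 := h g.2 g.2.2 0 (rcode K 0) isI_zero (isX_rcode hK h1) (d ▸ hd)
  rw [d] at h2
  refine ⟨_, h2, ?_⟩
  rw [zero_add, (mono_rcode hK h1 0).2, hΦ, ← e1]
  refine ymap2_RR hH g g'' (by omega) ?_
  rw [mz_eq hK, Gam_wt, e1, show wz 3 4 = 242 from rfl]
  omega

/-- `δ ∘ δ` lies in the ideal on the level `s` for the rows with `Q` and the targets with `P`. -/
def LevQ (D : ℕ → Lw) (T S s a N : ℕ) (Q : ℕ → (ℕ →₀ ℕ) → Prop) (P : ℕ → Prop) : Prop :=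
  ∀ g g'' : Io S, (g.1 : ℕ) = s → (g''.1 : ℕ) = s + 2 → P g''.2 → ∀ K : ℕ →₀ ℕ, Q g.2 K →
    K.support ⊆ Finset.range 4 → tdeg K + gw s g.2 ≤ T →
      RR 3 (delta2 D T S) (delta2 D T S) g g'' K ∈ JJ 3 K9 a N

theorem RR_wt2 {δ : Mat (Io S) (Av K9)} (hH : HomD 3 (Gam S) δ) (g g'' : Io S) {K : ℕ →₀ ℕ}
    (hK : K.support ⊆ Finset.range 4) : RR 3 δ δ g g'' K ∈
      (gA 3 K9).G (2 * ((tdeg K + gw g.1 g.2 : ℕ) : ℤ) - 2 * (gw g''.1 g''.2 : ℤ)) := by
  have h := RR_mem 3 hH hH g g'' K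
  rw [mz_eq hK, Gam_wt, Gam_wt] at h
  exact Grd.cast _ h (by push_cast; ring)

variable {Q : ℕ → (ℕ →₀ ℕ) → Prop}

/-- **one group of targets** -/
theorem levQ_grp (hH : HomD 3 (Gam S) (delta2 D T S)) {Z : Zc} {s : ℕ} (hY : layOK Z.U.Y = true)
    (hT : Z.U.Y.T = T) (hG : grp2 Z (D (s + 1)) = true) (hg : gtOK2 (s + 1) (D (s + 1)) = true)
    (hc : FinOK Z.U s Q) (hR : RowOK2 Z.U D T S s) :
    LevQ D T S s Z.U.Y.a Z.U.Y.N Q fun k => nth 0 Z.gm k = Z.gam :=
  fun g g'' e1 e2 hP K hQ hK hd => by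
    obtain ⟨F, R, hF⟩ := hR g g'' e1 e2 K hK (hT ▸ hd)
    have h6 := RR_wt2 hH g g'' hK
    rw [e1, e2, ← gtOK2_spec hg _ g''.2.2] at h6
    refine mem_of_fin2 hY R (hc g.2 g.2.2 K hQ (hT ▸ hd)) (hT ▸ hd) g''.2.2 h6 hF
      fun J hJ a _ b => ?_
    have h0 : J 3 = 0 := by_contra fun c =>
      hJ (coeff_of_pi3 (pi3_RR 3 pi3_dl2 pi3_dl2 g g'' hK) c)
    rw [h0]
    exact ent_mem2 hY hG g''.2.2 a hP (by omega)

/-- **all groups of a level** -/
theorem levQ_all (hH : HomD 3 (Gam S) (delta2 D T S)) {s a N : ℕ} {gm gams : List ℕ}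
    (hc : covG s T gm gams = true)
    (h : ∀ gam ∈ gams, LevQ D T S s a N Q fun k => nth 0 gm k = gam) :
    LevQ D T S s a N Q fun _ => True := fun g g'' e1 e2 _ K hQ hK hd => by
  have h1 := allN_iff.1 hc g''.2 g''.2.2
  rw [Bool.or_eq_true, Nat.blt_eq] at h1
  rcases h1 with h1 | h1
  · have h6 := RR_wt2 hH g g'' hK
    rw [nonNeg_gA 3 _ _ h6 (by rw [e1, e2]; omega)]
    exact zero_mem _
  · exact h _ (memL_spec h1) g g'' e1 e2 rfl K hQ hK hd

theorem levQ_nil {s a N : ℕ} {gm : List ℕ} :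
    ∀ gam ∈ ([] : List ℕ), LevQ D T S s a N Q fun k => nth 0 gm k = gam := fun _ h => nomatch h

theorem levQ_cons {s a N gam : ℕ} {gm gams : List ℕ}
    (h : LevQ D T S s a N Q fun k => nth 0 gm k = gam)
    (h' : ∀ x ∈ gams, LevQ D T S s a N Q fun k => nth 0 gm k = x) :
    ∀ x ∈ gam :: gams, LevQ D T S s a N Q fun k => nth 0 gm k = x :=
  List.forall_mem_cons.2 ⟨h, h'⟩

/-- **all levels** -/
theorem rows_of (hH : HomD 3 (Gam S) (delta2 D T S)) (h94 : T ≤ 94) {a N : ℕ → ℕ}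
    {Q : ℕ → ℕ → (ℕ →₀ ℕ) → Prop}
    (h : ∀ s < S, LevQ D T S s (a (s + 1)) (N (s + 1)) (Q s) fun _ => True) (g g'' : Io S)
    (K : ℕ →₀ ℕ) (hQ : Q g.1 g.2 K) (hK : mz 3 K + (Gam S).wt g ≤ 2 * T) :
    RR 3 (delta2 D T S) (delta2 D T S) g g'' K ∈ JJ 3 K9 (a (g.1 + 1)) (N (g.1 + 1)) := by
  by_cases e : (g''.1 : ℕ) = g.1 + 2
  · rw [Gam_wt] at hK
    have h4' : K.support ⊆ Finset.range 4 := P236M.supp_of_mz (p := 3) (by
      rw [show wz 3 4 = 242 from rfl]
      omega)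
    rw [mz_eq h4'] at hK
    exact h g.1 (by have := g''.1.2; omega) g g'' rfl e trivial K hQ h4' (by omega)
  · rw [RR_deg 3 hH hH e]
    exact zero_mem _

/-- **all levels, all rows** -/
theorem sqIn_of2 (hH : HomD 3 (Gam S) (delta2 D T S)) (h94 : T ≤ 94) {a N : ℕ → ℕ}
    (h : ∀ s < S, LevQ D T S s (a (s + 1)) (N (s + 1)) (fun _ _ => True) fun _ => True) :
    SqIn 3 (Gam S) (delta2 D T S) (fun s => JJ 3 K9 (a s) (N s)) (2 * T) := fun g g'' K hK =>
  rows_of hH h94 (Q := fun _ _ _ => True) h g g'' K trivial hK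

end Vale.Agent.P236X
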