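import Vale.Agent.P236X.Chain2
import Vale.Agent.P236X.Dcz
import Vale.Agent.P236X.Fin2
import Vale.Agent.P236N.Bar2

/-!
# P236 / X : one statement for each level
-/

noncomputable section

namespace Vale.Agent.P236X

open MvPolynomial Vale.Agent.P236A Vale.Agent.P236B Vale.Agent.P236C Vale.Agent.P236N

/-- the data `L` of the level `s` and the tables of `Zs` are consistent -/
structure DatOK (L : Lw) (T s : ℕ) (Zs : List Zc) : Prop where
  gt : gtOK2 s L = true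
  w : WOK L T s
  rc : RcOK (rcB s) L T s
  z : ∀ D : ℕ → Lw, D s = L → ∀ Z ∈ Zs, layOK Z.U.Y = true → Z.U.Y.T = T → grp2 Z L = true →
    ZOK Z.U D T s

/-- the side conditions of the checks of the data -/
def datB (L : Lw) (gs : List Nat) (T s : Nat) (its : List Nat) : Bool :=
  gtOK2 s L && gsOK s gs && covI s T its && Nat.ble T 94

theorem datOK_of {L : Lw} {gs its : List ℕ} {T s : ℕ} {Zs : List Zc}
    (hc : dcU L gs T Zs (rcB s) its = true) (hb : datB L gs T s its = true) : DatOK L T s Zs := by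
  simp only [datB, Bool.and_eq_true, Nat.ble_eq] at hb
  obtain ⟨⟨⟨h1, h2⟩, h3⟩, h4⟩ := hb
  refine ⟨h1, dc_w hc h2 h3 h4, fun _ he _ _ ha hd => dc_rc hc h2 h3 h4 he ha hd, ?_⟩
  rintro D rfl Z hZ hY hT hG
  exact dc_z hc h2 h3 h4 hZ hY hT hG

theorem DatOK.append {L : Lw} {T s : ℕ} {Zs Zs' : List Zc} (h : DatOK L T s Zs)
    (h' : DatOK L T s Zs') : DatOK L T s (Zs ++ Zs') :=
  ⟨h.gt, h.w, h.rc, fun D e Z hZ => (List.mem_append.1 hZ).elim (h.z D e Z) (h'.z D e Z)⟩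

/-- the side conditions of one group -/
def grpB (L' : Lw) (T s a N : Nat) (Z : Zc) : Bool :=
  layOK Z.U.Y && Nat.beq Z.U.Y.T T && Nat.beq Z.U.Y.a a && Nat.beq Z.U.Y.N N && gsOK s Z.U.gs &&
    grp2 Z L'

/-- the side conditions of a level; the groups cover all targets -/
def sideB (L' : Lw) (T s a N : Nat) (Zs : List Zc) : Bool :=
  allL (grpB L' T s a N) Zs &&
    allN (fun k => Nat.blt T (gw (s + 2) k) || !allL (fun Z => !Nat.beq (zg Z k) Z.gam) Zs) 64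

theorem grpB_spec {L' : Lw} {T s a N : ℕ} {Z : Zc} (h : grpB L' T s a N Z = true) :
    layOK Z.U.Y = true ∧ Z.U.Y.T = T ∧ Z.U.Y.a = a ∧ Z.U.Y.N = N ∧ gsOK s Z.U.gs = true ∧
      grp2 Z L' = true := by
  simpa only [grpB, Bool.and_eq_true, Nat.beq_eq, and_assoc] using h

theorem sideB_spec {L' : Lw} {T s a N : ℕ} {Zs : List Zc} (h : sideB L' T s a N Zs = true) :
    (∀ Z ∈ Zs, grpB L' T s a N Z = true) ∧
      ∀ k < 64, gw (s + 2) k ≤ T → ∃ Z ∈ Zs, nth 0 Z.gm k = Z.gam := by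
  rw [sideB, Bool.and_eq_true, allL_iff, allN_iff] at h
  refine ⟨h.1, fun k hk hT => by_contra fun c => ?_⟩
  have h1 := h.2 k hk
  rw [Bool.or_eq_true, Nat.blt_eq, allL_iff.2 fun Z hZ => ?_] at h1
  · exact h1.elim (by omega) fun h => nomatch h
  · rw [Bool.not_eq_true', ← Bool.not_eq_true, Nat.beq_eq]
    exact fun e => c ⟨Z, hZ, e⟩

/-- the final tests of one group succeed -/
def UnOK (L : Lw) (B : Prg2) (M : List (List ℕ)) (s : ℕ) (Z : Zc) : Prop :=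
  Z.U.L0 = L ∧ Z.U.B = B ∧ (Z.U.Y.T ≤ 94 → gsOK s Z.U.gs = true → FinOK Z.U s (InR M))

theorem unOK_of {L : Lw} {B : Prg2} {M : List (List ℕ)} {s : ℕ} {Z : Zc} {its : List ℕ}
    (e : Z.U.L0 = L) (e' : Z.U.B = B) (hI : covM M its = true) (hc : cmU Z.U M its = true) :
    UnOK L B M s Z := ⟨e, e', fun h94 hs => finOK_of_cmU h94 hs hI hc⟩

theorem unOK_of' {L : Lw} {B : Prg2} {M : List (List ℕ)} {s : ℕ} {Z : Zc} {ims : List ℕ}
    (e : Z.U.L0 = L) (e' : Z.U.B = B) (hI : covO M ims = true) (hc : ckUm Z.U ims = true) :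
    UnOK L B M s Z := ⟨e, e', fun h94 hs => finOK_of_ckUm h94 hs hI hc⟩

theorem all_nil {α : Type} {P : α → Prop} : ∀ x ∈ ([] : List α), P x := fun _ h => nomatch h

theorem all_cons {α : Type} {P : α → Prop} {a : α} {l : List α} (h : P a) (h' : ∀ x ∈ l, P x) :
    ∀ x ∈ a :: l, P x := List.forall_mem_cons.2 ⟨h, h'⟩

/-- the checks of the level `s` succeed; `L` and `L'` are the data of the levels `s` and `s + 1` -/
def LvOK (L L' : Lw) (M : List (List ℕ)) (T s a N : ℕ) (Zs : List Zc) : Prop :=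
  sideB L' T s a N Zs = true ∧ ∃ B, PrgOK2 a N B ∧ ∀ Z ∈ Zs, UnOK L B M s Z

theorem lvOK_of {L L' : Lw} {M : List (List ℕ)} {T s a N : ℕ} {Zs : List Zc} {B : Prg2}
    (P : PrgOK2 a N B) (hb : sideB L' T s a N Zs = true) (h : ∀ Z ∈ Zs, UnOK L B M s Z) :
    LvOK L L' M T s a N Zs := ⟨hb, B, P, h⟩

variable {D : ℕ → Lw} {T S s a N : ℕ} {M : List (List ℕ)} {Zs Zs' : List Zc}

theorem rowOK2_ctx (hH : HomD 3 (Gam S) (delta2 D T S)) {U : Ctw} (h : CtxOK2 U D T s)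
    (P : PrgOK2 U.Y.a U.Y.N U.B) : RowOK2 U D T S s :=
  rowOK2_of hH (layP h.lay).top (fun _ he => r11_of h P he) fun _ _ _ => rfl

/-- **one level** -/
theorem LvOK.levQ (hH : HomD 3 (Gam S) (delta2 D T S)) (d : DatOK (D s) T s Zs)
    (d' : DatOK (D (s + 1)) T (s + 1) Zs') (h : LvOK (D s) (D (s + 1)) M T s a N Zs') :
    LevQ D T S s a N (InR M) fun _ => True := fun g g'' e1 e2 _ K hQ hK hd => by
  obtain ⟨hb, B, P, hu⟩ := h
  obtain ⟨b1, b2⟩ := sideB_spec hb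
  by_cases h1 : gw (s + 2) g''.2 ≤ T
  · obtain ⟨Z, hZ, hg⟩ := b2 g''.2 g''.2.2 h1
    obtain ⟨c1, c2, rfl, rfl, c5, c6⟩ := grpB_spec (b1 Z hZ)
    obtain ⟨u1, rfl, u3⟩ := hu Z hZ
    exact levQ_grp hH c1 c2 c6 d'.gt (u3 (layP c1).top c5)
      (rowOK2_ctx hH ⟨c1, c2.le, u1, d.gt, c5, d.w, d'.z D rfl Z hZ c1 c2 c6⟩ P)
      g g'' e1 e2 hg K hQ hK hd
  · have h6 := RR_wt2 hH g g'' hK
    rw [nonNeg_gA 3 _ _ h6 (by rw [e1, e2]; omega)]
    exact zero_mem _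

/-- the tables for the functionals of the matrix on the level `s + 1` -/
theorem LvOK.tab {L : Lw} (d' : DatOK (D (s + 1)) T (s + 1) Zs')
    (h : LvOK L (D (s + 1)) M T s a N Zs') (hL : gtOK2 s L = true) {Z : Zc} (hZ : Z ∈ Zs') {k : ℕ}
    (hk : k < 64) : Tab2 Z.U.Y (F1 Z.U k) (gw (s + 1) k) 10 fun k2 =>
      P236M.Th 3 (xq _ _) (dOp2 D T (s + 1) k k2) := by
  obtain ⟨hb, B, P, hu⟩ := h
  obtain ⟨c1, c2, rfl, rfl, c5, c6⟩ := grpB_spec ((sideB_spec hb).1 Z hZ)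
  obtain ⟨rfl, rfl, -⟩ := hu Z hZ
  exact f1_tab c1 P (d'.z D rfl Z hZ c1 c2 c6) (gtOK2_spec hL k hk) hk

variable {Z : ℕ → List Zc}

theorem homD_of (d : ∀ s ≤ S, DatOK (D s) T s (Z s)) : HomD 3 (Gam S) (delta2 D T S) :=
  homD_delta2 fun s hs => gtOK2_spec (d s hs).gt

theorem bar_of (hT : T ≤ 127) (d : ∀ s ≤ S, DatOK (D s) T s (Z s)) :
    bar 3 P236T.r3 (delta2 D T S) = xi0 S :=
  bar_delta2 hT (fun s hs => gtOK2_spec (d s hs).gt) fun s hs => (d s hs).rc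

theorem levQ_of {a N : ℕ → ℕ} {M : ℕ → List (List ℕ)} (d : ∀ s ≤ S, DatOK (D s) T s (Z s))
    (h : ∀ s < S, LvOK (D s) (D (s + 1)) (M s) T s (a (s + 1)) (N (s + 1)) (Z (s + 1))) :
    ∀ s < S, LevQ D T S s (a (s + 1)) (N (s + 1)) (InR (M s)) fun _ => True := fun s hs =>
  (h s hs).levQ (homD_of d) (d s hs.le) (d (s + 1) hs)

end Vale.Agent.P236X
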