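import Vale.Agent.P236X.Dv3
import Vale.Agent.P236X.Sem2

/-!
# P236 / X : the tables of the second and of the third version, definitions
-/

namespace Vale.Agent.P236X

/-- a second key without the digit `3` -/
def IsR (x : ℕ) : Prop := IsX x ∧ fld x 3 = 0

/-- The two tables have the same entries; `b` is the degree of the generator. -/
def Eqv (b : ℕ) (Z3 : Tc) (Z2 : Tb) : Prop :=
  ∀ a x n, IsI a → IsR x → b + cdeg a + cdeg x + n ≤ 94 →
    Z3 a x (b + cdeg a + cdeg x + n) = Z2 a (x + n * 562949955518464)

end Vale.Agent.P236X
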