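import Vale.Agent.P236X.Chain2
import Vale.Agent.P236X.BrD
import Vale.Agent.P236X.Br

/-!
# P236 / X : the stages of the second and of the third version have the same entries
-/

namespace Vale.Agent.P236X

variable {Y : Lay} {Z3 : Tc} {Z2 : Tb} {a x b d n s V W f w u δ j : ℕ}

theorem Eqv.ap (h : Eqv b Z3 Z2) (ha : IsI a) (hx : IsR x) (n : ℕ) {y : ℕ}
    (e : d = b + cdeg a + cdeg x + n) (e' : y = x + n * 562949955518464) (h2 : d ≤ 94) :
    Z3 a x d = Z2 a y := by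
  subst e e'
  exact h a x n ha hx h2

theorem ksb_eq (d c : ℕ) : ksb d c = d - c := by cases c <;> rfl

theorem key_add {y : ℕ} (hx : cdeg x = mdeg x) (hy : cdeg y = mdeg y) (h : cdeg x + cdeg y < 128) :
    cdeg (x + y) = cdeg x + cdeg y ∧ cdeg (x + y) = mdeg (x + y) ∧
      ∀ i < 7, fld (x + y) i = fld x i + fld y i := by
  have m : ∀ j < 7, fld x j + fld y j < 128 := fun j hj => by
    have := (fld_le x hj).2
    have := (fld_le y hj).2
    omega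
  exact ⟨cdeg_add m, by rw [cdeg_add m, mdeg_add m, hx, hy], fun i => fld_add m⟩

theorem IsI.add {y : ℕ} (hx : IsI x) (hy : IsI y) (h : cdeg x + cdeg y < 128) :
    IsI (x + y) ∧ cdeg (x + y) = cdeg x + cdeg y := by
  obtain ⟨k1, k2, k3⟩ := key_add hx.1 hy.1 h
  refine ⟨⟨k2, ?_, ?_, ?_, ?_⟩, k1⟩ <;> rw [k3 _ (by omega)]
  exacts [by rw [hx.2.1, hy.2.1], by rw [hx.2.2.1, hy.2.2.1], by rw [hx.2.2.2.1, hy.2.2.2.1],
    by rw [hx.2.2.2.2, hy.2.2.2.2]]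

theorem IsR.add {y : ℕ} (hx : IsR x) (hy : IsR y) (h : cdeg x + cdeg y < 128) :
    IsR (x + y) ∧ cdeg (x + y) = cdeg x + cdeg y := by
  obtain ⟨k1, k2, k3⟩ := key_add hx.1.1 hy.1.1 h
  refine ⟨⟨⟨k2, ?_, ?_, ?_⟩, ?_⟩, k1⟩ <;> rw [k3 _ (by omega)]
  exacts [by rw [hx.1.2.1, hy.1.2.1], by rw [hx.1.2.2.1, hy.1.2.2.1],
    by rw [hx.1.2.2.2, hy.1.2.2.2], by rw [hx.2, hy.2]]

theorem isR_part (h : cdeg δ = mdeg δ) : IsR (partR δ) ∧
    cdeg (partI δ) + cdeg (partR δ) + fld δ 3 = cdeg δ ∧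
      partR δ + fld δ 3 * 562949955518464 = partX δ := by
  have e := code_eq δ
  have e1 : partR δ = partX δ - fld δ 3 * 562949955518464 := rfl
  unfold mdeg at h
  have e2 := partX_eq δ
  have e3 := partI_eq δ
  have := mk7 (c := partR δ) (c0 := 0) (c1 := 0) (c2 := 0) (c3 := 0)
    (d := 4 * fld δ 4 + 13 * fld δ 5 + 40 * fld δ 6) (by omega) (by omega) (by omega) (by omega)
    (fld_lt δ 4) (fld_lt δ 5) (fld_lt δ 6) (by omega)
  have := (isI_part δ).2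
  unfold IsR IsX mdeg
  omega

/-- the digit `3` -/
theorem IsR.shift (hx : IsR x) (h : n < 128) : cdeg (x + n * 562949955518464) = cdeg x + n ∧
    ∀ i, 4 ≤ i → i < 7 → fld (x + n * 562949955518464) i = fld x i := by
  have e := code_eq x
  have := hx.2
  have := mk7 (c := x + n * 562949955518464) (c3 := n) (d := cdeg x + n) (fld_lt x 0) (fld_lt x 1)
    (fld_lt x 2) h (fld_lt x 4) (fld_lt x 5) (fld_lt x 6) (by omega)
  refine ⟨by omega, fun i h1 h2 => ?_⟩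
  interval_cases i <;> omega

theorem term_eqv (h : Eqv b Z3 Z2) (ha : IsI a) (hx : IsR x) {o E : ℕ} (k : okT W o δ E = true)
    (e : d = b + cdeg a + cdeg x + n + W) (h2 : d ≤ 94) :
    Z3 (kad a (partI δ)) (kad x (partR δ)) (ksb d (Nat.sub W (cdeg δ))) =
      Z2 (kad a (partI δ)) (kad (x + n * 562949955518464) (partX δ)) := by
  simp only [okT, Bool.and_eq_true, Nat.beq_eq] at k
  obtain ⟨r1, r2, r3⟩ := isR_part k.1
  obtain ⟨a1, a2⟩ := ha.add (isI_part δ).1 (by omega)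
  obtain ⟨x1, x2⟩ := hx.add r1 (by omega)
  rw [kad_eq, kad_eq, kad_eq, ksb_eq, Nat.sub_eq]
  exact h.ap a1 x1 (n + fld δ 3) (by omega) (by omega) (by omega)

section eqs

variable (Y Z3 a x d W δ) (E : ℕ) (p p' : Pg)

theorem run3_t : (run3 W (.t δ E) Y Z3).1 a x d =
    Z3 (kad a (partI δ)) (kad x (partR δ)) (ksb d (Nat.sub W (cdeg δ))) := rfl
theorem run3_at : (run3 W (.at δ E p) Y Z3).1 a x d = (run3 W p Y Z3).1 a x d +
    Z3 (kad a (partI δ)) (kad x (partR δ)) (ksb d (Nat.sub W (cdeg δ))) := rfl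
theorem run3_add : (run3 W (.add p p') Y Z3).1 a x d =
    (run3 W p Y Z3).1 a x d + (run3 W p' Y Z3).1 a x d := rfl
theorem run3_mul : (run3 W (.mul E p) Y Z3).1 a x d = E * (run3 W p Y Z3).1 a x d := rfl
theorem run3_fold : (run3 W (.fold E p) Y Z3).1 a x d =
    fold ((run3 W p Y Z3).1 a x d) (mo Y d E) := rfl
theorem run3_qs : (run3 W (.qs E p) Y Z3).1 a x d =
    qst ((run3 W p Y Z3).1 a x d) (mo Y d E) (oo Y d E) := rfl
theorem run3_mv : (run3 W (.mv E p) Y Z3).1 a x d = mv Y E ((run3 W p Y Z3).1 a x d) := rfl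
theorem run3_mw : (run3 W (.mw E p) Y Z3).1 a x d = mw Y E ((run3 W p Y Z3).1 a x d) := rfl

variable (D : ℕ → Ds) (β : Prog3) (βs : List Prog3)

/-- the table with `j + 1` factors -/
noncomputable def lev3 (j : ℕ) : Bx Tc :=
  Nat.rec (motive := fun _ => Bx Tc) (β Y Z3) (stp β Y) j

theorem it3_eq : (it3 D β Y Z3).1 a x d = (D x).1 (Nat.mod (Z3 a x d) 0)
    fun j x => Nat.mod ((lev3 Y Z3 β j).1 a x d) 0 := rfl
theorem ia3_eq : (ia3 D β Y Z3).1 a x d = (D a).1 (Nat.mod (Z3 a x d) 0)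
    fun j a => Nat.mod ((lev3 Y Z3 β j).1 a x d) 0 := rfl
theorem dr3_eq : (dr3 D βs Y Z3).1 a x d = (D x).1 (Nat.mod (Z3 a x d) 0)
    fun j x => (drB βs Y Z3 j).1 a x d := rfl
theorem rd3_eq : (rd3 Y Z3).1 a x d = qst (Z3 a x d) (m63 Y d) (o12 Y d) := rfl

theorem drX_val (l : List Prog2) : drX Y l s u b Z2 a x = (dsp s u x).1 (Nat.mod (Z2 a x) 0)
    fun j x' => (nthB l (j + 1)).1 Y Z2 (b + cdeg a + cdeg x) a x' := by
  unfold drX
  exact congrArg _ (funext fun _ => funext fun _ => rfl)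

end eqs

/-- **The two versions of a program have the same values.** -/
theorem run_eqv (h : Eqv b Z3 Z2) (ha : IsI a) (hx : IsR x) (e : d = b + cdeg a + cdeg x + n + W)
    (h2 : d ≤ 94) (p : Pg) : ∀ {o : ℕ}, p.ok V W o = true →
      (run3 W p Y Z3).1 a x d = run2 p Y Z2 d a (x + n * 562949955518464) := by
  induction p with
  | zero => exact fun _ => rfl
  | t δ E => exact fun k => by rw [run2_t, run3_t, term_eqv h ha hx k e h2]
  | add p p' ih ih' =>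
    intro o k
    simp only [Pg.ok, Bool.and_eq_true] at k
    rw [run2_add, run3_add, ih k.1.1, ih' k.1.2]
  | mul m p ih =>
    intro o k
    simp only [Pg.ok, Bool.and_eq_true] at k
    rw [run2_mul, run3_mul, ih k.1]
  | fold o' p ih =>
    intro o k
    simp only [Pg.ok, Bool.and_eq_true] at k
    rw [run2_fold, run3_fold, ih k.2]
  | qs o' p ih =>
    intro o k
    simp only [Pg.ok, Bool.and_eq_true] at k
    rw [run2_qs, run3_qs, ih k.1.2]
  | mv L p ih =>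
    intro o k
    simp only [Pg.ok, Bool.and_eq_true] at k
    rw [run2_mv, run3_mv, ih k.1.1.1]
  | mw L p ih =>
    intro o k
    simp only [Pg.ok, Bool.and_eq_true] at k
    rw [run2_mw, run3_mw, ih k.1.1.1.1]
  | _ δ E p ih =>
    intro o k
    simp only [Pg.ok, Bool.and_eq_true] at k
    rw [run2_at, run3_at, ih k.1.2, term_eqv h ha hx k.1.1 e h2]

theorem lev_eqv (h : Eqv b Z3 Z2) {p : Pg} (k : p.ok V w 0 = true) (j : ℕ) :
    Eqv (b + (j + 1) * w) (lev3 Y Z3 (run3 w p) j).1 (levB Y (run2 p) w b Z2 j).1 := by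
  induction j with
  | zero =>
    intro a x n ha hx h2
    rw [levB_zero, (hx.shift (by omega)).1,
      show b + w + cdeg a + (cdeg x + n) = b + (0 + 1) * w + cdeg a + cdeg x + n by omega]
    exact run_eqv h ha hx (by omega) h2 p k
  | succ j ih =>
    intro a x n ha hx h2
    rw [levB_succ, (hx.shift (by omega)).1, ← add_assoc]
    exact run_eqv ih ha hx (by ring) h2 p k

theorem delR (Y : Lay) (hf : 4 ≤ f ∧ f < 7) (hx : IsR x) (hj : fld x f = j)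
    (hu : u = 128 ^ f + wgt f * 128 ^ 7) :
    IsR (x - j * u) ∧ cdeg (x - j * u) + j * wgt f = cdeg x ∧ j * u ≤ x := by
  subst hj hu
  have m := (fld_le x hf.2).1
  rw [← hx.1.1] at m
  obtain ⟨k1, k2⟩ := code_del hf.2 m
  have k3 := del_ok (Y := Y) (b := 0) hf.2 (hx.1.1.trans (zero_add _).symm) rfl
  have z : ∀ i < 4, fld x i = 0 → fld (x - fld x f * (128 ^ f + wgt f * 128 ^ 7)) i = 0 :=
    fun i hi h0 => by rw [k1 i (by omega), if_neg (by omega), h0]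
  refine ⟨⟨⟨k3.1.trans (zero_add _), z 0 (by omega) hx.1.2.1, z 1 (by omega) hx.1.2.2.1,
    z 2 (by omega) hx.1.2.2.2⟩, z 3 (by omega) hx.2⟩, k3.2.1, ?_⟩
  have e := code_eq x
  rw [mul_add, ← mul_assoc]
  generalize fld x f * wgt f = v at m
  obtain ⟨f1, f2⟩ := hf
  interval_cases f <;> omega

variable {D : ℕ → Ds}

theorem it3_eqv {β3 : Prog3} {β2 : Prog2} (P : ItB β3 β2 w) (hD : ∀ c, D c = dsp s u c)
    (e : 4 ≤ f ∧ f < 7 ∧ w = wgt f ∧ s = 7 * f ∧ u = 128 ^ f + wgt f * 128 ^ 7) (h : Eqv b Z3 Z2) :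
    Eqv b (it3 D β3 Y Z3).1 (itX Y β2 s w u b Z2) := by
  obtain ⟨p, V, rfl, rfl, k⟩ := P
  obtain ⟨f1, f2, rfl, rfl, hu⟩ := e
  intro a x n ha hx h2
  have e1 := (hx.shift (n := n) (by omega)).2 f f1 f2
  rw [it3_eq, hD, itX]
  rcases hj : fld x f with _ | j
  · rw [dsp_zero hj, dsp_zero (e1.trans hj), h a x n ha hx h2]
  · obtain ⟨k1, k2, k3⟩ := delR Y ⟨f1, f2⟩ hx hj hu
    rw [dsp_succ hj, dsp_succ (e1.trans hj),
      (lev_eqv h k j).ap ha k1 n (by omega) (Nat.sub_add_comm k3) h2]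

theorem ia3_eqv {β3 : Prog3} {β2 : Prog2} (P : ItB β3 β2 w) (hD : ∀ c, D c = dsp s u c)
    (e : f < 3 ∧ w = wgt f ∧ s = 7 * f ∧ u = 128 ^ f + wgt f * 128 ^ 7) (h : Eqv b Z3 Z2) :
    Eqv b (ia3 D β3 Y Z3).1 (itA Y β2 s w u b Z2) := by
  obtain ⟨p, V, rfl, rfl, k⟩ := P
  obtain ⟨f1, rfl, rfl, hu⟩ := e
  intro a x n ha hx h2
  rw [ia3_eq, hD, itA]
  rcases hj : fld a f with _ | j
  · rw [dsp_zero hj, dsp_zero hj, h a x n ha hx h2]
  · obtain ⟨k1, k2, -⟩ := delA (Y := Y) f1 ha hx.1 hj (a' := a - (j + 1) * u) (by rw [hu])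
    rw [dsp_succ hj, dsp_succ hj, (lev_eqv h k j).ap k1 hx n (by omega) rfl h2]

/-- the program for the power `j + 1` -/
theorem drB_eqv {l3 : List Prog3} {l2 : List Prog2} (P : DiB l3 l2 w) (h : Eqv b Z3 Z2)
    (ha : IsI a) (hx : IsR x) (e : d = b + cdeg a + cdeg x + n + (j + 1) * w) (h2 : d ≤ 94) :
    (drB l3 Y Z3 j).1 a x d = (nthB l2 (j + 1)).1 Y Z2 d a (x + n * 562949955518464) := by
  obtain ⟨p, V, e3, e2, k⟩ := P (j + 1) (by omega) (by omega)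
  rw [drB, e3, e2]
  exact run_eqv h ha hx e h2 p k

theorem dr3_eqv {l3 : List Prog3} {l2 : List Prog2} (P : DiB l3 l2 w) (hD : ∀ c, D c = dsp s u c)
    (e : 4 ≤ f ∧ f < 7 ∧ w = wgt f ∧ s = 7 * f ∧ u = 128 ^ f + wgt f * 128 ^ 7) (h : Eqv b Z3 Z2) :
    Eqv b (dr3 D l3 Y Z3).1 (drX Y l2 s u b Z2) := by
  obtain ⟨f1, f2, rfl, rfl, hu⟩ := e
  intro a x n ha hx h2
  obtain ⟨e0, e1⟩ := hx.shift (n := n) (by omega)
  rw [dr3_eq, hD, drX_val]
  rcases hj : fld x f with _ | j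
  · rw [dsp_zero hj, dsp_zero ((e1 f f1 f2).trans hj), h a x n ha hx h2]
  · obtain ⟨k1, k2, k3⟩ := delR Y ⟨f1, f2⟩ hx hj hu
    rw [dsp_succ hj, dsp_succ ((e1 f f1 f2).trans hj), drB_eqv (n := n) P h ha k1 (by omega) h2,
      e0, Nat.sub_add_comm k3, add_assoc (b + cdeg a)]

theorem rd3_eqv (h : Eqv b Z3 Z2) : Eqv b (rd3 Y Z3).1 (rdX Y b Z2) := fun a x n ha hx h2 => by
  rw [rd3_eq, rdX_eq, (hx.shift (by omega)).1, ← add_assoc, h a x n ha hx h2]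

variable {U : Ctv} {k : ℕ}

theorem ar_eqv (P : Br U.B U.U.B) (h : Eqv (gm U.U k) (Z03 U k).1 (Z02 U.U k)) :
    Eqv (gm U.U k) (AR U k).1 (FR U.U k) := by
  rw [FR_eq, F2_eq, F3_eq, F4_eq, H4_eq, H3_eq, AR, A2, A3, A4, J4, J3]
  exact rd3_eqv (it3_eqv (f := 4) P.w2 (fun _ => rfl) (by decide)
    (it3_eqv (f := 5) P.w3 (fun _ => rfl) (by decide) (it3_eqv (f := 6) P.w4 (fun _ => rfl)
    (by decide) (ia3_eqv (f := 2) P.g4 (fun _ => rfl) (by decide)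
    (ia3_eqv (f := 1) P.g3 (fun _ => rfl) (by decide) h)))))

theorem d12_eqv (P : Br U.B U.U.B) (h : Eqv (g0 U.U k) (Y3 U k).1 (Y2 U.U k)) :
    Eqv (g0 U.U k) (D12 U k).1 (R12 U.U k) := by
  rw [R12_eq, R13_eq, R14_eq, R22_eq, R23_eq, R24_eq, R33_eq, R34_eq, R44_eq, D12, D13, D14, D22,
    D23, D24, D33, D34, D44]
  exact it3_eqv (f := 4) P.b12 (fun _ => rfl) (by decide) (it3_eqv (f := 5) P.b13 (fun _ => rfl)
    (by decide) (it3_eqv (f := 6) P.b14 (fun _ => rfl) (by decide)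
    (dr3_eqv (f := 4) P.b22 (fun _ => rfl) (by decide) (it3_eqv (f := 5) P.b23 (fun _ => rfl)
    (by decide) (it3_eqv (f := 6) P.b24 (fun _ => rfl) (by decide)
    (dr3_eqv (f := 5) P.b33 (fun _ => rfl) (by decide) (it3_eqv (f := 6) P.b34 (fun _ => rfl)
    (by decide) (dr3_eqv (f := 6) P.b44 (fun _ => rfl) (by decide) h))))))))

theorem a1_eqv (P : Br U.B U.U.B) (h : Eqv (gm U.U k) (AR U k).1 (FR U.U k)) (ha : IsI a)
    (hx : IsR x) (e : d = gm U.U k + cdeg a + cdeg x + (j + 1)) (h2 : d ≤ 94) :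
    (A1 U k j).1 a x d = (F1b U.U j).1 U.U.Y (FR U.U k) d a x :=
  drB_eqv (n := 0) P.w1 h ha hx (by omega) h2

theorem d11_eqv (P : Br U.B U.U.B) (h : Eqv (g0 U.U k) (D12 U k).1 (R12 U.U k)) (ha : IsI a)
    (hx : IsR x) (e : d = g0 U.U k + cdeg a + cdeg x + (j + 1)) (h2 : d ≤ 94) :
    (D11 U k j).1 a x d = (R11b U.U j).1 U.U.Y (R12 U.U k) d a x :=
  drB_eqv (n := 0) P.b11 h ha hx (by omega) h2

end Vale.Agent.P236X
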