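import Vale.Agent.P236X.Stage
import Vale.Agent.P236X.PrgOK2

/-!
# P236 / X : soundness of the stages with two keys
-/

noncomputable section

namespace Vale.Agent.P236X

open MvPolynomial Vale.Agent.P236M

variable {Y : Lay} {Z : Tb} {a x b s V W c f w u δ : ℕ}
  {Φ : ℕ → Pb Y.a Y.N →ₗ[Ab Y.a Y.N] Ab Y.a Y.N} {q : Pb Y.a Y.N}

theorem kad_eq (a δ : ℕ) : kad a δ = a + δ := by cases δ <;> rfl

theorem mk7 {c0 c1 c2 c3 c4 c5 c6 d : ℕ} (h0 : c0 < 128) (h1 : c1 < 128) (h2 : c2 < 128)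
    (h3 : c3 < 128) (h4 : c4 < 128) (h5 : c5 < 128) (h6 : c6 < 128)
    (e : c = c0 + c1 * 128 + c2 * 128 ^ 2 + c3 * 128 ^ 3 + c4 * 128 ^ 4 + c5 * 128 ^ 5 +
      c6 * 128 ^ 6 + d * 128 ^ 7) : fld c 0 = c0 ∧ fld c 1 = c1 ∧ fld c 2 = c2 ∧ fld c 3 = c3 ∧
      fld c 4 = c4 ∧ fld c 5 = c5 ∧ fld c 6 = c6 ∧ cdeg c = d := by
  simp only [fld_eq, cdeg_eq]
  refine ⟨?_, ?_, ?_, ?_, ?_, ?_, ?_, ?_⟩ <;> omega

theorem md0 (a : ℕ) : Nat.mod a 0 = a := Nat.mod_zero a

theorem partI_eq (c : ℕ) : partI c = fld c 0 + fld c 1 * 128 + fld c 2 * 128 ^ 2 +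
    (4 * fld c 0 + 13 * fld c 1 + 40 * fld c 2) * 128 ^ 7 := by
  have e1 : Nat.land c 2097151 = c % 2 ^ 21 := Nat.and_two_pow_sub_one_eq_mod c 21
  have e2 : Nat.shiftLeft (degI c) 49 = degI c * 2 ^ 49 := Nat.shiftLeft_eq _ _
  have e3 : degI c = 4 * fld c 0 + 13 * fld c 1 + 40 * fld c 2 := rfl
  have e4 : c % 2 ^ 21 = fld c 0 + fld c 1 * 128 + fld c 2 * 128 ^ 2 := by
    simp only [fld_eq]
    omega
  have e5 : partI c = Nat.land c 2097151 + Nat.shiftLeft (degI c) 49 := by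
    unfold partI
    exact Nat.add_eq
  omega

theorem partX_eq (c : ℕ) : partX c = c - partI c := rfl

theorem part_le (h : cdeg c = mdeg c) : partI c ≤ c := by
  have := code_eq c
  rw [partI_eq]
  unfold mdeg at h
  omega

theorem isI_part (c : ℕ) :
    IsI (partI c) ∧ cdeg (partI c) = 4 * fld c 0 + 13 * fld c 1 + 40 * fld c 2 := by
  have := mk7 (c := partI c) (c3 := 0) (c4 := 0) (c5 := 0) (c6 := 0)
    (d := 4 * fld c 0 + 13 * fld c 1 + 40 * fld c 2) (fld_lt c 0) (fld_lt c 1)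
    (fld_lt c 2) (by omega) (by omega) (by omega) (by omega) (by rw [partI_eq]; omega)
  unfold IsI mdeg
  omega

theorem isX_part (h : cdeg c = mdeg c) :
    IsX (partX c) ∧ cdeg (partI c) + cdeg (partX c) = cdeg c := by
  have e := code_eq c
  unfold mdeg at h
  have := mk7 (c := partX c) (c0 := 0) (c1 := 0) (c2 := 0)
    (d := fld c 3 + 4 * fld c 4 + 13 * fld c 5 + 40 * fld c 6) (by omega) (by omega) (by omega)
    (fld_lt c 3) (fld_lt c 4) (fld_lt c 5) (fld_lt c 6) (by rw [partX_eq, partI_eq]; omega)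
  have := (isI_part c).2
  unfold IsX mdeg
  omega

theorem no_carry (ha : IsI a) (hx : IsX x) : ∀ j < 7, fld a j + fld x j < 128 := fun j hj => by
  obtain ⟨-, a3, a4, a5, a6⟩ := ha
  obtain ⟨-, x0, x1, x2⟩ := hx
  have := fld_lt a j
  have := fld_lt x j
  interval_cases j <;> omega

theorem part_of (ha : IsI a) (hx : IsX x) : partI (a + x) = a ∧ partX (a + x) = x := by
  have m := no_carry ha hx
  have e : partI (a + x) = a := by
    rw [partI_eq, fld_add m (i := 0) (by omega), fld_add m (i := 1) (by omega),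
      fld_add m (i := 2) (by omega)]
    obtain ⟨a0, a3, a4, a5, a6⟩ := ha
    obtain ⟨-, x0, x1, x2⟩ := hx
    unfold mdeg at a0
    have := code_eq a
    omega
  exact ⟨e, by rw [partX_eq, e, Nat.add_sub_cancel_left]⟩

theorem part_add (m : ∀ j < 7, fld c j + fld δ j < 128) (hc : cdeg c = mdeg c)
    (hδ : cdeg δ = mdeg δ) :
    partI (c + δ) = partI c + partI δ ∧ partX (c + δ) = partX c + partX δ := by
  have e : partI (c + δ) = partI c + partI δ := by
    rw [partI_eq, partI_eq, partI_eq, fld_add m (i := 0) (by omega), fld_add m (i := 1) (by omega),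
      fld_add m (i := 2) (by omega)]
    omega
  have := part_le hc
  have := part_le hδ
  exact ⟨e, by rw [partX_eq, partX_eq, partX_eq, e]; omega⟩

/-- the table with one key -/
def jn (Z : Tb) (c : ℕ) : ℕ := Z (partI c) (partX c)

theorem jn_term (ha : IsI a) (hx : IsX x) {o E : ℕ} (k : okT W o δ E = true)
    (h2 : cdeg a + cdeg x + W < 128) :
    Z (kad a (partI δ)) (kad x (partX δ)) = jn Z (a + x + δ) := by
  simp only [okT, Bool.and_eq_true, Nat.beq_eq] at k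
  have m := no_carry ha hx
  have e1 := cdeg_add m
  have e2 := mdeg_add m
  have := ha.1
  have := hx.1
  have m' : ∀ j < 7, fld (a + x) j + fld δ j < 128 := fun j hj => by
    have := (fld_le (a + x) hj).2
    have := (fld_le δ hj).2
    omega
  obtain ⟨p1, p2⟩ := part_add m' (by omega) k.1
  rw [jn, p1, p2, (part_of ha hx).1, (part_of ha hx).2, kad_eq, kad_eq]

section eqs

variable (Y Z a x) (d δ E : ℕ) (p p' : Pg)

theorem run2_t : run2 (.t δ E) Y Z d a x = Z (kad a (partI δ)) (kad x (partX δ)) := rfl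
theorem run2_at : run2 (.at δ E p) Y Z d a x =
    run2 p Y Z d a x + Z (kad a (partI δ)) (kad x (partX δ)) := rfl
theorem run2_add : run2 (.add p p') Y Z d a x = run2 p Y Z d a x + run2 p' Y Z d a x := rfl
theorem run2_mul : run2 (.mul E p) Y Z d a x = E * run2 p Y Z d a x := rfl
theorem mo_eq : mo Y d E = m63 Y (d - E) := Nat.mod_zero _
theorem oo_eq : oo Y d E = o12 Y (d - E) := Nat.mod_zero _
theorem run2_fold : run2 (.fold E p) Y Z d a x = fold (run2 p Y Z d a x) (mo Y d E) := rfl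
theorem run2_qs : run2 (.qs E p) Y Z d a x = qst (run2 p Y Z d a x) (mo Y d E) (oo Y d E) := rfl
theorem run2_mv : run2 (.mv E p) Y Z d a x = mv Y E (run2 p Y Z d a x) := rfl
theorem run2_mw : run2 (.mw E p) Y Z d a x = mw Y E (run2 p Y Z d a x) := rfl

theorem levB_zero (β : Prog2) :
    (levB Y β w b Z 0).1 a x = β Y Z (b + w + cdeg a + cdeg x) a x := rfl
theorem levB_succ (β : Prog2) (j : ℕ) : (levB Y β w b Z (j + 1)).1 a x =
    β Y (levB Y β w b Z j).1 (b + (j + 2) * w + cdeg a + cdeg x) a x := rfl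
theorem rdX_eq : rdX Y b Z a x =
    qst (Z a x) (m63 Y (b + cdeg a + cdeg x)) (o12 Y (b + cdeg a + cdeg x)) := rfl

theorem nthB_eq (ps : List Pg) (j : ℕ) : (nthB (ps.map run2) j).1 = run2 (ps.getD j .zero) := by
  induction ps generalizing j with
  | nil => rfl
  | cons h t ih => cases j with
    | zero => rfl
    | succ j => exact ih j

end eqs

theorem dsp_zero (h : fld c f = 0) (z : ℕ) (g : ℕ → ℕ → ℕ) : (dsp (7 * f) u c).1 z g = z := by
  unfold dsp
  rw [show Nat.land (Nat.shiftRight c (7 * f)) 127 = fld c f from rfl, h]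
  rfl

theorem dsp_succ {j : ℕ} (h : fld c f = j + 1) (z : ℕ) (g : ℕ → ℕ → ℕ) :
    (dsp (7 * f) u c).1 z g = g j (c - (j + 1) * u) := by
  unfold dsp
  rw [show Nat.land (Nat.shiftRight c (7 * f)) 127 = fld c f from rfl, h]
  rfl

theorem run2_eq (ha : IsI a) (hx : IsX x) (h2 : cdeg a + cdeg x + W < 128) (d : ℕ) (p : Pg) :
    ∀ {o : ℕ}, p.ok V W o = true → run2 p Y Z d a x = run p Y (jn Z) (a + x) d := by
  induction p with
  | zero => exact fun _ => rfl
  | t δ E => exact fun k => by rw [run2_t, run_t, jn_term (Z := Z) ha hx k h2]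
  | add p p' ih ih' =>
    intro o k
    simp only [Pg.ok, Bool.and_eq_true] at k
    rw [run2_add, run_add, ih k.1.1, ih' k.1.2]
  | mul m p ih =>
    intro o k
    simp only [Pg.ok, Bool.and_eq_true] at k
    rw [run2_mul, run_mul, ih k.1]
  | fold o' p ih =>
    intro o k
    simp only [Pg.ok, Bool.and_eq_true] at k
    rw [run2_fold, run_fold, ih k.2, mo_eq]
  | qs o' p ih =>
    intro o k
    simp only [Pg.ok, Bool.and_eq_true] at k
    rw [run2_qs, run_qs, ih k.1.2, mo_eq, oo_eq]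
  | mv L p ih =>
    intro o k
    simp only [Pg.ok, Bool.and_eq_true] at k
    rw [run2_mv, run_mv, ih k.1.1.1]
  | mw L p ih =>
    intro o k
    simp only [Pg.ok, Bool.and_eq_true] at k
    rw [run2_mw, run_mw, ih k.1.1.1.1]
  | _ δ E p ih =>
    intro o k
    simp only [Pg.ok, Bool.and_eq_true] at k
    rw [run2_at, run_at, ih k.1.2, jn_term (Z := Z) ha hx k.1.1 h2]

/-- a table with two keys and a factor -/
def TabS2 (Y : Lay) (Z : Tb) (b V : ℕ) (Φ : ℕ → Pb Y.a Y.N →ₗ[Ab Y.a Y.N] Ab Y.a Y.N)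
    (q : Pb Y.a Y.N) : Prop :=
  ∀ a x, IsI a → IsX x → b + cdeg a + cdeg x ≤ Y.T →
    Rep Y (Z a x) (b + cdeg a + cdeg x) V fun i k => Φ k (X 0 ^ i * mono (a + x) * q)

theorem Tab2.tabS (h : Tab2 Y Z b V Φ) : TabS2 Y Z b V Φ 1 := fun a x h1 h2 h3 =>
  (h a x h1 h2 h3).cast rfl fun _ _ => by rw [mul_one]

theorem TabS2.jn (h : TabS2 Y Z b V Φ q) : TabS Y (jn Z) 0 b V Φ q := fun c h1 h2 => by
  rw [zero_add] at h1
  obtain ⟨k1, k2⟩ := isX_part h1
  have e : partI c + partX c = c := Nat.add_sub_cancel' (part_le h1)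
  exact (h _ _ (isI_part c).1 k1 (by omega)).cast (by omega) fun _ _ => by rw [e]

theorem run2_ok (A : Api Y) (h : TabS2 Y Z b V Φ q) {p : Pg} (k : p.ok V W 0 = true)
    (hb : p.bd V ≤ V) {d : ℕ} (ha : IsI a) (hx : IsX x) (e : d = b + cdeg a + cdeg x + W)
    (h2 : d ≤ Y.T) : Rep Y (run2 p Y Z d a x) d V
      fun i k => Φ k (X 0 ^ i * mono (a + x) * q * p.den (vq Y.a Y.N)) := by
  have hT := A.hT
  have m := no_carry ha hx
  have e1 := cdeg_add m
  have e2 := mdeg_add m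
  have := ha.1
  have := hx.1
  have r := A.le (run_okS A h.jn (c := a + x) (by omega) (by omega) p k) hb
  rw [run2_eq ha hx (by omega) d p k, show d = cdeg (a + x) + b + W by omega]
  exact r

theorem lev_tab (A : Api Y) (h : Tab2 Y Z b V Φ) {p : Pg} (k : p.ok V w 0 = true)
    (hb : p.bd V ≤ V) (j : ℕ) : TabS2 Y (levB Y (run2 p) w b Z j).1 (b + (j + 1) * w) V Φ
      (p.den (vq Y.a Y.N) ^ (j + 1)) := by
  induction j with
  | zero =>
    intro a x ha hx h2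
    rw [levB_zero]
    exact (run2_ok A h.tabS k hb ha hx (by omega) (by omega)).cast (by omega) fun _ _ => by simp
  | succ j ih =>
    intro a x ha hx h2
    rw [levB_succ]
    exact (run2_ok A ih k hb ha hx (by ring) h2).cast rfl fun _ _ => by
      rw [pow_succ _ (j + 1), mul_assoc (_ * _)]

/-- removal of a digit of `y` from `z + y` -/
theorem del2 {y z j : ℕ} (hf : f < 7) (hy : cdeg y = mdeg y) (hz : cdeg z = mdeg z)
    (h0 : fld z f = 0) (m : ∀ j < 7, fld z j + fld y j < 128) (hj : fld y f = j) {y' : ℕ}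
    (e : y' = y - j * (128 ^ f + wgt f * 128 ^ 7)) :
    cdeg y' = mdeg y' ∧ cdeg y' + j * wgt f = cdeg y ∧ (∀ i < 7, fld y i = 0 → fld y' i = 0) ∧
      ∀ (β : Pb Y.a Y.N) (i : ℕ),
        tau (f + 1) β (X 0 ^ i * mono (z + y)) = X 0 ^ i * mono (z + y') * β ^ j := by
  subst hj
  obtain ⟨k1, k2, k3⟩ := del_ok (Y := Y) (b := 0) hf (by omega) e
  have l := (code_del (c := y) (w := wgt f) hf (by omega)).1
  rw [← e] at l
  have l' : ∀ i < 7, fld y' i ≤ fld y i := fun i hi => by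
    rw [l i hi]
    split_ifs <;> omega
  refine ⟨by omega, k2, fun i hi h => by have := l' i hi; omega, fun β i => ?_⟩
  have k4 := (del_ok (Y := Y) (b := 0) (c := z) (c' := z) hf (by omega)
    (by rw [h0, zero_mul, Nat.sub_zero])).2.2 β 0
  rw [h0, pow_zero, pow_zero, one_mul, mul_one] at k4
  rw [mono_add m, mono_add fun i hi => by have := l' i hi; have := m i hi; omega, mul_left_comm,
    map_mul, k3, k4]
  ring

theorem delX {j : ℕ} (hf : 3 ≤ f ∧ f < 7) (ha : IsI a) (hx : IsX x) (hj : fld x f = j) {x' : ℕ}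
    (e : x' = x - j * (128 ^ f + wgt f * 128 ^ 7)) :
    IsX x' ∧ cdeg x' + j * wgt f = cdeg x ∧ ∀ (β : Pb Y.a Y.N) (i : ℕ),
      tau (f + 1) β (X 0 ^ i * mono (a + x)) = X 0 ^ i * mono (a + x') * β ^ j := by
  have h0 : fld a f = 0 := by
    obtain ⟨-, a3, a4, a5, a6⟩ := ha
    obtain ⟨f1, f2⟩ := hf
    interval_cases f <;> assumption
  obtain ⟨k1, k2, k3, k4⟩ := del2 (Y := Y) hf.2 hx.1 ha.1 h0 (no_carry ha hx) hj e
  exact ⟨⟨k1, k3 0 (by omega) hx.2.1, k3 1 (by omega) hx.2.2.1, k3 2 (by omega) hx.2.2.2⟩, k2, k4⟩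

theorem delA {j : ℕ} (hf : f < 3) (ha : IsI a) (hx : IsX x) (hj : fld a f = j) {a' : ℕ}
    (e : a' = a - j * (128 ^ f + wgt f * 128 ^ 7)) :
    IsI a' ∧ cdeg a' + j * wgt f = cdeg a ∧ ∀ (β : Pb Y.a Y.N) (i : ℕ),
      tau (f + 1) β (X 0 ^ i * mono (a + x)) = X 0 ^ i * mono (a' + x) * β ^ j := by
  have h0 : fld x f = 0 := by
    obtain ⟨-, a3, a4, a5⟩ := hx
    interval_cases f <;> assumption
  obtain ⟨k1, k2, k3, k4⟩ := del2 (Y := Y) (by omega) ha.1 hx.1 h0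
    (fun j hj => add_comm (fld a j) _ ▸ no_carry ha hx j hj) hj e
  exact ⟨⟨k1, k3 3 (by omega) ha.2.1, k3 4 (by omega) ha.2.2.1, k3 5 (by omega) ha.2.2.2.1,
    k3 6 (by omega) ha.2.2.2.2⟩, k2, fun β i => by rw [add_comm a, add_comm a', k4]⟩

theorem itX_ok {β : Prog2} (P : ItOK2 Y.a Y.N β w q) (hY : layOK Y = true)
    (e : 3 ≤ f ∧ f < 7 ∧ w = mdeg (128 ^ f) ∧ s = 7 * f ∧ u = 128 ^ f + w * 2 ^ 49)
    (h : Tab2 Y Z b 126 Φ) :
    Tab2 Y (itX Y β s w u b Z) b 126 fun k => Φ k ∘ₗ (tau (f + 1) q).toLinearMap := by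
  obtain ⟨p, rfl, p2, p3, rfl⟩ := P
  obtain ⟨f1, f2, hw, rfl, hu⟩ := e
  rw [wgt_eq f2] at hw
  have hu' : u = 128 ^ f + wgt f * 128 ^ 7 := hu.trans (by rw [hw]; norm_num)
  intro a x ha hx h2
  unfold itX
  rcases hj : fld x f with _ | j
  · rw [dsp_zero hj]
    obtain ⟨-, -, k3⟩ := delX (Y := Y) ⟨f1, f2⟩ ha hx hj (x' := x) (by rw [zero_mul, Nat.sub_zero])
    rw [md0]
    exact (h a x ha hx h2).cast rfl fun i k =>
      congrArg (Φ k) ((k3 _ i).trans (by rw [pow_zero, mul_one]))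
  · rw [dsp_succ hj]
    obtain ⟨k1, k2, k3⟩ := delX (Y := Y) ⟨f1, f2⟩ ha hx hj (x' := x - (j + 1) * u) (by rw [hu'])
    rw [← hw] at k2
    rw [md0]
    exact (lev_tab (api hY) h p2 p3 j a _ ha k1 (by omega)).cast (by omega)
      fun i k => congrArg (Φ k) (k3 _ i)

theorem itA_ok {β : Prog2} (P : ItOK2 Y.a Y.N β w q) (hY : layOK Y = true)
    (e : f < 3 ∧ w = mdeg (128 ^ f) ∧ s = 7 * f ∧ u = 128 ^ f + w * 2 ^ 49)
    (h : Tab2 Y Z b 126 Φ) :
    Tab2 Y (itA Y β s w u b Z) b 126 fun k => Φ k ∘ₗ (tau (f + 1) q).toLinearMap := by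
  obtain ⟨p, rfl, p2, p3, rfl⟩ := P
  obtain ⟨f1, hw, rfl, hu⟩ := e
  rw [wgt_eq (by omega)] at hw
  have hu' : u = 128 ^ f + wgt f * 128 ^ 7 := hu.trans (by rw [hw]; norm_num)
  intro a x ha hx h2
  unfold itA
  rcases hj : fld a f with _ | j
  · rw [dsp_zero hj]
    obtain ⟨-, -, k3⟩ := delA (Y := Y) f1 ha hx hj (a' := a) (by rw [zero_mul, Nat.sub_zero])
    rw [md0]
    exact (h a x ha hx h2).cast rfl fun i k =>
      congrArg (Φ k) ((k3 _ i).trans (by rw [pow_zero, mul_one]))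
  · rw [dsp_succ hj]
    obtain ⟨k1, k2, k3⟩ := delA (Y := Y) f1 ha hx hj (a' := a - (j + 1) * u) (by rw [hu'])
    rw [← hw] at k2
    rw [md0]
    exact (lev_tab (api hY) h p2 p3 j _ x k1 hx (by omega)).cast (by omega)
      fun i k => congrArg (Φ k) (k3 _ i)

theorem drX_ok {βs : List Prog2} (P : DiOK2 Y.a Y.N βs w V q) (hY : layOK Y = true)
    (e : 3 ≤ f ∧ f < 7 ∧ w = mdeg (128 ^ f) ∧ s = 7 * f ∧ u = 128 ^ f + w * 2 ^ 49)
    (h : Tab2 Y Z b V Φ) :
    Tab2 Y (drX Y βs s u b Z) b V fun k => Φ k ∘ₗ (tau (f + 1) q).toLinearMap := by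
  obtain ⟨ps, rfl, p2⟩ := P
  obtain ⟨f1, f2, hw, rfl, hu⟩ := e
  rw [wgt_eq f2] at hw
  have hu' : u = 128 ^ f + wgt f * 128 ^ 7 := hu.trans (by rw [hw]; norm_num)
  have hT := (lay_base hY).2.2.2.2.1
  intro a x ha hx h2
  unfold drX
  rcases hj : fld x f with _ | j
  · rw [dsp_zero hj]
    obtain ⟨-, -, k3⟩ := delX (Y := Y) ⟨f1, f2⟩ ha hx hj (x' := x) (by rw [zero_mul, Nat.sub_zero])
    rw [md0]
    exact (h a x ha hx h2).cast rfl fun i k =>
      congrArg (Φ k) ((k3 _ i).trans (by rw [pow_zero, mul_one]))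
  · rw [dsp_succ hj]
    obtain ⟨k1, k2, k3⟩ := delX (Y := Y) ⟨f1, f2⟩ ha hx hj (x' := x - (j + 1) * u) (by rw [hu'])
    rw [← hw] at k2
    obtain ⟨m1, m2, m3⟩ := p2 (j + 1) (by omega) (by omega)
    have r := run2_ok (api hY) h.tabS m1 m2 (d := b + cdeg a + cdeg x) ha k1 (by omega) h2
    rw [← nthB_eq] at r
    exact r.cast rfl fun i k => congrArg (Φ k) ((k3 _ i).trans (by rw [mul_one, ← m3]; rfl))

theorem rdX_ok (hY : layOK Y = true) (h : Tab2 Y Z b 126 Φ) : Tab2 Y (rdX Y b Z) b 10 Φ :=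
  fun a x ha hx h2 => rdX_eq Y Z a x ▸ (api hY).qst (h a x ha hx h2) h2 (by norm_num)

theorem Tab2.mono (h : Tab2 Y Z b V Φ) (k : V ≤ W) : Tab2 Y Z b W Φ :=
  fun a x ha hx h2 => (h a x ha hx h2).mono k

end Vale.Agent.P236X
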