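import Vale.Agent.P236X.Fin
import Vale.Agent.P236X.Sem2

/-!
# P236 / X : the functional of the table `Y2`
-/

noncomputable section

namespace Vale.Agent.P236X

open MvPolynomial Vale.Agent.P236A Vale.Agent.P236B Vale.Agent.P236C Vale.Agent.P236M
  Vale.Agent.P236N

variable {D : ℕ → Lw} {T S : ℕ}

theorem delta2_eq (g g' : Io S) :
    delta2 D T S g g' = if (g'.1 : ℕ) = g.1 + 1 then dOp2 D T g.1 g.2 g'.2 else 0 := rfl

/-- the functional on the pairs of arrows -/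
def Ymap2 (a N : ℕ) (D : ℕ → Lw) (T s e k : ℕ) : Pb a N →ₗ[Ab a N] Ab a N :=
  lin fun M => ∑ k' ∈ Finset.range 64, Th 3 (xq a N) (dOp2 D T (s + 1) k' k)
    (monomial (M.filter (· < 4)) 1 * ren (xq a N) (dOp2 D T s e k' (us M)))

variable {a N : ℕ}

theorem ymap2_eq (s e k : ℕ) {I : ℕ →₀ ℕ} (hI : I.support ⊆ Finset.range 4) (L : ℕ →₀ ℕ) :
    Ymap2 a N D T s e k (monomial (I + sh L) 1) = ∑ k' ∈ Finset.range 64,
      Th 3 (xq a N) (dOp2 D T (s + 1) k' k)
        (monomial I 1 * ren (xq a N) (dOp2 D T s e k' L)) := by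
  rw [Ymap2, lin_one, (split_sh hI L).1, (split_sh hI L).2]

/-- **The functional computes the square of the matrix.** -/
theorem ymap2_RR (hδ : HomD 3 (Gam S) (delta2 D T S)) (g g'' : Io S) (h : (g''.1 : ℕ) = g.1 + 2)
    {K : ℕ →₀ ℕ} (hK : mz 3 K + (Gam S).wt g < wz 3 4) :
    Ymap2 a N D T g.1 g.2 g''.2 (sB 3 (xq a N) (monomial (sh K) 1)) =
      xq a N (RR 3 (delta2 D T S) (delta2 D T S) g g'' K) := by
  refine algc hδ g g'' _ hK fun I L hI _ => ?_
  have h1 : (g.1 : ℕ) + 1 < S + 2 := by have := g''.1.2; omega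
  rw [ymap2_eq _ _ _ hI, Fintype.sum_prod_type, Finset.sum_eq_single (⟨_, h1⟩ : Fin (S + 2)),
    Finset.sum_range]
  · refine Finset.sum_congr rfl fun k _ => ?_
    rw [delta2_eq, delta2_eq, if_pos h, if_pos rfl]
  · refine fun j _ hj => Finset.sum_eq_zero fun k _ => ?_
    rw [delta2_eq g, if_neg fun c => hj (Fin.ext c), Pi.zero_apply, map_zero, mul_zero, map_zero]
  · exact fun c => absurd (Finset.mem_univ _) c

theorem RR_delta2 {g g'' : Io S} (h : (g''.1 : ℕ) ≠ g.1 + 2) (K : ℕ →₀ ℕ) :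
    RR 3 (delta2 D T S) (delta2 D T S) g g'' K = 0 := by
  refine Finset.sum_eq_zero fun g' _ => ?_
  by_cases c : (g'.1 : ℕ) = g.1 + 1
  · rw [delta2_eq g', if_neg (by omega)]
    exact lin_zero _
  · rw [delta2_eq g, if_neg c]
    exact (congrArg _ (actB_zero_left 3 (RingHom.id _) _)).trans (map_zero _)

/-- the table of the degrees is correct -/
def gtOK2 (s : Nat) (L : Lw) : Bool := allN (fun k => Nat.beq (gtw L k) (gw (Nat.succ s) k)) 64

theorem gtOK2_spec {s : ℕ} {L : Lw} (h : gtOK2 s L = true) : ∀ k < 64, gtw L k = gw (s + 1) k :=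
  fun k hk => Nat.eq_of_beq_eq_true (allN_iff.1 h k hk)

theorem gsOK_spec {s : ℕ} {gs : List ℕ} (h : gsOK s gs = true) : ∀ e < 64, nth 0 gs e = gw s e :=
  fun e he => Nat.eq_of_beq_eq_true (allN_iff.1 h e he)

/-- The segments of the rows of the level `s` are small. -/
def WOK (L : Lw) (T s : ℕ) : Prop :=
  ∀ e < 64, ∀ x, IsX x → gw s e + cdeg x ≤ T → wOK (rwO L e x) = true

/-- The table of the context represents the matrix on the level `s`. -/
def ZOK (U : Ctw) (D : ℕ → Lw) (T s : ℕ) : Prop :=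
  ∀ k < 64, Tab2 U.Y (Z02 U k) (gw s k) 126 fun k2 => Phi0 (xq _ _) (dOp2 D T s k k2)

/-- the side conditions of a check -/
structure CtxOK2 (U : Ctw) (D : ℕ → Lw) (T s : ℕ) : Prop where
  lay : layOK U.Y = true
  le : U.Y.T ≤ T
  e0 : U.L0 = D s
  gt : gtOK2 s (D s) = true
  gs : gsOK s U.gs = true
  w : WOK (D s) T s
  z : ZOK U D T (s + 1)

end Vale.Agent.P236X
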