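import Vale.Agent.P236X.Row
import Vale.Agent.P236X.Yl2
import Vale.Agent.P236N.Del2

/-!
# P236 / X : the table `Y2`
-/

noncomputable section

namespace Vale.Agent.P236X

open MvPolynomial Vale.Agent.P236A Vale.Agent.P236B Vale.Agent.P236C Vale.Agent.P236M
  Vale.Agent.P236N

variable {a x : ℕ}

theorem t2_fld (ha : IsI a) (hx : IsX x) :
    (∀ j < 3, fld (a + x) j = fld a j) ∧ ∀ j < 7, 3 ≤ j → fld (a + x) j = fld x j := by
  obtain ⟨-, a3, a4, a5, a6⟩ := ha
  obtain ⟨-, x0, x1, x2⟩ := hx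
  have h : ∀ j < 7, fld a j + fld x j < 128 := fun j hj => by
    have := fld_lt a j
    have := fld_lt x j
    interval_cases j <;> omega
  refine ⟨fun j hj => ?_, fun j hj hj' => ?_⟩ <;> rw [fld_add h (by omega)] <;>
    interval_cases j <;> omega

theorem t2_mono {B : Type} [CommRing B] (ha : IsI a) (hx : IsX x) (i : ℕ) :
    (X 0 ^ i * mono (a + x) : MvPolynomial ℕ B) =
      monomial (ex4 i (fld a 0) (fld a 1) (fld a 2) + sh (lmon x)) 1 := by
  obtain ⟨h1, h2⟩ := t2_fld ha hx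
  rw [mono_eq, lmon, lmon, h1 0, h1 1, h1 2, h2 3, h2 4, h2 5, h2 6] <;> norm_num

theorem t2_rwX (L : Lw) (e x : ℕ) : rwX L e x = rwK L e (lmon x) := by
  rw [rwX, force_eq, rwK, lmon, ex4_0, ex4_1, ex4_2, ex4_3]
  refine congrArg (fun c => rwN (blw L e c) _)
    ((Nat.and_two_pow_sub_one_eq_mod (x >>> 28) 21).trans ?_)
  simp only [fld_eq, Nat.shiftRight_eq_div_pow]
  omega

theorem t2_code {c k1 k2 k3 k4 w : ℕ} (h1 : k1 < 128) (h2 : k2 < 128) (h3 : k3 < 128)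
    (h4 : k4 < 128) (e : c = k1 * 2 ^ 21 + k2 * 2 ^ 28 + k3 * 2 ^ 35 + k4 * 2 ^ 42 + w * 2 ^ 49) :
    (fld c 0 = 0 ∧ fld c 1 = 0 ∧ fld c 2 = 0) ∧ fld c 3 = k1 ∧ fld c 4 = k2 ∧ fld c 5 = k3 ∧
      fld c 6 = k4 ∧ cdeg c = w := by
  simp only [fld_eq, cdeg_eq]
  refine ⟨⟨?_, ?_, ?_⟩, ?_, ?_, ?_, ?_, ?_⟩ <;> omega

theorem t2_cx {g t m : ℕ} (h : cv g t m = true) (ht : t ≤ 94) :
    IsX (cx g t m) ∧ g + cdeg (cx g t m) = t ∧ lmon (cx g t m) = cmon g t m := by
  have h1 := cv_spec h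
  obtain ⟨⟨e0, e1, e2⟩, e3, e4, e5, e6, e7⟩ := t2_code (c := cx g t m) (k1 := c1 m)
    (k2 := c2 g t m) (k3 := c3 m) (k4 := c4 m) (w := t - g) (by omega) (by omega) (by omega)
    (by omega) (by simp only [← Nat.shiftLeft_eq]; rfl)
  refine ⟨⟨?_, e0, e1, e2⟩, by omega, by rw [lmon, e3, e4, e5, e6, cmon]⟩
  rw [mdeg]
  omega

theorem t2_th (U : Ctw) (a t m : ℕ) : th2 U a t m =
    if cv (gm U (m % 64)) t m = true ∧ c1 m < U.Y.N then
      F1 U (m % 64) a (cx (gm U (m % 64)) t m) else 0 := by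
  rw [th2, clB, force_eq, force_eq, force_eq, show Nat.land m 63 = m % 64 from land_63 m]
  split_ifs with h
  · rw [h.1, Nat.blt_eq.mpr h.2, Bool.and_self, cond_true]
  · rw [show (cv (gm U (m % 64)) t m && Nat.blt (c1 m) U.Y.N) = false by
      simpa only [← Bool.not_eq_true, Bool.and_eq_true, Nat.blt_eq] using h, cond_false]

theorem t2_Y2 (U : Ctw) (e a x : ℕ) : Y2 U e a x = (rowO (rwX U.L0 e x)).1
    (th2 U a (g0 U e + cdeg x)) (flY U a (g0 U e + cdeg x)) := by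
  rw [Y2, rwB, force_eq, rwO, Nat.add_eq]

theorem t2_fl (U : Ctw) (a t o s : ℕ) : flY U a t o s = fold (o + s) (m63 U.Y (t + cdeg a)) := by
  rw [flY, mY, force_eq, Nat.add_eq, Nat.add_eq]
  exact congrArg _ (Nat.mod_zero _)

variable {U : Ctw} {D : ℕ → Lw} {T s : ℕ}

/-- **The table of the composition.** -/
theorem y2_ok (h : CtxOK2 U D T s) (hE : ∀ k < 64, Tab2 U.Y (F1 U k) (gw (s + 1) k) 10
    fun k2 => Th 3 (xq _ _) (dOp2 D T (s + 1) k k2)) {e : ℕ} (he : e < 64) :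
    Tab2 U.Y (Y2 U e) (gw s e) 126 (Ymap2 U.Y.a U.Y.N D T s e) := by
  intro a x ha hx hd
  have h0 := (layP h.lay).top
  have hT := h.le
  obtain ⟨t, ht⟩ : ∃ t, gw s e + cdeg x = t := ⟨_, rfl⟩
  have h1 : tdeg (lmon x) + gw s e = t := by
    obtain ⟨x0, x1, x2, x3⟩ := hx
    rw [lmon, tdeg_ex4]
    rw [mdeg] at x0
    omega
  have h2 : ∀ m, gm U (m % 64) = gtw (D s) (m % 64) := fun m => by rw [gm, h.e0]
  have h3 : ∀ m, gtw (D s) (m % 64) = gw (s + 1) (m % 64) := fun m =>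
    gtOK2_spec h.gt _ (Nat.mod_lt _ (by norm_num))
  rw [t2_Y2, g0, gsOK_spec h.gs e he, h.e0, ht, show gw s e + cdeg a + cdeg x = t + cdeg a by omega]
  refine (Rep.row h.lay (F := fun m i k2 => Th 3 (xq _ _) (dOp2 D T (s + 1) (m % 64) k2)
    (monomial (ex4 i (fld a 0) (fld a 1) (fld a 2)) 1 * ren (xq _ _)
      (if cv (gtw (D s) (m % 64)) t m = true then monomial (cmon (gtw (D s) (m % 64)) t m) 1
        else 0))) (fun m => ?_) le_rfl (t2_fl U a t) (h.w e he x hx (by omega))).congr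
    fun i k2 _ => ?_
  · rw [t2_th, h2]
    split_ifs with c c'
    · obtain ⟨b1, b2, b3⟩ := t2_cx c' (t := t) (by omega)
      have b4 := hE _ (Nat.mod_lt m (by norm_num)) a _ ha b1 (by rw [← h3]; omega)
      rw [← h3, show ∀ g y, g + cdeg a + y = g + y + cdeg a by omega, b2] at b4
      refine b4.congr fun i k2 _ => ?_
      rw [t2_mono ha b1, b3]
      simp only [ren_monomial, monomial_mul, map_one, mul_one]
    · exact absurd c.1 c'
    · rename_i c'
      refine (Rep.zero h.lay _ _).congr fun i k2 _ => (Th_eq_zero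
        (inv_JJ 3 (by decide) (.inl (lay_a h.lay))) (fun _ => Ideal.Quotient.eq_zero_iff_mem.2)
        ((mem_gA 3).2 (isWeightedHomogeneous_monomial _ _ _ (mz_ex4 _ _ _ _))) ?_
        (mon_mem ((not_lt.1 fun b => c ⟨c', b⟩).trans_eq (ex4_0 _ _ _ _).symm)) _ _).symm
      have := cv_spec c'
      rw [show wz 3 4 = 242 from rfl]
      omega
    · exact (Rep.zero h.lay _ _).congr fun i k2 _ => by rw [map_zero, mul_zero, map_zero]
  · rw [t2_mono ha hx, ymap2_eq _ _ _ (supp_ex4 _ _ _ _), t2_rwX]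
    refine Eq.symm ((Finset.sum_congr rfl fun k' _ => ?_).trans ((sum_evM (Finset.range 64)
      (fun k' m => Th 3 (xq _ _) (dOp2 D T (s + 1) k' k2)
        (monomial (ex4 i (fld a 0) (fld a 1) (fld a 2)) 1 * ren (xq _ _)
          (if m % 64 = k' ∧ cv (gtw (D s) k') t m = true then monomial (cmon (gtw (D s) k') t m) 1
            else 0))) _).trans (congrArg (evM · _) (funext fun m => ?_))))
    · rw [dOp2, h1, if_pos ⟨supp_ex4 _ _ _ _, by omega⟩, dRow2, map_evM,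
        ← LinearMap.mulLeft_apply (Ab U.Y.a U.Y.N), map_evM, map_evM]
      rfl
    · rw [Finset.sum_eq_single (m % 64)]
      · simp only [true_and]
      · intro k' _ c
        rw [if_neg fun b => c b.1.symm, map_zero, mul_zero, map_zero]
      · exact fun c => absurd (Finset.mem_range.2 (Nat.mod_lt _ (by norm_num))) c

end Vale.Agent.P236X
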