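import Vale.Agent.P236X.BrD
import Vale.Agent.P236X.Stage2
import Vale.Agent.P236X.Tab2

/-!
# P236 / X : the tables `Z03` and `Y3`
-/

namespace Vale.Agent.P236X

open Vale.Agent.P236N

/-! ### rows -/

theorem q1_eq (k nx : ℕ → Ac → Ou) : q1 k nx = g1 k (g1 k (g1 k (g1 k nx))) := rfl

theorem q16_eq (k : ℕ → Ac → Ou) (j : ℕ) :
    Nat.rec (motive := fun _ => ℕ → Ac → Ou) k (q16 k) j = gC k (16 * j) := by
  induction j with
  | zero => rfl
  | succ j ih =>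
    rw [Nat.rec_add_one, ih, q16]
    simp only [q1_eq, g1_eq]
    rfl

theorem sQ_eq : sQ = sS := by
  funext j ih r acc tot
  rw [sS_eq, sQ, q16_eq, gC, gK]

theorem rQ_eq : rQ = rS := by
  funext j ih r out
  rw [rQ, rS, sQ_eq]

theorem rowP_eq (r : ℕ) : rowP r = rowO r := by rw [rowP, rowO, rQ_eq]

/-! ### keys -/

variable {V : Ctv} {a x k l d t e : ℕ}

theorem IsR.add3 (hx : IsR x) (hl : l < 128) : fld (x + l * 562949955518464) 3 = l ∧
    cdeg (x + l * 562949955518464) = cdeg x + l ∧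
    Nat.land (Nat.shiftRight (x + l * 562949955518464) 28) 2097151 =
      Nat.land (Nat.shiftRight x 28) 2097151 := by
  have h3 := hx.2
  rw [fld_eq] at h3
  have h4 : (x + l * 562949955518464) / 2 ^ 28 = x / 2 ^ 28 + l * 2 ^ 21 := by omega
  refine ⟨?_, ?_, (Nat.and_two_pow_sub_one_eq_mod (_ >>> 28) 21).trans
    (Eq.trans ?_ (Nat.and_two_pow_sub_one_eq_mod (x >>> 28) 21).symm)⟩
  · rw [fld_eq]
    omega
  · rw [cdeg_eq, cdeg_eq]
    omega
  · rw [Nat.shiftRight_eq_div_pow, Nat.shiftRight_eq_div_pow, h4, Nat.add_mul_mod_self_right]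

theorem IsR.eq_zero (hx : IsR x) (h : cdeg x = 0) : x = 0 := by
  obtain ⟨⟨h0, h1, h2, h3⟩, h4⟩ := hx
  have := code_eq x
  rw [mdeg] at h0
  omega

theorem z03_eqv (V : Ctv) (k : ℕ) : Eqv (gm V.U k) (Z03 V k).1 (Z02 V.U k) := by
  intro a x n _ hx _
  change cond (Nat.beq _ (gm V.U k + cdeg a)) _ _ = _
  by_cases h : cdeg x + n = 0
  · rw [add_assoc, h, add_zero, Nat.beq_refl, cond_true, hx.eq_zero (by omega),
      show n = 0 by omega, zero_mul, add_zero]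
  · have h1 : x + n * 562949955518464 ≠ 0 := by
      rw [cdeg_eq] at h
      omega
    rw [Z02.eq_1 _ _ _ (x + _), Bool.eq_false_iff.2 fun c => h1 (Nat.eq_of_beq_eq_true c),
      cond_false, show Nat.beq _ (gm V.U k + cdeg a) = false from
        Bool.eq_false_iff.2 fun c => h (by have := Nat.eq_of_beq_eq_true c; omega), cond_false]

/-! ### columns -/

/-- the programs for the powers of the first variable agree -/
def W1 (V : Ctv) (k : ℕ) : Prop := ∀ j a x d, IsI a → IsR x →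
  d = gm V.U k + cdeg a + cdeg x + (j + 1) → d ≤ 94 →
    (A1 V k j).1 a x d = (F1b V.U j).1 V.U.Y (FR V.U k) d a x

theorem F1p_eq (U : Ctw) (k a x j x' : ℕ) :
    F1p U k a x j x' = (F1b U j).1 U.Y (FR U k) (gm U k + cdeg a + cdeg x) a x' := rfl

theorem dX1_zero (h : fld x 3 = 0) (z : ℕ) (g : ℕ → ℕ → ℕ) : (dX1 x).1 z g = z :=
  dsp_zero (f := 3) h z g

theorem dX1_succ (h : fld x 3 = l + 1) (z : ℕ) (g : ℕ → ℕ → ℕ) :
    (dX1 x).1 z g = g l (x - (l + 1) * 562949955518464) := dsp_succ (f := 3) h z g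

theorem clV_zero (V : Ctv) (k x a d : ℕ) :
    (clV V k x 0).1 a d = Nat.mod ((AR V k).1 a x d) 0 := rfl

theorem clV_succ (V : Ctv) (k x j a d : ℕ) : (clV V k x (j + 1)).1 a d = (A1 V k j).1 a x d := rfl

theorem clV_eq (hR : Eqv (gm V.U k) (AR V k).1 (FR V.U k)) (hW : W1 V k) (ha : IsI a)
    (hx : IsR x) (hd : d = gm V.U k + cdeg a + cdeg x + l) (h94 : d ≤ 94) :
    (clV V k x l).1 a d = F1 V.U k a (x + l * 562949955518464) := by
  obtain ⟨h1, h2, -⟩ := hx.add3 (l := l) (by omega)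
  rw [F1]
  cases l with
  | zero => rw [dX1_zero h1, ← hR a x 0 ha hx (hd ▸ h94), ← hd, clV_zero]
  | succ j =>
    rw [dX1_succ h1, F1p_eq, h2, Nat.add_sub_cancel, ← add_assoc, ← hd, clV_succ,
      hW j a x d ha hx hd h94]

theorem cy_spec {g m : ℕ} (h : cv g t m = true) (ht : t ≤ 94) : IsR (cy g t m) ∧
    g + cdeg (cy g t m) + c1 m = t ∧ cy g t m + c1 m * 562949955518464 = cx g t m := by
  have h1 := cv_spec h
  have h4 := cv_four h
  have e0 : cy g t m = c2 g t m * 2 ^ 28 + c3 m * 2 ^ 35 + (t - g - c1 m) * 2 ^ 49 := by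
    simp only [← Nat.shiftLeft_eq]
    rfl
  have e1 : cx g t m =
      c1 m * 2 ^ 21 + c2 g t m * 2 ^ 28 + c3 m * 2 ^ 35 + c4 m * 2 ^ 42 + (t - g) * 2 ^ 49 := by
    simp only [← Nat.shiftLeft_eq]
    rfl
  obtain ⟨⟨a0, a1, a2⟩, a3, a4, a5, a6, a7⟩ := t2_code (c := cy g t m) (k1 := 0)
    (k2 := c2 g t m) (k3 := c3 m) (k4 := 0) (w := t - g - c1 m) (by omega) (by omega) (by omega)
    (by omega) (by rw [e0, zero_mul, zero_mul, zero_add, add_zero])
  refine ⟨⟨⟨?_, a0, a1, a2⟩, a3⟩, by omega, by omega⟩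
  rw [mdeg]
  omega

theorem cl3_eq (hR : ∀ k < 64, Eqv (gm V.U k) (AR V k).1 (FR V.U k)) (hW : ∀ k < 64, W1 V k)
    (ha : IsI a) (hd : d = t + cdeg a) (h94 : d ≤ 94) (m : ℕ) :
    (cl3 V t m).1 a d = th2 V.U a t m := by
  have hk := Nat.mod_lt m (show 0 < 64 by norm_num)
  rw [t2_th, cl3, force_eq, force_eq, force_eq, show Nat.land m 63 = m % 64 from land_63 m]
  split_ifs with h
  · obtain ⟨b1, b2, b3⟩ := cy_spec h.1 (t := t) (by omega)
    rw [h.1, Nat.blt_eq.mpr h.2, Bool.and_self, cond_true, ← b3]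
    exact clV_eq (hR _ hk) (hW _ hk) ha b1 (by omega) h94
  · rw [show (cv (gm V.U (m % 64)) t m && Nat.blt (c1 m) V.U.Y.N) = false by
      simpa only [← Bool.not_eq_true, Bool.and_eq_true, Nat.blt_eq] using h, cond_false]

theorem Y3_eq (V : Ctv) (e a x d : ℕ) : (Y3 V e).1 a x d = (rwT V e x (d - cdeg a)).1
    (fun m => (cl3 V (d - cdeg a) m).1 a d) (flM (m63 V.U.Y d)) := rfl

/-- **The tables of the composition agree.** -/
theorem y3_eqv (hR : ∀ k < 64, Eqv (gm V.U k) (AR V k).1 (FR V.U k)) (hW : ∀ k < 64, W1 V k)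
    (e : ℕ) : Eqv (g0 V.U e) (Y3 V e).1 (Y2 V.U e) := by
  intro a x n ha hx hd
  obtain ⟨h1, h2, h3⟩ := hx.add3 (l := n) (by omega)
  obtain ⟨t, ht⟩ : ∃ t, t = g0 V.U e + (cdeg x + n) := ⟨_, rfl⟩
  rw [show g0 V.U e + cdeg a + cdeg x + n = t + cdeg a by omega] at hd ⊢
  rw [Y3_eq, t2_Y2, h2, ← ht, Nat.add_sub_cancel, rwT, rwX, force_eq, force_eq, h1, h3, rowP_eq,
    show Nat.sub (Nat.sub t (g0 V.U e)) (cdeg x) = n by simp only [Nat.sub_eq]; omega,
    funext (cl3_eq hR hW ha rfl hd)]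
  exact congrArg _ (funext₂ fun o s => (t2_fl _ _ _ _ _).symm)

end Vale.Agent.P236X
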