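import Vale.Agent.P236X.BrF0
import Vale.Agent.P236X.BrS
import Vale.Agent.P236X.BrY

/-!
# P236 / X : the check of the third version implies the check of the second version
-/

namespace Vale.Agent.P236X

variable {V : Ctv}

theorem topOK_of (P : Br V.B V.U.B) : TopOK V := fun e x k1 hx h3 hd => by
  have hR := fun k => ar_eqv P (z03_eqv V k)
  have h := d12_eqv P (y3_eqv (fun k _ => hR k)
    (fun k _ _ _ _ _ ha hx e h => a1_eqv P (hR k) ha hx e h) e)
  have c0 : cdeg 0 = 0 := rfl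
  refine top_of h3 (by omega) rfl (fun e0 => ?_) fun e0 => ?_
  · exact h.ap isI_zero ⟨hx, h3⟩ 0 (by omega) (by omega) hd
  · obtain ⟨j, rfl⟩ : ∃ j, k1 = j + 1 := ⟨k1 - 1, by omega⟩
    exact d11_eqv P h isI_zero ⟨hx, h3⟩ (by omega) hd

theorem cm_of_cv (V : Ctv) (h : Br V.B V.U.B) (h94 : V.U.Y.T ≤ 94) (M : List (List ℕ))
    (its : List ℕ) (hc : cvU V M its = true) : cmU V.U M its = true :=
  cm_of_top (topOK_of h) h94 hc

theorem unOK_of3 {L : Lw} {B : Prg2} {E : Prg3} {M : List (List ℕ)} {s : ℕ} {Z : Zc} {its : List ℕ}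
    (P : Br E B) (e0 : V.U = Z.U) (e1 : V.B = E) (e : Z.U.L0 = L) (e' : Z.U.B = B)
    (hI : covM M its = true) (hc : cvU V M its = true) : UnOK L B M s Z :=
  ⟨e, e', fun h94 hs => finOK_of_cmU h94 hs hI
    (e0 ▸ cm_of_cv V (by rw [e0, e1, e']; exact P) (e0 ▸ h94) M its hc)⟩

end Vale.Agent.P236X
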