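import Vale.Agent.P236X.Def2
import Vale.Agent.P236N.Msk

/-!
# P236 / X : the program, third version

A table has three keys: `a` has the digits `0, 1, 2` of a code, `x` the digits `4, 5, 6` (both carry
their own degree above bit `49`), and `d` is the degree of the entry; it determines the digit `3`.
-/

noncomputable section

namespace Vale.Agent.P236X

open Vale.Agent.P236N

/-- eight keys -/
def s8 (x a b c d e f g h : Nat) : K8 :=
  force (Nat.sub x a) fun a => force (Nat.sub x b) fun b => force (Nat.sub x c) fun c =>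
    force (Nat.sub x d) fun d => force (Nat.sub x e) fun e => force (Nat.sub x f) fun f =>
      force (Nat.sub x g) fun g => force (Nat.sub x h) fun h => K8.mk a b c d e f g h

/-- tables -/
abbrev Tc : Type := Nat → Nat → Nat → Nat

/-- compiled programs -/
abbrev Prog3 : Type := Lay → Tc → Bx Tc

/-- the second part of a code -/
def partR (δ : Nat) : Nat := Nat.sub (partX δ) (Nat.mul (fld δ 3) 562949955518464)
/-- subtraction of degrees -/
def ksb (d c : Nat) : Nat := Nat.rec (motive := fun _ => Nat) d (fun _ _ => Nat.sub d c) c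

/-- the value of a program of degree `W` -/
def run3 (W : Nat) (p : Pg) : Prog3 := fun Y Z => Bx.mk fun a x d =>
  Pg.rec (motive := fun _ => Nat) 0
    (fun δ _ => Z (kad a (partI δ)) (kad x (partR δ)) (ksb d (Nat.sub W (cdeg δ))))
    (fun δ _ _ r => Nat.add r (Z (kad a (partI δ)) (kad x (partR δ)) (ksb d (Nat.sub W (cdeg δ)))))
    (fun _ _ r s => Nat.add r s) (fun k _ r => Nat.mul k r) (fun o _ r => fold r (mo Y d o))
    (fun o _ r => qst r (mo Y d o) (oo Y d o)) (fun L _ r => mv Y L r) (fun L _ r => mw Y L r) p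

/-! ### stages -/

/-- functions of four keys -/
abbrev Tq : Type := Nat → Nat → Nat → Nat → Nat

/-- case distinction on a digit of the second key -/
def dsX (D : Nat → Ds) (Z : Tc) (P : Tq) : Bx Tc :=
  Bx.mk fun a x d => (D x).1 (Nat.mod (Z a x d) 0) (P a d)

/-- case distinction on a digit of the first key -/
def dsA (D : Nat → Ds) (Z : Tc) (P : Tq) : Bx Tc :=
  Bx.mk fun a x d => (D a).1 (Nat.mod (Z a x d) 0) (P x d)

/-- one more factor -/
def stp (β : Prog3) (Y : Lay) (_ : Nat) (ih : Bx Tc) : Bx Tc := β Y ih.1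

/-- the tables with `j + 1` factors -/
def itQ (z : Bx Tc) (s : Nat → Bx Tc → Bx Tc) : Bx Tq :=
  Bx.mk fun a d j x => Nat.mod ((Nat.rec (motive := fun _ => Bx Tc) z s j : Bx Tc).1 a x d) 0

/-- the tables with `j + 1` factors -/
def itR (z : Bx Tc) (s : Nat → Bx Tc → Bx Tc) : Bx Tq :=
  Bx.mk fun x d j a => Nat.mod ((Nat.rec (motive := fun _ => Bx Tc) z s j : Bx Tc).1 a x d) 0

/-- substitution of a variable of the second key by iteration -/
def it3 (D : Nat → Ds) (β : Prog3) (Y : Lay) (Z : Tc) : Bx Tc := dsX D Z (itQ (β Y Z) (stp β Y)).1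

/-- substitution of a variable of the first key by iteration -/
def ia3 (D : Nat → Ds) (β : Prog3) (Y : Lay) (Z : Tc) : Bx Tc := dsA D Z (itR (β Y Z) (stp β Y)).1

/-- the empty program -/
def zero3 : Prog3 := fun _ _ => Bx.mk fun _ _ _ => 0

/-- the table of the program for the power `j + 1` -/
def drB (βs : List Prog3) (Y : Lay) (Z : Tc) (j : Nat) : Bx Tc := nth zero3 βs (Nat.succ j) Y Z

/-- the tables of the programs -/
def drQ (B : Nat → Bx Tc) : Bx Tq := Bx.mk fun a d j x => (B j).1 a x d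

/-- substitution with one program for each power -/
def dr3 (D : Nat → Ds) (βs : List Prog3) (Y : Lay) (Z : Tc) : Bx Tc := dsX D Z (drQ (drB βs Y Z)).1

/-- full reduction of a table -/
def rd3 (Y : Lay) (Z : Tc) : Bx Tc := Bx.mk fun a x d => qst (Z a x d) (m63 Y d) (o12 Y d)

/-! ### rows -/

/-- add two columns -/
def cn2 (m n : Nat) (acc : Ac) : Ac := Bx.mk fun Θ => Nat.add (Nat.add (acc.1 Θ) (Θ m)) (Θ n)
/-- add three columns -/
def cn3 (m n o : Nat) (acc : Ac) : Ac :=
  Bx.mk fun Θ => Nat.add (Nat.add (Nat.add (acc.1 Θ) (Θ m)) (Θ n)) (Θ o)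
/-- add four columns -/
def cn4 (m n o p : Nat) (acc : Ac) : Ac :=
  Bx.mk fun Θ => Nat.add (Nat.add (Nat.add (Nat.add (acc.1 Θ) (Θ m)) (Θ n)) (Θ o)) (Θ p)

/-- read the fourth field -/
def q4 (k nx : Nat → Ac → Ou) (acc : Ac) (m n o r : Nat) : Ou :=
  Nat.rec (motive := fun _ => Ou) (k (Nat.shiftRight r 16) (cn3 m n o acc))
    (fun p _ => nx (Nat.shiftRight r 16) (cn4 m n o p acc)) (Nat.land r 65535)
/-- read the third field -/
def q3 (k nx : Nat → Ac → Ou) (acc : Ac) (m n r : Nat) : Ou :=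
  Nat.rec (motive := fun _ => Ou) (k (Nat.shiftRight r 16) (cn2 m n acc))
    (fun o _ => q4 k nx acc m n o (Nat.shiftRight r 16)) (Nat.land r 65535)
/-- read the second field -/
def q2 (k nx : Nat → Ac → Ou) (acc : Ac) (m r : Nat) : Ou :=
  Nat.rec (motive := fun _ => Ou) (k (Nat.shiftRight r 16) (cns m acc))
    (fun n _ => q3 k nx acc m n (Nat.shiftRight r 16)) (Nat.land r 65535)
/-- read four fields of a group -/
def q1 (k nx : Nat → Ac → Ou) (r : Nat) (acc : Ac) : Ou :=
  Nat.rec (motive := fun _ => Ou) (k (Nat.shiftRight r 16) acc)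
    (fun m _ => q2 k nx acc m (Nat.shiftRight r 16)) (Nat.land r 65535)

/-- read sixteen fields of a group -/
def q16 (k : Nat → Ac → Ou) (_ : Nat) (ih : Nat → Ac → Ou) : Nat → Ac → Ou := q1 k (q1 k (q1 k (q1 k ih)))

/-- one more group -/
def sQ (_ : Nat) (ih : Nat → Ac → Ac → Ou) (r : Nat) (acc tot : Ac) : Ou :=
  Nat.rec (motive := fun _ => Nat → Ac → Ou) (gK ih tot) (q16 (gK ih tot)) 32 r acc

/-- one more segment -/
def rQ (_ : Nat) (ih : Nat → Ou → Ou) (r : Nat) (out : Ou) : Ou :=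
  Nat.rec (motive := fun _ => Ou) out
    (fun m _ => Nat.rec (motive := fun _ => Nat → Ac → Ac → Ou) (sQ 0 (rK ih out)) sQ m
      (Nat.shiftRight r 16) zA zA) (Nat.land r 65535)

/-- read a row -/
def rowP (r : Nat) : Ou := Nat.rec (motive := fun _ => Nat → Ou → Ou) (fun _ out => out) rQ 64 r zO

/-- the compiled programs -/
structure Prg3 where
  /-- `y_3` -/
  g3 : Prog3
  /-- `y_4` -/
  g4 : Prog3
  /-- right unit -/
  w4 : Prog3
  /-- right unit -/
  w3 : Prog3
  /-- right unit -/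
  w2 : Prog3
  /-- right unit -/
  w1 : List Prog3
  /-- coproduct -/
  b44 : List Prog3
  /-- coproduct -/
  b34 : Prog3
  /-- coproduct -/
  b33 : List Prog3
  /-- coproduct -/
  b24 : Prog3
  /-- coproduct -/
  b23 : Prog3
  /-- coproduct -/
  b22 : List Prog3
  /-- coproduct -/
  b14 : Prog3
  /-- coproduct -/
  b13 : Prog3
  /-- coproduct -/
  b12 : Prog3
  /-- coproduct -/
  b11 : List Prog3

/-- the context of a check; the programs of `U` are not used -/
structure Ctv where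
  /-- layout and data -/
  U : Ctw
  /-- programs -/
  B : Prg3

/-- the table of the second matrix -/
def Z03 (V : Ctv) (k : Nat) : Bx Tc :=
  Bx.mk fun a _ d => cond (Nat.beq d (Nat.add (gm V.U k) (cdeg a))) (Z02 V.U k a 0) 0

/-- stage -/
def J3 (V : Ctv) (k : Nat) : Bx Tc := ia3 dI3 V.B.g3 V.U.Y (Z03 V k).1
/-- stage -/
def J4 (V : Ctv) (k : Nat) : Bx Tc := ia3 dI4 V.B.g4 V.U.Y (J3 V k).1
/-- stage -/
def A4 (V : Ctv) (k : Nat) : Bx Tc := it3 dX4 V.B.w4 V.U.Y (J4 V k).1
/-- stage -/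
def A3 (V : Ctv) (k : Nat) : Bx Tc := it3 dX3 V.B.w3 V.U.Y (A4 V k).1
/-- stage -/
def A2 (V : Ctv) (k : Nat) : Bx Tc := it3 dX2 V.B.w2 V.U.Y (A3 V k).1
/-- stage -/
def AR (V : Ctv) (k : Nat) : Bx Tc := rd3 V.U.Y (A2 V k).1
/-- stage -/
def A1 (V : Ctv) (k j : Nat) : Bx Tc := drB V.B.w1 V.U.Y (AR V k).1 j

/-- the value on `v_1 ^ l v ^ x` -/
def clV (V : Ctv) (k x l : Nat) : Bx Tb :=
  Nat.rec (motive := fun _ => Bx Tb) (Bx.mk fun a d => Nat.mod ((AR V k).1 a x d) 0)
    (fun j _ => Bx.mk fun a d => (A1 V k j).1 a x d) l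

/-- the second key of a column -/
def cy (g t m : Nat) : Nat :=
  Nat.add (Nat.add (Nat.shiftLeft (c2 g t m) 28) (Nat.shiftLeft (c3 m) 35))
    (Nat.shiftLeft (Nat.sub (Nat.sub t g) (c1 m)) 49)

/-- a column -/
def cl3 (V : Ctv) (t m : Nat) : Bx Tb :=
  force (Nat.land m 63) fun k => force (gm V.U k) fun g =>
    cond (and (cv g t m) (Nat.blt (c1 m) V.U.Y.N))
      (force (cy g t m) fun x => clV V k x (c1 m)) (Bx.mk fun _ _ => 0)

/-- the end of a segment -/
def flM (M o s : Nat) : Nat := fold (Nat.add o s) M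

/-- the degree of the row, the values on the columns and the end of a segment -/
def yB (V : Ctv) (a d : Nat) : Bx ((Nat → (Nat → Nat) → (Nat → Nat → Nat) → Nat) → Nat) :=
  force (Nat.sub d (cdeg a)) fun t =>
    Bx.mk fun f => f t (fun m => (cl3 V t m).1 a d) (flM (m63 V.U.Y d))

/-- the row of degree `t` -/
def rwT (V : Ctv) (e x t : Nat) : Ou :=
  force (Nat.land (Nat.shiftRight x 28) 2097151) fun kk =>
    rowP (rwN (blw V.U.L0 e kk) (Nat.sub (Nat.sub t (g0 V.U e)) (cdeg x)))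

/-- the rows of a generator -/
def rwQ (V : Ctv) (e : Nat) : Bx (Nat → Nat → (Nat → Nat) → (Nat → Nat → Nat) → Nat) :=
  Bx.mk fun x t Θ fl => (rwT V e x t).1 Θ fl

/-- the table of the composition on the pairs of arrows -/
def Y3 (V : Ctv) (e : Nat) : Bx Tc := Bx.mk fun a x d => (yB V a d).1 ((rwQ V e).1 x)

/-- stage -/
def D44 (V : Ctv) (e : Nat) : Bx Tc := dr3 dX4 V.B.b44 V.U.Y (Y3 V e).1
/-- stage -/
def D34 (V : Ctv) (e : Nat) : Bx Tc := it3 dX4 V.B.b34 V.U.Y (D44 V e).1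
/-- stage -/
def D33 (V : Ctv) (e : Nat) : Bx Tc := dr3 dX3 V.B.b33 V.U.Y (D34 V e).1
/-- stage -/
def D24 (V : Ctv) (e : Nat) : Bx Tc := it3 dX4 V.B.b24 V.U.Y (D33 V e).1
/-- stage -/
def D23 (V : Ctv) (e : Nat) : Bx Tc := it3 dX3 V.B.b23 V.U.Y (D24 V e).1
/-- stage -/
def D22 (V : Ctv) (e : Nat) : Bx Tc := dr3 dX2 V.B.b22 V.U.Y (D23 V e).1
/-- stage -/
def D14 (V : Ctv) (e : Nat) : Bx Tc := it3 dX4 V.B.b14 V.U.Y (D22 V e).1
/-- stage -/
def D13 (V : Ctv) (e : Nat) : Bx Tc := it3 dX3 V.B.b13 V.U.Y (D14 V e).1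
/-- stage -/
def D12 (V : Ctv) (e : Nat) : Bx Tc := it3 dX2 V.B.b12 V.U.Y (D13 V e).1
/-- stage -/
def D11 (V : Ctv) (e j : Nat) : Bx Tc := drB V.B.b11 V.U.Y (D12 V e).1 j

/-- the value on `t_1 ^ k1 t ^ x` -/
def top (V : Ctv) (e x d k1 : Nat) : Nat :=
  Nat.rec (motive := fun _ => Nat) (Nat.mod ((D12 V e).1 0 x d) 0) (fun j _ => (D11 V e j).1 0 x d) k1

/-- the check of one row -/
def cvR (V : Ctv) (e x b m k1 : Nat) : Bool :=
  cond (Nat.beq (Nat.land (Nat.shiftRight m k1) 1) 1)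
    (force (Nat.add b k1) fun d => fin V.U.Y (top V e x d k1) d) true

/-- the check of the rows with given `k2` -/
def cv2 (V : Ctv) (M : List (List Nat)) (e j c0 k2 : Nat) : Bool :=
  cond (Nat.beq (mrow M e j k2) 0) true
    (force (Nat.add c0 (Nat.mul k2 2251800082120704)) fun x =>
      force (Nat.add (g0 V.U e) (cdeg x)) fun b =>
        allN (cvR V e x b (mrow M e j k2)) (Nat.sub (Nat.succ V.U.Y.T) b))

/-- the check of the rows with given `e, k3, k4`; the item is `e + 64 * (k3 + 8 * k4)` -/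
def cvI (V : Ctv) (M : List (List Nat)) (it : Nat) : Bool :=
  force (Nat.land it 63) fun e => force (Nat.shiftRight it 6) fun j =>
    force (Nat.add (Nat.mul (Nat.land j 7) 7318383754215424)
        (Nat.mul (Nat.shiftRight j 3) 22522396183363584)) fun c =>
      cond (Nat.ble (Nat.add (g0 V.U e) (cdeg c)) V.U.Y.T)
        (allN (cv2 V M e j c) (Nat.succ (Nat.div (Nat.sub V.U.Y.T (Nat.add (g0 V.U e) (cdeg c))) 4)))
        true

/-- the check of a unit -/
def cvU (V : Ctv) (M : List (List Nat)) (its : List Nat) : Bool := allL (cvI V M) its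

end Vale.Agent.P236X
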