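import Vale.Agent.P236X.Lev
import Vale.Agent.P236X.Dv3

/-!
# P236 / X : the final tests of the third version
-/

noncomputable section

namespace Vale.Agent.P236X

open Vale.Agent.P236C Vale.Agent.P236N

/-- the two programs compute the same rows -/
def TopOK (V : Ctv) : Prop := ∀ e x k1, IsX x → fld x 3 = 0 → g0 V.U e + cdeg x + k1 ≤ 94 →
  top V e x (g0 V.U e + cdeg x + k1) k1 = R11 V.U e 0 (x + k1 * 562949955518464)

theorem key_shf {x k : ℕ} (h3 : fld x 3 = 0) (hk : k < 128) :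
    fld (x + k * 562949955518464) 3 = k ∧ cdeg (x + k * 562949955518464) = cdeg x + k := by
  simp only [fld_eq, cdeg_eq] at h3 ⊢
  omega

theorem R11_dsp (U : Ctw) (e a y : ℕ) : R11 U e a y =
    (dsp (7 * 3) 562949955518464 y).1 (Nat.mod (R12 U e a y) 0) (R11p U e a y) := rfl

theorem R11p_eq (U : Ctw) (e a y j x : ℕ) : R11p U e a y j x =
    (nthB U.B.b11 (j + 1)).1 U.Y (R12 U e) (g0 U e + cdeg a + cdeg y) a x := rfl

theorem top_zero (V : Ctv) (e x d : ℕ) : top V e x d 0 = Nat.mod ((D12 V e).1 0 x d) 0 := rfl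

theorem top_succ (V : Ctv) (e x d j : ℕ) :
    top V e x d (j + 1) = (nth zero3 V.B.b11 (j + 1) V.U.Y (D12 V e).1).1 0 x d := rfl

theorem top_of {V : Ctv} {e x k1 d : ℕ} (h3 : fld x 3 = 0) (hk : k1 < 128)
    (hd : d = g0 V.U e + cdeg x + k1) (h0 : k1 = 0 → (D12 V e).1 0 x d = R12 V.U e 0 x)
    (h1 : 1 ≤ k1 → (nth zero3 V.B.b11 k1 V.U.Y (D12 V e).1).1 0 x d =
      (nthB V.U.B.b11 k1).1 V.U.Y (R12 V.U e) d 0 x) :
    top V e x d k1 = R11 V.U e 0 (x + k1 * 562949955518464) := by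
  obtain ⟨k, k'⟩ := key_shf h3 hk
  generalize hy : x + k1 * 562949955518464 = y at k k' ⊢
  rw [R11_dsp]
  cases k1 with
  | zero =>
    obtain rfl : y = x := by omega
    rw [dsp_zero k, top_zero, h0 rfl]
  | succ j =>
    have e1 : y - (j + 1) * 562949955518464 = x := by omega
    have e2 : g0 V.U e + cdeg 0 + cdeg y = d := by
      rw [show cdeg 0 = 0 from rfl]
      omega
    rw [dsp_succ k, e1, R11p_eq, e2, top_succ, h1 (by omega)]

theorem cvR_eq (V : Ctv) (e x b m k : ℕ) : cvR V e x b m k =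
    cond (Nat.beq (Nat.land (Nat.shiftRight m k) 1) 1) (fin V.U.Y (top V e x (b + k) k) (b + k))
      true := by
  rw [cvR, force_eq, Nat.add_eq]

theorem cv2_eq (V : Ctv) (M : List (List ℕ)) (e j c k : ℕ) :
    cv2 V M e j c k = cond (Nat.beq (mrow M e j k) 0) true
      (allN (cvR V e (c + k * 2251800082120704) (g0 V.U e + cdeg (c + k * 2251800082120704))
        (mrow M e j k)) (V.U.Y.T + 1 - (g0 V.U e + cdeg (c + k * 2251800082120704)))) := by
  rw [cv2, force_eq, force_eq, Nat.add_eq, Nat.add_eq, Nat.mul_eq, Nat.sub_eq]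

theorem cm2_eq' (U : Ctw) (M : List (List ℕ)) (e j c k : ℕ) :
    cm2 U M e j c k = cond (Nat.beq (mrow M e j k) 0) true
      (allN (cmR U e (c + k * 2251800082120704) (mrow M e j k))
        (U.Y.T + 1 - (g0 U e + cdeg (c + k * 2251800082120704)))) := by
  rw [cm2, force_eq, Nat.add_eq, Nat.add_eq, Nat.mul_eq, Nat.sub_eq]

theorem allN_congr {f g : ℕ → Bool} {n : ℕ} (h : ∀ i < n, f i = g i) : allN f n = allN g n :=
  Bool.eq_iff_iff.2 (by
    rw [allN_iff, allN_iff]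
    exact forall₂_congr fun i hi => by rw [h i hi])

theorem cv2_cm2 {V : Ctv} (h : TopOK V) (h94 : V.U.Y.T ≤ 94) (M : List (List ℕ)) (e j : ℕ)
    {k2 k3 k4 : ℕ} (h3 : k3 < 8) (hd : 4 * k2 + 13 * k3 + 40 * k4 ≤ 94) {c : ℕ}
    (hc : c = k3 * 7318383754215424 + k4 * 22522396183363584) :
    cv2 V M e j c k2 = cm2 V.U M e j c k2 := by
  obtain ⟨f0, f1, f2, f3, f4, f5, f6, f7⟩ := mk7 (c := c + k2 * 2251800082120704) (c0 := 0) (c1 := 0)
    (c2 := 0) (c3 := 0) (c4 := k2) (c5 := k3) (c6 := k4) (d := 4 * k2 + 13 * k3 + 40 * k4)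
    (by omega) (by omega) (by omega) (by omega) (by omega) (by omega) (by omega) (by omega)
  rw [cv2_eq, cm2_eq']
  refine congrArg _ (allN_congr fun k1 hk => ?_)
  rw [cvR_eq, cmR, ckR_eq, h e _ k1 ⟨by rw [mdeg]; omega, f0, f1, f2⟩ f3 (by omega),
    (key_shf f3 (by omega)).2, add_assoc (g0 V.U e)]

theorem cvI_cmI {V : Ctv} (h : TopOK V) (h94 : V.U.Y.T ≤ 94) (M : List (List ℕ)) (it : ℕ) :
    cvI V M it = cmI V.U M it := by
  rw [cvI, cmI, force_eq, force_eq, force_eq, force_eq, force_eq, force_eq]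
  generalize Nat.land it 63 = e
  generalize Nat.shiftRight it 6 = j
  have h3 : Nat.land j 7 < 8 := Nat.and_lt_two_pow j (show 7 < 2 ^ 3 by norm_num)
  generalize Nat.land j 7 = k3 at h3 ⊢
  generalize Nat.shiftRight j 3 = k4
  rw [Nat.add_eq, Nat.add_eq, Nat.mul_eq, Nat.mul_eq, Nat.sub_eq]
  generalize hc : k3 * 7318383754215424 + k4 * 22522396183363584 = c
  cases hb : Nat.ble (g0 V.U e + cdeg c) V.U.Y.T
  · rw [cond_false, cond_false]
  · have h1 := Nat.le_of_ble_eq_true hb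
    have h2 : 13 * k3 + 40 * k4 ≤ cdeg c := by
      rw [cdeg_eq]
      omega
    rw [cond_true, cond_true]
    refine allN_congr fun k2 hk => cv2_cm2 h h94 M e j h3 ?_ hc.symm
    have h4 : k2 < (V.U.Y.T - (g0 V.U e + cdeg c)) / 4 + 1 := hk
    omega

theorem cm_of_top {V : Ctv} (h : TopOK V) (h94 : V.U.Y.T ≤ 94) {M : List (List ℕ)} {its : List ℕ}
    (hc : cvU V M its = true) : cmU V.U M its = true :=
  allL_iff.2 fun it hi => (cvI_cmI h h94 M it).symm.trans (allL_iff.1 hc it hi)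

theorem cvU_nil (V : Ctv) (M : List (List ℕ)) : cvU V M [] = true := rfl

theorem cvU_append {V : Ctv} {M : List (List ℕ)} {l l' : List ℕ} (h : cvU V M l = true)
    (h' : cvU V M l' = true) : cvU V M (l ++ l') = true := allL_append h h'

end Vale.Agent.P236X
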