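import Vale.Agent.P236X.BrS
import Vale.Agent.P236X.BrY

/-!
# P236 / X : the tables `AR`, `Y3`, `D12` of the third version agree with the second version
-/

namespace Vale.Agent.P236X

variable {V : Ctv}

theorem ar_of (h : Br V.B V.U.B) (k : ℕ) : Eqv (gm V.U k) (AR V k).1 (FR V.U k) :=
  ar_eqv h (z03_eqv V k)

theorem w1_of (h : Br V.B V.U.B) (k : ℕ) : W1 V k := fun _ _ _ _ ha hx e h2 =>
  a1_eqv h (ar_of h k) ha hx e h2

theorem y3_of (h : Br V.B V.U.B) (e : ℕ) : Eqv (g0 V.U e) (Y3 V e).1 (Y2 V.U e) :=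
  y3_eqv (fun k _ => ar_of h k) (fun k _ => w1_of h k) e

theorem d12_of (h : Br V.B V.U.B) (e : ℕ) : Eqv (g0 V.U e) (D12 V e).1 (R12 V.U e) :=
  d12_eqv h (y3_of h e)

end Vale.Agent.P236X
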