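import Vale.Agent.P236X.Dv3
import Vale.Agent.P236X.Bxn

/-!
# P236 / X : boxes of keys
-/

set_option maxRecDepth 10000

noncomputable section

namespace Vale.Agent.P236X

/-- keys -/
def bs1
    (R : Type) (c a0 : Nat) :
    Bx ((Nat → R) → R) :=
  force (Nat.sub c a0) fun c0 => Bx.mk fun f => f c0

theorem bs1_eq
    (R : Type) (c a0 : Nat) :
    bs1 R c a0 = Bx.mk fun f => f (Nat.sub c a0) := rfl

/-- keys -/
def bs3
    (R : Type) (c a0 a1 a2 : Nat) :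
    Bx ((Nat → Nat → Nat → R) → R) :=
  force (Nat.sub c a0) fun c0 => force (Nat.sub c a1) fun c1 => force (Nat.sub c a2) fun c2 => Bx.mk
  fun f => f c0 c1 c2

theorem bs3_eq
    (R : Type) (c a0 a1 a2 : Nat) :
    bs3 R c a0 a1 a2 = Bx.mk fun f => f (Nat.sub c a0) (Nat.sub c a1) (Nat.sub c a2) := rfl

/-- keys -/
def bs4
    (R : Type) (c a0 a1 a2 a3 : Nat) :
    Bx ((Nat → Nat → Nat → Nat → R) → R) :=
  force (Nat.sub c a0) fun c0 => force (Nat.sub c a1) fun c1 => force (Nat.sub c a2) fun c2 => force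
  (Nat.sub c a3) fun c3 => Bx.mk fun f => f c0 c1 c2 c3

theorem bs4_eq
    (R : Type) (c a0 a1 a2 a3 : Nat) :
    bs4 R c a0 a1 a2 a3 = Bx.mk fun f => f (Nat.sub c a0) (Nat.sub c a1) (Nat.sub c a2) (Nat.sub c
    a3) := rfl

/-- keys -/
def bs7
    (R : Type) (c a0 a1 a2 a3 a4 a5 a6 : Nat) :
    Bx ((Nat → Nat → Nat → Nat → Nat → Nat → Nat → R) → R) :=
  force (Nat.sub c a0) fun c0 => force (Nat.sub c a1) fun c1 => force (Nat.sub c a2) fun c2 => force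
  (Nat.sub c a3) fun c3 => force (Nat.sub c a4) fun c4 => force (Nat.sub c a5) fun c5 => force
  (Nat.sub c a6) fun c6 => Bx.mk fun f => f c0 c1 c2 c3 c4 c5 c6

theorem bs7_eq
    (R : Type) (c a0 a1 a2 a3 a4 a5 a6 : Nat) :
    bs7 R c a0 a1 a2 a3 a4 a5 a6 = Bx.mk fun f => f (Nat.sub c a0) (Nat.sub c a1) (Nat.sub c a2)
    (Nat.sub c a3) (Nat.sub c a4) (Nat.sub c a5) (Nat.sub c a6) := rfl

/-- keys -/
def bs8
    (R : Type) (c a0 a1 a2 a3 a4 a5 a6 a7 : Nat) :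
    Bx ((Nat → Nat → Nat → Nat → Nat → Nat → Nat → Nat → R) → R) :=
  force (Nat.sub c a0) fun c0 => force (Nat.sub c a1) fun c1 => force (Nat.sub c a2) fun c2 => force
  (Nat.sub c a3) fun c3 => force (Nat.sub c a4) fun c4 => force (Nat.sub c a5) fun c5 => force
  (Nat.sub c a6) fun c6 => force (Nat.sub c a7) fun c7 => Bx.mk fun f => f c0 c1 c2 c3 c4 c5 c6 c7

theorem bs8_eq
    (R : Type) (c a0 a1 a2 a3 a4 a5 a6 a7 : Nat) :
    bs8 R c a0 a1 a2 a3 a4 a5 a6 a7 = Bx.mk fun f => f (Nat.sub c a0) (Nat.sub c a1) (Nat.sub c a2)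
    (Nat.sub c a3) (Nat.sub c a4) (Nat.sub c a5) (Nat.sub c a6) (Nat.sub c a7) := rfl

/-- keys -/
def bs9
    (R : Type) (c a0 a1 a2 a3 a4 a5 a6 a7 a8 : Nat) :
    Bx ((Nat → Nat → Nat → Nat → Nat → Nat → Nat → Nat → Nat → R) → R) :=
  K8.rec (motive := fun _ => Bx ((Nat → Nat → Nat → Nat → Nat → Nat → Nat → Nat → Nat → R) → R))
  (fun c0 c1 c2 c3 c4 c5 c6 c7 => K8.rec (motive := fun _ => Bx ((Nat → Nat → Nat → Nat → Nat → Nat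
  → Nat → Nat → Nat → R) → R)) (fun c8 _ _ _ _ _ _ _ => Bx.mk fun f => f c0 c1 c2 c3 c4 c5 c6 c7 c8)
  (s8 c a8 0 0 0 0 0 0 0)) (s8 c a0 a1 a2 a3 a4 a5 a6 a7)

theorem bs9_eq
    (R : Type) (c a0 a1 a2 a3 a4 a5 a6 a7 a8 : Nat) :
    bs9 R c a0 a1 a2 a3 a4 a5 a6 a7 a8 = Bx.mk fun f => f (Nat.sub c a0) (Nat.sub c a1) (Nat.sub c
    a2) (Nat.sub c a3) (Nat.sub c a4) (Nat.sub c a5) (Nat.sub c a6) (Nat.sub c a7) (Nat.sub c a8) :=
    rfl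

/-- keys -/
def bs12
    (R : Type) (c a0 a1 a2 a3 a4 a5 a6 a7 a8 a9 a10 a11 : Nat) :
    Bx ((Nat → Nat → Nat → Nat → Nat → Nat → Nat → Nat → Nat → Nat → Nat → Nat → R) → R) :=
  K8.rec (motive := fun _ => Bx ((Nat → Nat → Nat → Nat → Nat → Nat → Nat → Nat → Nat → Nat → Nat →
  Nat → R) → R)) (fun c0 c1 c2 c3 c4 c5 c6 c7 => K8.rec (motive := fun _ => Bx ((Nat → Nat → Nat →
  Nat → Nat → Nat → Nat → Nat → Nat → Nat → Nat → Nat → R) → R)) (fun c8 c9 c10 c11 _ _ _ _ => Bx.mk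
  fun f => f c0 c1 c2 c3 c4 c5 c6 c7 c8 c9 c10 c11) (s8 c a8 a9 a10 a11 0 0 0 0)) (s8 c a0 a1 a2 a3
  a4 a5 a6 a7)

theorem bs12_eq
    (R : Type) (c a0 a1 a2 a3 a4 a5 a6 a7 a8 a9 a10 a11 : Nat) :
    bs12 R c a0 a1 a2 a3 a4 a5 a6 a7 a8 a9 a10 a11 = Bx.mk fun f => f (Nat.sub c a0) (Nat.sub c a1)
    (Nat.sub c a2) (Nat.sub c a3) (Nat.sub c a4) (Nat.sub c a5) (Nat.sub c a6) (Nat.sub c a7)
    (Nat.sub c a8) (Nat.sub c a9) (Nat.sub c a10) (Nat.sub c a11) := rfl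

/-- keys -/
def bs16
    (R : Type) (c a0 a1 a2 a3 a4 a5 a6 a7 a8 a9 a10 a11 a12 a13 a14 a15 : Nat) :
    Bx ((Nat → Nat → Nat → Nat → Nat → Nat → Nat → Nat → Nat → Nat → Nat → Nat → Nat → Nat → Nat →
    Nat → R) → R) :=
  K8.rec (motive := fun _ => Bx ((Nat → Nat → Nat → Nat → Nat → Nat → Nat → Nat → Nat → Nat → Nat →
  Nat → Nat → Nat → Nat → Nat → R) → R)) (fun c0 c1 c2 c3 c4 c5 c6 c7 => K8.rec (motive := fun _ =>
  Bx ((Nat → Nat → Nat → Nat → Nat → Nat → Nat → Nat → Nat → Nat → Nat → Nat → Nat → Nat → Nat → Nat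
  → R) → R)) (fun c8 c9 c10 c11 c12 c13 c14 c15 => Bx.mk fun f => f c0 c1 c2 c3 c4 c5 c6 c7 c8 c9
  c10 c11 c12 c13 c14 c15) (s8 c a8 a9 a10 a11 a12 a13 a14 a15)) (s8 c a0 a1 a2 a3 a4 a5 a6 a7)

theorem bs16_eq
    (R : Type) (c a0 a1 a2 a3 a4 a5 a6 a7 a8 a9 a10 a11 a12 a13 a14 a15 : Nat) :
    bs16 R c a0 a1 a2 a3 a4 a5 a6 a7 a8 a9 a10 a11 a12 a13 a14 a15 = Bx.mk fun f => f (Nat.sub c a0)
    (Nat.sub c a1) (Nat.sub c a2) (Nat.sub c a3) (Nat.sub c a4) (Nat.sub c a5) (Nat.sub c a6)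
    (Nat.sub c a7) (Nat.sub c a8) (Nat.sub c a9) (Nat.sub c a10) (Nat.sub c a11) (Nat.sub c a12)
    (Nat.sub c a13) (Nat.sub c a14) (Nat.sub c a15) := rfl

/-- keys -/
def bs24
    (R : Type) (c a0 a1 a2 a3 a4 a5 a6 a7 a8 a9 a10 a11 a12 a13 a14 a15 a16 a17 a18 a19 a20 a21 a22
    a23 : Nat) :
    Bx ((Nat → Nat → Nat → Nat → Nat → Nat → Nat → Nat → Nat → Nat → Nat → Nat → Nat → Nat → Nat →
    Nat → Nat → Nat → Nat → Nat → Nat → Nat → Nat → Nat → R) → R) :=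
  K8.rec (motive := fun _ => Bx ((Nat → Nat → Nat → Nat → Nat → Nat → Nat → Nat → Nat → Nat → Nat →
  Nat → Nat → Nat → Nat → Nat → Nat → Nat → Nat → Nat → Nat → Nat → Nat → Nat → R) → R)) (fun c0 c1
  c2 c3 c4 c5 c6 c7 => K8.rec (motive := fun _ => Bx ((Nat → Nat → Nat → Nat → Nat → Nat → Nat → Nat
  → Nat → Nat → Nat → Nat → Nat → Nat → Nat → Nat → Nat → Nat → Nat → Nat → Nat → Nat → Nat → Nat →
  R) → R)) (fun c8 c9 c10 c11 c12 c13 c14 c15 => K8.rec (motive := fun _ => Bx ((Nat → Nat → Nat →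
  Nat → Nat → Nat → Nat → Nat → Nat → Nat → Nat → Nat → Nat → Nat → Nat → Nat → Nat → Nat → Nat →
  Nat → Nat → Nat → Nat → Nat → R) → R)) (fun c16 c17 c18 c19 c20 c21 c22 c23 => Bx.mk fun f => f c0
  c1 c2 c3 c4 c5 c6 c7 c8 c9 c10 c11 c12 c13 c14 c15 c16 c17 c18 c19 c20 c21 c22 c23) (s8 c a16 a17
  a18 a19 a20 a21 a22 a23)) (s8 c a8 a9 a10 a11 a12 a13 a14 a15)) (s8 c a0 a1 a2 a3 a4 a5 a6 a7)

theorem bs24_eq
    (R : Type) (c a0 a1 a2 a3 a4 a5 a6 a7 a8 a9 a10 a11 a12 a13 a14 a15 a16 a17 a18 a19 a20 a21 a22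
    a23 : Nat) :
    bs24 R c a0 a1 a2 a3 a4 a5 a6 a7 a8 a9 a10 a11 a12 a13 a14 a15 a16 a17 a18 a19 a20 a21 a22 a23 =
    Bx.mk fun f => f (Nat.sub c a0) (Nat.sub c a1) (Nat.sub c a2) (Nat.sub c a3) (Nat.sub c a4)
    (Nat.sub c a5) (Nat.sub c a6) (Nat.sub c a7) (Nat.sub c a8) (Nat.sub c a9) (Nat.sub c a10)
    (Nat.sub c a11) (Nat.sub c a12) (Nat.sub c a13) (Nat.sub c a14) (Nat.sub c a15) (Nat.sub c a16)
    (Nat.sub c a17) (Nat.sub c a18) (Nat.sub c a19) (Nat.sub c a20) (Nat.sub c a21) (Nat.sub c a22)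
    (Nat.sub c a23) := rfl

/-- keys -/
def bs32
    (R : Type) (c a0 a1 a2 a3 a4 a5 a6 a7 a8 a9 a10 a11 a12 a13 a14 a15 a16 a17 a18 a19 a20 a21 a22
    a23 a24 a25 a26 a27 a28 a29 a30 a31 : Nat) :
    Bx ((Nat → Nat → Nat → Nat → Nat → Nat → Nat → Nat → Nat → Nat → Nat → Nat → Nat → Nat → Nat →
    Nat → Nat → Nat → Nat → Nat → Nat → Nat → Nat → Nat → Nat → Nat → Nat → Nat → Nat → Nat → Nat →
    Nat → R) → R) :=
  K8.rec (motive := fun _ => Bx ((Nat → Nat → Nat → Nat → Nat → Nat → Nat → Nat → Nat → Nat → Nat →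
  Nat → Nat → Nat → Nat → Nat → Nat → Nat → Nat → Nat → Nat → Nat → Nat → Nat → Nat → Nat → Nat →
  Nat → Nat → Nat → Nat → Nat → R) → R)) (fun c0 c1 c2 c3 c4 c5 c6 c7 => K8.rec (motive := fun _ =>
  Bx ((Nat → Nat → Nat → Nat → Nat → Nat → Nat → Nat → Nat → Nat → Nat → Nat → Nat → Nat → Nat → Nat
  → Nat → Nat → Nat → Nat → Nat → Nat → Nat → Nat → Nat → Nat → Nat → Nat → Nat → Nat → Nat → Nat →
  R) → R)) (fun c8 c9 c10 c11 c12 c13 c14 c15 => K8.rec (motive := fun _ => Bx ((Nat → Nat → Nat →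
  Nat → Nat → Nat → Nat → Nat → Nat → Nat → Nat → Nat → Nat → Nat → Nat → Nat → Nat → Nat → Nat →
  Nat → Nat → Nat → Nat → Nat → Nat → Nat → Nat → Nat → Nat → Nat → Nat → Nat → R) → R)) (fun c16
  c17 c18 c19 c20 c21 c22 c23 => K8.rec (motive := fun _ => Bx ((Nat → Nat → Nat → Nat → Nat → Nat →
  Nat → Nat → Nat → Nat → Nat → Nat → Nat → Nat → Nat → Nat → Nat → Nat → Nat → Nat → Nat → Nat →
  Nat → Nat → Nat → Nat → Nat → Nat → Nat → Nat → Nat → Nat → R) → R)) (fun c24 c25 c26 c27 c28 c29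
  c30 c31 => Bx.mk fun f => f c0 c1 c2 c3 c4 c5 c6 c7 c8 c9 c10 c11 c12 c13 c14 c15 c16 c17 c18 c19
  c20 c21 c22 c23 c24 c25 c26 c27 c28 c29 c30 c31) (s8 c a24 a25 a26 a27 a28 a29 a30 a31)) (s8 c a16
  a17 a18 a19 a20 a21 a22 a23)) (s8 c a8 a9 a10 a11 a12 a13 a14 a15)) (s8 c a0 a1 a2 a3 a4 a5 a6 a7)

theorem bs32_eq
    (R : Type) (c a0 a1 a2 a3 a4 a5 a6 a7 a8 a9 a10 a11 a12 a13 a14 a15 a16 a17 a18 a19 a20 a21 a22
    a23 a24 a25 a26 a27 a28 a29 a30 a31 : Nat) :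
    bs32 R c a0 a1 a2 a3 a4 a5 a6 a7 a8 a9 a10 a11 a12 a13 a14 a15 a16 a17 a18 a19 a20 a21 a22 a23
    a24 a25 a26 a27 a28 a29 a30 a31 = Bx.mk fun f => f (Nat.sub c a0) (Nat.sub c a1) (Nat.sub c a2)
    (Nat.sub c a3) (Nat.sub c a4) (Nat.sub c a5) (Nat.sub c a6) (Nat.sub c a7) (Nat.sub c a8)
    (Nat.sub c a9) (Nat.sub c a10) (Nat.sub c a11) (Nat.sub c a12) (Nat.sub c a13) (Nat.sub c a14)
    (Nat.sub c a15) (Nat.sub c a16) (Nat.sub c a17) (Nat.sub c a18) (Nat.sub c a19) (Nat.sub c a20)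
    (Nat.sub c a21) (Nat.sub c a22) (Nat.sub c a23) (Nat.sub c a24) (Nat.sub c a25) (Nat.sub c a26)
    (Nat.sub c a27) (Nat.sub c a28) (Nat.sub c a29) (Nat.sub c a30) (Nat.sub c a31) := rfl

/-- keys -/
def bs37
    (R : Type) (c a0 a1 a2 a3 a4 a5 a6 a7 a8 a9 a10 a11 a12 a13 a14 a15 a16 a17 a18 a19 a20 a21 a22
    a23 a24 a25 a26 a27 a28 a29 a30 a31 a32 a33 a34 a35 a36 : Nat) :
    Bx ((Nat → Nat → Nat → Nat → Nat → Nat → Nat → Nat → Nat → Nat → Nat → Nat → Nat → Nat → Nat →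
    Nat → Nat → Nat → Nat → Nat → Nat → Nat → Nat → Nat → Nat → Nat → Nat → Nat → Nat → Nat → Nat →
    Nat → Nat → Nat → Nat → Nat → Nat → R) → R) :=
  K8.rec (motive := fun _ => Bx ((Nat → Nat → Nat → Nat → Nat → Nat → Nat → Nat → Nat → Nat → Nat →
  Nat → Nat → Nat → Nat → Nat → Nat → Nat → Nat → Nat → Nat → Nat → Nat → Nat → Nat → Nat → Nat →
  Nat → Nat → Nat → Nat → Nat → Nat → Nat → Nat → Nat → Nat → R) → R)) (fun c0 c1 c2 c3 c4 c5 c6 c7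
  => K8.rec (motive := fun _ => Bx ((Nat → Nat → Nat → Nat → Nat → Nat → Nat → Nat → Nat → Nat → Nat
  → Nat → Nat → Nat → Nat → Nat → Nat → Nat → Nat → Nat → Nat → Nat → Nat → Nat → Nat → Nat → Nat →
  Nat → Nat → Nat → Nat → Nat → Nat → Nat → Nat → Nat → Nat → R) → R)) (fun c8 c9 c10 c11 c12 c13
  c14 c15 => K8.rec (motive := fun _ => Bx ((Nat → Nat → Nat → Nat → Nat → Nat → Nat → Nat → Nat →
  Nat → Nat → Nat → Nat → Nat → Nat → Nat → Nat → Nat → Nat → Nat → Nat → Nat → Nat → Nat → Nat →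
  Nat → Nat → Nat → Nat → Nat → Nat → Nat → Nat → Nat → Nat → Nat → Nat → R) → R)) (fun c16 c17 c18
  c19 c20 c21 c22 c23 => K8.rec (motive := fun _ => Bx ((Nat → Nat → Nat → Nat → Nat → Nat → Nat →
  Nat → Nat → Nat → Nat → Nat → Nat → Nat → Nat → Nat → Nat → Nat → Nat → Nat → Nat → Nat → Nat →
  Nat → Nat → Nat → Nat → Nat → Nat → Nat → Nat → Nat → Nat → Nat → Nat → Nat → Nat → R) → R)) (fun
  c24 c25 c26 c27 c28 c29 c30 c31 => K8.rec (motive := fun _ => Bx ((Nat → Nat → Nat → Nat → Nat →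
  Nat → Nat → Nat → Nat → Nat → Nat → Nat → Nat → Nat → Nat → Nat → Nat → Nat → Nat → Nat → Nat →
  Nat → Nat → Nat → Nat → Nat → Nat → Nat → Nat → Nat → Nat → Nat → Nat → Nat → Nat → Nat → Nat → R)
  → R)) (fun c32 c33 c34 c35 c36 _ _ _ => Bx.mk fun f => f c0 c1 c2 c3 c4 c5 c6 c7 c8 c9 c10 c11 c12
  c13 c14 c15 c16 c17 c18 c19 c20 c21 c22 c23 c24 c25 c26 c27 c28 c29 c30 c31 c32 c33 c34 c35 c36)
  (s8 c a32 a33 a34 a35 a36 0 0 0)) (s8 c a24 a25 a26 a27 a28 a29 a30 a31)) (s8 c a16 a17 a18 a19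
  a20 a21 a22 a23)) (s8 c a8 a9 a10 a11 a12 a13 a14 a15)) (s8 c a0 a1 a2 a3 a4 a5 a6 a7)

theorem bs37_eq
    (R : Type) (c a0 a1 a2 a3 a4 a5 a6 a7 a8 a9 a10 a11 a12 a13 a14 a15 a16 a17 a18 a19 a20 a21 a22
    a23 a24 a25 a26 a27 a28 a29 a30 a31 a32 a33 a34 a35 a36 : Nat) :
    bs37 R c a0 a1 a2 a3 a4 a5 a6 a7 a8 a9 a10 a11 a12 a13 a14 a15 a16 a17 a18 a19 a20 a21 a22 a23
    a24 a25 a26 a27 a28 a29 a30 a31 a32 a33 a34 a35 a36 = Bx.mk fun f => f (Nat.sub c a0) (Nat.sub c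
    a1) (Nat.sub c a2) (Nat.sub c a3) (Nat.sub c a4) (Nat.sub c a5) (Nat.sub c a6) (Nat.sub c a7)
    (Nat.sub c a8) (Nat.sub c a9) (Nat.sub c a10) (Nat.sub c a11) (Nat.sub c a12) (Nat.sub c a13)
    (Nat.sub c a14) (Nat.sub c a15) (Nat.sub c a16) (Nat.sub c a17) (Nat.sub c a18) (Nat.sub c a19)
    (Nat.sub c a20) (Nat.sub c a21) (Nat.sub c a22) (Nat.sub c a23) (Nat.sub c a24) (Nat.sub c a25)
    (Nat.sub c a26) (Nat.sub c a27) (Nat.sub c a28) (Nat.sub c a29) (Nat.sub c a30) (Nat.sub c a31)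
    (Nat.sub c a32) (Nat.sub c a33) (Nat.sub c a34) (Nat.sub c a35) (Nat.sub c a36) := rfl

/-- keys -/
def bs39
    (R : Type) (c a0 a1 a2 a3 a4 a5 a6 a7 a8 a9 a10 a11 a12 a13 a14 a15 a16 a17 a18 a19 a20 a21 a22
    a23 a24 a25 a26 a27 a28 a29 a30 a31 a32 a33 a34 a35 a36 a37 a38 : Nat) :
    Bx ((Nat → Nat → Nat → Nat → Nat → Nat → Nat → Nat → Nat → Nat → Nat → Nat → Nat → Nat → Nat →
    Nat → Nat → Nat → Nat → Nat → Nat → Nat → Nat → Nat → Nat → Nat → Nat → Nat → Nat → Nat → Nat →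
    Nat → Nat → Nat → Nat → Nat → Nat → Nat → Nat → R) → R) :=
  K8.rec (motive := fun _ => Bx ((Nat → Nat → Nat → Nat → Nat → Nat → Nat → Nat → Nat → Nat → Nat →
  Nat → Nat → Nat → Nat → Nat → Nat → Nat → Nat → Nat → Nat → Nat → Nat → Nat → Nat → Nat → Nat →
  Nat → Nat → Nat → Nat → Nat → Nat → Nat → Nat → Nat → Nat → Nat → Nat → R) → R)) (fun c0 c1 c2 c3
  c4 c5 c6 c7 => K8.rec (motive := fun _ => Bx ((Nat → Nat → Nat → Nat → Nat → Nat → Nat → Nat → Nat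
  → Nat → Nat → Nat → Nat → Nat → Nat → Nat → Nat → Nat → Nat → Nat → Nat → Nat → Nat → Nat → Nat →
  Nat → Nat → Nat → Nat → Nat → Nat → Nat → Nat → Nat → Nat → Nat → Nat → Nat → Nat → R) → R)) (fun
  c8 c9 c10 c11 c12 c13 c14 c15 => K8.rec (motive := fun _ => Bx ((Nat → Nat → Nat → Nat → Nat → Nat
  → Nat → Nat → Nat → Nat → Nat → Nat → Nat → Nat → Nat → Nat → Nat → Nat → Nat → Nat → Nat → Nat →
  Nat → Nat → Nat → Nat → Nat → Nat → Nat → Nat → Nat → Nat → Nat → Nat → Nat → Nat → Nat → Nat →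
  Nat → R) → R)) (fun c16 c17 c18 c19 c20 c21 c22 c23 => K8.rec (motive := fun _ => Bx ((Nat → Nat →
  Nat → Nat → Nat → Nat → Nat → Nat → Nat → Nat → Nat → Nat → Nat → Nat → Nat → Nat → Nat → Nat →
  Nat → Nat → Nat → Nat → Nat → Nat → Nat → Nat → Nat → Nat → Nat → Nat → Nat → Nat → Nat → Nat →
  Nat → Nat → Nat → Nat → Nat → R) → R)) (fun c24 c25 c26 c27 c28 c29 c30 c31 => K8.rec (motive :=
  fun _ => Bx ((Nat → Nat → Nat → Nat → Nat → Nat → Nat → Nat → Nat → Nat → Nat → Nat → Nat → Nat →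
  Nat → Nat → Nat → Nat → Nat → Nat → Nat → Nat → Nat → Nat → Nat → Nat → Nat → Nat → Nat → Nat →
  Nat → Nat → Nat → Nat → Nat → Nat → Nat → Nat → Nat → R) → R)) (fun c32 c33 c34 c35 c36 c37 c38 _
  => Bx.mk fun f => f c0 c1 c2 c3 c4 c5 c6 c7 c8 c9 c10 c11 c12 c13 c14 c15 c16 c17 c18 c19 c20 c21
  c22 c23 c24 c25 c26 c27 c28 c29 c30 c31 c32 c33 c34 c35 c36 c37 c38) (s8 c a32 a33 a34 a35 a36 a37
  a38 0)) (s8 c a24 a25 a26 a27 a28 a29 a30 a31)) (s8 c a16 a17 a18 a19 a20 a21 a22 a23)) (s8 c a8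
  a9 a10 a11 a12 a13 a14 a15)) (s8 c a0 a1 a2 a3 a4 a5 a6 a7)

theorem bs39_eq
    (R : Type) (c a0 a1 a2 a3 a4 a5 a6 a7 a8 a9 a10 a11 a12 a13 a14 a15 a16 a17 a18 a19 a20 a21 a22
    a23 a24 a25 a26 a27 a28 a29 a30 a31 a32 a33 a34 a35 a36 a37 a38 : Nat) :
    bs39 R c a0 a1 a2 a3 a4 a5 a6 a7 a8 a9 a10 a11 a12 a13 a14 a15 a16 a17 a18 a19 a20 a21 a22 a23
    a24 a25 a26 a27 a28 a29 a30 a31 a32 a33 a34 a35 a36 a37 a38 = Bx.mk fun f => f (Nat.sub c a0)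
    (Nat.sub c a1) (Nat.sub c a2) (Nat.sub c a3) (Nat.sub c a4) (Nat.sub c a5) (Nat.sub c a6)
    (Nat.sub c a7) (Nat.sub c a8) (Nat.sub c a9) (Nat.sub c a10) (Nat.sub c a11) (Nat.sub c a12)
    (Nat.sub c a13) (Nat.sub c a14) (Nat.sub c a15) (Nat.sub c a16) (Nat.sub c a17) (Nat.sub c a18)
    (Nat.sub c a19) (Nat.sub c a20) (Nat.sub c a21) (Nat.sub c a22) (Nat.sub c a23) (Nat.sub c a24)
    (Nat.sub c a25) (Nat.sub c a26) (Nat.sub c a27) (Nat.sub c a28) (Nat.sub c a29) (Nat.sub c a30)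
    (Nat.sub c a31) (Nat.sub c a32) (Nat.sub c a33) (Nat.sub c a34) (Nat.sub c a35) (Nat.sub c a36)
    (Nat.sub c a37) (Nat.sub c a38) := rfl

/-- keys -/
def bs48
    (R : Type) (c a0 a1 a2 a3 a4 a5 a6 a7 a8 a9 a10 a11 a12 a13 a14 a15 a16 a17 a18 a19 a20 a21 a22
    a23 a24 a25 a26 a27 a28 a29 a30 a31 a32 a33 a34 a35 a36 a37 a38 a39 a40 a41 a42 a43 a44 a45 a46
    a47 : Nat) :
    Bx ((Nat → Nat → Nat → Nat → Nat → Nat → Nat → Nat → Nat → Nat → Nat → Nat → Nat → Nat → Nat →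
    Nat → Nat → Nat → Nat → Nat → Nat → Nat → Nat → Nat → Nat → Nat → Nat → Nat → Nat → Nat → Nat →
    Nat → Nat → Nat → Nat → Nat → Nat → Nat → Nat → Nat → Nat → Nat → Nat → Nat → Nat → Nat → Nat →
    Nat → R) → R) :=
  K8.rec (motive := fun _ => Bx ((Nat → Nat → Nat → Nat → Nat → Nat → Nat → Nat → Nat → Nat → Nat →
  Nat → Nat → Nat → Nat → Nat → Nat → Nat → Nat → Nat → Nat → Nat → Nat → Nat → Nat → Nat → Nat →
  Nat → Nat → Nat → Nat → Nat → Nat → Nat → Nat → Nat → Nat → Nat → Nat → Nat → Nat → Nat → Nat →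
  Nat → Nat → Nat → Nat → Nat → R) → R)) (fun c0 c1 c2 c3 c4 c5 c6 c7 => K8.rec (motive := fun _ =>
  Bx ((Nat → Nat → Nat → Nat → Nat → Nat → Nat → Nat → Nat → Nat → Nat → Nat → Nat → Nat → Nat → Nat
  → Nat → Nat → Nat → Nat → Nat → Nat → Nat → Nat → Nat → Nat → Nat → Nat → Nat → Nat → Nat → Nat →
  Nat → Nat → Nat → Nat → Nat → Nat → Nat → Nat → Nat → Nat → Nat → Nat → Nat → Nat → Nat → Nat → R)
  → R)) (fun c8 c9 c10 c11 c12 c13 c14 c15 => K8.rec (motive := fun _ => Bx ((Nat → Nat → Nat → Nat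
  → Nat → Nat → Nat → Nat → Nat → Nat → Nat → Nat → Nat → Nat → Nat → Nat → Nat → Nat → Nat → Nat →
  Nat → Nat → Nat → Nat → Nat → Nat → Nat → Nat → Nat → Nat → Nat → Nat → Nat → Nat → Nat → Nat →
  Nat → Nat → Nat → Nat → Nat → Nat → Nat → Nat → Nat → Nat → Nat → Nat → R) → R)) (fun c16 c17 c18
  c19 c20 c21 c22 c23 => K8.rec (motive := fun _ => Bx ((Nat → Nat → Nat → Nat → Nat → Nat → Nat →
  Nat → Nat → Nat → Nat → Nat → Nat → Nat → Nat → Nat → Nat → Nat → Nat → Nat → Nat → Nat → Nat →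
  Nat → Nat → Nat → Nat → Nat → Nat → Nat → Nat → Nat → Nat → Nat → Nat → Nat → Nat → Nat → Nat →
  Nat → Nat → Nat → Nat → Nat → Nat → Nat → Nat → Nat → R) → R)) (fun c24 c25 c26 c27 c28 c29 c30
  c31 => K8.rec (motive := fun _ => Bx ((Nat → Nat → Nat → Nat → Nat → Nat → Nat → Nat → Nat → Nat →
  Nat → Nat → Nat → Nat → Nat → Nat → Nat → Nat → Nat → Nat → Nat → Nat → Nat → Nat → Nat → Nat →
  Nat → Nat → Nat → Nat → Nat → Nat → Nat → Nat → Nat → Nat → Nat → Nat → Nat → Nat → Nat → Nat →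
  Nat → Nat → Nat → Nat → Nat → Nat → R) → R)) (fun c32 c33 c34 c35 c36 c37 c38 c39 => K8.rec
  (motive := fun _ => Bx ((Nat → Nat → Nat → Nat → Nat → Nat → Nat → Nat → Nat → Nat → Nat → Nat →
  Nat → Nat → Nat → Nat → Nat → Nat → Nat → Nat → Nat → Nat → Nat → Nat → Nat → Nat → Nat → Nat →
  Nat → Nat → Nat → Nat → Nat → Nat → Nat → Nat → Nat → Nat → Nat → Nat → Nat → Nat → Nat → Nat →
  Nat → Nat → Nat → Nat → R) → R)) (fun c40 c41 c42 c43 c44 c45 c46 c47 => Bx.mk fun f => f c0 c1 c2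
  c3 c4 c5 c6 c7 c8 c9 c10 c11 c12 c13 c14 c15 c16 c17 c18 c19 c20 c21 c22 c23 c24 c25 c26 c27 c28
  c29 c30 c31 c32 c33 c34 c35 c36 c37 c38 c39 c40 c41 c42 c43 c44 c45 c46 c47) (s8 c a40 a41 a42 a43
  a44 a45 a46 a47)) (s8 c a32 a33 a34 a35 a36 a37 a38 a39)) (s8 c a24 a25 a26 a27 a28 a29 a30 a31))
  (s8 c a16 a17 a18 a19 a20 a21 a22 a23)) (s8 c a8 a9 a10 a11 a12 a13 a14 a15)) (s8 c a0 a1 a2 a3 a4
  a5 a6 a7)

theorem bs48_eq
    (R : Type) (c a0 a1 a2 a3 a4 a5 a6 a7 a8 a9 a10 a11 a12 a13 a14 a15 a16 a17 a18 a19 a20 a21 a22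
    a23 a24 a25 a26 a27 a28 a29 a30 a31 a32 a33 a34 a35 a36 a37 a38 a39 a40 a41 a42 a43 a44 a45 a46
    a47 : Nat) :
    bs48 R c a0 a1 a2 a3 a4 a5 a6 a7 a8 a9 a10 a11 a12 a13 a14 a15 a16 a17 a18 a19 a20 a21 a22 a23
    a24 a25 a26 a27 a28 a29 a30 a31 a32 a33 a34 a35 a36 a37 a38 a39 a40 a41 a42 a43 a44 a45 a46 a47
    = Bx.mk fun f => f (Nat.sub c a0) (Nat.sub c a1) (Nat.sub c a2) (Nat.sub c a3) (Nat.sub c a4)
    (Nat.sub c a5) (Nat.sub c a6) (Nat.sub c a7) (Nat.sub c a8) (Nat.sub c a9) (Nat.sub c a10)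
    (Nat.sub c a11) (Nat.sub c a12) (Nat.sub c a13) (Nat.sub c a14) (Nat.sub c a15) (Nat.sub c a16)
    (Nat.sub c a17) (Nat.sub c a18) (Nat.sub c a19) (Nat.sub c a20) (Nat.sub c a21) (Nat.sub c a22)
    (Nat.sub c a23) (Nat.sub c a24) (Nat.sub c a25) (Nat.sub c a26) (Nat.sub c a27) (Nat.sub c a28)
    (Nat.sub c a29) (Nat.sub c a30) (Nat.sub c a31) (Nat.sub c a32) (Nat.sub c a33) (Nat.sub c a34)
    (Nat.sub c a35) (Nat.sub c a36) (Nat.sub c a37) (Nat.sub c a38) (Nat.sub c a39) (Nat.sub c a40)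
    (Nat.sub c a41) (Nat.sub c a42) (Nat.sub c a43) (Nat.sub c a44) (Nat.sub c a45) (Nat.sub c a46)
    (Nat.sub c a47) := rfl

/-- keys -/
def bs64
    (R : Type) (c a0 a1 a2 a3 a4 a5 a6 a7 a8 a9 a10 a11 a12 a13 a14 a15 a16 a17 a18 a19 a20 a21 a22
    a23 a24 a25 a26 a27 a28 a29 a30 a31 a32 a33 a34 a35 a36 a37 a38 a39 a40 a41 a42 a43 a44 a45 a46
    a47 a48 a49 a50 a51 a52 a53 a54 a55 a56 a57 a58 a59 a60 a61 a62 a63 : Nat) :
    Bx ((Nat → Nat → Nat → Nat → Nat → Nat → Nat → Nat → Nat → Nat → Nat → Nat → Nat → Nat → Nat →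
    Nat → Nat → Nat → Nat → Nat → Nat → Nat → Nat → Nat → Nat → Nat → Nat → Nat → Nat → Nat → Nat →
    Nat → Nat → Nat → Nat → Nat → Nat → Nat → Nat → Nat → Nat → Nat → Nat → Nat → Nat → Nat → Nat →
    Nat → Nat → Nat → Nat → Nat → Nat → Nat → Nat → Nat → Nat → Nat → Nat → Nat → Nat → Nat → Nat →
    Nat → R) → R) :=
  K8.rec (motive := fun _ => Bx ((Nat → Nat → Nat → Nat → Nat → Nat → Nat → Nat → Nat → Nat → Nat →
  Nat → Nat → Nat → Nat → Nat → Nat → Nat → Nat → Nat → Nat → Nat → Nat → Nat → Nat → Nat → Nat →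
  Nat → Nat → Nat → Nat → Nat → Nat → Nat → Nat → Nat → Nat → Nat → Nat → Nat → Nat → Nat → Nat →
  Nat → Nat → Nat → Nat → Nat → Nat → Nat → Nat → Nat → Nat → Nat → Nat → Nat → Nat → Nat → Nat →
  Nat → Nat → Nat → Nat → Nat → R) → R)) (fun c0 c1 c2 c3 c4 c5 c6 c7 => K8.rec (motive := fun _ =>
  Bx ((Nat → Nat → Nat → Nat → Nat → Nat → Nat → Nat → Nat → Nat → Nat → Nat → Nat → Nat → Nat → Nat
  → Nat → Nat → Nat → Nat → Nat → Nat → Nat → Nat → Nat → Nat → Nat → Nat → Nat → Nat → Nat → Nat →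
  Nat → Nat → Nat → Nat → Nat → Nat → Nat → Nat → Nat → Nat → Nat → Nat → Nat → Nat → Nat → Nat →
  Nat → Nat → Nat → Nat → Nat → Nat → Nat → Nat → Nat → Nat → Nat → Nat → Nat → Nat → Nat → Nat → R)
  → R)) (fun c8 c9 c10 c11 c12 c13 c14 c15 => K8.rec (motive := fun _ => Bx ((Nat → Nat → Nat → Nat
  → Nat → Nat → Nat → Nat → Nat → Nat → Nat → Nat → Nat → Nat → Nat → Nat → Nat → Nat → Nat → Nat →
  Nat → Nat → Nat → Nat → Nat → Nat → Nat → Nat → Nat → Nat → Nat → Nat → Nat → Nat → Nat → Nat →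
  Nat → Nat → Nat → Nat → Nat → Nat → Nat → Nat → Nat → Nat → Nat → Nat → Nat → Nat → Nat → Nat →
  Nat → Nat → Nat → Nat → Nat → Nat → Nat → Nat → Nat → Nat → Nat → Nat → R) → R)) (fun c16 c17 c18
  c19 c20 c21 c22 c23 => K8.rec (motive := fun _ => Bx ((Nat → Nat → Nat → Nat → Nat → Nat → Nat →
  Nat → Nat → Nat → Nat → Nat → Nat → Nat → Nat → Nat → Nat → Nat → Nat → Nat → Nat → Nat → Nat →
  Nat → Nat → Nat → Nat → Nat → Nat → Nat → Nat → Nat → Nat → Nat → Nat → Nat → Nat → Nat → Nat →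
  Nat → Nat → Nat → Nat → Nat → Nat → Nat → Nat → Nat → Nat → Nat → Nat → Nat → Nat → Nat → Nat →
  Nat → Nat → Nat → Nat → Nat → Nat → Nat → Nat → Nat → R) → R)) (fun c24 c25 c26 c27 c28 c29 c30
  c31 => K8.rec (motive := fun _ => Bx ((Nat → Nat → Nat → Nat → Nat → Nat → Nat → Nat → Nat → Nat →
  Nat → Nat → Nat → Nat → Nat → Nat → Nat → Nat → Nat → Nat → Nat → Nat → Nat → Nat → Nat → Nat →
  Nat → Nat → Nat → Nat → Nat → Nat → Nat → Nat → Nat → Nat → Nat → Nat → Nat → Nat → Nat → Nat →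
  Nat → Nat → Nat → Nat → Nat → Nat → Nat → Nat → Nat → Nat → Nat → Nat → Nat → Nat → Nat → Nat →
  Nat → Nat → Nat → Nat → Nat → Nat → R) → R)) (fun c32 c33 c34 c35 c36 c37 c38 c39 => K8.rec
  (motive := fun _ => Bx ((Nat → Nat → Nat → Nat → Nat → Nat → Nat → Nat → Nat → Nat → Nat → Nat →
  Nat → Nat → Nat → Nat → Nat → Nat → Nat → Nat → Nat → Nat → Nat → Nat → Nat → Nat → Nat → Nat →
  Nat → Nat → Nat → Nat → Nat → Nat → Nat → Nat → Nat → Nat → Nat → Nat → Nat → Nat → Nat → Nat →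
  Nat → Nat → Nat → Nat → Nat → Nat → Nat → Nat → Nat → Nat → Nat → Nat → Nat → Nat → Nat → Nat →
  Nat → Nat → Nat → Nat → R) → R)) (fun c40 c41 c42 c43 c44 c45 c46 c47 => K8.rec (motive := fun _
  => Bx ((Nat → Nat → Nat → Nat → Nat → Nat → Nat → Nat → Nat → Nat → Nat → Nat → Nat → Nat → Nat →
  Nat → Nat → Nat → Nat → Nat → Nat → Nat → Nat → Nat → Nat → Nat → Nat → Nat → Nat → Nat → Nat →
  Nat → Nat → Nat → Nat → Nat → Nat → Nat → Nat → Nat → Nat → Nat → Nat → Nat → Nat → Nat → Nat →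
  Nat → Nat → Nat → Nat → Nat → Nat → Nat → Nat → Nat → Nat → Nat → Nat → Nat → Nat → Nat → Nat →
  Nat → R) → R)) (fun c48 c49 c50 c51 c52 c53 c54 c55 => K8.rec (motive := fun _ => Bx ((Nat → Nat →
  Nat → Nat → Nat → Nat → Nat → Nat → Nat → Nat → Nat → Nat → Nat → Nat → Nat → Nat → Nat → Nat →
  Nat → Nat → Nat → Nat → Nat → Nat → Nat → Nat → Nat → Nat → Nat → Nat → Nat → Nat → Nat → Nat →
  Nat → Nat → Nat → Nat → Nat → Nat → Nat → Nat → Nat → Nat → Nat → Nat → Nat → Nat → Nat → Nat →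
  Nat → Nat → Nat → Nat → Nat → Nat → Nat → Nat → Nat → Nat → Nat → Nat → Nat → Nat → R) → R)) (fun
  c56 c57 c58 c59 c60 c61 c62 c63 => Bx.mk fun f => f c0 c1 c2 c3 c4 c5 c6 c7 c8 c9 c10 c11 c12 c13
  c14 c15 c16 c17 c18 c19 c20 c21 c22 c23 c24 c25 c26 c27 c28 c29 c30 c31 c32 c33 c34 c35 c36 c37
  c38 c39 c40 c41 c42 c43 c44 c45 c46 c47 c48 c49 c50 c51 c52 c53 c54 c55 c56 c57 c58 c59 c60 c61
  c62 c63) (s8 c a56 a57 a58 a59 a60 a61 a62 a63)) (s8 c a48 a49 a50 a51 a52 a53 a54 a55)) (s8 c a40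
  a41 a42 a43 a44 a45 a46 a47)) (s8 c a32 a33 a34 a35 a36 a37 a38 a39)) (s8 c a24 a25 a26 a27 a28
  a29 a30 a31)) (s8 c a16 a17 a18 a19 a20 a21 a22 a23)) (s8 c a8 a9 a10 a11 a12 a13 a14 a15)) (s8 c
  a0 a1 a2 a3 a4 a5 a6 a7)

theorem bs64_eq
    (R : Type) (c a0 a1 a2 a3 a4 a5 a6 a7 a8 a9 a10 a11 a12 a13 a14 a15 a16 a17 a18 a19 a20 a21 a22
    a23 a24 a25 a26 a27 a28 a29 a30 a31 a32 a33 a34 a35 a36 a37 a38 a39 a40 a41 a42 a43 a44 a45 a46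
    a47 a48 a49 a50 a51 a52 a53 a54 a55 a56 a57 a58 a59 a60 a61 a62 a63 : Nat) :
    bs64 R c a0 a1 a2 a3 a4 a5 a6 a7 a8 a9 a10 a11 a12 a13 a14 a15 a16 a17 a18 a19 a20 a21 a22 a23
    a24 a25 a26 a27 a28 a29 a30 a31 a32 a33 a34 a35 a36 a37 a38 a39 a40 a41 a42 a43 a44 a45 a46 a47
    a48 a49 a50 a51 a52 a53 a54 a55 a56 a57 a58 a59 a60 a61 a62 a63 = Bx.mk fun f => f (Nat.sub c
    a0) (Nat.sub c a1) (Nat.sub c a2) (Nat.sub c a3) (Nat.sub c a4) (Nat.sub c a5) (Nat.sub c a6)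
    (Nat.sub c a7) (Nat.sub c a8) (Nat.sub c a9) (Nat.sub c a10) (Nat.sub c a11) (Nat.sub c a12)
    (Nat.sub c a13) (Nat.sub c a14) (Nat.sub c a15) (Nat.sub c a16) (Nat.sub c a17) (Nat.sub c a18)
    (Nat.sub c a19) (Nat.sub c a20) (Nat.sub c a21) (Nat.sub c a22) (Nat.sub c a23) (Nat.sub c a24)
    (Nat.sub c a25) (Nat.sub c a26) (Nat.sub c a27) (Nat.sub c a28) (Nat.sub c a29) (Nat.sub c a30)
    (Nat.sub c a31) (Nat.sub c a32) (Nat.sub c a33) (Nat.sub c a34) (Nat.sub c a35) (Nat.sub c a36)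
    (Nat.sub c a37) (Nat.sub c a38) (Nat.sub c a39) (Nat.sub c a40) (Nat.sub c a41) (Nat.sub c a42)
    (Nat.sub c a43) (Nat.sub c a44) (Nat.sub c a45) (Nat.sub c a46) (Nat.sub c a47) (Nat.sub c a48)
    (Nat.sub c a49) (Nat.sub c a50) (Nat.sub c a51) (Nat.sub c a52) (Nat.sub c a53) (Nat.sub c a54)
    (Nat.sub c a55) (Nat.sub c a56) (Nat.sub c a57) (Nat.sub c a58) (Nat.sub c a59) (Nat.sub c a60)
    (Nat.sub c a61) (Nat.sub c a62) (Nat.sub c a63) := rfl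

/-- keys -/
def bs94
    (R : Type) (c a0 a1 a2 a3 a4 a5 a6 a7 a8 a9 a10 a11 a12 a13 a14 a15 a16 a17 a18 a19 a20 a21 a22
    a23 a24 a25 a26 a27 a28 a29 a30 a31 a32 a33 a34 a35 a36 a37 a38 a39 a40 a41 a42 a43 a44 a45 a46
    a47 a48 a49 a50 a51 a52 a53 a54 a55 a56 a57 a58 a59 a60 a61 a62 a63 a64 a65 a66 a67 a68 a69 a70
    a71 a72 a73 a74 a75 a76 a77 a78 a79 a80 a81 a82 a83 a84 a85 a86 a87 a88 a89 a90 a91 a92 a93 :
    Nat) :
    Bx ((Nat → Nat → Nat → Nat → Nat → Nat → Nat → Nat → Nat → Nat → Nat → Nat → Nat → Nat → Nat →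
    Nat → Nat → Nat → Nat → Nat → Nat → Nat → Nat → Nat → Nat → Nat → Nat → Nat → Nat → Nat → Nat →
    Nat → Nat → Nat → Nat → Nat → Nat → Nat → Nat → Nat → Nat → Nat → Nat → Nat → Nat → Nat → Nat →
    Nat → Nat → Nat → Nat → Nat → Nat → Nat → Nat → Nat → Nat → Nat → Nat → Nat → Nat → Nat → Nat →
    Nat → Nat → Nat → Nat → Nat → Nat → Nat → Nat → Nat → Nat → Nat → Nat → Nat → Nat → Nat → Nat →
    Nat → Nat → Nat → Nat → Nat → Nat → Nat → Nat → Nat → Nat → Nat → Nat → Nat → Nat → Nat → R) →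
    R) :=
  K8.rec (motive := fun _ => Bx ((Nat → Nat → Nat → Nat → Nat → Nat → Nat → Nat → Nat → Nat → Nat →
  Nat → Nat → Nat → Nat → Nat → Nat → Nat → Nat → Nat → Nat → Nat → Nat → Nat → Nat → Nat → Nat →
  Nat → Nat → Nat → Nat → Nat → Nat → Nat → Nat → Nat → Nat → Nat → Nat → Nat → Nat → Nat → Nat →
  Nat → Nat → Nat → Nat → Nat → Nat → Nat → Nat → Nat → Nat → Nat → Nat → Nat → Nat → Nat → Nat →
  Nat → Nat → Nat → Nat → Nat → Nat → Nat → Nat → Nat → Nat → Nat → Nat → Nat → Nat → Nat → Nat →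
  Nat → Nat → Nat → Nat → Nat → Nat → Nat → Nat → Nat → Nat → Nat → Nat → Nat → Nat → Nat → Nat →
  Nat → Nat → Nat → R) → R)) (fun c0 c1 c2 c3 c4 c5 c6 c7 => K8.rec (motive := fun _ => Bx ((Nat →
  Nat → Nat → Nat → Nat → Nat → Nat → Nat → Nat → Nat → Nat → Nat → Nat → Nat → Nat → Nat → Nat →
  Nat → Nat → Nat → Nat → Nat → Nat → Nat → Nat → Nat → Nat → Nat → Nat → Nat → Nat → Nat → Nat →
  Nat → Nat → Nat → Nat → Nat → Nat → Nat → Nat → Nat → Nat → Nat → Nat → Nat → Nat → Nat → Nat →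
  Nat → Nat → Nat → Nat → Nat → Nat → Nat → Nat → Nat → Nat → Nat → Nat → Nat → Nat → Nat → Nat →
  Nat → Nat → Nat → Nat → Nat → Nat → Nat → Nat → Nat → Nat → Nat → Nat → Nat → Nat → Nat → Nat →
  Nat → Nat → Nat → Nat → Nat → Nat → Nat → Nat → Nat → Nat → Nat → Nat → Nat → R) → R)) (fun c8 c9
  c10 c11 c12 c13 c14 c15 => K8.rec (motive := fun _ => Bx ((Nat → Nat → Nat → Nat → Nat → Nat → Nat
  → Nat → Nat → Nat → Nat → Nat → Nat → Nat → Nat → Nat → Nat → Nat → Nat → Nat → Nat → Nat → Nat →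
  Nat → Nat → Nat → Nat → Nat → Nat → Nat → Nat → Nat → Nat → Nat → Nat → Nat → Nat → Nat → Nat →
  Nat → Nat → Nat → Nat → Nat → Nat → Nat → Nat → Nat → Nat → Nat → Nat → Nat → Nat → Nat → Nat →
  Nat → Nat → Nat → Nat → Nat → Nat → Nat → Nat → Nat → Nat → Nat → Nat → Nat → Nat → Nat → Nat →
  Nat → Nat → Nat → Nat → Nat → Nat → Nat → Nat → Nat → Nat → Nat → Nat → Nat → Nat → Nat → Nat →
  Nat → Nat → Nat → Nat → Nat → Nat → Nat → R) → R)) (fun c16 c17 c18 c19 c20 c21 c22 c23 => K8.rec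
  (motive := fun _ => Bx ((Nat → Nat → Nat → Nat → Nat → Nat → Nat → Nat → Nat → Nat → Nat → Nat →
  Nat → Nat → Nat → Nat → Nat → Nat → Nat → Nat → Nat → Nat → Nat → Nat → Nat → Nat → Nat → Nat →
  Nat → Nat → Nat → Nat → Nat → Nat → Nat → Nat → Nat → Nat → Nat → Nat → Nat → Nat → Nat → Nat →
  Nat → Nat → Nat → Nat → Nat → Nat → Nat → Nat → Nat → Nat → Nat → Nat → Nat → Nat → Nat → Nat →
  Nat → Nat → Nat → Nat → Nat → Nat → Nat → Nat → Nat → Nat → Nat → Nat → Nat → Nat → Nat → Nat →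
  Nat → Nat → Nat → Nat → Nat → Nat → Nat → Nat → Nat → Nat → Nat → Nat → Nat → Nat → Nat → Nat →
  Nat → Nat → R) → R)) (fun c24 c25 c26 c27 c28 c29 c30 c31 => K8.rec (motive := fun _ => Bx ((Nat →
  Nat → Nat → Nat → Nat → Nat → Nat → Nat → Nat → Nat → Nat → Nat → Nat → Nat → Nat → Nat → Nat →
  Nat → Nat → Nat → Nat → Nat → Nat → Nat → Nat → Nat → Nat → Nat → Nat → Nat → Nat → Nat → Nat →
  Nat → Nat → Nat → Nat → Nat → Nat → Nat → Nat → Nat → Nat → Nat → Nat → Nat → Nat → Nat → Nat →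
  Nat → Nat → Nat → Nat → Nat → Nat → Nat → Nat → Nat → Nat → Nat → Nat → Nat → Nat → Nat → Nat →
  Nat → Nat → Nat → Nat → Nat → Nat → Nat → Nat → Nat → Nat → Nat → Nat → Nat → Nat → Nat → Nat →
  Nat → Nat → Nat → Nat → Nat → Nat → Nat → Nat → Nat → Nat → Nat → Nat → Nat → R) → R)) (fun c32
  c33 c34 c35 c36 c37 c38 c39 => K8.rec (motive := fun _ => Bx ((Nat → Nat → Nat → Nat → Nat → Nat →
  Nat → Nat → Nat → Nat → Nat → Nat → Nat → Nat → Nat → Nat → Nat → Nat → Nat → Nat → Nat → Nat →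
  Nat → Nat → Nat → Nat → Nat → Nat → Nat → Nat → Nat → Nat → Nat → Nat → Nat → Nat → Nat → Nat →
  Nat → Nat → Nat → Nat → Nat → Nat → Nat → Nat → Nat → Nat → Nat → Nat → Nat → Nat → Nat → Nat →
  Nat → Nat → Nat → Nat → Nat → Nat → Nat → Nat → Nat → Nat → Nat → Nat → Nat → Nat → Nat → Nat →
  Nat → Nat → Nat → Nat → Nat → Nat → Nat → Nat → Nat → Nat → Nat → Nat → Nat → Nat → Nat → Nat →
  Nat → Nat → Nat → Nat → Nat → Nat → Nat → Nat → R) → R)) (fun c40 c41 c42 c43 c44 c45 c46 c47 =>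
  K8.rec (motive := fun _ => Bx ((Nat → Nat → Nat → Nat → Nat → Nat → Nat → Nat → Nat → Nat → Nat →
  Nat → Nat → Nat → Nat → Nat → Nat → Nat → Nat → Nat → Nat → Nat → Nat → Nat → Nat → Nat → Nat →
  Nat → Nat → Nat → Nat → Nat → Nat → Nat → Nat → Nat → Nat → Nat → Nat → Nat → Nat → Nat → Nat →
  Nat → Nat → Nat → Nat → Nat → Nat → Nat → Nat → Nat → Nat → Nat → Nat → Nat → Nat → Nat → Nat →
  Nat → Nat → Nat → Nat → Nat → Nat → Nat → Nat → Nat → Nat → Nat → Nat → Nat → Nat → Nat → Nat →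
  Nat → Nat → Nat → Nat → Nat → Nat → Nat → Nat → Nat → Nat → Nat → Nat → Nat → Nat → Nat → Nat →
  Nat → Nat → Nat → R) → R)) (fun c48 c49 c50 c51 c52 c53 c54 c55 => K8.rec (motive := fun _ => Bx
  ((Nat → Nat → Nat → Nat → Nat → Nat → Nat → Nat → Nat → Nat → Nat → Nat → Nat → Nat → Nat → Nat →
  Nat → Nat → Nat → Nat → Nat → Nat → Nat → Nat → Nat → Nat → Nat → Nat → Nat → Nat → Nat → Nat →
  Nat → Nat → Nat → Nat → Nat → Nat → Nat → Nat → Nat → Nat → Nat → Nat → Nat → Nat → Nat → Nat →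
  Nat → Nat → Nat → Nat → Nat → Nat → Nat → Nat → Nat → Nat → Nat → Nat → Nat → Nat → Nat → Nat →
  Nat → Nat → Nat → Nat → Nat → Nat → Nat → Nat → Nat → Nat → Nat → Nat → Nat → Nat → Nat → Nat →
  Nat → Nat → Nat → Nat → Nat → Nat → Nat → Nat → Nat → Nat → Nat → Nat → Nat → Nat → R) → R)) (fun
  c56 c57 c58 c59 c60 c61 c62 c63 => K8.rec (motive := fun _ => Bx ((Nat → Nat → Nat → Nat → Nat →
  Nat → Nat → Nat → Nat → Nat → Nat → Nat → Nat → Nat → Nat → Nat → Nat → Nat → Nat → Nat → Nat →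
  Nat → Nat → Nat → Nat → Nat → Nat → Nat → Nat → Nat → Nat → Nat → Nat → Nat → Nat → Nat → Nat →
  Nat → Nat → Nat → Nat → Nat → Nat → Nat → Nat → Nat → Nat → Nat → Nat → Nat → Nat → Nat → Nat →
  Nat → Nat → Nat → Nat → Nat → Nat → Nat → Nat → Nat → Nat → Nat → Nat → Nat → Nat → Nat → Nat →
  Nat → Nat → Nat → Nat → Nat → Nat → Nat → Nat → Nat → Nat → Nat → Nat → Nat → Nat → Nat → Nat →
  Nat → Nat → Nat → Nat → Nat → Nat → Nat → Nat → Nat → R) → R)) (fun c64 c65 c66 c67 c68 c69 c70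
  c71 => K8.rec (motive := fun _ => Bx ((Nat → Nat → Nat → Nat → Nat → Nat → Nat → Nat → Nat → Nat →
  Nat → Nat → Nat → Nat → Nat → Nat → Nat → Nat → Nat → Nat → Nat → Nat → Nat → Nat → Nat → Nat →
  Nat → Nat → Nat → Nat → Nat → Nat → Nat → Nat → Nat → Nat → Nat → Nat → Nat → Nat → Nat → Nat →
  Nat → Nat → Nat → Nat → Nat → Nat → Nat → Nat → Nat → Nat → Nat → Nat → Nat → Nat → Nat → Nat →
  Nat → Nat → Nat → Nat → Nat → Nat → Nat → Nat → Nat → Nat → Nat → Nat → Nat → Nat → Nat → Nat →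
  Nat → Nat → Nat → Nat → Nat → Nat → Nat → Nat → Nat → Nat → Nat → Nat → Nat → Nat → Nat → Nat →
  Nat → Nat → Nat → Nat → R) → R)) (fun c72 c73 c74 c75 c76 c77 c78 c79 => K8.rec (motive := fun _
  => Bx ((Nat → Nat → Nat → Nat → Nat → Nat → Nat → Nat → Nat → Nat → Nat → Nat → Nat → Nat → Nat →
  Nat → Nat → Nat → Nat → Nat → Nat → Nat → Nat → Nat → Nat → Nat → Nat → Nat → Nat → Nat → Nat →
  Nat → Nat → Nat → Nat → Nat → Nat → Nat → Nat → Nat → Nat → Nat → Nat → Nat → Nat → Nat → Nat →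
  Nat → Nat → Nat → Nat → Nat → Nat → Nat → Nat → Nat → Nat → Nat → Nat → Nat → Nat → Nat → Nat →
  Nat → Nat → Nat → Nat → Nat → Nat → Nat → Nat → Nat → Nat → Nat → Nat → Nat → Nat → Nat → Nat →
  Nat → Nat → Nat → Nat → Nat → Nat → Nat → Nat → Nat → Nat → Nat → Nat → Nat → Nat → Nat → R) → R))
  (fun c80 c81 c82 c83 c84 c85 c86 c87 => K8.rec (motive := fun _ => Bx ((Nat → Nat → Nat → Nat →
  Nat → Nat → Nat → Nat → Nat → Nat → Nat → Nat → Nat → Nat → Nat → Nat → Nat → Nat → Nat → Nat →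
  Nat → Nat → Nat → Nat → Nat → Nat → Nat → Nat → Nat → Nat → Nat → Nat → Nat → Nat → Nat → Nat →
  Nat → Nat → Nat → Nat → Nat → Nat → Nat → Nat → Nat → Nat → Nat → Nat → Nat → Nat → Nat → Nat →
  Nat → Nat → Nat → Nat → Nat → Nat → Nat → Nat → Nat → Nat → Nat → Nat → Nat → Nat → Nat → Nat →
  Nat → Nat → Nat → Nat → Nat → Nat → Nat → Nat → Nat → Nat → Nat → Nat → Nat → Nat → Nat → Nat →
  Nat → Nat → Nat → Nat → Nat → Nat → Nat → Nat → Nat → Nat → R) → R)) (fun c88 c89 c90 c91 c92 c93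
  _ _ => Bx.mk fun f => f c0 c1 c2 c3 c4 c5 c6 c7 c8 c9 c10 c11 c12 c13 c14 c15 c16 c17 c18 c19 c20
  c21 c22 c23 c24 c25 c26 c27 c28 c29 c30 c31 c32 c33 c34 c35 c36 c37 c38 c39 c40 c41 c42 c43 c44
  c45 c46 c47 c48 c49 c50 c51 c52 c53 c54 c55 c56 c57 c58 c59 c60 c61 c62 c63 c64 c65 c66 c67 c68
  c69 c70 c71 c72 c73 c74 c75 c76 c77 c78 c79 c80 c81 c82 c83 c84 c85 c86 c87 c88 c89 c90 c91 c92
  c93) (s8 c a88 a89 a90 a91 a92 a93 0 0)) (s8 c a80 a81 a82 a83 a84 a85 a86 a87)) (s8 c a72 a73 a74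
  a75 a76 a77 a78 a79)) (s8 c a64 a65 a66 a67 a68 a69 a70 a71)) (s8 c a56 a57 a58 a59 a60 a61 a62
  a63)) (s8 c a48 a49 a50 a51 a52 a53 a54 a55)) (s8 c a40 a41 a42 a43 a44 a45 a46 a47)) (s8 c a32
  a33 a34 a35 a36 a37 a38 a39)) (s8 c a24 a25 a26 a27 a28 a29 a30 a31)) (s8 c a16 a17 a18 a19 a20
  a21 a22 a23)) (s8 c a8 a9 a10 a11 a12 a13 a14 a15)) (s8 c a0 a1 a2 a3 a4 a5 a6 a7)

theorem bs94_eq
    (R : Type) (c a0 a1 a2 a3 a4 a5 a6 a7 a8 a9 a10 a11 a12 a13 a14 a15 a16 a17 a18 a19 a20 a21 a22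
    a23 a24 a25 a26 a27 a28 a29 a30 a31 a32 a33 a34 a35 a36 a37 a38 a39 a40 a41 a42 a43 a44 a45 a46
    a47 a48 a49 a50 a51 a52 a53 a54 a55 a56 a57 a58 a59 a60 a61 a62 a63 a64 a65 a66 a67 a68 a69 a70
    a71 a72 a73 a74 a75 a76 a77 a78 a79 a80 a81 a82 a83 a84 a85 a86 a87 a88 a89 a90 a91 a92 a93 :
    Nat) :
    bs94 R c a0 a1 a2 a3 a4 a5 a6 a7 a8 a9 a10 a11 a12 a13 a14 a15 a16 a17 a18 a19 a20 a21 a22 a23
    a24 a25 a26 a27 a28 a29 a30 a31 a32 a33 a34 a35 a36 a37 a38 a39 a40 a41 a42 a43 a44 a45 a46 a47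
    a48 a49 a50 a51 a52 a53 a54 a55 a56 a57 a58 a59 a60 a61 a62 a63 a64 a65 a66 a67 a68 a69 a70 a71
    a72 a73 a74 a75 a76 a77 a78 a79 a80 a81 a82 a83 a84 a85 a86 a87 a88 a89 a90 a91 a92 a93 = Bx.mk
    fun f => f (Nat.sub c a0) (Nat.sub c a1) (Nat.sub c a2) (Nat.sub c a3) (Nat.sub c a4) (Nat.sub c
    a5) (Nat.sub c a6) (Nat.sub c a7) (Nat.sub c a8) (Nat.sub c a9) (Nat.sub c a10) (Nat.sub c a11)
    (Nat.sub c a12) (Nat.sub c a13) (Nat.sub c a14) (Nat.sub c a15) (Nat.sub c a16) (Nat.sub c a17)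
    (Nat.sub c a18) (Nat.sub c a19) (Nat.sub c a20) (Nat.sub c a21) (Nat.sub c a22) (Nat.sub c a23)
    (Nat.sub c a24) (Nat.sub c a25) (Nat.sub c a26) (Nat.sub c a27) (Nat.sub c a28) (Nat.sub c a29)
    (Nat.sub c a30) (Nat.sub c a31) (Nat.sub c a32) (Nat.sub c a33) (Nat.sub c a34) (Nat.sub c a35)
    (Nat.sub c a36) (Nat.sub c a37) (Nat.sub c a38) (Nat.sub c a39) (Nat.sub c a40) (Nat.sub c a41)
    (Nat.sub c a42) (Nat.sub c a43) (Nat.sub c a44) (Nat.sub c a45) (Nat.sub c a46) (Nat.sub c a47)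
    (Nat.sub c a48) (Nat.sub c a49) (Nat.sub c a50) (Nat.sub c a51) (Nat.sub c a52) (Nat.sub c a53)
    (Nat.sub c a54) (Nat.sub c a55) (Nat.sub c a56) (Nat.sub c a57) (Nat.sub c a58) (Nat.sub c a59)
    (Nat.sub c a60) (Nat.sub c a61) (Nat.sub c a62) (Nat.sub c a63) (Nat.sub c a64) (Nat.sub c a65)
    (Nat.sub c a66) (Nat.sub c a67) (Nat.sub c a68) (Nat.sub c a69) (Nat.sub c a70) (Nat.sub c a71)
    (Nat.sub c a72) (Nat.sub c a73) (Nat.sub c a74) (Nat.sub c a75) (Nat.sub c a76) (Nat.sub c a77)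
    (Nat.sub c a78) (Nat.sub c a79) (Nat.sub c a80) (Nat.sub c a81) (Nat.sub c a82) (Nat.sub c a83)
    (Nat.sub c a84) (Nat.sub c a85) (Nat.sub c a86) (Nat.sub c a87) (Nat.sub c a88) (Nat.sub c a89)
    (Nat.sub c a90) (Nat.sub c a91) (Nat.sub c a92) (Nat.sub c a93) := rfl

/-- keys -/
def bx21
    (R : Type) (c a0 a1 a2 a3 a4 a5 a6 a7 a8 a9 a10 a11 a12 a13 a14 a15 a16 a17 a18 a19 a20 : Nat) :
    Bx ((Nat → Nat → Nat → Nat → Nat → Nat → Nat → Nat → Nat → Nat → Nat → Nat → Nat → Nat → Nat →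
    Nat → Nat → Nat → Nat → Nat → Nat → R) → R) :=
  K8.rec (motive := fun _ => Bx ((Nat → Nat → Nat → Nat → Nat → Nat → Nat → Nat → Nat → Nat → Nat →
  Nat → Nat → Nat → Nat → Nat → Nat → Nat → Nat → Nat → Nat → R) → R)) (fun c0 c1 c2 c3 c4 c5 c6 c7
  => K8.rec (motive := fun _ => Bx ((Nat → Nat → Nat → Nat → Nat → Nat → Nat → Nat → Nat → Nat → Nat
  → Nat → Nat → Nat → Nat → Nat → Nat → Nat → Nat → Nat → Nat → R) → R)) (fun c8 c9 c10 c11 c12 c13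
  c14 c15 => K8.rec (motive := fun _ => Bx ((Nat → Nat → Nat → Nat → Nat → Nat → Nat → Nat → Nat →
  Nat → Nat → Nat → Nat → Nat → Nat → Nat → Nat → Nat → Nat → Nat → Nat → R) → R)) (fun c16 c17 c18
  c19 c20 _ _ _ => Bx.mk fun f => f c0 c1 c2 c3 c4 c5 c6 c7 c8 c9 c10 c11 c12 c13 c14 c15 c16 c17
  c18 c19 c20) (k8 c a16 a17 a18 a19 a20 0 0 0)) (k8 c a8 a9 a10 a11 a12 a13 a14 a15)) (k8 c a0 a1
  a2 a3 a4 a5 a6 a7)

theorem bx21_eq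
    (R : Type) (c a0 a1 a2 a3 a4 a5 a6 a7 a8 a9 a10 a11 a12 a13 a14 a15 a16 a17 a18 a19 a20 : Nat) :
    bx21 R c a0 a1 a2 a3 a4 a5 a6 a7 a8 a9 a10 a11 a12 a13 a14 a15 a16 a17 a18 a19 a20 = Bx.mk fun f
    => f (Nat.add c a0) (Nat.add c a1) (Nat.add c a2) (Nat.add c a3) (Nat.add c a4) (Nat.add c a5)
    (Nat.add c a6) (Nat.add c a7) (Nat.add c a8) (Nat.add c a9) (Nat.add c a10) (Nat.add c a11)
    (Nat.add c a12) (Nat.add c a13) (Nat.add c a14) (Nat.add c a15) (Nat.add c a16) (Nat.add c a17)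
    (Nat.add c a18) (Nat.add c a19) (Nat.add c a20) := rfl

end Vale.Agent.P236X
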