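import Vale.Agent.P236X.Tab

/-!
# P236 / X : from the final tests to `δ ∘ δ ∈ 𝔞`
-/

noncomputable section

namespace Vale.Agent.P236X

open MvPolynomial Vale.Agent.P236A Vale.Agent.P236B Vale.Agent.P236C Vale.Agent.P236N

/-- the code of the row `t ^ K e`, where `b` is the degree of `e` -/
def rcode (K : ℕ →₀ ℕ) (b : ℕ) : ℕ := kcode K * 2 ^ 21 + (tdeg K + b) * 2 ^ 49

theorem cdeg_rcode {K : ℕ →₀ ℕ} {b : ℕ} (h : tdeg K ≤ 94) : cdeg (rcode K b) = tdeg K + b := by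
  rw [cdeg_eq, rcode, kcode]
  rw [tdeg] at h ⊢
  omega

theorem chkR_eq (U : Ctx) (e c k : ℕ) : chkR U e c k =
    fin U.Y (S11 U e (c + k * 562949955518464)) (cdeg (c + k * 562949955518464)) := by
  rw [chkR, force_eq, force_eq, Nat.add_eq, Nat.mul_eq]

theorem chk2_eq (U : Ctx) (e c k : ℕ) : chk2 U e c k = allN (chkR U e (c + k * 2251800082120704))
    (U.Y.T + 1 - cdeg (c + k * 2251800082120704)) := by
  rw [chk2, force_eq, Nat.add_eq, Nat.mul_eq, Nat.sub_eq]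

theorem chkI_eq (U : Ctx) {it e c : ℕ} (he : it % 64 = e) (hc : nth 0 U.gs e * 2 ^ 49 +
    it / 64 % 8 * 7318383754215424 + it / 512 * 22522396183363584 = c) (hT : cdeg c ≤ U.Y.T) :
    chkI U it = allN (chk2 U e c) ((U.Y.T - cdeg c) / 4 + 1) := by
  have e1 : Nat.land it 63 = e := (land_63 _).trans he
  have e2 : Nat.land (Nat.shiftRight it 6) 7 = it / 64 % 8 := h3_eq _
  have e3 : Nat.shiftRight it 9 = it / 512 := Nat.shiftRight_eq_div_pow _ 9
  have e4 : ∀ b, Nat.shiftLeft b 49 = b * 2 ^ 49 := fun b => Nat.shiftLeft_eq b 49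
  rw [chkI, force_eq, force_eq, e1, e2, e3, e4, Nat.add_eq, Nat.add_eq, Nat.mul_eq, Nat.mul_eq, hc,
    Nat.ble_eq_true_of_le hT, cond_true]
  exact congrArg _ rfl

/-- **the loops of the check reach every row** -/
theorem fin_of_chkI {U : Ctx} {e b : ℕ} {K : ℕ →₀ ℕ} (he : e < 64) (hb : nth 0 U.gs e = b)
    (h94 : U.Y.T ≤ 94) (hT : tdeg K + b ≤ U.Y.T)
    (hc : chkI U (e + 64 * (K 2 + 8 * K 3)) = true) :
    fin U.Y (S11 U e (rcode K b)) (tdeg K + b) = true := by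
  have hd := hT
  rw [tdeg] at hd
  obtain ⟨c, hc0⟩ : ∃ c, c = b * 2 ^ 49 + K 2 * 7318383754215424 + K 3 * 22522396183363584 :=
    ⟨_, rfl⟩
  have d0 : cdeg c = b + 13 * K 2 + 40 * K 3 := by
    rw [cdeg_eq]
    omega
  have d1 : cdeg (c + K 1 * 2251800082120704) = b + 4 * K 1 + 13 * K 2 + 40 * K 3 := by
    rw [cdeg_eq]
    omega
  have d2 : c + K 1 * 2251800082120704 + K 0 * 562949955518464 = rcode K b := by
    rw [rcode, kcode, tdeg]
    omega
  have e2 : (e + 64 * (K 2 + 8 * K 3)) / 64 % 8 = K 2 := by omega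
  have e3 : (e + 64 * (K 2 + 8 * K 3)) / 512 = K 3 := by omega
  rw [chkI_eq U (e := e) (c := c) (by omega) (by rw [hb, e2, e3, hc0]) (by omega), allN_iff] at hc
  have h2 := hc (K 1) (by omega)
  rw [chk2_eq, allN_iff] at h2
  have h1 := h2 (K 0) (by omega)
  rwa [chkR_eq, d2, cdeg_rcode (by rw [tdeg]; omega)] at h1

/-- the slab of a group is complete -/
theorem ent_mem {Y : Lay} {L : Lv} {gm : List ℕ} {gam : ℕ} (hG : grpOK Y L gm gam = true)
    {k j3 j4 : ℕ} (hk' : k < 64) (h3' : j3 < 8) (h4' : j4 < 4) (hg : nth 0 gm k = gam)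
    (hT : 13 * j3 + 40 * j4 + gtd L k ≤ Y.T) : ent k j3 j4 (gtd L k) ∈ Y.sl := by
  simp only [grpOK, Bool.and_eq_true, allN_iff] at hG
  have h1 := hG.1.2 k hk'
  rw [hg, Nat.beq_refl, Bool.not_true, Bool.false_or, allN_iff] at h1
  have h2 := allN_iff.1 (h1 j3 h3') j4 h4'
  rw [Bool.or_eq_true, Nat.blt_eq] at h2
  by_contra h5
  refine h2.elim (by omega) fun h6 => ?_
  rw [allL_iff.2 fun h hh => ?_] at h6
  · cases h6
  · rw [Bool.not_eq_true', ← Bool.not_eq_true, Nat.beq_eq]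
    rintro rfl
    exact h5 hh

/-- **the final test gives membership in the ideal** -/
theorem mem_of_fin {Y : Lay} (hY : layOK Y = true) {L : Lv} {gm : List ℕ} {gam : ℕ}
    (hG : grpOK Y L gm gam = true) {x d k : ℕ} {F : ℕ → ℕ → Ab Y.a Y.N} (R : Rep Y x d 126 F)
    (hf : fin Y x d = true) (hT : d ≤ Y.T) (hk' : k < 64) (hg : nth 0 gm k = gam) {r : Av K9}
    (hr : r ∈ (gA 3 K9).G (2 * (d : ℤ) - 2 * (gtd L k : ℤ))) (hF : F 0 k = xq Y.a Y.N r) :
    r ∈ JJ 3 K9 Y.a Y.N := by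
  have h := layP hY
  refine mem_of_mu fun J hJ => ?_
  by_cases h0 : coeff J r = 0
  · rw [h0, mul_zero]
  have h1 : mz 3 J = 2 * (d : ℤ) - 2 * (gtd L k : ℤ) := (mem_gA 3).1 hr h0
  have h94 := h.top
  have h4' : J.support ⊆ Finset.range 4 := P236M.supp_of_mz (p := 3) (by
    rw [h1, show wz 3 4 = 242 from rfl]
    omega)
  rw [mz_eq h4', tdeg] at h1
  obtain ⟨p, a1, a2, a3, a4, a5⟩ := exists_pos hY (j1 := J 0) (j2 := J 1)
    (ent_mem hG hk' (j3 := J 2) (j4 := J 3) (by omega) (by omega) hg (by omega)) hJ hk'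
    (by omega) (by omega) (by omega)
  have h2 := R.fin hY hf hT p a1 (by omega) a3
  rwa [a4, a5, ← eq_ex4 h4', hF, cf_mk h.aN] at h2

variable {D : ℕ → Lv} {T S : ℕ}

/-- The last table of the context represents the rows of `δ ∘ δ` on the level `s`. -/
def RowOK (U : Ctx) (D : ℕ → Lv) (T S s : ℕ) : Prop :=
  ∀ g g'' : Io S, (g.1 : ℕ) = s → (g''.1 : ℕ) = s + 2 → ∀ K : ℕ →₀ ℕ, K.support ⊆ Finset.range 4 →
    tdeg K + gw s g.2 ≤ U.Y.T → ∃ F, Rep U.Y (S11 U g.2 (rcode K (gw s g.2))) (tdeg K + gw s g.2)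
      126 F ∧ F 0 g''.2 = xq U.Y.a U.Y.N (RR 3 (delta D T S) (delta D T S) g g'' K)

theorem mono_rcode {B : Type} [CommRing B] {K : ℕ →₀ ℕ} (hK : K.support ⊆ Finset.range 4)
    (h : tdeg K ≤ 94) (b : ℕ) : mdeg (rcode K b) = tdeg K ∧
      (X 0 ^ 0 * mono (rcode K b) : MvPolynomial ℕ B) = monomial (P236M.sh K) 1 := by
  have f : fld (rcode K b) 0 = 0 ∧ fld (rcode K b) 1 = 0 ∧ fld (rcode K b) 2 = 0 ∧
      fld (rcode K b) 3 = K 0 ∧ fld (rcode K b) 4 = K 1 ∧ fld (rcode K b) 5 = K 2 ∧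
      fld (rcode K b) 6 = K 3 := by
    rw [tdeg] at h
    generalize hd : tdeg K + b = d
    have q4 : rcode K b / 128 ^ 4 = K 1 + 128 * (K 2 + 128 * (K 3 + 128 * d)) := by
      rw [rcode, kcode, hd]
      omega
    have q5 : rcode K b / 128 ^ 5 = K 2 + 128 * (K 3 + 128 * d) := by
      rw [rcode, kcode, hd]
      omega
    have q6 : rcode K b / 128 ^ 6 = K 3 + 128 * d := by
      rw [rcode, kcode, hd]
      omega
    simp only [fld_eq, q4, q5, q6]
    rw [rcode, kcode]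
    refine ⟨?_, ?_, ?_, ?_, ?_, ?_, ?_⟩ <;> omega
  obtain ⟨f0, f1, f2, f3, f4, f5, f6⟩ := f
  refine ⟨by rw [mdeg, f0, f1, f2, f3, f4, f5, f6, tdeg]; omega, ?_⟩
  rw [mono_eq, lmon, f0, f1, f2, f3, f4, f5, f6, ← eq_ex4 hK, show ex4 0 0 0 0 = 0 by simp [ex4],
    zero_add]

theorem rowOK_of (hH : HomD 3 (Gam S) (delta D T S)) {U : Ctx} {s : ℕ} (h94 : U.Y.T ≤ 94)
    {Φ : ℕ → ℕ → Pb U.Y.a U.Y.N →ₗ[Ab U.Y.a U.Y.N] Ab U.Y.a U.Y.N}
    (h : ∀ e < 64, TabOK U.Y (S11 U e) (gw s e) 126 (Φ e))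
    (hΦ : ∀ e k q, Φ e k q = Ymap U.Y.a U.Y.N D T s e k (P236M.sB 3 (xq U.Y.a U.Y.N) q)) :
    RowOK U D T S s := fun g g'' e1 e2 K hK hd => by
  have h1 : tdeg K ≤ 94 := by omega
  obtain ⟨m1, m2⟩ := mono_rcode (B := Ab U.Y.a U.Y.N) hK h1 (gw s g.2)
  have h2 := h g.2 g.2.2 (rcode K (gw s g.2)) (by rw [cdeg_rcode h1, m1, add_comm])
    (by rwa [cdeg_rcode h1])
  rw [cdeg_rcode h1] at h2
  refine ⟨_, h2, ?_⟩
  rw [m2, hΦ, ← e1]
  refine ymap_RR hH g g'' (by omega) ?_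
  rw [mz_eq hK, Gam_wt, e1, show wz 3 4 = 242 from rfl]
  omega

/-- `δ ∘ δ` lies in the ideal on the level `s` for the targets with `P`. -/
def LevIn (D : ℕ → Lv) (T S s a N : ℕ) (P : ℕ → Prop) : Prop :=
  ∀ g g'' : Io S, (g.1 : ℕ) = s → (g''.1 : ℕ) = s + 2 → P g''.2 → ∀ K : ℕ →₀ ℕ,
    K.support ⊆ Finset.range 4 → tdeg K + gw s g.2 ≤ T →
      RR 3 (delta D T S) (delta D T S) g g'' K ∈ JJ 3 K9 a N

/-- membership in a list -/
def memL (x : Nat) (l : List Nat) : Bool := !allL (fun y => !Nat.beq y x) l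

theorem memL_spec {x : ℕ} {l : List ℕ} (h : memL x l = true) : x ∈ l := by
  by_contra h5
  rw [memL, allL_iff.2 fun y hy => ?_] at h
  · cases h
  · rw [Bool.not_eq_true', ← Bool.not_eq_true, Nat.beq_eq]
    rintro rfl
    exact h5 hy

/-- the degrees of the sources are correct -/
def gsOK (s : Nat) (gs : List Nat) : Bool := allN (fun e => Nat.beq (nth 0 gs e) (gw s e)) 64

/-- the items cover all rows of degree at most `T` -/
def covI (s T : Nat) (its : List Nat) : Bool :=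
  allN (fun e => allN (fun k3 => allN (fun k4 => Nat.blt T (gw s e + 13 * k3 + 40 * k4) ||
    memL (e + 64 * (k3 + 8 * k4)) its) 4) 8) 64

/-- the groups cover all targets of degree at most `T` -/
def covG (s T : Nat) (gm gams : List Nat) : Bool :=
  allN (fun k => Nat.blt T (gw (s + 2) k) || memL (nth 0 gm k) gams) 64

theorem chkU_nil (U : Ctx) : chkU U [] = true := rfl

theorem chkU_append {U : Ctx} {l l' : List ℕ} (h : chkU U l = true) (h' : chkU U l' = true) :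
    chkU U (l ++ l') = true :=
  allL_iff.2 fun a ha => (List.mem_append.1 ha).elim (allL_iff.1 h a) (allL_iff.1 h' a)

theorem RR_wt (hH : HomD 3 (Gam S) (delta D T S)) (g g'' : Io S) {K : ℕ →₀ ℕ}
    (hK : K.support ⊆ Finset.range 4) : RR 3 (delta D T S) (delta D T S) g g'' K ∈
      (gA 3 K9).G (2 * ((tdeg K + gw g.1 g.2 : ℕ) : ℤ) - 2 * (gw g''.1 g''.2 : ℤ)) := by
  have h := RR_mem 3 hH hH g g'' K
  rw [mz_eq hK, Gam_wt, Gam_wt] at h
  exact Grd.cast _ h (by push_cast; ring)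

/-- **one group of targets** -/
theorem levIn_grp (hH : HomD 3 (Gam S) (delta D T S)) {U : Ctx} {s : ℕ} {gm its : List ℕ}
    (hY : layOK U.Y = true) (hT : U.Y.T = T) (hG : grpOK U.Y (D (s + 1)) gm U.gam = true)
    (hg : gtOK (s + 1) (D (s + 1)) = true) (hs : gsOK s U.gs = true) (hI : covI s T its = true)
    (hc : chkU U its = true) (hR : RowOK U D T S s) :
    LevIn D T S s U.Y.a U.Y.N fun k => nth 0 gm k = U.gam := fun g g'' e1 e2 hP K hK hd => by
  have h94 := (layP hY).top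
  have hd' := hd
  rw [tdeg] at hd'
  obtain ⟨F, R, hF⟩ := hR g g'' e1 e2 K hK (hT ▸ hd)
  have h1 := allN_iff.1 (allN_iff.1 (allN_iff.1 hI g.2 g.2.2) (K 2) (by omega)) (K 3) (by omega)
  rw [Bool.or_eq_true, Nat.blt_eq] at h1
  have h2 := allL_iff.1 hc _ (memL_spec (h1.resolve_left (by omega)))
  have h5 := fin_of_chkI g.2.2 (Nat.eq_of_beq_eq_true (allN_iff.1 hs g.2 g.2.2)) h94 (hT ▸ hd) h2
  refine mem_of_fin hY hG R h5 (hT ▸ hd) g''.2.2 hP ?_ hF
  have h6 := RR_wt hH g g'' hK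
  rwa [e1, e2, ← gtOK_spec hg _ g''.2.2] at h6

/-- **all groups of a level** -/
theorem levIn_all (hH : HomD 3 (Gam S) (delta D T S)) {s a N : ℕ} {gm gams : List ℕ}
    (hc : covG s T gm gams = true)
    (h : ∀ gam ∈ gams, LevIn D T S s a N fun k => nth 0 gm k = gam) :
    LevIn D T S s a N fun _ => True := fun g g'' e1 e2 _ K hK hd => by
  have h1 := allN_iff.1 hc g''.2 g''.2.2
  rw [Bool.or_eq_true, Nat.blt_eq] at h1
  rcases h1 with h1 | h1
  · have h6 := RR_wt hH g g'' hK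
    rw [nonNeg_gA 3 _ _ h6 (by rw [e1, e2]; omega)]
    exact zero_mem _
  · exact h _ (memL_spec h1) g g'' e1 e2 rfl K hK hd

/-- **all levels** -/
theorem sqIn_of (hH : HomD 3 (Gam S) (delta D T S)) (h94 : T ≤ 94) {a N : ℕ → ℕ}
    (h : ∀ s < S, LevIn D T S s (a (s + 1)) (N (s + 1)) fun _ => True) :
    SqIn 3 (Gam S) (delta D T S) (fun s => JJ 3 K9 (a s) (N s)) (2 * T) := fun g g'' K hK => by
  by_cases e : (g''.1 : ℕ) = g.1 + 2
  · rw [Gam_wt] at hK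
    have h4' : K.support ⊆ Finset.range 4 := P236M.supp_of_mz (p := 3) (by
      rw [show wz 3 4 = 242 from rfl]
      omega)
    rw [mz_eq h4'] at hK
    exact h g.1 (by have := g''.1.2; omega) g g'' rfl e trivial K h4' (by omega)
  · rw [RR_deg 3 hH hH e]
    exact zero_mem _

end Vale.Agent.P236X
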