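import Vale.Agent.P236X.Rep

/-!
# P236 / X : positions of a layout, multiplication by monomials, unit vectors, the final test
-/

noncomputable section

namespace Vale.Agent.P236X

open MvPolynomial Vale.Agent.P236A Vale.Agent.P236B

/-! ### entries of a slab -/

theorem hk_eq (h : ℕ) : hk h = h % 64 := Nat.and_two_pow_sub_one_eq_mod h 6

theorem h3_eq (h : ℕ) : h3 h = h / 64 % 8 := by
  have := Nat.and_two_pow_sub_one_eq_mod (h >>> 6) 3
  rw [Nat.shiftRight_eq_div_pow] at this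
  exact (congrArg (· &&& 7) (Nat.shiftRight_eq_div_pow h 6)).trans this

theorem h4_eq (h : ℕ) : h4 h = h / 512 % 4 := by
  have := Nat.and_two_pow_sub_one_eq_mod (h >>> 9) 2
  rw [Nat.shiftRight_eq_div_pow] at this
  exact (congrArg (· &&& 3) (Nat.shiftRight_eq_div_pow h 9)).trans this

theorem hd_eq (h : ℕ) : hd h = h / 2048 := Nat.shiftRight_eq_div_pow h 11

theorem hk_lt (h : ℕ) : hk h < 64 := by rw [hk_eq]; omega
theorem h3_lt (h : ℕ) : h3 h < 8 := by rw [h3_eq]; omega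
theorem h4_lt (h : ℕ) : h4 h < 4 := by rw [h4_eq]; omega

theorem ent_spec {k j3 j4 : ℕ} (hk' : k < 64) (h3' : j3 < 8) (h4' : j4 < 4) (g : ℕ) :
    hk (ent k j3 j4 g) = k ∧ h3 (ent k j3 j4 g) = j3 ∧ h4 (ent k j3 j4 g) = j4 ∧
      hd (ent k j3 j4 g) = g := by
  simp only [hk_eq, h3_eq, h4_eq, hd_eq, ent]
  omega

theorem ent_ext {h h' : ℕ} (e1 : hk h = hk h') (e2 : h3 h = h3 h') (e3 : h4 h = h4 h')
    (e4 : hd h = hd h') : h = h' := by
  simp only [hk_eq, h3_eq, h4_eq, hd_eq] at *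
  omega

/-- the conditions on a layout -/
structure LayP (Y : Lay) : Prop where
  len : Y.S = Y.sl.length
  pos : 0 < Y.S
  four : 4 ≤ Y.N
  aN : Y.a < Y.N
  top : Y.T ≤ 94
  nle : Y.N ≤ 127
  um : ∀ h ∈ Y.sl, h3 h + hd h % 4 ≤ Y.um
  inj : ∀ r < Y.S, ∀ r' < Y.S, nth 0 Y.sl r = nth 0 Y.sl r' → r = r'
  sub : ∀ r < Y.S, ∀ l3 ≤ h3 (nth 0 Y.sl r), ∀ l4 ≤ h4 (nth 0 Y.sl r), r + l3 + Y.s4 * l4 < Y.S ∧
    nth 0 Y.sl (r + l3 + Y.s4 * l4) = ent (hk (nth 0 Y.sl r)) (h3 (nth 0 Y.sl r) - l3)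
      (h4 (nth 0 Y.sl r) - l4) (hd (nth 0 Y.sl r))

theorem layP {Y : Lay} (hY : layOK Y = true) : LayP Y := by
  simp only [layOK, Bool.and_eq_true, allN_iff, allL_iff, Nat.beq_eq, Nat.ble_eq, Nat.blt_eq,
    Bool.not_eq_true'] at hY
  obtain ⟨⟨⟨⟨⟨⟨⟨⟨h1, h2⟩, h3'⟩, h4'⟩, h5⟩, h6⟩, h7⟩, h8⟩, h9⟩ := hY
  have h8' : ∀ r < Y.S, ∀ r' < r, nth 0 Y.sl r ≠ nth 0 Y.sl r' := fun r hr r' hr' =>
    Nat.ne_of_beq_eq_false (h8 r hr r' hr')
  refine ⟨h1, h2, h3', h4', h5, h6, h7, fun r hr r' hr' e => ?_, fun r hr l3 a3 l4 a4 =>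
    h9 r hr l3 (by omega) l4 (by omega)⟩
  rcases lt_trichotomy r r' with h | h | h
  · exact absurd e.symm (h8' r' hr' r h)
  · exact h
  · exact absurd e (h8' r hr r' h)

/-! ### exponents -/

@[simp] theorem ex4_0 (a b c d : ℕ) : ex4 a b c d 0 = a := by simp [ex4]
@[simp] theorem ex4_1 (a b c d : ℕ) : ex4 a b c d 1 = b := by simp [ex4]
@[simp] theorem ex4_2 (a b c d : ℕ) : ex4 a b c d 2 = c := by simp [ex4]
@[simp] theorem ex4_3 (a b c d : ℕ) : ex4 a b c d 3 = d := by simp [ex4]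

theorem ex4_high (a b c d : ℕ) {i : ℕ} (hi : 4 ≤ i) : ex4 a b c d i = 0 := by
  have h0 : i ≠ 0 := by omega
  have h1 : i ≠ 1 := by omega
  have h2 : i ≠ 2 := by omega
  have h3 : i ≠ 3 := by omega
  simp [ex4, h0, h1, h2, h3]

theorem ex4_inj {a b c d a' b' c' d' : ℕ} (h : ex4 a b c d = ex4 a' b' c' d') :
    a = a' ∧ b = b' ∧ c = c' ∧ d = d' :=
  ⟨by simpa using DFunLike.congr_fun h 0, by simpa using DFunLike.congr_fun h 1,
    by simpa using DFunLike.congr_fun h 2, by simpa using DFunLike.congr_fun h 3⟩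

theorem ex4_le {a b c d a' b' c' d' : ℕ} :
    ex4 a b c d ≤ ex4 a' b' c' d' ↔ a ≤ a' ∧ b ≤ b' ∧ c ≤ c' ∧ d ≤ d' := by
  refine ⟨fun h => ⟨by simpa using h 0, by simpa using h 1, by simpa using h 2,
    by simpa using h 3⟩, fun h i => ?_⟩
  rcases Nat.lt_or_ge i 4 with hi | hi
  · obtain ⟨h0, h1, h2, h3⟩ := h
    interval_cases i <;> simpa
  · rw [ex4_high _ _ _ _ hi]
    exact Nat.zero_le _

theorem ex4_sub (a b c d a' b' c' d' : ℕ) :
    ex4 a b c d - ex4 a' b' c' d' = ex4 (a - a') (b - b') (c - c') (d - d') := by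
  ext i
  rw [Finsupp.tsub_apply]
  rcases Nat.lt_or_ge i 4 with hi | hi
  · interval_cases i <;> simp
  · simp [ex4_high _ _ _ _ hi]

/-- the exponent vector of a code of a monomial in the `v` -/
def lex (L : ℕ) : ℕ →₀ ℕ := ex4 (fld L 0) (fld L 1) (fld L 2) (fld L 3)

theorem vmon_xq (a N L : ℕ) : vmon (fun n => xq a N (X n)) L = xq a N (monomial (lex L) 1) := by
  simp only [vmon, ← map_pow, ← map_mul, X_pow_eq_monomial, monomial_mul, lex, ex4, one_mul]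

/-! ### coefficients in the quotient -/

/-- the ratio of two precisions -/
def rat (a j j' : ℕ) : K9 := if j' < a ∧ a ≤ j then 3 else 1

theorem mu_rat {a N j j' : ℕ} (h : j' ≤ j) (hj : j < N) : mu a N j = rat a j j' * mu a N j' := by
  unfold mu rat
  split_ifs <;> first | omega | simp

theorem cf_mon_mul {a N : ℕ} (h : a < N) (L' : ℕ →₀ ℕ) (y : Ab a N) {L : ℕ →₀ ℕ} (hL : L 0 < N) :
    cf (xq a N (monomial L' 1) * y) L =
      if L' ≤ L then rat a (L 0) (L 0 - L' 0) * cf y (L - L') else 0 := by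
  classical
  obtain ⟨r, rfl⟩ : ∃ r, xq a N r = y := Ideal.Quotient.mk_surjective y
  rw [← map_mul, cf_mk h, coeff_monomial_mul', cf_mk h]
  split_ifs
  · rw [one_mul, mu_rat (Nat.sub_le (L 0) (L' 0)) hL, mul_assoc, Finsupp.tsub_apply]
  · exact mul_zero _

/-! ### positions -/

theorem pos_spec {S N nb jj r : ℕ} (hj : jj < N) (hr : r < S) :
    ((nb * N + jj) * S + r) / S / N = nb ∧ ((nb * N + jj) * S + r) / S % N = jj ∧
      ((nb * N + jj) * S + r) % S = r := by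
  have h1 : ((nb * N + jj) * S + r) / S = nb * N + jj := by
    rw [add_comm, Nat.add_mul_div_right _ _ (by omega), Nat.div_eq_of_lt hr, zero_add]
  refine ⟨?_, ?_, ?_⟩
  · rw [h1, add_comm, Nat.add_mul_div_right _ _ (by omega), Nat.div_eq_of_lt hj, zero_add]
  · rw [h1, add_comm, Nat.add_mul_mod_self_right, Nat.mod_eq_of_lt hj]
  · rw [add_comm, Nat.add_mul_mod_self_right, Nat.mod_eq_of_lt hr]

theorem pos_eq (S N p : ℕ) : p = (p / S / N * N + p / S % N) * S + p % S := by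
  rw [Nat.div_add_mod' (p / S) N, Nat.div_add_mod' p S]

variable {Y : Lay}

theorem LayP.pj_lt (h : LayP Y) (p : ℕ) : Y.pj p < Y.N := by
  have := h.four
  unfold Lay.pj
  omega

theorem LayP.ph_mem (h : LayP Y) (p : ℕ) : Y.ph p ∈ Y.sl := by
  have h1 : p % Y.S < Y.sl.length := h.len ▸ Nat.mod_lt _ h.pos
  rw [Lay.ph, nth_eq, List.getD_eq_getElem _ _ h1]
  exact List.getElem_mem h1

theorem pL_zero (Y : Lay) (p : ℕ) : Y.pL p 0 = Y.pj p := ex4_0 _ _ _ _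

/-- the degree of a position is the degree of its monomial plus the degree of its generator -/
theorem pD_eq {p : ℕ} (h : Y.pq p ≤ Y.pn p) : Y.pD p = Y.pj p + 4 * (Y.pn p - Y.pq p) +
    13 * h3 (Y.ph p) + 40 * h4 (Y.ph p) + hd (Y.ph p) := by
  unfold Lay.pD
  unfold Lay.pq at *
  omega

/-- positions of degree at least `d` are among the first blocks -/
theorem LayP.lt_lenb (h : LayP Y) {p d : ℕ} (hp : Y.pin p) (hd' : d ≤ Y.pD p) :
    p < lenb Y d * Y.S := by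
  have h1 : p / Y.S < lenb Y d := by
    refine lenb_spec (Y := Y) (by have := h.four; omega) hp (h.um _ (h.ph_mem p)) ?_
    unfold Lay.pD Lay.pn Lay.pj at hd'
    omega
  exact (Nat.div_lt_iff_lt_mul h.pos).1 h1

theorem LayP.pin_of_lt (h : LayP Y) {p d : ℕ} (hp : p < lenb Y d * Y.S) : Y.pin p := by
  have h1 : p / Y.S < (Y.T / 4 + 1) * Y.N :=
    ((Nat.div_lt_iff_lt_mul h.pos).2 hp).trans_le (lenb_le (Y := Y) h.four d)
  have h2 := (Nat.div_lt_iff_lt_mul (by have := h.four; omega : 0 < Y.N)).2 h1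
  unfold Lay.pin
  omega

theorem LayP.pos_ext (h : LayP Y) {p p' : ℕ} (hp : Y.pin p) (hp' : Y.pin p')
    (hq : Y.pq p ≤ Y.pn p) (hq' : Y.pq p' ≤ Y.pn p') (hD : Y.pD p = Y.pD p')
    (hk' : hk (Y.ph p) = hk (Y.ph p')) (hL : Y.pL p = Y.pL p') : p = p' := by
  obtain ⟨e1, e2, e3, e4⟩ := ex4_inj hL
  have e5 : hd (Y.ph p) = hd (Y.ph p') := by
    rw [pD_eq hq, pD_eq hq'] at hD
    omega
  have e6 : Y.ph p = Y.ph p' := ent_ext hk' e3 e4 e5
  have e7 : p % Y.S = p' % Y.S := h.inj _ (Nat.mod_lt _ h.pos) _ (Nat.mod_lt _ h.pos) e6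
  have e8 : Y.pq p = Y.pq p' := by unfold Lay.pq; rw [e6]
  have hN : 0 < Y.N := by have := h.four; omega
  have e9 : p / Y.S / Y.N = p' / Y.S / Y.N := by
    unfold Lay.pin at hp hp'
    have : Y.pn p = Y.pn p' := by omega
    unfold Lay.pn at this
    omega
  have e10 : p / Y.S % Y.N = p' / Y.S % Y.N := by
    have a1 := Nat.mod_lt (p / Y.S) hN
    have a2 := Nat.mod_lt (p' / Y.S) hN
    unfold Lay.pj at e1
    omega
  rw [pos_eq Y.S Y.N p, e7, e9, e10, ← pos_eq]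

/-- the position of a monomial times a generator -/
def mkp (Y : Lay) (r j1 n : ℕ) : ℕ := ((Y.T / 4 - n) * Y.N + (Y.N - 1 - j1)) * Y.S + r

theorem mkp_spec {r k j1 j2 j3 j4 g : ℕ} (hr : r < Y.S)
    (he : nth 0 Y.sl r = ent k j3 j4 g) (h1 : j1 < Y.N) (hk' : k < 64) (h3' : j3 < 8)
    (h4' : j4 < 4) (hT : j1 + 4 * j2 + 13 * j3 + 40 * j4 + g ≤ Y.T) {p : ℕ}
    (hp : p = mkp Y r j1 (j2 + 3 * j3 + 10 * j4 + g / 4)) :
    Y.pin p ∧ Y.pD p = j1 + 4 * j2 + 13 * j3 + 40 * j4 + g ∧ Y.pq p ≤ Y.pn p ∧ hk (Y.ph p) = k ∧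
      Y.pL p = ex4 j1 j2 j3 j4 := by
  obtain ⟨a1, a2, a3⟩ := pos_spec (S := Y.S) (N := Y.N)
    (nb := Y.T / 4 - (j2 + 3 * j3 + 10 * j4 + g / 4)) (jj := Y.N - 1 - j1) (r := r) (by omega) hr
  rw [← mkp, ← hp] at a1 a2 a3
  obtain ⟨b1, b2, b3, b4⟩ := ent_spec hk' h3' h4' g
  have c0 : Y.ph p = ent k j3 j4 g := by rw [Lay.ph, a3, he]
  have c1 : Y.pn p = j2 + 3 * j3 + 10 * j4 + g / 4 := by rw [Lay.pn, a1]; omega
  have c2 : Y.pj p = j1 := by rw [Lay.pj, a2]; omega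
  have c3 : Y.pq p = 3 * j3 + 10 * j4 + g / 4 := by rw [Lay.pq, c0, b2, b3, b4]
  refine ⟨by rw [Lay.pin, a1]; omega, ?_, by omega, by rw [c0, b1], ?_⟩
  · rw [Lay.pD, c1, c2, c0, b2, b4]
    omega
  · rw [Lay.pL, c1, c2, c3, c0, b2, b3]
    congr 1
    omega

theorem exists_pos (hY : layOK Y = true) {k j1 j2 j3 j4 g : ℕ} (he : ent k j3 j4 g ∈ Y.sl)
    (h1 : j1 < Y.N) (hk' : k < 64) (h3' : j3 < 8) (h4' : j4 < 4)
    (hT : j1 + 4 * j2 + 13 * j3 + 40 * j4 + g ≤ Y.T) :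
    ∃ p, Y.pin p ∧ Y.pD p = j1 + 4 * j2 + 13 * j3 + 40 * j4 + g ∧ Y.pq p ≤ Y.pn p ∧
      hk (Y.ph p) = k ∧ Y.pL p = ex4 j1 j2 j3 j4 := by
  have h := layP hY
  obtain ⟨r, hr, e⟩ := List.getElem_of_mem he
  refine ⟨_, mkp_spec (r := r) (h.len ▸ hr) ?_ h1 hk' h3' h4' hT rfl⟩
  rw [nth_eq, List.getD_eq_getElem _ _ hr, e]

/-- the position of a column -/
theorem cpos_eq (Y : Lay) (g col : ℕ) : cpos Y g col = mkp Y (col >>> 6 &&& 32767) (fld col 3)
    (fld col 4 + 3 * fld col 5 + 10 * fld col 6 + g / 4) := rfl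

/-! ### multiplication by a monomial -/

/-- the shift (in fields) of a monomial -/
def shp (Y : Lay) (L : ℕ) : ℕ :=
  ((fld L 1 + 3 * fld L 2 + 10 * fld L 3) * Y.N + fld L 0) * Y.S + (fld L 2 + Y.s4 * fld L 3)

theorem shf_eq (Y : Lay) (L : ℕ) : shf Y L = 12 * shp Y L := rfl

/-- the position is divisible by the monomial (up to the exponent of `v_2`) -/
def Dv (Y : Lay) (L p : ℕ) : Prop :=
  p / Y.S % Y.N + fld L 0 < Y.N ∧ fld L 2 ≤ h3 (Y.ph p) ∧ fld L 3 ≤ h4 (Y.ph p)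

theorem LayP.shp_spec (h : LayP Y) {L p : ℕ} (hv : Dv Y L p) :
    (p + shp Y L) / Y.S / Y.N = p / Y.S / Y.N + (fld L 1 + 3 * fld L 2 + 10 * fld L 3) ∧
      (p + shp Y L) / Y.S % Y.N = p / Y.S % Y.N + fld L 0 ∧
      Y.ph (p + shp Y L) = ent (hk (Y.ph p)) (h3 (Y.ph p) - fld L 2) (h4 (Y.ph p) - fld L 3)
        (hd (Y.ph p)) := by
  obtain ⟨v1, v2, v3⟩ := hv
  obtain ⟨s1, s2⟩ := h.sub _ (Nat.mod_lt p h.pos) _ v2 _ v3
  obtain ⟨a1, a2, a3⟩ := pos_spec (S := Y.S) (N := Y.N)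
    (nb := p / Y.S / Y.N + (fld L 1 + 3 * fld L 2 + 10 * fld L 3)) v1 s1
  have e : ((p / Y.S / Y.N + (fld L 1 + 3 * fld L 2 + 10 * fld L 3)) * Y.N +
      (p / Y.S % Y.N + fld L 0)) * Y.S + (p % Y.S + fld L 2 + Y.s4 * fld L 3) = p + shp Y L := by
    conv_rhs => rw [pos_eq Y.S Y.N p]
    unfold shp
    ring
  rw [e] at a1 a2 a3
  exact ⟨a1, a2, by rw [Lay.ph, a3, s2]; rfl⟩

open Classical in
theorem Rep.shift (h : LayP Y) {x y d V L : ℕ} {F : ℕ → ℕ → Ab Y.a Y.N} (R : Rep Y x d V F)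
    (hy : ∀ p, dg y p = if Y.pin p ∧ Dv Y L p then dg x (p + shp Y L) else 0) :
    Rep Y y (d + ldeg L) V fun i k => vmon (fun n => xq Y.a Y.N (X n)) L * F i k := by
  refine ⟨fun p => ?_, fun p hp => ?_, fun p hp hd' hT => ?_⟩
  · rw [hy]
    split_ifs
    · exact R.bd _
    · exact Nat.zero_le _
  · rw [hy, if_neg fun c => hp c.1]
  have hj := h.pj_lt p
  have hN : 0 < Y.N := by omega
  have hm := Nat.mod_lt (p / Y.S) hN
  rw [hy, vmon_xq, cf_mon_mul h.aN _ _ (by rwa [pL_zero]), pL_zero]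
  have hle : lex L ≤ Y.pL p ↔ fld L 0 ≤ Y.pj p ∧ fld L 1 ≤ Y.pn p - Y.pq p ∧
      fld L 2 ≤ h3 (Y.ph p) ∧ fld L 3 ≤ h4 (Y.ph p) := ex4_le
  by_cases hv : Dv Y L p
  swap
  · rw [if_neg fun c => hv c.2, Nat.cast_zero, mul_zero, if_neg (c := lex L ≤ Y.pL p), ite_self]
    rw [hle]
    refine fun c => hv ⟨?_, c.2.2⟩
    have := c.1
    unfold Lay.pj at this
    omega
  rw [if_pos ⟨hp, hv⟩]
  obtain ⟨a1, a2, a3⟩ := h.shp_spec hv
  obtain ⟨v1, v2, v3⟩ := hv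
  set p' := p + shp Y L
  obtain ⟨b1, b2, b3, b4⟩ := ent_spec (hk_lt (Y.ph p)) (j3 := h3 (Y.ph p) - fld L 2)
    (j4 := h4 (Y.ph p) - fld L 3) (by have := h3_lt (Y.ph p); omega)
    (by have := h4_lt (Y.ph p); omega) (hd (Y.ph p))
  rw [← a3] at b1 b2 b3 b4
  have c2 : Y.pj p' = Y.pj p - fld L 0 := by unfold Lay.pj; omega
  have c0 : fld L 0 ≤ Y.pj p := by unfold Lay.pj; omega
  have c3 : Y.pq p' + 3 * fld L 2 + 10 * fld L 3 = Y.pq p := by unfold Lay.pq; omega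
  by_cases hp' : Y.pin p'
  swap
  · rw [R.out _ hp', Nat.cast_zero, mul_zero]
    split_ifs with q1 q2
    · rw [hle] at q2
      have := q2.2.1
      unfold Lay.pin at hp hp'
      unfold Lay.pn at this q1
      omega
    · rfl
    · rfl
  have c1 : Y.pn p' + (fld L 1 + 3 * fld L 2 + 10 * fld L 3) = Y.pn p := by
    unfold Lay.pin at hp hp'
    unfold Lay.pn
    omega
  have c4 : Y.pD p' + ldeg L = Y.pD p := by
    unfold Lay.pD ldeg
    omega
  have e := R.eq p' hp' (by omega) (by omega)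
  rw [mu_rat (Nat.sub_le (Y.pj p) (fld L 0)) hj, ← c2, mul_assoc, e]
  have c5 : Y.pD p - (d + ldeg L) = Y.pD p' - d := by omega
  have c6 : lex L 0 = fld L 0 := ex4_0 _ _ _ _
  rw [c5, c6, ← c2, b1]
  by_cases q : Y.pq p' ≤ Y.pn p'
  · rw [if_pos q, if_pos (by omega), if_pos (hle.2 ⟨c0, by omega, v2, v3⟩)]
    congr 2
    rw [Lay.pL, Lay.pL, lex, ex4_sub, c2, b2, b3]
    congr 1
    omega
  · rw [if_neg q, mul_zero]
    split_ifs with q1 q2
    · have := (hle.1 q2).2.1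
      omega
    · rfl
    · rfl

theorem Rep.mv (hY : layOK Y = true) {x d V L : ℕ} {F : ℕ → ℕ → Ab Y.a Y.N} (R : Rep Y x d V F) :
    Rep Y (P236X.mv Y L x) (d + ldeg L) V fun i k => vmon (fun n => xq Y.a Y.N (X n)) L * F i k := by
  have h := layP hY
  refine R.shift h fun p => ?_
  have h1 := dg_msk (Y := Y) h.len h.pos (by have := h.four; omega) L p
  have h2 := dg_mask h1 (x >>> (12 * shp Y L))
  rw [dg_shr] at h2
  refine h2.trans ?_
  congr 1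
  simp only [Lay.pin, Dv, Lay.ph, nth_eq]

theorem Rep.mw (hY : layOK Y = true) {x d V L : ℕ} {F : ℕ → ℕ → Ab Y.a Y.N} (R : Rep Y x d V F)
    (h0 : fld L 0 = 0) (h2 : fld L 2 = 0) (h3' : fld L 3 = 0) :
    Rep Y (P236X.mw Y L x) (d + ldeg L) V fun i k => vmon (fun n => xq Y.a Y.N (X n)) L * F i k := by
  have h := layP hY
  refine R.shift h fun p => ?_
  have hv : Dv Y L p := by
    refine ⟨?_, by omega, by omega⟩
    have := Nat.mod_lt (p / Y.S) (by have := h.four; omega : 0 < Y.N)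
    omega
  refine (dg_shr x (shp Y L) p).trans ?_
  split_ifs with c
  · rfl
  · refine R.out _ fun c' => c ⟨?_, hv⟩
    have := (h.shp_spec hv).1
    unfold Lay.pin at *
    omega

/-! ### unit vectors -/

theorem Rep.unit (hY : layOK Y = true) {p0 : ℕ} (hp0 : Y.pin p0) (hq0 : Y.pq p0 ≤ Y.pn p0) (d : ℕ) :
    Rep Y (1 <<< (12 * p0)) d 1 fun i k =>
      if d + i = Y.pD p0 ∧ k = hk (Y.ph p0) then xq Y.a Y.N (monomial (Y.pL p0) 1) else 0 := by
  classical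
  have h := layP hY
  refine ⟨fun p => ?_, fun p hp => ?_, fun p hp hd' _ => ?_⟩
  · rw [dg_unit]
    split_ifs <;> omega
  · rw [dg_unit, if_neg]
    rintro rfl
    exact hp hp0
  rw [dg_unit]
  by_cases e : p = p0
  · subst e
    rw [if_pos rfl, if_pos hq0, if_pos ⟨by omega, rfl⟩, cf_mk h.aN, coeff_monomial, if_pos rfl,
      pL_zero, Nat.cast_one]
  rw [if_neg e, Nat.cast_zero, mul_zero]
  split_ifs with q1 q2
  · rw [cf_mk h.aN, coeff_monomial, if_neg, mul_zero]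
    exact fun c => e (h.pos_ext hp hp0 q1 hq0 (by omega) q2.2 c.symm)
  · exact (cf_zero h.aN _).symm
  · rfl

/-! ### the final test -/

theorem Rep.fin (hY : layOK Y = true) {x d : ℕ} {F : ℕ → ℕ → Ab Y.a Y.N}
    (R : Rep Y x d 126 F) (hf : P236X.fin Y x d = true) (hT : d ≤ Y.T) (p : ℕ) (hp : Y.pin p)
    (hD : Y.pD p = d) (hq : Y.pq p ≤ Y.pn p) : cf (F 0 (hk (Y.ph p))) (Y.pL p) = 0 := by
  have h := layP hY
  have hN : 0 < Y.N := by have := h.four; omega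
  have hl : p < lenb Y d * Y.S := h.lt_lenb hp hD.ge
  have b1 : ∀ p, dg (x &&& mD Y d) p ≤ 126 := fun p => (dg_land_le _ _ p).trans (R.bd p)
  have t1 := fun p => dg_trip (x := x &&& mD Y d) (fun p => (b1 p).trans (by norm_num))
    (dg_msk (Y := Y) h.len h.pos hN Y.a p)
  have b2 : ∀ p, dg (trip (x &&& mD Y d) (msk Y Y.a)) p ≤ 585 := fun p => by
    rw [t1]
    have := b1 p
    split_ifs <;> omega
  have n1 := nine_spec (Y := Y) (d := d) hf p
  change 9 ∣ dg (P236X.qst (trip (x &&& mD Y d) (msk Y Y.a)) (m63 Y d) (o12 Y d)) p at n1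
  rw [dg_qst (Y := Y) (d := d) b2, if_pos hl, Nat.dvd_iff_mod_eq_zero, qst_mod, t1,
    dg_mask (dg_mD (Y := Y) h.len h.pos d p), if_pos (c := _ ∧ _ = d)
      ⟨hl, by rw [← hD, Lay.pD, Lay.pn, Lay.pj, Lay.ph, nth_eq]⟩] at n1
  have e := R.eq p hp hD.ge (by omega)
  rw [if_pos hq, hD, Nat.sub_self] at e
  rw [← e]
  have ha : Y.a < 128 := by have := h.aN; have := h.nle; omega
  have f0 : fld Y.a 0 = Y.a := by rw [fld_eq]; omega
  have f2 : fld Y.a 2 = 0 := by rw [fld_eq]; omega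
  have f3 : fld Y.a 3 = 0 := by rw [fld_eq]; omega
  have hj := h.pj_lt p
  have hm := Nat.mod_lt (p / Y.S) hN
  rw [f0, f2, f3] at n1
  unfold mu
  by_cases c : Y.pj p < Y.a
  · rw [if_neg (by unfold Lay.pj at c; omega)] at n1
    rw [if_pos c, one_mul, ZMod.natCast_eq_zero_iff]
    omega
  · rw [if_pos ⟨hp, by unfold Lay.pj at c; omega, Nat.zero_le _, Nat.zero_le _⟩] at n1
    rw [if_neg c, if_pos hj]
    have : ((3 * dg x p : ℕ) : K9) = 0 := by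
      rw [ZMod.natCast_eq_zero_iff]
      omega
    exact_mod_cast this

end Vale.Agent.P236X
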