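import Vale.Agent.P236X.Sem
import Vale.Agent.P236M.K3
import Vale.Agent.P236N.Del

/-!
# P236 / X : the functional of the table `YY`
-/

noncomputable section

namespace Vale.Agent.P236X

open MvPolynomial Vale.Agent.P236A Vale.Agent.P236B Vale.Agent.P236C Vale.Agent.P236M
  Vale.Agent.P236N

open Classical in
/-- the entries of the matrix -/
def dOp (D : ℕ → Lv) (T s k k' : ℕ) : Op K9 := fun J =>
  if J.support ⊆ Finset.range 4 ∧ tdeg J + gw s k ≤ T then
    dRow (D s) k k' (kcode J) (tdeg J + gw s k)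
  else C (lift3 (xi s k k' J))

variable {D : ℕ → Lv} {T S : ℕ}

theorem delta_eq (g g' : Io S) :
    delta D T S g g' = if (g'.1 : ℕ) = g.1 + 1 then dOp D T g.1 g.2 g'.2 else 0 := by
  funext J
  rw [delta]
  by_cases h : (g'.1 : ℕ) = g.1 + 1
  · rw [if_pos h, if_pos h, dOp]
  · rw [if_neg h, if_neg h]
    rfl

/-- the exponents of the second arrow -/
def us (M : ℕ →₀ ℕ) : ℕ →₀ ℕ := M.comapDomain (· + 4) (add_left_injective 4).injOn

theorem sh_add (L : ℕ →₀ ℕ) (i : ℕ) : sh L (i + 4) = L i :=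
  Finsupp.mapDomain_apply (add_left_injective 4) L i

theorem sh_low (L : ℕ →₀ ℕ) {i : ℕ} (hi : i < 4) : sh L i = 0 :=
  Finsupp.mapDomain_of_notMem_range _ _ fun ⟨j, hj⟩ => by
    have : j + 4 = i := hj
    omega

theorem split_sh {I : ℕ →₀ ℕ} (hI : I.support ⊆ Finset.range 4) (L : ℕ →₀ ℕ) :
    (I + sh L).filter (· < 4) = I ∧ us (I + sh L) = L := by
  have h : ∀ i, ¬ i < 4 → I i = 0 := fun i hi =>
    Finsupp.notMem_support_iff.1 fun c => hi (Finset.mem_range.1 (hI c))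
  constructor <;> ext i
  · rw [Finsupp.filter_apply]
    split_ifs with c
    · rw [Finsupp.add_apply, sh_low L c, add_zero]
    · exact (h i c).symm
  · rw [us, Finsupp.comapDomain_apply, Finsupp.add_apply, h _ (by omega), sh_add, zero_add]

/-- the functional on the pairs of arrows -/
def Ymap (a N : ℕ) (D : ℕ → Lv) (T s e k : ℕ) : Pb a N →ₗ[Ab a N] Ab a N :=
  lin fun M => ∑ k' ∈ Finset.range 64, Th 3 (xq a N) (dOp D T (s + 1) k' k)
    (monomial (M.filter (· < 4)) 1 * ren (xq a N) (dOp D T s e k' (us M)))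

variable {a N : ℕ}

theorem ymap_eq (s e k : ℕ) {I : ℕ →₀ ℕ} (hI : I.support ⊆ Finset.range 4) (L : ℕ →₀ ℕ) :
    Ymap a N D T s e k (monomial (I + sh L) 1) = ∑ k' ∈ Finset.range 64,
      Th 3 (xq a N) (dOp D T (s + 1) k' k)
        (monomial I 1 * ren (xq a N) (dOp D T s e k' L)) := by
  rw [Ymap, lin_one, (split_sh hI L).1, (split_sh hI L).2]

/-- **The functional computes the square of the matrix.** -/
theorem ymap_RR (hδ : HomD 3 (Gam S) (delta D T S)) (g g'' : Io S) (h : (g''.1 : ℕ) = g.1 + 2)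
    {K : ℕ →₀ ℕ} (hK : mz 3 K + (Gam S).wt g < wz 3 4) :
    Ymap a N D T g.1 g.2 g''.2 (sB 3 (xq a N) (monomial (sh K) 1)) =
      xq a N (RR 3 (delta D T S) (delta D T S) g g'' K) := by
  refine algc hδ g g'' _ hK fun I L hI _ => ?_
  have h1 : (g.1 : ℕ) + 1 < S + 2 := by have := g''.1.2; omega
  rw [ymap_eq _ _ _ hI, Fintype.sum_prod_type, Finset.sum_eq_single (⟨_, h1⟩ : Fin (S + 2)),
    Finset.sum_range]
  · refine Finset.sum_congr rfl fun k _ => ?_
    rw [delta_eq, delta_eq, if_pos h, if_pos rfl]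
  · refine fun j _ hj => Finset.sum_eq_zero fun k _ => ?_
    rw [delta_eq g, if_neg fun c => hj (Fin.ext c), Pi.zero_apply, map_zero, mul_zero, map_zero]
  · exact fun c => absurd (Finset.mem_univ _) c

theorem RR_delta {g g'' : Io S} (h : (g''.1 : ℕ) ≠ g.1 + 2) (K : ℕ →₀ ℕ) :
    RR 3 (delta D T S) (delta D T S) g g'' K = 0 := by
  refine Finset.sum_eq_zero fun g' _ => ?_
  by_cases c : (g'.1 : ℕ) = g.1 + 1
  · rw [delta_eq g', if_neg (by omega)]
    exact lin_zero _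
  · rw [delta_eq g, if_neg c]
    exact (congrArg _ (actB_zero_left 3 (RingHom.id _) _)).trans (map_zero _)

section Van

variable {p : ℕ} [hp : Fact p.Prime] {k : Type} [CommRing k] {B : Type} [CommRing B]
  {x : Av k →+* B}

theorem tgt_eq_zero {𝔞 : Ideal (Av k)} (h : Inv p 𝔞) (hx : ∀ b ∈ 𝔞, x b = 0) (t : ℕ → B)
    {b : Av k} (hb : b ∈ 𝔞) : tgt p x t b = 0 := by
  have h1 := DFunLike.congr_fun (comp_etaB p (eval₂Hom x t) (RingHom.id _)) b
  simp only [eval₂Hom_comp_C, eval₂Hom_X', RingHom.comp_apply, RingHom.comp_id, etaB_id] at h1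
  rw [← h1]
  exact (Ideal.map_le_iff_le_comap (K := RingHom.ker (eval₂Hom x t))).2
    (fun c hc => (eval₂Hom_C x t c).trans (hx c hc)) (h b hb)

/-- elements of an invariant ideal act trivially -/
theorem Th_eq_zero {𝔞 : Ideal (Av k)} (h : Inv p 𝔞) (hx : ∀ b ∈ 𝔞, x b = 0) {w : ℤ} {b : Av k}
    (hb : b ∈ (gA p k).G w) (hw : w < wz p 4) (hb' : b ∈ 𝔞) (ξ : Op k) (q : MvPolynomial ℕ B) :
    Th p x ξ (q * ren x b) = 0 := by
  change Phi0 x ξ (sG p x (sW p x (q * ren x b))) = 0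
  rw [map_mul, sW_ren hb hw, tgt_eq_zero h (fun c hc => by
    rw [RingHom.comp_apply, hx c hc, map_zero]) _ hb', mul_zero, map_zero, map_zero]

end Van

/-- the side conditions of a check -/
structure CtxOK (U : Ctx) (D : ℕ → Lv) (gm : ℕ → List ℕ) (T s : ℕ) : Prop where
  lay : layOK U.Y = true
  le : U.Y.T ≤ T
  e0 : U.L0 = D s
  e1 : U.L1 = D (s + 1)
  l0 : lvOK (D s) (gm s) T U.Y.N = true
  l1 : ∃ Nn, lvOK (D (s + 1)) (gm (s + 1)) T Nn = true
  grp : grpOK U.Y (D (s + 1)) (gm (s + 1)) U.gam = true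
  g0 : gtOK s (D s) = true

end Vale.Agent.P236X
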