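import Vale.Agent.P236X.Mac
import Vale.Agent.P236X.Rep2
import Vale.Agent.P236X.Yl

/-!
# P236 / X : the tables `Z0` and `YY`
-/

noncomputable section

namespace Vale.Agent.P236X

open MvPolynomial Vale.Agent.P236A Vale.Agent.P236B Vale.Agent.P236C Vale.Agent.P236M
  Vale.Agent.P236N

/-! ### codes -/

theorem supp_ex4 (a b c d : ℕ) : (ex4 a b c d).support ⊆ Finset.range 4 := fun _ hi =>
  Finset.mem_range.2 (not_le.1 fun h => Finsupp.mem_support_iff.1 hi (ex4_high a b c d h))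

theorem mono_eq {B : Type} [CommRing B] (i c : ℕ) : (X 0 ^ i * mono c : MvPolynomial ℕ B) =
    monomial (ex4 i (fld c 0) (fld c 1) (fld c 2) + sh (lmon c)) 1 := by
  simp only [mono, Finset.prod_range_succ, Finset.prod_range_zero, one_mul, X_pow_eq_monomial,
    monomial_mul, lmon, P236M.sh, ex4, Finsupp.mapDomain_add, Finsupp.mapDomain_single, add_assoc]

theorem kcode_ex4 (a b c d : ℕ) : kcode (ex4 a b c d) = a + 128 * (b + 128 * (c + 128 * d)) := by
  rw [kcode, ex4_0, ex4_1, ex4_2, ex4_3]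

theorem tdeg_ex4 (a b c d : ℕ) : tdeg (ex4 a b c d) = a + 4 * b + 13 * c + 40 * d := by
  rw [tdeg, ex4_0, ex4_1, ex4_2, ex4_3]

theorem lo_eq (c : ℕ) : Nat.land c 2097151 = c % 2 ^ 21 := Nat.and_two_pow_sub_one_eq_mod c 21

theorem kc_eq (c : ℕ) : Nat.land (Nat.shiftRight c 21) 268435455 = kcode (lmon c) := by
  refine (Nat.and_two_pow_sub_one_eq_mod (c >>> 21) 28).trans ?_
  simp only [lmon, kcode_ex4, fld_eq, Nat.shiftRight_eq_div_pow]
  omega

theorem rowK_eq (L : Lv) (e kk d : ℕ) {i : ℕ} (hi : i < 128) :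
    rowK L e (i + 128 * kk) (d + i) = row L e kk d (d + i) := by
  change row L e ((i + 128 * kk) >>> 7) (d + i - ((i + 128 * kk) &&& (2 ^ 7 - 1))) _ = _
  rw [Nat.and_two_pow_sub_one_eq_mod, Nat.shiftRight_eq_div_pow,
    show (i + 128 * kk) / 2 ^ 7 = kk by omega, show d + i - (i + 128 * kk) % 2 ^ 7 = d by omega]

theorem thc_code (c d : ℕ) {col : ℕ} (h : col < 2 ^ 49) {c' : ℕ}
    (e : c' = c % 2 ^ 21 + d <<< 49 + (col >>> 21) <<< 21) :
    (∀ j < 3, fld c' j = fld c j) ∧ (∀ j < 7, 3 ≤ j → fld c' j = fld col j) ∧ cdeg c' = d := by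
  simp only [Nat.shiftRight_eq_div_pow, Nat.shiftLeft_eq] at e
  simp only [fld_eq, cdeg_eq]
  refine ⟨fun j hj => ?_, fun j hj hj' => ?_, by omega⟩ <;> interval_cases j <;> omega

/-! ### side conditions -/

theorem lv_spec {L : Lv} {gm : List ℕ} {T Nn t : ℕ} (h : lvOK L gm T Nn = true) (ht : t ≤ T) :
    (colF L t).len ≤ 255 ∧ AllG (fun tag w l => SZ tag w l ∧ ∀ c ∈ l, c < 2 ^ 49 ∧
      cdg c + gtd L (c % 64) = t ∧ (tag ≤ 63 ∨ Nn ≤ fld c 3) ∧ nth 0 gm (c % 64) = tag % 64)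
      (colF L t) := by
  have h1 := allN_iff.1 h t (Nat.lt_succ_of_le ht)
  rw [Bool.and_eq_true, Nat.ble_eq] at h1
  refine ⟨h1.1, (allG_of_all h1.2).mono fun tag w l h2 => ?_⟩
  simp only [Bool.and_eq_true, Bool.or_eq_true, Nat.ble_eq, Nat.blt_eq, Nat.beq_eq, allL_iff,
    show ∀ x, Nat.land x 63 = x % 64 from land_63] at h2
  exact ⟨h2.1, fun c hc => by have := h2.2 c hc; tauto⟩

theorem grp_spec {Y : Lay} {L : Lv} {gm : List ℕ} {gam : ℕ} (h : grpOK Y L gm gam = true) :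
    (∀ h ∈ Y.sl, nth 0 gm (hk h) = gam) ∧ ∀ t ≤ Y.T, AllG (fun tag _ l => tag % 64 = gam →
      ∀ c ∈ l, fld c 3 < Y.N ∧ c >>> 6 &&& 32767 < Y.S ∧ nth 0 Y.sl (c >>> 6 &&& 32767) =
        ent (c % 64) (fld c 5) (fld c 6) (gtd L (c % 64))) (colF L t) := by
  simp only [grpOK, Bool.and_eq_true, allN_iff, allL_iff, Nat.beq_eq] at h
  refine ⟨fun a ha => (h.1.1.2 a ha).2, fun t ht =>
    (allG_of_all (h.2 t (Nat.lt_succ_of_le ht))).mono fun tag w l h2 h3 c hc => ?_⟩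
  simp only [Bool.and_eq_true, Bool.or_eq_true, Nat.blt_eq, Nat.beq_eq, allL_iff,
    show ∀ x, Nat.land x 63 = x % 64 from land_63, h3, Nat.beq_refl, Bool.not_true,
    Bool.false_eq_true, false_or] at h2
  exact ⟨(h2 c hc).1.1, (h2 c hc).1.2, (h2 c hc).2⟩

/-! ### the table `Z0` -/

variable {U : Ctx} {D : ℕ → Lv} {gm : List ℕ} {T Nn s : ℕ}

/-- the unit vector of the column has its entry at the right position -/
def ColP (U : Ctx) (t c : ℕ) : Prop :=
  ∃ p, unitv U c = 1 <<< (12 * p) ∧ U.Y.pin p ∧ U.Y.pD p = t ∧ U.Y.pq p ≤ U.Y.pn p ∧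
    hk (U.Y.ph p) = c % 64 ∧ U.Y.pL p = lmon c

theorem colZ_spec (hY : layOK U.Y = true) (hT : U.Y.T ≤ T) (hL : lvOK U.L1 gm T Nn = true)
    (hG : grpOK U.Y U.L1 gm U.gam = true) {t : ℕ} (ht : t ≤ U.Y.T) :
    AllG (fun tag w l => SZ tag w l ∧ ∀ c ∈ l, ColP U t c) (colZ U t) := by
  refine AllG.filt ((((lv_spec hL (ht.trans hT)).2).and ((grp_spec hG).2 t ht)).mono
    fun tag w l h a => ⟨h.1.1, fun c hc => ?_⟩) trivial
  obtain ⟨-, b1, -⟩ := h.1.2 c hc
  obtain ⟨b2, b3, b4⟩ := h.2 ((land_63 tag).symm.trans (Nat.eq_of_beq_eq_true a)) c hc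
  have b5 := (layP hY).top
  rw [cdg] at b1
  have b6 := mkp_spec b3 b4 b2 (Nat.mod_lt _ (by norm_num)) (by omega) (by omega)
    (b1.trans_le ht) (cpos_eq U.Y _ c)
  exact ⟨_, by rw [← land_63]; rfl, b6.1, b6.2.1.trans b1, b6.2.2⟩

theorem row_rep (hY : layOK U.Y = true) (hT : U.Y.T ≤ T) (hL : lvOK U.L1 gm T Nn = true)
    (hG : grpOK U.Y U.L1 gm U.gam = true) {t : ℕ} (ht : t ≤ U.Y.T) (r d : ℕ) :
    (∀ p, U.Y.pD p ≠ t → dg (macG (unitv U) r (colZ U t)) p = 0) ∧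
      Rep U.Y (macG (unitv U) r (colZ U t)) d 4080 fun i k => if d + i = t then xq _ _ (macV
        (fun c => if c % 64 = k then monomial (lmon c) 1 else 0) r (colF U.L1 t)) else 0 := by
  have h1 := colZ_spec hY hT hL hG ht
  have h2 := lv_spec hL (ht.trans hT)
  have h3 : (colZ U t).len * (16 * 1) ≤ 4080 := by
    have : (colZ U t).len ≤ (colF U.L1 t).len + 0 := len_filt _ _ _
    omega
  have h4 : AllC (fun c => Rep U.Y (unitv U c) d 1 fun i k => if d + i = t then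
      xq _ _ (if c % 64 = k then monomial (lmon c) 1 else 0) else 0) (colZ U t) :=
    h1.allC fun _ _ _ a c hc => by
      obtain ⟨p, b0, b1, b2, b3, b4, b5⟩ := a.2 c hc
      refine b0 ▸ (Rep.unit hY b1 b3 d).congr fun i k _ => ?_
      rw [b2, b4, b5, ite_and, apply_ite (xq _ _), map_zero]
      simp only [eq_comm]
  refine ⟨fun p hp => ?_, ((Rep.macG hY (h1.mono fun _ _ _ a => a.1) h4 (by omega) r).mono
    h3).congr' fun p _ _ _ => ?_⟩
  · rw [dg_macG (h1.mono fun _ _ _ a => a.1) (h4.mono fun c hc => hc.bd) (by omega)]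
    refine macV_eq_zero (h1.allC fun _ _ _ a c hc => ?_) r
    obtain ⟨p', b0, -, b2, -⟩ := a.2 c hc
    rw [b0, dg_unit, if_neg fun e : p = p' => hp (e ▸ b2)]
  · split_ifs
    · rw [map_macV, colZ, macV_filt (h2.2.mono fun tag w l a b c hc => ?_), macV, add_zero]
      rw [if_neg fun e => ?_, map_zero]
      have h5 := (a.2 c hc).2.2.2
      rw [e, (grp_spec hG).1 _ (ph_mem hY p), ← land_63] at h5
      exact Nat.ne_of_beq_eq_false b h5.symm
    · exact macV_eq_zero (h4.mono fun _ _ => rfl) r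

theorem zstep_eq (U : Ctx) (k kk d i x : ℕ) : zstep U k kk d i x =
    x + macG (unitv U) (row U.L1 k kk d (d + i)) (colZ U (d + i)) := by
  change cond (Nat.beq (row U.L1 k kk d (d + i)) 0) _ _ = _
  cases h : Nat.beq (row U.L1 k kk d (d + i)) 0
  · rfl
  · rw [cond_true, Nat.eq_of_beq_eq_true h, macG_eq, macV_zero]
    rfl

theorem rows_rep (hY : layOK U.Y = true) (hT : U.Y.T ≤ T) (hL : lvOK U.L1 gm T Nn = true)
    (hG : grpOK U.Y U.L1 gm U.gam = true) (k kk d : ℕ) {n : ℕ} (hn : d + n ≤ U.Y.T + 1) :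
    (∀ p, d + n ≤ U.Y.pD p → dg (Nat.rec 0 (zstep U k kk d) n) p = 0) ∧
      Rep U.Y (Nat.rec 0 (zstep U k kk d) n) d 4080 fun i k2 => if i < n then xq _ _ (macV
        (fun c => if c % 64 = k2 then monomial (lmon c) 1 else 0) (row U.L1 k kk d (d + i))
          (colF U.L1 (d + i))) else 0 := by
  induction n with
  | zero => exact ⟨fun p _ => dg_zero p, Rep.zero hY d _⟩
  | succ n ih =>
    obtain ⟨a1, a2⟩ := ih (by omega)
    obtain ⟨b1, b2⟩ := row_rep hY hT hL hG (t := d + n) (by omega) (row U.L1 k kk d (d + n)) d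
    obtain ⟨c1, c2⟩ := a2.disj hY b2 fun p => by
      by_cases e : U.Y.pD p = d + n
      exacts [.inl (a1 p e.ge), .inr (b1 p e)]
    rw [Nat.rec_add_one, zstep_eq]
    refine ⟨fun p hp => by rw [c1, a1 p (by omega), b1 p (by omega)], c2.congr fun i k2 _ => ?_⟩
    rcases lt_trichotomy i n with e | rfl | e
    · rw [if_pos e, if_neg (by omega), if_pos (by omega), add_zero]
    · rw [if_neg (lt_irrefl _), if_pos rfl, if_pos (by omega), zero_add]
    · rw [if_neg (by omega), if_neg (by omega), if_neg (by omega), add_zero]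

/-- **The table of the second matrix.** -/
theorem z0_tab (hY : layOK U.Y = true) (hT : U.Y.T ≤ T) (e1 : U.L1 = D s)
    (hL : lvOK (D s) gm T Nn = true) (hG : grpOK U.Y (D s) gm U.gam = true) (k : ℕ) :
    TabOK U.Y (Z0 U k) (gw s k) 126 fun k2 => Phi0 (xq _ _) (dOp D T s k k2) := by
  intro c hc hd
  rw [← e1] at hL hG
  have h0 := (layP hY).top
  simp only [mono_eq, Phi0, lin_one]
  rw [Z0, kc_eq]
  cases h1 : Nat.beq (kcode (lmon c)) 0
  · refine (Rep.zero hY _ _).congr fun i k2 _ => (if_neg fun e => ?_).symm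
    have h2 : lmon c = 0 := Finsupp.ext fun j => by
      have := Finsupp.notMem_support_iff.1 fun a => by simpa using e (a : j + 4 ∈ _)
      rw [Finsupp.add_apply, sh_add] at this
      exact Nat.eq_zero_of_add_eq_zero_left this
    rw [h2] at h1
    cases h1
  have h2 := Nat.eq_of_beq_eq_true h1
  rw [lmon, kcode_ex4] at h2
  have h3 : sh (lmon c) = 0 := by
    rw [lmon, show fld c 3 = 0 by omega, show fld c 4 = 0 by omega, show fld c 5 = 0 by omega,
      show fld c 6 = 0 by omega]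
    simp [ex4, P236M.sh]
  have h4 : ∀ i k2, cdeg c + i ≤ U.Y.T → xq U.Y.a U.Y.N (macV
      (fun c => if c % 64 = k2 then monomial (lmon c) 1 else 0)
      (row U.L1 k (c % 2 ^ 21) (cdeg c) (cdeg c + i)) (colF U.L1 (cdeg c + i))) =
      if (ex4 i (fld c 0) (fld c 1) (fld c 2) + sh (lmon c)).support ⊆ Finset.range 4 then
        xq _ _ (dOp D T s k k2 (ex4 i (fld c 0) (fld c 1) (fld c 2) + sh (lmon c))) else 0 :=
    fun i k2 hi => by
      have h5 : tdeg (ex4 i (fld c 0) (fld c 1) (fld c 2)) + gw s k = cdeg c + i := by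
        rw [tdeg_ex4, hc, mdeg]
        omega
      rw [h3, add_zero, if_pos (supp_ex4 _ _ _ _), dOp, h5, if_pos ⟨supp_ex4 _ _ _ _, hi.trans hT⟩,
        dRow, kcode_ex4, rowK_eq _ _ _ _ (by omega), ← e1,
        show fld c 0 + 128 * (fld c 1 + 128 * fld c 2) = c % 2 ^ 21 by simp only [fld_eq]; omega]
  rw [cond_true, force_eq, force_eq, lo_eq]
  cases h5 : Nat.beq (blob U.L1 k (c % 2 ^ 21)) 0
  · refine ((rows_rep hY hT hL hG k _ (cdeg c) (n := U.Y.T + 1 - cdeg c)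
      (by omega)).2.fold hY).congr fun i k2 hi => ?_
    rw [if_pos (by omega), h4 i k2 hi]
  · refine (Rep.zero hY _ _).congr fun i k2 hi => ?_
    rw [← h4 i k2 hi, show row U.L1 k _ _ _ = 0 by rw [row, Nat.eq_of_beq_eq_true h5]; simp,
      macV_zero, map_zero]

variable {gms : ℕ → List ℕ}

theorem z0_ok (h : CtxOK U D gms T s) (k : ℕ) :
    TabOK U.Y (Z0 U k) (gw (s + 1) k) 126 fun k2 => Phi0 (xq _ _) (dOp D T (s + 1) k k2) :=
  h.l1.elim fun _ a => z0_tab h.lay h.le h.e1 a h.grp k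

/-! ### the table `YY` -/

theorem mon_mem {a N : ℕ} {L : ℕ →₀ ℕ} (h : N ≤ L 0) : monomial L (1 : K9) ∈ JJ 3 K9 a N := by
  rw [← add_tsub_cancel_of_le (Finsupp.single_le_iff.2 h), monomial_single_add]
  exact Ideal.mul_mem_right _ _ (pow_mem_JJ 3 a N)

/-- **The table of the composition.** -/
theorem yy_ok (h : CtxOK U D gms T s) (hE : ∀ k < 64, TabOK U.Y (E1 U k) (gw (s + 1) k) 10
    fun k2 => Th 3 (xq _ _) (dOp D T (s + 1) k k2)) (e : ℕ) :
    TabOK U.Y (YY U e) (gw s e) 126 (Ymap U.Y.a U.Y.N D T s e) := by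
  intro c hc hd
  have h0 := (layP h.lay).top
  have hT := h.le
  obtain ⟨t, ht⟩ : ∃ t, tdeg (lmon c) + gw s e = t := ⟨_, rfl⟩
  have h1 : cdeg c = 4 * fld c 0 + 13 * fld c 1 + 40 * fld c 2 + t := by
    rw [← ht, lmon, tdeg_ex4, hc, mdeg]
    omega
  have h1' : Nat.sub (cdeg c) (degI (c % 2 ^ 21)) = t := by
    change cdeg c - (4 * fld _ 0 + 13 * fld _ 1 + 40 * fld _ 2) = _
    have : ∀ j < 3, fld (c % 2 ^ 21) j = fld c j := fun j hj => by
      simp only [fld_eq]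
      interval_cases j <;> omega
    rw [this 0, this 1, this 2] <;> omega
  have h2 := (lv_spec h.l0 (t := t) (by omega)).2
  obtain ⟨F, hF⟩ : ∃ F : ℕ → ℕ → ℕ → Ab U.Y.a U.Y.N, F = fun col i k2 =>
      Th 3 (xq _ _) (dOp D T (s + 1) (col % 64) k2) (monomial (ex4 i (fld c 0) (fld c 1) (fld c 2)) 1
        * ren (xq _ _) (monomial (lmon col) 1)) := ⟨_, rfl⟩
  have h3 : ∀ i k2, macV (fun col => F col i k2) (rowK (D s) e (kcode (lmon c)) t) (colF (D s) t) =
      Ymap U.Y.a U.Y.N D T s e k2 (X 0 ^ i * mono c) := fun i k2 => by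
    rw [mono_eq, ymap_eq _ _ _ (supp_ex4 _ _ _ _)]
    refine Eq.symm ((Finset.sum_congr rfl fun k' _ => ?_).trans ((sum_macV (Finset.range 64)
      (fun k' col => Th 3 (xq _ _) (dOp D T (s + 1) k' k2)
        (monomial (ex4 i (fld c 0) (fld c 1) (fld c 2)) 1 * ren (xq _ _)
          (if col % 64 = k' then monomial (lmon col) 1 else 0))) _ _).trans
      (macV_congr (h2.allC fun _ _ _ _ col _ => ?_) _)))
    · rw [dOp, ht, if_pos ⟨supp_ex4 _ _ _ _, by omega⟩, dRow, map_macV,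
        ← LinearMap.mulLeft_apply (Ab U.Y.a U.Y.N), map_macV, map_macV]
      rfl
    · rw [Finset.sum_eq_single (col % 64), if_pos rfl, hF]
      · intro k' _ a
        rw [if_neg a.symm, map_zero, mul_zero, map_zero]
      · exact fun a => absurd (Finset.mem_range.2 (Nat.mod_lt _ (by norm_num))) a
  rw [YY, force_eq, force_eq, force_eq, force_eq, force_eq, kc_eq, lo_eq, h.e0, h1']
  cases h4 : Nat.beq (rowK (D s) e (kcode (lmon c)) t) 0
  swap
  · refine (Rep.zero h.lay _ _).congr fun i k2 _ => ?_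
    rw [← h3, Nat.eq_of_beq_eq_true h4, macV_zero]
  rw [cond_false, force_eq, colA, h.e0]
  refine (Rep.macL h.lay (F := F) _ (AllG.filt (acc := .nil)
    (h2.mono fun tag w l a _ => ⟨a.1, fun col b => ?_⟩) trivial)).congr fun i k2 _ => ?_
  · obtain ⟨b1, b2, -⟩ := a.2 col b
    obtain ⟨c', e'⟩ : ∃ c', c' = c % 2 ^ 21 + cdeg c <<< 49 + (col >>> 21) <<< 21 := ⟨_, rfl⟩
    obtain ⟨b3, b4, b5⟩ := thc_code c (cdeg c) b1 e'
    have b6 := Nat.mod_lt col (show 0 < 64 by norm_num)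
    have b7 := hE _ b6 c' (by
      rw [← gtOK_spec h.g0 _ b6, mdeg, b3 0, b3 1, b3 2, b4 3, b4 4, b4 5, b4 6, b5]
      · rw [cdg] at b2
        omega
      all_goals norm_num) (b5 ▸ hd)
    rw [show thC U _ col = E1 U (col % 64) c' by rw [e', ← land_63]; exact Nat.mod_zero _]
    refine b5 ▸ b7.congr fun i k2 _ => ?_
    rw [hF, mono_eq, lmon, b3 0, b3 1, b3 2, b4 3, b4 4, b4 5, b4 6]
    · simp only [ren_monomial, monomial_mul, map_one, mul_one, lmon]
    all_goals norm_num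
  · rw [macV_filt (h2.mono fun tag w l a b col b' => ?_), macV, add_zero, h3]
    obtain ⟨-, b2, b3, -⟩ := a.2 col b'
    rw [hF]
    refine Th_eq_zero (inv_JJ 3 (by decide) (.inl (lay_a h.lay)))
      (fun _ => Ideal.Quotient.eq_zero_iff_mem.2)
      ((mem_gA 3).2 (isWeightedHomogeneous_monomial _ _ _ (mz_lmon col))) ?_
      (mon_mem ((b3.resolve_left fun a => ?_).trans_eq (ex4_0 _ _ _ _).symm)) _ _
    · rw [show wz 3 4 = 242 from rfl]
      omega
    · rw [Nat.ble_eq_true_of_le a] at b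
      cases b

end Vale.Agent.P236X
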