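import Vale.Agent.P236X.Stage
import Vale.Agent.P236X.Tab
import Vale.Agent.P236X.Fin

/-!
# P236 / X : the chains of stages
-/

namespace Vale.Agent.P236X

open MvPolynomial Vale.Agent.P236M Vale.Agent.P236C

section
variable {Y : Lay} {Z : ℕ → ℕ} {b w V : ℕ} {Φ : ℕ → Pb Y.a Y.N →ₗ[Ab Y.a Y.N] Ab Y.a Y.N}
  {q : Pb Y.a Y.N}

theorem ItOK.tab {β : Prog} (h : ItOK Y.a Y.N β w q) (hY : layOK Y = true) (f : ℕ) {s u : ℕ}
    (hf : f < 7 ∧ w = mdeg (128 ^ f) ∧ s = 7 * f ∧ u = 128 ^ f + w * 2 ^ 49)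
    (H : TabOK Y Z b 126 Φ) : TabOK Y (iterS Y β s w u Z) b 126
      fun k => Φ k ∘ₗ (tau (f + 1) q).toLinearMap := iter_ok h hY hf H

theorem DiOK.tab {βs : List Prog} (h : DiOK Y.a Y.N βs w V q) (hY : layOK Y = true) (f : ℕ)
    {s u : ℕ} (hf : f < 7 ∧ w = mdeg (128 ^ f) ∧ s = 7 * f ∧ u = 128 ^ f + w * 2 ^ 49)
    (H : TabOK Y Z b V Φ) : TabOK Y (dirS Y βs s u Z) b V
      fun k => Φ k ∘ₗ (tau (f + 1) q).toLinearMap := dir_ok h hY hf H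

theorem TabOK.congr (H : TabOK Y Z b V Φ) {Ψ : ℕ → Pb Y.a Y.N →ₗ[Ab Y.a Y.N] Ab Y.a Y.N}
    (e : ∀ k q, Φ k q = Ψ k q) : TabOK Y Z b V Ψ := fun c h1 h2 => (H c h1 h2).congr fun _ _ _ => e _ _

end

variable {U : Ctx} {b k : ℕ} {Φ : ℕ → Pb U.Y.a U.Y.N →ₗ[Ab U.Y.a U.Y.N] Ab U.Y.a U.Y.N}

theorem th_ok (hY : layOK U.Y = true) (P : PrgOK U.Y.a U.Y.N U.B)
    (h : TabOK U.Y (Z0 U k) b 126 Φ) : TabOK U.Y (E1 U k) b 10
      fun j => Φ j ∘ₗ ((sG 3 (xq _ _)).comp (sW 3 (xq _ _))).toLinearMap :=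
  have h1 : TabOK U.Y (T3 U k) b 126 _ := P.g3.tab hY 1 (by decide) h
  have h2 : TabOK U.Y (T4 U k) b 126 _ := P.g4.tab hY 2 (by decide) h1
  have h3 : TabOK U.Y (E4 U k) b 126 _ := P.w4.tab hY 6 (by decide) h2
  have h4 : TabOK U.Y (E3 U k) b 126 _ := P.w3.tab hY 5 (by decide) h3
  have h5 : TabOK U.Y (E2 U k) b 126 _ := P.w2.tab hY 4 (by decide) h4
  have h6 : TabOK U.Y (ER U k) b 10 _ := red_ok hY h5
  have h7 : TabOK U.Y (E1 U k) b 10 _ := P.w1.tab hY 3 (by decide) h6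
  h7.congr fun _ _ => by
    simp only [LinearMap.comp_apply, AlgHom.toLinearMap_apply, sG, sW, AlgHom.comp_apply]

theorem s11_ok (hY : layOK U.Y = true) (P : PrgOK U.Y.a U.Y.N U.B)
    (h : TabOK U.Y (YY U k) b 126 Φ) :
    TabOK U.Y (S11 U k) b 126 fun j => Φ j ∘ₗ (sB 3 (xq _ _)).toLinearMap :=
  have h1 : TabOK U.Y (S44 U k) b 126 _ := P.b44.tab hY 6 (by decide) h
  have h2 : TabOK U.Y (S34 U k) b 126 _ := P.b34.tab hY 6 (by decide) h1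
  have h3 : TabOK U.Y (S33 U k) b 126 _ := P.b33.tab hY 5 (by decide) h2
  have h4 : TabOK U.Y (S24 U k) b 126 _ := P.b24.tab hY 6 (by decide) h3
  have h5 : TabOK U.Y (S23 U k) b 126 _ := P.b23.tab hY 5 (by decide) h4
  have h6 : TabOK U.Y (S22 U k) b 126 _ := P.b22.tab hY 4 (by decide) h5
  have h7 : TabOK U.Y (S14 U k) b 126 _ := P.b14.tab hY 6 (by decide) h6
  have h8 : TabOK U.Y (S13 U k) b 126 _ := P.b13.tab hY 5 (by decide) h7
  have h9 : TabOK U.Y (S12 U k) b 126 _ := P.b12.tab hY 4 (by decide) h8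
  have h0 : TabOK U.Y (S11 U k) b 126 _ := P.b11.tab hY 3 (by decide) h9
  h0.congr fun _ _ => by
    simp only [LinearMap.comp_apply, AlgHom.toLinearMap_apply, sB, s0, s1, s2, s3, AlgHom.comp_apply]

variable {D : ℕ → Lv} {gms : ℕ → List ℕ} {gm : List ℕ} {T Nn s : ℕ}

/-- the functionals of one matrix on the coordinates `y` and the end point -/
theorem e1_tab (hY : layOK U.Y = true) (hT : U.Y.T ≤ T) (e1 : U.L1 = D s)
    (hL : lvOK (D s) gm T Nn = true) (hG : grpOK U.Y (D s) gm U.gam = true)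
    (P : PrgOK U.Y.a U.Y.N U.B) (k : ℕ) :
    TabOK U.Y (E1 U k) (gw s k) 10 fun k2 => Th 3 (xq _ _) (dOp D T s k k2) :=
  th_ok hY P (z0_tab hY hT e1 hL hG k)

theorem e1_of (h : CtxOK U D gms T s) (P : PrgOK U.Y.a U.Y.N U.B) (k : ℕ) :
    TabOK U.Y (E1 U k) (gw (s + 1) k) 10 fun k2 => Th 3 (xq _ _) (dOp D T (s + 1) k k2) :=
  th_ok h.lay P (z0_ok h k)

/-- **The last table represents the square of the matrix.** -/
theorem s11_of (h : CtxOK U D gms T s) (P : PrgOK U.Y.a U.Y.N U.B) (e : ℕ) :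
    TabOK U.Y (S11 U e) (gw s e) 126 fun k =>
      Ymap U.Y.a U.Y.N D T s e k ∘ₗ (sB 3 (xq _ _)).toLinearMap :=
  s11_ok h.lay P (yy_ok h (fun k _ => e1_of h P k) e)

open Vale.Agent.P236N Vale.Agent.P236A

variable {S : ℕ}

theorem rowOK_ctx (hH : HomD 3 (Gam S) (delta D T S)) (h : CtxOK U D gms T s)
    (P : PrgOK U.Y.a U.Y.N U.B) : RowOK U D T S s :=
  rowOK_of hH (lay_base h.lay).2.2.2.2.1 (fun e _ => s11_of h P e) fun _ _ _ => rfl

/-- **The check of one group of targets.** -/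
theorem levIn_ctx (hH : HomD 3 (Gam S) (delta D T S)) (h : CtxOK U D gms T s)
    (P : PrgOK U.Y.a U.Y.N U.B) (hT : U.Y.T = T)
    (hg : gtOK (s + 1) (D (s + 1)) = true) (hs : gsOK s U.gs = true) {its : List ℕ}
    (hI : covI s T its = true) (hc : chkU U its = true) :
    LevIn D T S s U.Y.a U.Y.N fun k => nth 0 (gms (s + 1)) k = U.gam :=
  levIn_grp hH h.lay hT h.grp hg hs hI hc (rowOK_ctx hH h P)

end Vale.Agent.P236X
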