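import Vale.Agent.P236X.Stage2
import Vale.Agent.P236X.Tab2

/-!
# P236 / X : the chains of stages (two keys)
-/

namespace Vale.Agent.P236X

open MvPolynomial Vale.Agent.P236M Vale.Agent.P236C

section
variable {Y : Lay} {Z : Tb} {b f w u : ℕ} {β : Prog2} {z : Bx Tb} {s : ℕ → Bx Tb → Bx Tb}

theorem levB_eq (hz : z = lvB Y β (Nat.add b w) Z)
    (hs : ∀ j ih, s j ih = lvB Y β (Nat.add b (Nat.mul (Nat.add j 2) w)) ih.1) (j : ℕ) :
    (Nat.rec (motive := fun _ => Bx Tb) z s j : Bx Tb) = levB Y β w b Z j := by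
  obtain rfl : s = _ := funext fun j => funext (hs j)
  subst hz
  rfl

theorem itA_eq {d : ℕ → Ds} {P : ℕ → ℕ → ℕ → ℕ} {H : Tb} (hd : ∀ c, d c = dsp f u c)
    (hH : ∀ a x, H a x = (d a).1 (Nat.mod (Z a x) 0) (P x))
    (hP : ∀ x j a, P x j a = Nat.mod ((Nat.rec (motive := fun _ => Bx Tb) z s j : Bx Tb).1 a x) 0)
    (hz : z = lvB Y β (Nat.add b w) Z)
    (hs : ∀ j ih, s j ih = lvB Y β (Nat.add b (Nat.mul (Nat.add j 2) w)) ih.1) :
    H = itA Y β f w u b Z := by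
  funext a x
  rw [hH, hd, itA, show P x = _ from funext fun j => funext fun a => by rw [hP, levB_eq hz hs]]

theorem itX_eq {d : ℕ → Ds} {P : ℕ → ℕ → ℕ → ℕ} {H : Tb} (hd : ∀ c, d c = dsp f u c)
    (hH : ∀ a x, H a x = (d x).1 (Nat.mod (Z a x) 0) (P a))
    (hP : ∀ a j x, P a j x = Nat.mod ((Nat.rec (motive := fun _ => Bx Tb) z s j : Bx Tb).1 a x) 0)
    (hz : z = lvB Y β (Nat.add b w) Z)
    (hs : ∀ j ih, s j ih = lvB Y β (Nat.add b (Nat.mul (Nat.add j 2) w)) ih.1) :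
    H = itX Y β f w u b Z := by
  funext a x
  rw [hH, hd, itX, show P a = _ from funext fun j => funext fun x => by rw [hP, levB_eq hz hs]]

theorem drX_eq {d : ℕ → Ds} {P : ℕ → ℕ → ℕ → ℕ → ℕ} {H : Tb} {B : ℕ → Bx Prog2} {βs : List Prog2}
    (hd : ∀ c, d c = dsp f u c) (hH : ∀ a x, H a x = (d x).1 (Nat.mod (Z a x) 0) (P a x))
    (hP : ∀ a x j x', P a x j x' = Nat.rec (motive := fun _ => Nat) 0
      (fun d _ => (B j).1 Y Z d a x') (Nat.succ (Nat.add (Nat.add b (cdeg a)) (cdeg x))))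
    (hB : ∀ j, B j = nthB βs (Nat.succ j)) : H = drX Y βs f u b Z := by
  funext a x
  rw [hH, hd, drX, show P a x = _ from funext fun j => funext fun x' => by rw [hP, hB]]

theorem Tab2.congr {V : ℕ} {Φ Ψ : ℕ → Pb Y.a Y.N →ₗ[Ab Y.a Y.N] Ab Y.a Y.N} (H : Tab2 Y Z b V Φ)
    (e : ∀ k q, Φ k q = Ψ k q) : Tab2 Y Z b V Ψ :=
  fun a x h1 h2 h3 => (H a x h1 h2 h3).congr fun _ _ _ => e _ _

end

section
variable (U : Ctw) (k : ℕ)

theorem H3_eq : H3 U k = itA U.Y U.B.g3 7 13 7318349394477184 (gm U k) (Z02 U k) :=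
  itA_eq (d := dI3) (P := H3p U k) (z := H3z U k) (s := H3s U k) (fun _ => rfl) (fun _ _ => rfl)
    (fun _ _ _ => rfl) rfl fun _ _ => rfl

theorem H4_eq : H4 U k = itA U.Y U.B.g4 14 40 22517998136868864 (gm U k) (H3 U k) :=
  itA_eq (d := dI4) (P := H4p U k) (z := H4z U k) (s := H4s U k) (fun _ => rfl) (fun _ _ => rfl)
    (fun _ _ _ => rfl) rfl fun _ _ => rfl

theorem F4_eq : F4 U k = itX U.Y U.B.w4 42 40 22522396183363584 (gm U k) (H4 U k) :=
  itX_eq (d := dX4) (P := F4p U k) (z := F4z U k) (s := F4s U k) (fun _ => rfl) (fun _ _ => rfl)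
    (fun _ _ _ => rfl) rfl fun _ _ => rfl

theorem F3_eq : F3 U k = itX U.Y U.B.w3 35 13 7318383754215424 (gm U k) (F4 U k) :=
  itX_eq (d := dX3) (P := F3p U k) (z := F3z U k) (s := F3s U k) (fun _ => rfl) (fun _ _ => rfl)
    (fun _ _ _ => rfl) rfl fun _ _ => rfl

theorem F2_eq : F2 U k = itX U.Y U.B.w2 28 4 2251800082120704 (gm U k) (F3 U k) :=
  itX_eq (d := dX2) (P := F2p U k) (z := F2z U k) (s := F2s U k) (fun _ => rfl) (fun _ _ => rfl)
    (fun _ _ _ => rfl) rfl fun _ _ => rfl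

theorem FR_eq : FR U k = rdX U.Y (gm U k) (F2 U k) := by
  funext a x
  rw [FR, rdX]

theorem F1_eq : F1 U k = drX U.Y U.B.w1 21 562949955518464 (gm U k) (FR U k) :=
  drX_eq (d := dX1) (P := F1p U k) (B := F1b U) (fun _ => rfl) (fun _ _ => rfl)
    (fun _ _ _ _ => rfl) fun _ => rfl

theorem R44_eq : R44 U k = drX U.Y U.B.b44 42 22522396183363584 (g0 U k) (Y2 U k) :=
  drX_eq (d := dX4) (P := R44p U k) (B := R44b U) (fun _ => rfl) (fun _ _ => rfl)
    (fun _ _ _ _ => rfl) fun _ => rfl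

theorem R34_eq : R34 U k = itX U.Y U.B.b34 42 40 22522396183363584 (g0 U k) (R44 U k) :=
  itX_eq (d := dX4) (P := R34p U k) (z := R34z U k) (s := R34s U k) (fun _ => rfl) (fun _ _ => rfl)
    (fun _ _ _ => rfl) rfl fun _ _ => rfl

theorem R33_eq : R33 U k = drX U.Y U.B.b33 35 7318383754215424 (g0 U k) (R34 U k) :=
  drX_eq (d := dX3) (P := R33p U k) (B := R33b U) (fun _ => rfl) (fun _ _ => rfl)
    (fun _ _ _ _ => rfl) fun _ => rfl

theorem R24_eq : R24 U k = itX U.Y U.B.b24 42 40 22522396183363584 (g0 U k) (R33 U k) :=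
  itX_eq (d := dX4) (P := R24p U k) (z := R24z U k) (s := R24s U k) (fun _ => rfl) (fun _ _ => rfl)
    (fun _ _ _ => rfl) rfl fun _ _ => rfl

theorem R23_eq : R23 U k = itX U.Y U.B.b23 35 13 7318383754215424 (g0 U k) (R24 U k) :=
  itX_eq (d := dX3) (P := R23p U k) (z := R23z U k) (s := R23s U k) (fun _ => rfl) (fun _ _ => rfl)
    (fun _ _ _ => rfl) rfl fun _ _ => rfl

theorem R22_eq : R22 U k = drX U.Y U.B.b22 28 2251800082120704 (g0 U k) (R23 U k) :=
  drX_eq (d := dX2) (P := R22p U k) (B := R22b U) (fun _ => rfl) (fun _ _ => rfl)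
    (fun _ _ _ _ => rfl) fun _ => rfl

theorem R14_eq : R14 U k = itX U.Y U.B.b14 42 40 22522396183363584 (g0 U k) (R22 U k) :=
  itX_eq (d := dX4) (P := R14p U k) (z := R14z U k) (s := R14s U k) (fun _ => rfl) (fun _ _ => rfl)
    (fun _ _ _ => rfl) rfl fun _ _ => rfl

theorem R13_eq : R13 U k = itX U.Y U.B.b13 35 13 7318383754215424 (g0 U k) (R14 U k) :=
  itX_eq (d := dX3) (P := R13p U k) (z := R13z U k) (s := R13s U k) (fun _ => rfl) (fun _ _ => rfl)
    (fun _ _ _ => rfl) rfl fun _ _ => rfl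

theorem R12_eq : R12 U k = itX U.Y U.B.b12 28 4 2251800082120704 (g0 U k) (R13 U k) :=
  itX_eq (d := dX2) (P := R12p U k) (z := R12z U k) (s := R12s U k) (fun _ => rfl) (fun _ _ => rfl)
    (fun _ _ _ => rfl) rfl fun _ _ => rfl

theorem R11_eq : R11 U k = drX U.Y U.B.b11 21 562949955518464 (g0 U k) (R12 U k) :=
  drX_eq (d := dX1) (P := R11p U k) (B := R11b U) (fun _ => rfl) (fun _ _ => rfl)
    (fun _ _ _ _ => rfl) fun _ => rfl

end

variable {U : Ctw} {k : ℕ} {Φ : ℕ → Pb U.Y.a U.Y.N →ₗ[Ab U.Y.a U.Y.N] Ab U.Y.a U.Y.N}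

theorem f1_ok (hY : layOK U.Y = true) (P : PrgOK2 U.Y.a U.Y.N U.B)
    (h : Tab2 U.Y (Z02 U k) (gm U k) 126 Φ) : Tab2 U.Y (F1 U k) (gm U k) 10
      fun j => Φ j ∘ₗ ((sG 3 (xq _ _)).comp (sW 3 (xq _ _))).toLinearMap := by
  have h1 := itA_ok (f := 1) (s := 7) (u := 7318349394477184) P.g3 hY (by decide) h
  rw [← H3_eq] at h1
  have h2 := itA_ok (f := 2) (s := 14) (u := 22517998136868864) P.g4 hY (by decide) h1
  rw [← H4_eq] at h2
  have h3 := itX_ok (f := 6) (s := 42) (u := 22522396183363584) P.w4 hY (by decide) h2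
  rw [← F4_eq] at h3
  have h4 := itX_ok (f := 5) (s := 35) (u := 7318383754215424) P.w3 hY (by decide) h3
  rw [← F3_eq] at h4
  have h5 := itX_ok (f := 4) (s := 28) (u := 2251800082120704) P.w2 hY (by decide) h4
  rw [← F2_eq] at h5
  have h6 := rdX_ok hY h5
  rw [← FR_eq] at h6
  have h7 := drX_ok (f := 3) (s := 21) (u := 562949955518464) P.w1 hY (by decide) h6
  rw [← F1_eq] at h7
  exact h7.congr fun _ _ => by
    simp only [LinearMap.comp_apply, AlgHom.toLinearMap_apply, sG, sW, AlgHom.comp_apply]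

theorem r11_ok (hY : layOK U.Y = true) (P : PrgOK2 U.Y.a U.Y.N U.B)
    (h : Tab2 U.Y (Y2 U k) (g0 U k) 126 Φ) :
    Tab2 U.Y (R11 U k) (g0 U k) 126 fun j => Φ j ∘ₗ (sB 3 (xq _ _)).toLinearMap := by
  have h1 := drX_ok (f := 6) (s := 42) (u := 22522396183363584) P.b44 hY (by decide) h
  rw [← R44_eq] at h1
  have h2 := itX_ok (f := 6) (s := 42) (u := 22522396183363584) P.b34 hY (by decide) h1
  rw [← R34_eq] at h2
  have h3 := drX_ok (f := 5) (s := 35) (u := 7318383754215424) P.b33 hY (by decide) h2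
  rw [← R33_eq] at h3
  have h4 := itX_ok (f := 6) (s := 42) (u := 22522396183363584) P.b24 hY (by decide) h3
  rw [← R24_eq] at h4
  have h5 := itX_ok (f := 5) (s := 35) (u := 7318383754215424) P.b23 hY (by decide) h4
  rw [← R23_eq] at h5
  have h6 := drX_ok (f := 4) (s := 28) (u := 2251800082120704) P.b22 hY (by decide) h5
  rw [← R22_eq] at h6
  have h7 := itX_ok (f := 6) (s := 42) (u := 22522396183363584) P.b14 hY (by decide) h6
  rw [← R14_eq] at h7
  have h8 := itX_ok (f := 5) (s := 35) (u := 7318383754215424) P.b13 hY (by decide) h7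
  rw [← R13_eq] at h8
  have h9 := itX_ok (f := 4) (s := 28) (u := 2251800082120704) P.b12 hY (by decide) h8
  rw [← R12_eq] at h9
  have h0 := drX_ok (f := 3) (s := 21) (u := 562949955518464) P.b11 hY (by decide) h9
  rw [← R11_eq] at h0
  exact h0.congr fun _ _ => by
    simp only [LinearMap.comp_apply, AlgHom.toLinearMap_apply, sB, s0, s1, s2, s3, AlgHom.comp_apply]

variable {D : ℕ → Lw} {T s : ℕ}

/-- the functionals of one matrix on the coordinates `y` and the end point -/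
theorem f1_tab (hY : layOK U.Y = true) (P : PrgOK2 U.Y.a U.Y.N U.B) (hZ : ZOK U D T s)
    (hg : gm U k = gw s k) (hk : k < 64) :
    Tab2 U.Y (F1 U k) (gw s k) 10 fun k2 => Th 3 (xq _ _) (dOp2 D T s k k2) :=
  hg ▸ f1_ok hY P (hg ▸ hZ k hk)

theorem CtxOK2.gm_eq (h : CtxOK2 U D T s) (hk : k < 64) : gm U k = gw (s + 1) k := by
  rw [gm, h.e0, gtOK2_spec h.gt k hk]

theorem f1_of (h : CtxOK2 U D T s) (P : PrgOK2 U.Y.a U.Y.N U.B) (hk : k < 64) :
    Tab2 U.Y (F1 U k) (gw (s + 1) k) 10 fun k2 => Th 3 (xq _ _) (dOp2 D T (s + 1) k k2) :=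
  f1_tab h.lay P h.z (h.gm_eq hk) hk

/-- **The last table represents the square of the matrix.** -/
theorem r11_of (h : CtxOK2 U D T s) (P : PrgOK2 U.Y.a U.Y.N U.B) {e : ℕ} (he : e < 64) :
    Tab2 U.Y (R11 U e) (gw s e) 126 fun k =>
      Ymap2 U.Y.a U.Y.N D T s e k ∘ₗ (sB 3 (xq _ _)).toLinearMap := by
  have hg : g0 U e = gw s e := gsOK_spec h.gs e he
  exact hg ▸ r11_ok h.lay P (hg ▸ y2_ok h (fun _ hk => f1_of h P hk) he)

end Vale.Agent.P236X
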