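import Vale.Agent.P236X.Defs

/-!
# P236 / X : the program, second version

A table has two keys: `a` has the digits `0, 1, 2` of a code, `x` the digits `3, 4, 5, 6`; both carry
their own degree above bit `49`.  Boxes are used to make the kernel share partial evaluations.
-/

noncomputable section

namespace Vale.Agent.P236X

/-- a box -/
inductive Bx (α : Type) : Type
  | mk (v : α) : Bx α

/-- eight numbers -/
inductive K8 : Type
  | mk (a b c d e f g h : Nat) : K8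

/-- eight keys -/
def k8 (x a b c d e f g h : Nat) : K8 :=
  force (Nat.add x a) fun a => force (Nat.add x b) fun b => force (Nat.add x c) fun c =>
    force (Nat.add x d) fun d => force (Nat.add x e) fun e => force (Nat.add x f) fun f =>
      force (Nat.add x g) fun g => force (Nat.add x h) fun h => K8.mk a b c d e f g h

/-- tables -/
abbrev Tb : Type := Nat → Nat → Nat

/-- compiled programs -/
abbrev Prog2 : Type := Lay → Tb → Nat → Nat → Nat → Nat

/-- the first part of a code -/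
def partI (δ : Nat) : Nat := Nat.add (Nat.land δ 2097151) (Nat.shiftLeft (degI δ) 49)
/-- the second part of a code -/
def partX (δ : Nat) : Nat := Nat.sub δ (partI δ)
/-- addition of keys -/
def kad (a δ : Nat) : Nat := Nat.rec (motive := fun _ => Nat) a (fun _ _ => Nat.add a δ) δ

/-- the mask in degree `d - o` -/
def mo (Y : Lay) (d o : Nat) : Nat := force (Nat.sub d o) fun d' => Nat.mod (m63 Y d') 0
/-- the mask in degree `d - o` -/
def oo (Y : Lay) (d o : Nat) : Nat := force (Nat.sub d o) fun d' => Nat.mod (o12 Y d') 0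

/-- the value of a program -/
def run2 (p : Pg) : Prog2 := fun Y Z d a x =>
  Pg.rec (motive := fun _ => Nat) 0 (fun δ _ => Z (kad a (partI δ)) (kad x (partX δ)))
    (fun δ _ _ r => Nat.add r (Z (kad a (partI δ)) (kad x (partX δ))))
    (fun _ _ r s => Nat.add r s) (fun k _ r => Nat.mul k r) (fun o _ r => fold r (mo Y d o))
    (fun o _ r => qst r (mo Y d o) (oo Y d o)) (fun L _ r => mv Y L r) (fun L _ r => mw Y L r) p

/-! ### stages -/

/-- the type of a case distinction -/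
abbrev Ds : Type := Bx (Nat → (Nat → Nat → Nat) → Nat)

/-- the digit at bit `f` is zero, or it is `j + 1` and `c'` is the key without the digit -/
def dsp (f u c : Nat) : Ds :=
  Nat.rec (motive := fun _ => Ds) (Bx.mk fun z _ => z)
    (fun j _ => force (Nat.sub c (Nat.mul (Nat.succ j) u)) fun c' => Bx.mk fun _ s => s j c')
    (Nat.land (Nat.shiftRight c f) 127)

/-- one more factor -/
def lvB (Y : Lay) (β : Prog2) (b : Nat) (Z : Tb) : Bx Tb :=
  force b fun b' => Bx.mk fun a x => Nat.rec (motive := fun _ => Nat) 0 (fun d _ => β Y Z d a x)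
    (Nat.succ (Nat.add (Nat.add b' (cdeg a)) (cdeg x)))

/-- the table with `j + 1` factors -/
def levB (Y : Lay) (β : Prog2) (w b : Nat) (Z : Tb) (j : Nat) : Bx Tb :=
  Nat.rec (motive := fun _ => Bx Tb) (lvB Y β (Nat.add b w) Z)
    (fun j ih => lvB Y β (Nat.add b (Nat.mul (Nat.add j 2) w)) ih.1) j

/-- substitution of a variable of the second key by iteration -/
def itX (Y : Lay) (β : Prog2) (f w u b : Nat) (Z : Tb) (a x : Nat) : Nat :=
  (dsp f u x).1 (Nat.mod (Z a x) 0) fun j x' => Nat.mod ((levB Y β w b Z j).1 a x') 0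

/-- substitution of a variable of the first key by iteration -/
def itA (Y : Lay) (β : Prog2) (f w u b : Nat) (Z : Tb) (a x : Nat) : Nat :=
  (dsp f u a).1 (Nat.mod (Z a x) 0) fun j a' => Nat.mod ((levB Y β w b Z j).1 a' x) 0

/-- the empty program -/
def zero2 : Prog2 := fun _ _ _ _ _ => 0

/-- the `i`-th program -/
def nthB (l : List Prog2) : Nat → Bx Prog2 :=
  List.rec (motive := fun _ => Nat → Bx Prog2) (fun _ => Bx.mk zero2)
    (fun h _ ih i => Nat.rec (motive := fun _ => Bx Prog2) (Bx.mk h) (fun j _ => ih j) i) l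

/-- substitution with one program for each power -/
def drX (Y : Lay) (βs : List Prog2) (f u b : Nat) (Z : Tb) (a x : Nat) : Nat :=
  (dsp f u x).1 (Nat.mod (Z a x) 0) fun j x' => Nat.rec (motive := fun _ => Nat) 0
    (fun d _ => (nthB βs (Nat.succ j)).1 Y Z d a x') (Nat.succ (Nat.add (Nat.add b (cdeg a)) (cdeg x)))

/-- full reduction of a table -/
def rdX (Y : Lay) (b : Nat) (Z : Tb) (a x : Nat) : Nat :=
  Nat.rec (motive := fun _ => Nat) 0 (fun d _ => qst (Z a x) (m63 Y d) (o12 Y d))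
    (Nat.succ (Nat.add (Nat.add b (cdeg a)) (cdeg x)))

/-- case distinction -/
def dI3 (c : Nat) : Ds := dsp 7 7318349394477184 c
/-- case distinction -/
def dI4 (c : Nat) : Ds := dsp 14 22517998136868864 c
/-- case distinction -/
def dX1 (c : Nat) : Ds := dsp 21 562949955518464 c
/-- case distinction -/
def dX2 (c : Nat) : Ds := dsp 28 2251800082120704 c
/-- case distinction -/
def dX3 (c : Nat) : Ds := dsp 35 7318383754215424 c
/-- case distinction -/
def dX4 (c : Nat) : Ds := dsp 42 22522396183363584 c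

/-! ### rows

A row is a sequence of `16` bit fields: segments followed by `0`; a segment is a number `m > 0` and `m`
groups; a group is a list of columns (plus one) followed by `0`.  The columns of the `i`-th group
have the coefficient `m - i`. -/

/-- sums of columns -/
abbrev Ac : Type := Bx ((Nat → Nat) → Nat)
/-- rows -/
abbrev Ou : Type := Bx ((Nat → Nat) → (Nat → Nat → Nat) → Nat)

/-- the empty sum -/
def zA : Ac := Bx.mk fun _ => 0
/-- the empty row -/
def zO : Ou := Bx.mk fun _ _ => 0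
/-- add a column -/
def cns (m : Nat) (acc : Ac) : Ac := Bx.mk fun Θ => Nat.add (acc.1 Θ) (Θ m)
/-- the end of a group -/
def sep (tot acc : Ac) : Ac := Bx.mk fun Θ => Nat.add (tot.1 Θ) (acc.1 Θ)
/-- the end of a segment -/
def flu (out : Ou) (tot : Ac) : Ou := Bx.mk fun Θ fl => fl (out.1 Θ fl) (tot.1 Θ)

/-- read one field of a group -/
def g1 (k nx : Nat → Ac → Ou) (r : Nat) (acc : Ac) : Ou :=
  Nat.rec (motive := fun _ => Ou) (k (Nat.shiftRight r 16) acc)
    (fun m _ => nx (Nat.shiftRight r 16) (cns m acc)) (Nat.land r 65535)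

/-- read eight fields of a group -/
def g8 (k : Nat → Ac → Ou) (_ : Nat) (ih : Nat → Ac → Ou) : Nat → Ac → Ou :=
  g1 k (g1 k (g1 k (g1 k (g1 k (g1 k (g1 k (g1 k ih)))))))

/-- after a group -/
def gK (ih : Nat → Ac → Ac → Ou) (tot : Ac) (r : Nat) (acc : Ac) : Ou := ih r acc (sep tot acc)

/-- read a group -/
def gL (k : Nat → Ac → Ou) (r : Nat) (acc : Ac) : Ou :=
  Nat.rec (motive := fun _ => Nat → Ac → Ou) k (g8 k) 64 r acc

/-- one more group -/
def sS (_ : Nat) (ih : Nat → Ac → Ac → Ou) (r : Nat) (acc tot : Ac) : Ou := gL (gK ih tot) r acc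

/-- after a segment -/
def rK (ih : Nat → Ou → Ou) (out : Ou) (r : Nat) (_ tot : Ac) : Ou := ih r (flu out tot)

/-- one more segment -/
def rS (_ : Nat) (ih : Nat → Ou → Ou) (r : Nat) (out : Ou) : Ou :=
  Nat.rec (motive := fun _ => Ou) out
    (fun m _ => Nat.rec (motive := fun _ => Nat → Ac → Ac → Ou) (sS 0 (rK ih out)) sS m
      (Nat.shiftRight r 16) zA zA) (Nat.land r 65535)

/-- read a row -/
def rowO (r : Nat) : Ou := Nat.rec (motive := fun _ => Nat → Ou → Ou) (fun _ out => out) rS 64 r zO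

/-- the data of one level -/
structure Lw where
  /-- the degrees of the generators of the next level -/
  gt : List Nat
  /-- the rows, indexed by the generator and the exponents `k4, k3, k2` -/
  bl : List (List (List (List Nat)))

/-- an entry of a table with four indices -/
def at4 (l : List (List (List (List Nat)))) (e kk : Nat) : Nat :=
  nth 0 (nth [] (nth [] (nth [] l e) (fld kk 2)) (fld kk 1)) (fld kk 0)
/-- the rows with given `k2, k3, k4` -/
def blw (L : Lw) (e kk : Nat) : Nat := at4 L.bl e kk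
/-- the `16` bit field `i` -/
def f16 (B i : Nat) : Nat := Nat.land (Nat.shiftRight B (Nat.mul 16 i)) 65535
/-- the row `i` of a blob; the blob starts with the offsets of the rows -/
def rwN (B i : Nat) : Nat :=
  Nat.land (Nat.shiftRight B (Nat.mul 16 (f16 B i)))
    (Nat.sub (Nat.shiftLeft 1 (Nat.mul 16 (Nat.sub (f16 B (Nat.succ i)) (f16 B i)))) 1)
/-- the row with the second key `x` -/
def rwX (L : Lw) (e x : Nat) : Nat :=
  force (Nat.land (Nat.shiftRight x 28) 2097151) fun kk => rwN (blw L e kk) (fld x 3)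
/-- the row with the second key `x` -/
def rwO (L : Lw) (e x : Nat) : Ou := rowO (rwX L e x)
/-- the degree of a generator of the next level -/
def gtw (L : Lw) (k : Nat) : Nat := nth 0 L.gt k

/-- the exponent of `v_1` of a column `k + 64 * (l1 + 16 * (l3 + 8 * l4))` -/
def c1 (m : Nat) : Nat := Nat.land (Nat.shiftRight m 6) 15
/-- the exponent of `v_3` -/
def c3 (m : Nat) : Nat := Nat.land (Nat.shiftRight m 10) 7
/-- the exponent of `v_4` -/
def c4 (m : Nat) : Nat := Nat.shiftRight m 13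
/-- the degree without `v_2` -/
def cu (g m : Nat) : Nat := Nat.add (Nat.add (Nat.add g (c1 m)) (Nat.mul 13 (c3 m))) (Nat.mul 40 (c4 m))
/-- the column exists in degree `t` and has no `v_4` -/
def cv (g t m : Nat) : Bool :=
  and (and (Nat.ble (cu g m) t) (Nat.beq (Nat.mod (Nat.sub t (cu g m)) 4) 0)) (Nat.beq (c4 m) 0)
/-- the exponent of `v_2` -/
def c2 (g t m : Nat) : Nat := Nat.div (Nat.sub t (cu g m)) 4
/-- the second key of a column -/
def cx (g t m : Nat) : Nat :=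
  Nat.add (Nat.add (Nat.add (Nat.add (Nat.shiftLeft (c1 m) 21) (Nat.shiftLeft (c2 g t m) 28))
    (Nat.shiftLeft (c3 m) 35)) (Nat.shiftLeft (c4 m) 42)) (Nat.shiftLeft (Nat.sub t g) 49)

/-- the compiled programs -/
structure Prg2 where
  /-- `y_3` -/
  g3 : Prog2
  /-- `y_4` -/
  g4 : Prog2
  /-- right unit -/
  w4 : Prog2
  /-- right unit -/
  w3 : Prog2
  /-- right unit -/
  w2 : Prog2
  /-- right unit -/
  w1 : List Prog2
  /-- coproduct -/
  b44 : List Prog2
  /-- coproduct -/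
  b34 : Prog2
  /-- coproduct -/
  b33 : List Prog2
  /-- coproduct -/
  b24 : Prog2
  /-- coproduct -/
  b23 : Prog2
  /-- coproduct -/
  b22 : List Prog2
  /-- coproduct -/
  b14 : Prog2
  /-- coproduct -/
  b13 : Prog2
  /-- coproduct -/
  b12 : Prog2
  /-- coproduct -/
  b11 : List Prog2

/-- the context of a check -/
structure Ctw where
  /-- layout -/
  Y : Lay
  /-- the first matrix -/
  L0 : Lw
  /-- the degrees of the generators of the source -/
  gs : List Nat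
  /-- the table of the second matrix, three vectors in one number -/
  zd : List (List (List (List Nat)))
  /-- programs -/
  B : Prg2

/-- the degree of a generator of the source -/
def g0 (U : Ctw) (e : Nat) : Nat := nth 0 U.gs e
/-- the degree of a generator in the middle -/
def gm (U : Ctw) (k : Nat) : Nat := gtw U.L0 k

/-- `15` in all fields -/
def m15 (Y : Lay) : Nat := Nat.div (o12 Y 0) 273

/-- three vectors of the table -/
def zw (U : Ctw) (k kk : Nat) : Nat := at4 U.zd k kk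

/-- the table of the second matrix -/
def Z02 (U : Ctw) (k a x : Nat) : Nat :=
  cond (Nat.beq x 0)
    (force (Nat.add (Nat.div (fld a 0) 3) (Nat.land a 2097024)) fun kk =>
      Nat.land (Nat.shiftRight (zw U k kk) (Nat.mul 4 (Nat.mod (fld a 0) 3))) (m15 U.Y)) 0

/-- stage -/
def H3z (U : Ctw) (k : Nat) : Bx Tb :=
  Prg2.rec (motive := fun _ => Bx Tb) (fun β _ _ _ _ _ _ _ _ _ _ _ _ _ _ _ =>
    lvB U.Y β (Nat.add (gm U k) 13) (Z02 U k)) U.B
/-- stage -/
def H3s (U : Ctw) (k j : Nat) (ih : Bx Tb) : Bx Tb :=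
  Prg2.rec (motive := fun _ => Bx Tb) (fun β _ _ _ _ _ _ _ _ _ _ _ _ _ _ _ =>
    lvB U.Y β (Nat.add (gm U k) (Nat.mul (Nat.add j 2) 13)) ih.1) U.B
/-- stage -/
def H3p (U : Ctw) (k x j a : Nat) : Nat :=
  Nat.mod ((Nat.rec (motive := fun _ => Bx Tb) (H3z U k) (H3s U k) j : Bx Tb).1 a x) 0
/-- stage -/
def H3 (U : Ctw) (k a x : Nat) : Nat := (dI3 a).1 (Nat.mod (Z02 U k a x) 0) (H3p U k x)

/-- stage -/
def H4z (U : Ctw) (k : Nat) : Bx Tb :=
  Prg2.rec (motive := fun _ => Bx Tb) (fun _ β _ _ _ _ _ _ _ _ _ _ _ _ _ _ =>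
    lvB U.Y β (Nat.add (gm U k) 40) (H3 U k)) U.B
/-- stage -/
def H4s (U : Ctw) (k j : Nat) (ih : Bx Tb) : Bx Tb :=
  Prg2.rec (motive := fun _ => Bx Tb) (fun _ β _ _ _ _ _ _ _ _ _ _ _ _ _ _ =>
    lvB U.Y β (Nat.add (gm U k) (Nat.mul (Nat.add j 2) 40)) ih.1) U.B
/-- stage -/
def H4p (U : Ctw) (k x j a : Nat) : Nat :=
  Nat.mod ((Nat.rec (motive := fun _ => Bx Tb) (H4z U k) (H4s U k) j : Bx Tb).1 a x) 0
/-- stage -/
def H4 (U : Ctw) (k a x : Nat) : Nat := (dI4 a).1 (Nat.mod (H3 U k a x) 0) (H4p U k x)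

/-- stage -/
def F4z (U : Ctw) (k : Nat) : Bx Tb :=
  Prg2.rec (motive := fun _ => Bx Tb) (fun _ _ β _ _ _ _ _ _ _ _ _ _ _ _ _ =>
    lvB U.Y β (Nat.add (gm U k) 40) (H4 U k)) U.B
/-- stage -/
def F4s (U : Ctw) (k j : Nat) (ih : Bx Tb) : Bx Tb :=
  Prg2.rec (motive := fun _ => Bx Tb) (fun _ _ β _ _ _ _ _ _ _ _ _ _ _ _ _ =>
    lvB U.Y β (Nat.add (gm U k) (Nat.mul (Nat.add j 2) 40)) ih.1) U.B
/-- stage -/
def F4p (U : Ctw) (k a j x : Nat) : Nat :=
  Nat.mod ((Nat.rec (motive := fun _ => Bx Tb) (F4z U k) (F4s U k) j : Bx Tb).1 a x) 0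
/-- stage -/
def F4 (U : Ctw) (k a x : Nat) : Nat := (dX4 x).1 (Nat.mod (H4 U k a x) 0) (F4p U k a)

/-- stage -/
def F3z (U : Ctw) (k : Nat) : Bx Tb :=
  Prg2.rec (motive := fun _ => Bx Tb) (fun _ _ _ β _ _ _ _ _ _ _ _ _ _ _ _ =>
    lvB U.Y β (Nat.add (gm U k) 13) (F4 U k)) U.B
/-- stage -/
def F3s (U : Ctw) (k j : Nat) (ih : Bx Tb) : Bx Tb :=
  Prg2.rec (motive := fun _ => Bx Tb) (fun _ _ _ β _ _ _ _ _ _ _ _ _ _ _ _ =>
    lvB U.Y β (Nat.add (gm U k) (Nat.mul (Nat.add j 2) 13)) ih.1) U.B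
/-- stage -/
def F3p (U : Ctw) (k a j x : Nat) : Nat :=
  Nat.mod ((Nat.rec (motive := fun _ => Bx Tb) (F3z U k) (F3s U k) j : Bx Tb).1 a x) 0
/-- stage -/
def F3 (U : Ctw) (k a x : Nat) : Nat := (dX3 x).1 (Nat.mod (F4 U k a x) 0) (F3p U k a)

/-- stage -/
def F2z (U : Ctw) (k : Nat) : Bx Tb :=
  Prg2.rec (motive := fun _ => Bx Tb) (fun _ _ _ _ β _ _ _ _ _ _ _ _ _ _ _ =>
    lvB U.Y β (Nat.add (gm U k) 4) (F3 U k)) U.B
/-- stage -/
def F2s (U : Ctw) (k j : Nat) (ih : Bx Tb) : Bx Tb :=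
  Prg2.rec (motive := fun _ => Bx Tb) (fun _ _ _ _ β _ _ _ _ _ _ _ _ _ _ _ =>
    lvB U.Y β (Nat.add (gm U k) (Nat.mul (Nat.add j 2) 4)) ih.1) U.B
/-- stage -/
def F2p (U : Ctw) (k a j x : Nat) : Nat :=
  Nat.mod ((Nat.rec (motive := fun _ => Bx Tb) (F2z U k) (F2s U k) j : Bx Tb).1 a x) 0
/-- stage -/
def F2 (U : Ctw) (k a x : Nat) : Nat := (dX2 x).1 (Nat.mod (F3 U k a x) 0) (F2p U k a)

/-- stage -/
def FR (U : Ctw) (k a x : Nat) : Nat :=
  Nat.rec (motive := fun _ => Nat) 0 (fun d _ => qst (F2 U k a x) (m63 U.Y d) (o12 U.Y d))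
    (Nat.succ (Nat.add (Nat.add (gm U k) (cdeg a)) (cdeg x)))

/-- stage -/
def F1b (U : Ctw) (j : Nat) : Bx Prog2 := nthB U.B.w1 (Nat.succ j)
/-- stage -/
def F1p (U : Ctw) (k a x j x' : Nat) : Nat :=
  Nat.rec (motive := fun _ => Nat) 0 (fun d _ => (F1b U j).1 U.Y (FR U k) d a x')
    (Nat.succ (Nat.add (Nat.add (gm U k) (cdeg a)) (cdeg x)))
/-- stage -/
def F1 (U : Ctw) (k a x : Nat) : Nat := (dX1 x).1 (Nat.mod (FR U k a x) 0) (F1p U k a x)

/-- a column -/
def clB (U : Ctw) (t m : Nat) : Bx ((Nat → Nat → Nat → Nat) → Nat → Nat) :=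
  force (Nat.land m 63) fun k => force (gm U k) fun g =>
    cond (and (cv g t m) (Nat.blt (c1 m) U.Y.N))
      (force (cx g t m) fun x => Bx.mk fun f a => f k a x) (Bx.mk fun _ _ => 0)

/-- the value on a column -/
def th2 (U : Ctw) (a t m : Nat) : Nat := (clB U t m).1 (F1 U) a

/-- a mask -/
def mY (U : Ctw) (a t : Nat) : Nat := force (Nat.add t (cdeg a)) fun d => Nat.mod (m63 U.Y d) 0

/-- the end of a segment -/
def flY (U : Ctw) (a t o s : Nat) : Nat := fold (Nat.add o s) (mY U a t)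

/-- a row and its degree -/
def rwB (U : Ctw) (e x : Nat) : Bx ((Nat → Nat → Nat) → (Nat → Nat → Nat → Nat) → Nat) :=
  force (Nat.add (g0 U e) (cdeg x)) fun t => Bx.mk fun F G => (rwO U.L0 e x).1 (F t) (G t)

/-- the table of the composition on the pairs of arrows -/
def Y2 (U : Ctw) (e a x : Nat) : Nat := (rwB U e x).1 (th2 U a) (flY U a)

/-- stage -/
def R44b (U : Ctw) (j : Nat) : Bx Prog2 := nthB U.B.b44 (Nat.succ j)
/-- stage -/
def R44p (U : Ctw) (k a x j x' : Nat) : Nat :=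
  Nat.rec (motive := fun _ => Nat) 0 (fun d _ => (R44b U j).1 U.Y (Y2 U k) d a x')
    (Nat.succ (Nat.add (Nat.add (g0 U k) (cdeg a)) (cdeg x)))
/-- stage -/
def R44 (U : Ctw) (k a x : Nat) : Nat := (dX4 x).1 (Nat.mod (Y2 U k a x) 0) (R44p U k a x)

/-- stage -/
def R34z (U : Ctw) (k : Nat) : Bx Tb :=
  Prg2.rec (motive := fun _ => Bx Tb) (fun _ _ _ _ _ _ _ β _ _ _ _ _ _ _ _ =>
    lvB U.Y β (Nat.add (g0 U k) 40) (R44 U k)) U.B
/-- stage -/
def R34s (U : Ctw) (k j : Nat) (ih : Bx Tb) : Bx Tb :=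
  Prg2.rec (motive := fun _ => Bx Tb) (fun _ _ _ _ _ _ _ β _ _ _ _ _ _ _ _ =>
    lvB U.Y β (Nat.add (g0 U k) (Nat.mul (Nat.add j 2) 40)) ih.1) U.B
/-- stage -/
def R34p (U : Ctw) (k a j x : Nat) : Nat :=
  Nat.mod ((Nat.rec (motive := fun _ => Bx Tb) (R34z U k) (R34s U k) j : Bx Tb).1 a x) 0
/-- stage -/
def R34 (U : Ctw) (k a x : Nat) : Nat := (dX4 x).1 (Nat.mod (R44 U k a x) 0) (R34p U k a)

/-- stage -/
def R33b (U : Ctw) (j : Nat) : Bx Prog2 := nthB U.B.b33 (Nat.succ j)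
/-- stage -/
def R33p (U : Ctw) (k a x j x' : Nat) : Nat :=
  Nat.rec (motive := fun _ => Nat) 0 (fun d _ => (R33b U j).1 U.Y (R34 U k) d a x')
    (Nat.succ (Nat.add (Nat.add (g0 U k) (cdeg a)) (cdeg x)))
/-- stage -/
def R33 (U : Ctw) (k a x : Nat) : Nat := (dX3 x).1 (Nat.mod (R34 U k a x) 0) (R33p U k a x)

/-- stage -/
def R24z (U : Ctw) (k : Nat) : Bx Tb :=
  Prg2.rec (motive := fun _ => Bx Tb) (fun _ _ _ _ _ _ _ _ _ β _ _ _ _ _ _ =>
    lvB U.Y β (Nat.add (g0 U k) 40) (R33 U k)) U.B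
/-- stage -/
def R24s (U : Ctw) (k j : Nat) (ih : Bx Tb) : Bx Tb :=
  Prg2.rec (motive := fun _ => Bx Tb) (fun _ _ _ _ _ _ _ _ _ β _ _ _ _ _ _ =>
    lvB U.Y β (Nat.add (g0 U k) (Nat.mul (Nat.add j 2) 40)) ih.1) U.B
/-- stage -/
def R24p (U : Ctw) (k a j x : Nat) : Nat :=
  Nat.mod ((Nat.rec (motive := fun _ => Bx Tb) (R24z U k) (R24s U k) j : Bx Tb).1 a x) 0
/-- stage -/
def R24 (U : Ctw) (k a x : Nat) : Nat := (dX4 x).1 (Nat.mod (R33 U k a x) 0) (R24p U k a)

/-- stage -/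
def R23z (U : Ctw) (k : Nat) : Bx Tb :=
  Prg2.rec (motive := fun _ => Bx Tb) (fun _ _ _ _ _ _ _ _ _ _ β _ _ _ _ _ =>
    lvB U.Y β (Nat.add (g0 U k) 13) (R24 U k)) U.B
/-- stage -/
def R23s (U : Ctw) (k j : Nat) (ih : Bx Tb) : Bx Tb :=
  Prg2.rec (motive := fun _ => Bx Tb) (fun _ _ _ _ _ _ _ _ _ _ β _ _ _ _ _ =>
    lvB U.Y β (Nat.add (g0 U k) (Nat.mul (Nat.add j 2) 13)) ih.1) U.B
/-- stage -/
def R23p (U : Ctw) (k a j x : Nat) : Nat :=
  Nat.mod ((Nat.rec (motive := fun _ => Bx Tb) (R23z U k) (R23s U k) j : Bx Tb).1 a x) 0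
/-- stage -/
def R23 (U : Ctw) (k a x : Nat) : Nat := (dX3 x).1 (Nat.mod (R24 U k a x) 0) (R23p U k a)

/-- stage -/
def R22b (U : Ctw) (j : Nat) : Bx Prog2 := nthB U.B.b22 (Nat.succ j)
/-- stage -/
def R22p (U : Ctw) (k a x j x' : Nat) : Nat :=
  Nat.rec (motive := fun _ => Nat) 0 (fun d _ => (R22b U j).1 U.Y (R23 U k) d a x')
    (Nat.succ (Nat.add (Nat.add (g0 U k) (cdeg a)) (cdeg x)))
/-- stage -/
def R22 (U : Ctw) (k a x : Nat) : Nat := (dX2 x).1 (Nat.mod (R23 U k a x) 0) (R22p U k a x)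

/-- stage -/
def R14z (U : Ctw) (k : Nat) : Bx Tb :=
  Prg2.rec (motive := fun _ => Bx Tb) (fun _ _ _ _ _ _ _ _ _ _ _ _ β _ _ _ =>
    lvB U.Y β (Nat.add (g0 U k) 40) (R22 U k)) U.B
/-- stage -/
def R14s (U : Ctw) (k j : Nat) (ih : Bx Tb) : Bx Tb :=
  Prg2.rec (motive := fun _ => Bx Tb) (fun _ _ _ _ _ _ _ _ _ _ _ _ β _ _ _ =>
    lvB U.Y β (Nat.add (g0 U k) (Nat.mul (Nat.add j 2) 40)) ih.1) U.B
/-- stage -/
def R14p (U : Ctw) (k a j x : Nat) : Nat :=
  Nat.mod ((Nat.rec (motive := fun _ => Bx Tb) (R14z U k) (R14s U k) j : Bx Tb).1 a x) 0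
/-- stage -/
def R14 (U : Ctw) (k a x : Nat) : Nat := (dX4 x).1 (Nat.mod (R22 U k a x) 0) (R14p U k a)

/-- stage -/
def R13z (U : Ctw) (k : Nat) : Bx Tb :=
  Prg2.rec (motive := fun _ => Bx Tb) (fun _ _ _ _ _ _ _ _ _ _ _ _ _ β _ _ =>
    lvB U.Y β (Nat.add (g0 U k) 13) (R14 U k)) U.B
/-- stage -/
def R13s (U : Ctw) (k j : Nat) (ih : Bx Tb) : Bx Tb :=
  Prg2.rec (motive := fun _ => Bx Tb) (fun _ _ _ _ _ _ _ _ _ _ _ _ _ β _ _ =>
    lvB U.Y β (Nat.add (g0 U k) (Nat.mul (Nat.add j 2) 13)) ih.1) U.B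
/-- stage -/
def R13p (U : Ctw) (k a j x : Nat) : Nat :=
  Nat.mod ((Nat.rec (motive := fun _ => Bx Tb) (R13z U k) (R13s U k) j : Bx Tb).1 a x) 0
/-- stage -/
def R13 (U : Ctw) (k a x : Nat) : Nat := (dX3 x).1 (Nat.mod (R14 U k a x) 0) (R13p U k a)

/-- stage -/
def R12z (U : Ctw) (k : Nat) : Bx Tb :=
  Prg2.rec (motive := fun _ => Bx Tb) (fun _ _ _ _ _ _ _ _ _ _ _ _ _ _ β _ =>
    lvB U.Y β (Nat.add (g0 U k) 4) (R13 U k)) U.B
/-- stage -/
def R12s (U : Ctw) (k j : Nat) (ih : Bx Tb) : Bx Tb :=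
  Prg2.rec (motive := fun _ => Bx Tb) (fun _ _ _ _ _ _ _ _ _ _ _ _ _ _ β _ =>
    lvB U.Y β (Nat.add (g0 U k) (Nat.mul (Nat.add j 2) 4)) ih.1) U.B
/-- stage -/
def R12p (U : Ctw) (k a j x : Nat) : Nat :=
  Nat.mod ((Nat.rec (motive := fun _ => Bx Tb) (R12z U k) (R12s U k) j : Bx Tb).1 a x) 0
/-- stage -/
def R12 (U : Ctw) (k a x : Nat) : Nat := (dX2 x).1 (Nat.mod (R13 U k a x) 0) (R12p U k a)

/-- stage -/
def R11b (U : Ctw) (j : Nat) : Bx Prog2 := nthB U.B.b11 (Nat.succ j)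
/-- stage -/
def R11p (U : Ctw) (k a x j x' : Nat) : Nat :=
  Nat.rec (motive := fun _ => Nat) 0 (fun d _ => (R11b U j).1 U.Y (R12 U k) d a x')
    (Nat.succ (Nat.add (Nat.add (g0 U k) (cdeg a)) (cdeg x)))
/-- stage -/
def R11 (U : Ctw) (k a x : Nat) : Nat := (dX1 x).1 (Nat.mod (R12 U k a x) 0) (R11p U k a x)

/-- the check of one row -/
def ckR (U : Ctw) (e c0 k1 : Nat) : Bool :=
  force (Nat.add c0 (Nat.mul k1 562949955518464)) fun c => force (Nat.add (g0 U e) (cdeg c)) fun d =>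
    fin U.Y (R11 U e 0 c) d

/-- the check of the rows with given `k2` -/
def ck2 (U : Ctw) (e c0 k2 : Nat) : Bool :=
  force (Nat.add c0 (Nat.mul k2 2251800082120704)) fun c =>
    allN (ckR U e c) (Nat.sub (Nat.succ U.Y.T) (Nat.add (g0 U e) (cdeg c)))

/-- the check of the rows with given `e, k3, k4`; the item is `e + 64 * (k3 + 8 * k4)` -/
def ckI (U : Ctw) (it : Nat) : Bool :=
  force (Nat.land it 63) fun e =>
    force (Nat.add (Nat.mul (Nat.land (Nat.shiftRight it 6) 7) 7318383754215424)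
        (Nat.mul (Nat.shiftRight it 9) 22522396183363584)) fun c =>
      cond (Nat.ble (Nat.add (g0 U e) (cdeg c)) U.Y.T)
        (allN (ck2 U e c) (Nat.succ (Nat.div (Nat.sub U.Y.T (Nat.add (g0 U e) (cdeg c))) 4))) true

/-- the check of a unit -/
def ckU (U : Ctw) (its : List Nat) : Bool := allL (ckI U) its

end Vale.Agent.P236X
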