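/-!
# P236 / X : the program that checks `δ ∘ δ ∈ 𝔞`

Only core natural number operations are used, so that the kernel evaluates everything on literals.
A vector is a natural number read as a sequence of 12 bit fields.  A table is a function from codes
to vectors; a code has the base `128` digits `i2, i3, i4, x1, x2, x3, x4` and the degree above bit `49`.
-/

noncomputable section

namespace Vale.Agent.P236X

/-- evaluate `x` and continue -/
def force {α : Type} (x : Nat) (k : Nat → α) : α :=
  Nat.rec (motive := fun _ => α) (k 0) (fun m _ => k m) (Nat.succ x)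

theorem force_eq {α : Type} (x : Nat) (k : Nat → α) : force x k = k x := rfl

/-- the `i`-th element of a list -/
def nth {α : Type} (z : α) (l : List α) : Nat → α :=
  List.rec (motive := fun _ => Nat → α) (fun _ => z)
    (fun h _ ih i => Nat.rec (motive := fun _ => α) h (fun j _ => ih j) i) l

/-- all `i < n` -/
def allN (f : Nat → Bool) (n : Nat) : Bool :=
  Nat.rec (motive := fun _ => Bool) true (fun i ih => cond ih (f i) false) n

/-- all elements of a list -/
def allL {α : Type} (f : α → Bool) (l : List α) : Bool :=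
  List.rec (motive := fun _ => Bool) true (fun h _ ih => cond (f h) ih false) l

/-! ### layout -/

/-- The layout of the vectors.  An entry of the slab is `k + 64 * (j3 + 8 * (j4 + 4 * d))`. -/
structure Lay where
  /-- the largest degree -/
  T : Nat
  /-- the exponents of `v_1` are less than `N` -/
  N : Nat
  /-- the coefficients of `v_1 ^ a` are read modulo `3` -/
  a : Nat
  /-- the length of the slab -/
  S : Nat
  /-- the stride of `v_4` in the slab -/
  s4 : Nat
  /-- a bound for `j3 + d % 4` -/
  um : Nat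
  /-- the slab -/
  sl : List Nat

/-- the generator of an entry of the slab -/
def hk (h : Nat) : Nat := Nat.land h 63
/-- the exponent of `v_3` -/
def h3 (h : Nat) : Nat := Nat.land (Nat.shiftRight h 6) 7
/-- the exponent of `v_4` -/
def h4 (h : Nat) : Nat := Nat.land (Nat.shiftRight h 9) 3
/-- the degree of the generator -/
def hd (h : Nat) : Nat := Nat.shiftRight h 11

/-- the digit `i` of a code -/
def fld (c i : Nat) : Nat := Nat.land (Nat.shiftRight c (Nat.mul 7 i)) 127
/-- the degree of a code -/
def cdeg (c : Nat) : Nat := Nat.shiftRight c 49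

/-- the mask of the entries of the slab with `g` -/
def slabM (g : Nat → Bool) (sl : List Nat) : Nat :=
  List.rec (motive := fun _ => Nat) 0
    (fun h _ ih => Nat.add (Nat.shiftLeft ih 12) (cond (g h) 4095 0)) sl

/-- `n` copies of `x` with distance `w` bits -/
def rep (x w n : Nat) : Nat :=
  Nat.rec (motive := fun _ => Nat) 0 (fun _ ih => Nat.add (Nat.shiftLeft ih w) x) n

/-- the number of blocks that contain all positions of degree `≥ d` -/
def lenb (Y : Lay) (d : Nat) : Nat :=
  cond (Nat.ble (Nat.add Y.um Y.N) (Nat.add d 4))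
    (force (Nat.sub (Nat.add d 4) (Nat.add Y.um Y.N)) fun e =>
      Nat.add (Nat.mul (Nat.sub (Nat.div Y.T 4) (Nat.div e 4)) Y.N) (Nat.sub 4 (Nat.mod e 4)))
    (Nat.mul (Nat.succ (Nat.div Y.T 4)) Y.N)

/-- all bits of the first fields -/
def o12 (Y : Lay) (d : Nat) : Nat :=
  Nat.sub (Nat.shiftLeft 1 (Nat.mul 12 (Nat.mul (lenb Y d) Y.S))) 1
/-- `63` in the first fields -/
def m63 (Y : Lay) (d : Nat) : Nat := Nat.div (o12 Y d) 65

/-- the positions divisible by the monomial with the base `128` digits `L1, L2, L3, L4` -/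
def msk (Y : Lay) (L : Nat) : Nat :=
  rep (rep (slabM (fun h => and (Nat.ble (fld L 2) (h3 h)) (Nat.ble (fld L 3) (h4 h))) Y.sl)
    (Nat.mul 12 Y.S) (Nat.sub Y.N (fld L 0))) (Nat.mul 12 (Nat.mul Y.S Y.N)) (Nat.succ (Nat.div Y.T 4))

/-- the shift (in bits) of the monomial `L` -/
def shf (Y : Lay) (L : Nat) : Nat :=
  Nat.mul 12 (Nat.add (Nat.mul (Nat.add (Nat.mul (Nat.add (Nat.add (fld L 1) (Nat.mul 3 (fld L 2)))
    (Nat.mul 10 (fld L 3))) Y.N) (fld L 0)) Y.S) (Nat.add (fld L 2) (Nat.mul Y.s4 (fld L 3))))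

/-- the entries of the slab with `j3 + d % 4 = u` -/
def mU (Y : Lay) (u : Nat) : Nat :=
  slabM (fun h => Nat.beq (Nat.add (h3 h) (Nat.mod (hd h) 4)) u) Y.sl

/-- the positions of degree `d` in the block `m` -/
def mB (Y : Lay) (d m : Nat) : Nat :=
  force (Nat.add (Nat.mul 4 (Nat.sub (Nat.div Y.T 4) (Nat.div m Y.N)))
      (Nat.sub (Nat.sub Y.N 1) (Nat.mod m Y.N))) fun b =>
    cond (Nat.ble b d) (force (Nat.sub d b) fun u => Nat.mod (mU Y u) 0) 0

/-- the positions of degree `d` -/
def mD (Y : Lay) (d : Nat) : Nat :=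
  force (Nat.mul (Nat.sub (Nat.div Y.T 4) (Nat.div d 4)) Y.N) fun m0 =>
    Nat.rec (motive := fun _ => Nat) 0
      (fun i ih => force (Nat.add m0 i) fun m =>
        Nat.add ih (Nat.shiftLeft (mB Y d m) (Nat.mul 12 (Nat.mul m Y.S))))
      (Nat.sub (lenb Y d) m0)

/-- reduce the fields modulo `63` -/
def fold (x M : Nat) : Nat := Nat.add (Nat.land x M) (Nat.land (Nat.shiftRight x 6) M)

/-- subtract multiples of `9` -/
def qst (x M O : Nat) : Nat :=
  Nat.sub (Nat.land x O) (Nat.mul 9 (Nat.land (Nat.shiftRight (Nat.mul 7 x) 6) M))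

/-! ### programs -/

/-- a term -/
def tm (Z : Nat → Nat) (c δ : Nat) : Nat := force (Nat.add c δ) fun c' => Nat.mod (Z c') 0
/-- add a term -/
def ad (Z : Nat → Nat) (c δ x : Nat) : Nat := force (Nat.add c δ) fun c' => Nat.add x (Z c')
/-- fold in degree `d - o` -/
def fo (Y : Lay) (d o x : Nat) : Nat := force (Nat.sub d o) fun d' => fold x (m63 Y d')
/-- reduce in degree `d - o` -/
def qo (Y : Lay) (d o x : Nat) : Nat := force (Nat.sub d o) fun d' => qst x (m63 Y d') (o12 Y d')
/-- multiply by a monomial -/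
def mv (Y : Lay) (L x : Nat) : Nat := Nat.land (Nat.shiftRight x (shf Y L)) (msk Y L)
/-- multiply by a power of `v_2` -/
def mw (Y : Lay) (L x : Nat) : Nat := Nat.shiftRight x (shf Y L)

/-- Programs; `δ` is a code, `A` the exponent of `y_1`, `L` the base `128` code of a monomial in the `v`. -/
inductive Pg : Type
  | zero : Pg
  | t (δ A : Nat) : Pg
  | at (δ A : Nat) (p : Pg) : Pg
  | add (p q : Pg) : Pg
  | mul (k : Nat) (p : Pg) : Pg
  | fold (o : Nat) (p : Pg) : Pg
  | qs (o : Nat) (p : Pg) : Pg
  | mv (L : Nat) (p : Pg) : Pg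
  | mw (L : Nat) (p : Pg) : Pg

/-- compiled programs -/
abbrev Prog : Type := Lay → (Nat → Nat) → Nat → Nat → Nat

/-- the value of a program -/
def run (p : Pg) : Prog := fun Y Z c d =>
  Pg.rec (motive := fun _ => Nat) 0 (fun δ _ => tm Z c δ) (fun δ _ _ x => ad Z c δ x)
    (fun _ _ x y => Nat.add x y) (fun k _ x => Nat.mul k x) (fun o _ x => fo Y d o x)
    (fun o _ x => qo Y d o x) (fun L _ x => mv Y L x) (fun L _ x => mw Y L x) p

/-! ### stages -/

/-- the table itself -/
def base (Z : Nat → Nat) (c : Nat) : Nat := Nat.mod (Z c) 0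

/-- one more factor -/
def stepF (Y : Lay) (β : Prog) (w j : Nat) (U : Nat → Nat) (c : Nat) : Nat :=
  force (Nat.add (cdeg c) (Nat.mul (Nat.succ j) w)) fun d => β Y U c d

/-- substitution of the variable with the digit at bit `f`, weight `w` and code `u`, by iteration -/
def iterS (Y : Lay) (β : Prog) (f w u : Nat) (Z : Nat → Nat) (c : Nat) : Nat :=
  force (Nat.land (Nat.shiftRight c f) 127) fun j =>
    cond (Nat.beq j 0) (Nat.mod (Z c) 0)
      (force (Nat.sub c (Nat.mul j u)) fun c' =>
        Nat.mod (Nat.rec (motive := fun _ => Nat → Nat) (base Z) (stepF Y β w) j c') 0)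

/-- the empty program -/
def zeroP : Prog := fun _ _ _ _ => 0

/-- substitution with one program for each power -/
def dirS (Y : Lay) (βs : List Prog) (f u : Nat) (Z : Nat → Nat) (c : Nat) : Nat :=
  force (Nat.land (Nat.shiftRight c f) 127) fun j =>
    cond (Nat.beq j 0) (Nat.mod (Z c) 0)
      (force (Nat.sub c (Nat.mul j u)) fun c' => force (cdeg c) fun d => nth zeroP βs j Y Z c' d)

/-- full reduction of a table -/
def redS (Y : Lay) (Z : Nat → Nat) (c : Nat) : Nat :=
  force (cdeg c) fun d => qst (Z c) (m63 Y d) (o12 Y d)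

/-! ### rows of data -/

/-- Lists of groups of columns: tag, offset in the row, width of the digits, columns.
A column is `k + 64 * r + 2 ^ 21 * L`. -/
inductive GrL : Type
  | nil : GrL
  | cons (tag off w : Nat) (cols : List Nat) (rest : GrL) : GrL

/-- lists of chunks -/
inductive ChL : Type
  | nil : ChL
  | cons (g : GrL) (rest : ChL) : ChL

/-- a multiple of a column -/
def mlt (Θ : Nat → Nat) (col d : Nat) : Nat := Nat.mul (Nat.mod d 9) (Θ col)

/-- one step of `comb` -/
def combC (Θ : Nat → Nat) (w col : Nat) (_ : List Nat) (ih : Nat → Nat) (key : Nat) : Nat :=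
  force (Nat.mod key (Nat.shiftLeft 1 w)) fun d => force (Nat.shiftRight key w) fun k =>
    cond (Nat.beq k 0) (Nat.mod (mlt Θ col d) 0)
      (cond (Nat.beq d 0) (Nat.mod (ih k) 0) (Nat.add (mlt Θ col d) (ih k)))

/-- the zero table -/
def zeroF (_ : Nat) : Nat := 0

/-- the combination of the columns with the digits of `key` -/
def comb (Θ : Nat → Nat) (w : Nat) (cols : List Nat) (key : Nat) : Nat :=
  List.rec (motive := fun _ => Nat → Nat) zeroF (combC Θ w) cols key

/-- one step of `macG` -/
def macC (Θ : Nat → Nat) (r : Nat) (_ off w : Nat) (cols : List Nat) (_ : GrL) (ih : Nat) : Nat :=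
  force (Nat.land (Nat.shiftRight r off) 255) fun key =>
    cond (Nat.beq key 0) ih (Nat.add ih (comb Θ w cols key))

/-- the combination of the columns with the digits of the row `r` -/
def macG (Θ : Nat → Nat) (r : Nat) (g : GrL) : Nat :=
  GrL.rec (motive := fun _ => Nat) 0 (macC Θ r) g

/-- the same with reductions -/
def macL (Θ : Nat → Nat) (r M : Nat) (l : ChL) : Nat :=
  ChL.rec (motive := fun _ => Nat) 0 (fun g _ ih => fold (Nat.add ih (macG Θ r g)) M) l

/-- the groups with `p tag` -/
def filtG (p : Nat → Bool) (g : GrL) : GrL → GrL :=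
  GrL.rec (motive := fun _ => GrL → GrL) (fun acc => acc)
    (fun tag off w cols _ ih acc => cond (p tag) (ih (GrL.cons tag off w cols acc)) (ih acc)) g

/-- chunks of at most `24` groups -/
def chunk (g : GrL) : Nat → GrL → ChL → ChL :=
  GrL.rec (motive := fun _ => Nat → GrL → ChL → ChL) (fun _ cur acc => ChL.cons cur acc)
    (fun tag off w cols _ ih n cur acc =>
      cond (Nat.ble 24 n) (ih 1 (GrL.cons tag off w cols GrL.nil) (ChL.cons cur acc))
        (force (Nat.succ n) fun n' => ih n' (GrL.cons tag off w cols cur) acc)) g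

/-- the data of one level -/
structure Lv where
  /-- the degrees of the generators of the next level -/
  gt : List Nat
  /-- the rows, indexed by the generator and the exponents `k4, k3, k2` -/
  bl : List (List (List (List Nat)))
  /-- the sums of the lengths (in bits) of the rows of lower degree -/
  po : List Nat
  /-- the columns in each degree -/
  cf : List GrL

/-- the rows of a generator -/
def ble (L : Lv) (e : Nat) : List (List (List Nat)) := nth [] L.bl e
/-- the rows with given `k2, k3, k4` -/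
def blob (L : Lv) (e kk : Nat) : Nat :=
  nth 0 (nth [] (nth [] (ble L e) (fld kk 2)) (fld kk 1)) (fld kk 0)
/-- offsets -/
def pof (L : Lv) (t : Nat) : Nat := nth 0 L.po t
/-- all bits of a row of degree `t` -/
def rom (L : Lv) (t : Nat) : Nat :=
  Nat.sub (Nat.shiftLeft 1 (Nat.sub (nth 0 L.po (Nat.succ t)) (pof L t))) 1
/-- the row of degree `t` in the blob that starts in degree `b` -/
def row (L : Lv) (e kk b t : Nat) : Nat :=
  Nat.land (Nat.shiftRight (blob L e kk) (Nat.sub (pof L t) (pof L b))) (rom L t)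
/-- the row with the exponents `kc` (base `128` digits `k1, k2, k3, k4`) -/
def rowK (L : Lv) (e kc t : Nat) : Nat :=
  force (Nat.shiftRight kc 7) fun kk => force (Nat.sub t (Nat.land kc 127)) fun b => row L e kk b t
/-- the columns of degree `t` -/
def colF (L : Lv) (t : Nat) : GrL := nth GrL.nil L.cf t
/-- the degree of a generator of the next level -/
def gtd (L : Lv) (k : Nat) : Nat := nth 0 L.gt k

/-- the compiled programs -/
structure Prg where
  /-- `y_3` -/
  g3 : Prog
  /-- `y_4` -/
  g4 : Prog
  /-- right unit -/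
  w4 : Prog
  /-- right unit -/
  w3 : Prog
  /-- right unit -/
  w2 : Prog
  /-- right unit -/
  w1 : List Prog
  /-- coproduct -/
  b44 : List Prog
  /-- coproduct -/
  b34 : Prog
  /-- coproduct -/
  b33 : List Prog
  /-- coproduct -/
  b24 : Prog
  /-- coproduct -/
  b23 : Prog
  /-- coproduct -/
  b22 : List Prog
  /-- coproduct -/
  b14 : Prog
  /-- coproduct -/
  b13 : Prog
  /-- coproduct -/
  b12 : Prog
  /-- coproduct -/
  b11 : List Prog

/-- the context of a check -/
structure Ctx where
  /-- layout -/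
  Y : Lay
  /-- the first matrix -/
  L0 : Lv
  /-- the second matrix -/
  L1 : Lv
  /-- the degrees of the generators of the source -/
  gs : List Nat
  /-- the group of target generators -/
  gam : Nat
  /-- programs -/
  B : Prg

/-- the columns of the first matrix that are not in the ideal -/
def colA (U : Ctx) (t : Nat) : ChL :=
  chunk (filtG (fun tag => Nat.ble tag 63) (colF U.L0 t) GrL.nil) 0 GrL.nil ChL.nil
/-- the columns of the second matrix in the group -/
def colZ (U : Ctx) (t : Nat) : GrL :=
  filtG (fun tag => Nat.beq (Nat.land tag 63) U.gam) (colF U.L1 t) GrL.nil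

/-- the position of a column -/
def cpos (Y : Lay) (g col : Nat) : Nat :=
  Nat.add (Nat.mul (Nat.add (Nat.mul (Nat.sub (Nat.div Y.T 4)
    (Nat.add (Nat.add (Nat.add (fld col 4) (Nat.mul 3 (fld col 5))) (Nat.mul 10 (fld col 6)))
      (Nat.div g 4))) Y.N) (Nat.sub (Nat.sub Y.N 1) (fld col 3))) Y.S)
    (Nat.land (Nat.shiftRight col 6) 32767)

/-- the unit vector of a column -/
def unitv (U : Ctx) (col : Nat) : Nat :=
  force (Nat.land col 63) fun k => Nat.shiftLeft 1 (Nat.mul 12 (cpos U.Y (gtd U.L1 k) col))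

/-- one row of the second matrix -/
def zstep (U : Ctx) (k kk d i ih : Nat) : Nat :=
  force (Nat.add d i) fun t => force (row U.L1 k kk d t) fun r =>
    cond (Nat.beq r 0) ih (Nat.add ih (macG (unitv U) r (colZ U t)))

/-- the table of the second matrix -/
def Z0 (U : Ctx) (k c : Nat) : Nat :=
  cond (Nat.beq (Nat.land (Nat.shiftRight c 21) 268435455) 0)
    (force (cdeg c) fun d => force (Nat.land c 2097151) fun kk =>
      cond (Nat.beq (blob U.L1 k kk) 0) 0
        (fold (Nat.rec (motive := fun _ => Nat) 0 (zstep U k kk d) (Nat.sub (Nat.succ U.Y.T) d))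
          (m63 U.Y d))) 0

/-- stage -/
def T3 (U : Ctx) (k c : Nat) : Nat := iterS U.Y U.B.g3 7 13 7318349394477184 (Z0 U k) c
/-- stage -/
def T4 (U : Ctx) (k c : Nat) : Nat := iterS U.Y U.B.g4 14 40 22517998136868864 (T3 U k) c
/-- stage -/
def E4 (U : Ctx) (k c : Nat) : Nat := iterS U.Y U.B.w4 42 40 22522396183363584 (T4 U k) c
/-- stage -/
def E3 (U : Ctx) (k c : Nat) : Nat := iterS U.Y U.B.w3 35 13 7318383754215424 (E4 U k) c
/-- stage -/
def E2 (U : Ctx) (k c : Nat) : Nat := iterS U.Y U.B.w2 28 4 2251800082120704 (E3 U k) c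
/-- stage -/
def ER (U : Ctx) (k c : Nat) : Nat := redS U.Y (E2 U k) c
/-- stage -/
def E1 (U : Ctx) (k c : Nat) : Nat := dirS U.Y U.B.w1 21 562949955518464 (ER U k) c

/-- the value on a column -/
def thC (U : Ctx) (cI col : Nat) : Nat :=
  force (Nat.land col 63) fun k =>
    force (Nat.add cI (Nat.shiftLeft (Nat.shiftRight col 21) 21)) fun c => Nat.mod (E1 U k c) 0

/-- the degree of the first three digits -/
def degI (ci : Nat) : Nat :=
  Nat.add (Nat.add (Nat.mul 4 (fld ci 0)) (Nat.mul 13 (fld ci 1))) (Nat.mul 40 (fld ci 2))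

/-- the table of the composition on the pairs of arrows -/
def YY (U : Ctx) (e c : Nat) : Nat :=
  force (Nat.land c 2097151) fun ci => force (cdeg c) fun d => force (Nat.sub d (degI ci)) fun t =>
    force (Nat.land (Nat.shiftRight c 21) 268435455) fun kc => force (rowK U.L0 e kc t) fun r =>
      cond (Nat.beq r 0) 0
        (force (Nat.add ci (Nat.shiftLeft d 49)) fun cI => macL (thC U cI) r (m63 U.Y d) (colA U t))

/-- stage -/
def S44 (U : Ctx) (e c : Nat) : Nat := dirS U.Y U.B.b44 42 22522396183363584 (YY U e) c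
/-- stage -/
def S34 (U : Ctx) (e c : Nat) : Nat := iterS U.Y U.B.b34 42 40 22522396183363584 (S44 U e) c
/-- stage -/
def S33 (U : Ctx) (e c : Nat) : Nat := dirS U.Y U.B.b33 35 7318383754215424 (S34 U e) c
/-- stage -/
def S24 (U : Ctx) (e c : Nat) : Nat := iterS U.Y U.B.b24 42 40 22522396183363584 (S33 U e) c
/-- stage -/
def S23 (U : Ctx) (e c : Nat) : Nat := iterS U.Y U.B.b23 35 13 7318383754215424 (S24 U e) c
/-- stage -/
def S22 (U : Ctx) (e c : Nat) : Nat := dirS U.Y U.B.b22 28 2251800082120704 (S23 U e) c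
/-- stage -/
def S14 (U : Ctx) (e c : Nat) : Nat := iterS U.Y U.B.b14 42 40 22522396183363584 (S22 U e) c
/-- stage -/
def S13 (U : Ctx) (e c : Nat) : Nat := iterS U.Y U.B.b13 35 13 7318383754215424 (S14 U e) c
/-- stage -/
def S12 (U : Ctx) (e c : Nat) : Nat := iterS U.Y U.B.b12 28 4 2251800082120704 (S13 U e) c
/-- stage -/
def S11 (U : Ctx) (e c : Nat) : Nat := dirS U.Y U.B.b11 21 562949955518464 (S12 U e) c

/-- the fields are multiples of `9` -/
def nine (y M : Nat) : Bool := Nat.beq y (Nat.mul 9 (Nat.land (Nat.shiftRight y 3) M))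
/-- multiply the fields in `H` by `3` -/
def trip (x H : Nat) : Nat := Nat.add x (Nat.mul 2 (Nat.land x H))
/-- the component of degree `d` vanishes -/
def fin (Y : Lay) (x d : Nat) : Bool :=
  nine (qst (trip (Nat.land x (mD Y d)) (msk Y Y.a)) (m63 Y d) (o12 Y d)) (m63 Y d)

/-- the check of one row -/
def chkR (U : Ctx) (e c0 k1 : Nat) : Bool :=
  force (Nat.add c0 (Nat.mul k1 562949955518464)) fun c => force (cdeg c) fun d =>
    fin U.Y (S11 U e c) d

/-- the check of the rows with given `k2` -/
def chk2 (U : Ctx) (e c0 k2 : Nat) : Bool :=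
  force (Nat.add c0 (Nat.mul k2 2251800082120704)) fun c =>
    allN (chkR U e c) (Nat.sub (Nat.succ U.Y.T) (cdeg c))

/-- the check of the rows with given `e, k3, k4`; the item is `e + 64 * (k3 + 8 * k4)` -/
def chkI (U : Ctx) (it : Nat) : Bool :=
  force (Nat.land it 63) fun e =>
    force (Nat.add (Nat.add (Nat.shiftLeft (nth 0 U.gs e) 49)
        (Nat.mul (Nat.land (Nat.shiftRight it 6) 7) 7318383754215424))
        (Nat.mul (Nat.shiftRight it 9) 22522396183363584)) fun c =>
      cond (Nat.ble (cdeg c) U.Y.T)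
        (allN (chk2 U e c) (Nat.succ (Nat.div (Nat.sub U.Y.T (cdeg c)) 4))) true

/-- the check of a unit -/
def chkU (U : Ctx) (its : List Nat) : Bool := allL (chkI U) its

end Vale.Agent.P236X
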