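import Vale.Agent.P236X.Rep
import Vale.Agent.P236N.Bar

/-!
# P236 / X : combinations of columns
-/

namespace Vale.Agent.P236X

open Vale.Agent.P236N

/-- all groups have a property -/
def AllG (P : ℕ → ℕ → List ℕ → Prop) : GrL → Prop
  | .nil => True
  | .cons tag _ w cols g => P tag w cols ∧ AllG P g

variable {P Q : ℕ → ℕ → List ℕ → Prop} {g acc : GrL}

theorem AllG.mono (h : AllG P g) (H : ∀ t w l, P t w l → Q t w l) : AllG Q g := by
  induction g with
  | nil => trivial
  | cons t off w l g ih => exact ⟨H _ _ _ h.1, ih h.2⟩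

theorem AllG.and (h : AllG P g) (h' : AllG Q g) : AllG (fun t w l => P t w l ∧ Q t w l) g := by
  induction g with
  | nil => trivial
  | cons t off w l g ih => exact ⟨⟨h.1, h'.1⟩, ih h.2 h'.2⟩

theorem allG_of_all {f : ℕ → ℕ → List ℕ → Bool} (h : g.all f = true) :
    AllG (fun t w l => f t w l = true) g := by
  induction g with
  | nil => trivial
  | cons t off w l g ih =>
    rw [GrL.all, Bool.and_eq_true] at h
    exact ⟨h.1, ih h.2⟩

theorem AllG.allC {R : ℕ → Prop} (h : AllG P g) (H : ∀ t w l, P t w l → ∀ c ∈ l, R c) :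
    AllC R g := by
  induction g with
  | nil => trivial
  | cons t off w l g ih => exact ⟨H _ _ _ h.1, ih h.2⟩

/-! ### filters -/

theorem filtG_cons (q : ℕ → Bool) (t off w : ℕ) (l : List ℕ) (g acc : GrL) :
    filtG q (.cons t off w l g) acc =
      cond (q t) (filtG q g (.cons t off w l acc)) (filtG q g acc) := rfl

theorem AllG.filt {q : ℕ → Bool} (h : AllG (fun t w l => q t = true → P t w l) g)
    (h' : AllG P acc) : AllG P (filtG q g acc) := by
  induction g generalizing acc with
  | nil => exact h'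
  | cons t off w l g ih =>
    rw [filtG_cons]
    cases c : q t
    exacts [ih h.2 h', ih h.2 ⟨h.1 c, h'⟩]

theorem len_filt (q : ℕ → Bool) (g acc : GrL) : (filtG q g acc).len ≤ g.len + acc.len := by
  induction g generalizing acc with
  | nil => exact (zero_add _).ge
  | cons t off w l g ih =>
    rw [filtG_cons, GrL.len]
    cases q t
    · exact (ih _).trans (by omega)
    · exact (ih _).trans (by rw [GrL.len]; omega)

section M

variable {M : Type} [AddCommMonoid M] {φ : ℕ → M}

theorem combV_eq_zero {l : List ℕ} (h : ∀ c ∈ l, φ c = 0) (w key : ℕ) : combV φ w l key = 0 :=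
  AddSubmonoid.mem_bot.1 (combV_mem h w key)

theorem macV_eq_zero (h : AllC (fun c => φ c = 0) g) (r : ℕ) : macV φ r g = 0 :=
  AddSubmonoid.mem_bot.1 (macV_mem (U := (⊥ : AddSubmonoid M)) h r)

theorem macV_filt {q : ℕ → Bool} (h : AllG (fun t _ l => q t = false → ∀ c ∈ l, φ c = 0) g)
    (r : ℕ) (acc : GrL) : macV φ r (filtG q g acc) = macV φ r g + macV φ r acc := by
  induction g generalizing acc with
  | nil => exact (zero_add _).symm
  | cons t off w l g ih =>
    rw [filtG_cons, macV]
    cases c : q t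
    · rw [cond_false, ih h.2, combV_eq_zero (h.1 c), add_zero]
    · rw [cond_true, ih h.2, macV]
      abel

theorem sum_macV (s : Finset ℕ) (φ : ℕ → ℕ → M) (r : ℕ) (g : GrL) :
    ∑ k ∈ s, macV (φ k) r g = macV (fun c => ∑ k ∈ s, φ k c) r g := by
  have h := map_macV (∑ k ∈ s, Pi.evalAddMonoidHom (fun _ => M) k) (fun c k => φ k c) r g
  simp only [AddMonoidHom.finsetSum_apply] at h
  exact (Finset.sum_congr rfl fun k _ =>
    (map_macV (Pi.evalAddMonoidHom (fun _ => M) k) (fun c k => φ k c) r g).symm).trans h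

end M

/-! ### bounds -/

/-- the size of a group -/
def SZ (_ w : ℕ) (l : List ℕ) : Prop := l.length * min (2 ^ w - 1) 8 ≤ 16

variable {f : ℕ → ℕ} {V : ℕ}

theorem combV_le {l : List ℕ} (h : ∀ c ∈ l, f c ≤ V) (w key : ℕ) :
    combV f w l key ≤ l.length * min (2 ^ w - 1) 8 * V := by
  induction l generalizing key with
  | nil => exact Nat.zero_le _
  | cons c l ih =>
    have h1 : key % 2 ^ w % 9 ≤ min (2 ^ w - 1) 8 := by
      have := Nat.mod_lt key (Nat.two_pow_pos w)
      omega
    rw [combV, List.length_cons, add_mul, add_mul, one_mul, add_comm]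
    exact add_le_add (ih (fun c hc => h c (List.mem_cons_of_mem _ hc)) _)
      (Nat.mul_le_mul h1 (h c List.mem_cons_self))

theorem macV_le (hs : AllG SZ g) (h : AllC (fun c => f c ≤ V) g) (r : ℕ) :
    macV f r g ≤ g.len * (16 * V) := by
  induction g with
  | nil => exact Nat.zero_le _
  | cons t off w l g ih =>
    rw [macV, GrL.len, add_mul, one_mul]
    exact add_le_add (ih hs.2 h.2) ((combV_le h.1 _ _).trans (Nat.mul_le_mul_right _ hs.1))

theorem dg_combV {w : ℕ} {l : List ℕ} {key : ℕ}
    (h : ∀ p, combV (fun c => dg (f c) p) w l key < 4096) (p : ℕ) :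
    dg (combV f w l key) p = combV (fun c => dg (f c) p) w l key := by
  induction l generalizing key p with
  | nil => exact dg_zero p
  | cons c l ih =>
    have h1 := dg_mul fun p => (Nat.le_add_right _ _).trans_lt (h p)
    have h2 := ih fun p => (Nat.le_add_left _ _).trans_lt (h p)
    rw [combV, combV, smul_eq_mul, dg_add fun p => by rw [h1, h2]; exact h p, h1, h2]
    rfl

theorem dg_macV {r : ℕ} (h : ∀ p, macV (fun c => dg (f c) p) r g < 4096) (p : ℕ) :
    dg (macV f r g) p = macV (fun c => dg (f c) p) r g := by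
  induction g generalizing p with
  | nil => exact dg_zero p
  | cons t off w l g ih =>
    have h1 := ih fun p => (Nat.le_add_right _ _).trans_lt (h p)
    have h2 := dg_combV fun p => (Nat.le_add_left _ _).trans_lt (h p)
    rw [macV, macV, dg_add fun p => by rw [h1, h2]; exact h p, h1, h2]

/-! ### representation -/

variable {Y : Lay} {d : ℕ} {Θ : ℕ → ℕ} {F : ℕ → ℕ → ℕ → Ab Y.a Y.N}

theorem dg_macG (hs : AllG SZ g) (h : AllC (fun c => ∀ p, dg (Θ c) p ≤ V) g)
    (hV : g.len * (16 * V) < 4096) (r p : ℕ) :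
    dg (macG Θ r g) p = macV (fun c => dg (Θ c) p) r g := by
  rw [macG_eq, dg_macV fun p => (macV_le hs (h.mono fun c hc => hc p) r).trans_lt hV]

theorem Rep.macG (hY : layOK Y = true) (hs : AllG SZ g) (h : AllC (fun c => Rep Y (Θ c) d V (F c)) g)
    (hV : g.len * (16 * V) < 4096) (r : ℕ) :
    Rep Y (macG Θ r g) d (g.len * (16 * V)) fun i k => macV (fun c => F c i k) r g := by
  have e := dg_macG hs (h.mono fun c hc => hc.bd) hV r
  refine ⟨fun p => e p ▸ macV_le hs (h.mono fun c hc => hc.bd p) r, fun p a => by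
    rw [e, macV_eq_zero (h.mono fun c hc => hc.out p a)], fun p a b c => ?_⟩
  rw [e]
  refine (map_macV ((AddMonoidHom.mulLeft (mu Y.a Y.N (Y.pj p))).comp (Nat.castAddMonoidHom K9))
    _ r g).trans ((macV_congr (h.mono fun c' hc => hc.eq p a b c) r).trans ?_)
  split_ifs
  · exact (map_macV (cfH (lay_a hY) (Y.pL p)) _ r g).symm
  · exact macV_eq_zero (h.mono fun _ _ => rfl) r

theorem chunk_cons (t off w : ℕ) (l : List ℕ) (g : GrL) (n : ℕ) (cur : GrL) (acc : ChL) :
    chunk (.cons t off w l g) n cur acc =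
      cond (Nat.ble 24 n) (chunk g 1 (.cons t off w l .nil) (.cons cur acc))
        (chunk g (n + 1) (.cons t off w l cur) acc) := rfl

theorem Rep.chunk (hY : layOK Y = true) (r : ℕ)
    (h : AllG (fun t w l => SZ t w l ∧ ∀ c ∈ l, Rep Y (Θ c) d 10 (F c)) g) {cur : GrL} {n : ℕ}
    {acc : ChL} {G : ℕ → ℕ → Ab Y.a Y.N}
    (hc : AllG (fun t w l => SZ t w l ∧ ∀ c ∈ l, Rep Y (Θ c) d 10 (F c)) cur) (hn : cur.len ≤ n)
    (hn' : n ≤ 24) (hG : Rep Y (macL Θ r (m63 Y d) acc) d 126 G) :
    Rep Y (macL Θ r (m63 Y d) (chunk g n cur acc)) d 126 fun i k =>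
      G i k + macV (fun c => F c i k) r cur + macV (fun c => F c i k) r g := by
  have key : ∀ {cur : GrL} {acc : ChL} {G : ℕ → ℕ → Ab Y.a Y.N},
      AllG (fun t w l => SZ t w l ∧ ∀ c ∈ l, Rep Y (Θ c) d 10 (F c)) cur → cur.len ≤ 24 →
      Rep Y (macL Θ r (m63 Y d) acc) d 126 G → Rep Y (macL Θ r (m63 Y d) (.cons cur acc)) d 126
        fun i k => G i k + macV (fun c => F c i k) r cur := fun hc hn hG =>
    (hG.add hY (Rep.macG hY (hc.mono fun _ _ _ a => a.1) (hc.allC fun _ _ _ a => a.2) (by omega) r)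
      (by omega)).fold hY
  induction g generalizing cur n acc G with
  | nil => exact (key hc (hn.trans hn') hG).congr fun i k _ => (add_zero _).symm
  | cons t off w l g ih =>
    rw [chunk_cons]
    cases c : Nat.ble 24 n
    · refine (ih h.2 (cur := .cons t off w l cur) ⟨h.1, hc⟩ (Nat.succ_le_succ hn)
        (Nat.lt_of_not_le fun a => by rw [Nat.ble_eq_true_of_le a] at c; cases c) hG).congr
        fun i k _ => ?_
      rw [macV, macV]
      abel
    · refine (ih h.2 (cur := .cons t off w l .nil) (n := 1) ⟨h.1, trivial⟩ le_rfl (by omega)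
        (key hc (hn.trans hn') hG)).congr fun i k _ => ?_
      rw [macV, macV, macV]
      abel

/-- **The combination with reductions.** -/
theorem Rep.macL (hY : layOK Y = true) (r : ℕ)
    (h : AllG (fun t w l => SZ t w l ∧ ∀ c ∈ l, Rep Y (Θ c) d 10 (F c)) g) :
    Rep Y (macL Θ r (m63 Y d) (P236X.chunk g 0 .nil .nil)) d 126 fun i k =>
      macV (fun c => F c i k) r g :=
  (Rep.chunk hY r h (cur := .nil) (n := 0) (acc := .nil) trivial le_rfl (by omega)
    (Rep.zero hY d 126)).congr fun i k _ => by rw [macV, add_zero, zero_add]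

/-- addition of vectors with disjoint supports -/
theorem Rep.disj (hY : layOK Y = true) {x y : ℕ} {G G' : ℕ → ℕ → Ab Y.a Y.N} (h : Rep Y x d V G)
    (h' : Rep Y y d V G') (hd : ∀ p, dg x p = 0 ∨ dg y p = 0) :
    (∀ p, dg (x + y) p = dg x p + dg y p) ∧ Rep Y (x + y) d V fun i k => G i k + G' i k := by
  have e := dg_add (x := x) (y := y) fun p => by
    have := dg_lt x p
    have := dg_lt y p
    have := hd p
    omega
  refine ⟨e, fun p => ?_, fun p a => by rw [e, h.out p a, h'.out p a], fun p a b c => ?_⟩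
  · have := h.bd p
    have := h'.bd p
    have := hd p
    rw [e]
    omega
  · rw [e, Nat.cast_add, mul_add, h.eq p a b c, h'.eq p a b c, cf_add (lay_a hY)]
    split_ifs <;> simp

end Vale.Agent.P236X
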