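import Vale.Agent.P236X.Bxn

/-!
# P236 / X : compiled programs with two keys (Q10)
-/

set_option linter.unusedVariables false

noncomputable section

namespace Vale.Agent.P236X

/-- keys -/
def w4_10kI (c : Nat) :
    Bx ((Nat → Nat → Nat → Nat → Nat → Nat → Nat → Nat) → Nat) :=
  bx7 Nat c (nat_lit 2251799813685249) (nat_lit 6755399441055747) (nat_lit 7318349394477184)
  (nat_lit 13510798882111494) (nat_lit 20266198323167241) (nat_lit 21955048183431552) (nat_lit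
  22517998136868864)

/-- compiled program -/
def w4_10b (Y : Lay) (Z : Tb) (d a x : Nat)
    (a0 a1 a2 a3 a4 a5 a6 : Nat) : Nat :=
  (fold (Nat.add (Nat.add (Nat.add (Nat.add (Nat.add (Nat.add (Nat.add (fold (Nat.add (Nat.add
  (Nat.add (Nat.add (Nat.add (Nat.add (Nat.add (fold (Nat.add (Nat.add (Nat.add (Nat.add (fold
  (Nat.add (Nat.add (Nat.add (mv Y (nat_lit 16393) (Nat.add (Nat.mul (nat_lit 2) (Nat.add (mw Y
  (nat_lit 128) (Z a1 x)) (mw Y (nat_lit 512) (Z a x)))) (mw Y (nat_lit 384) (Z a x)))) (mv Y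
  (nat_lit 32768) (Nat.add (Nat.mul (nat_lit 3) (mw Y (nat_lit 384) (Z a x))) (Nat.mul (nat_lit 6)
  (mw Y (nat_lit 128) (Z a x)))))) (Nat.mul (nat_lit 3) (Nat.add (Nat.add (mw Y (nat_lit 640) (Z a
  x)) (Z a5 x)) (Z a6 x)))) (mv Y (nat_lit 6) (Nat.add (Nat.add (Nat.add (mw Y (nat_lit 128) (Z a3
  x)) (mw Y (nat_lit 384) (Z a1 x))) (Z a3 x)) (Nat.mul (nat_lit 2) (Nat.add (mw Y (nat_lit 512) (Z
  a1 x)) (Nat.add (mw Y (nat_lit 640) (Z a1 x)) (mw Y (nat_lit 384) (Z a x)))))))) (mo Y d (nat_lit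
  0))) (mv Y (nat_lit 49152) (Nat.mul (nat_lit 8) (Z a x)))) (mv Y (nat_lit 16385) (Nat.add (fold
  (Nat.add (Nat.add (Nat.mul (nat_lit 2) (mw Y (nat_lit 512) (Z a x))) (Nat.mul (nat_lit 6) (Nat.add
  (mw Y (nat_lit 384) (Z a2 x)) (mw Y (nat_lit 128) (Z a1 x))))) (Nat.mul (nat_lit 8) (Nat.add (mw Y
  (nat_lit 768) (Z a x)) (mw Y (nat_lit 256) (Z a x))))) (mo Y d (nat_lit 14))) (Nat.mul (nat_lit 3)
  (Nat.add (mw Y (nat_lit 384) (Z a1 x)) (mw Y (nat_lit 128) (Z a2 x))))))) (mv Y (nat_lit 16388)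
  (Nat.add (Nat.add (mw Y (nat_lit 512) (Z a x)) (mw Y (nat_lit 384) (Z a x))) (Nat.mul (nat_lit 2)
  (Nat.add (Nat.add (mw Y (nat_lit 256) (Z a1 x)) (mw Y (nat_lit 256) (Z a x))) (mw Y (nat_lit 128)
  (Z a x))))))) (mv Y (nat_lit 4) (Nat.add (Nat.add (Nat.add (Nat.mul (nat_lit 2) (mw Y (nat_lit
  384) (Z a1 x))) (Nat.add (mw Y (nat_lit 896) (Z a x)) (Nat.add (mw Y (nat_lit 640) (Z a x)) (mw Y
  (nat_lit 512) (Z a x))))) (Nat.add (mw Y (nat_lit 640) (Z a1 x)) (mw Y (nat_lit 384) (Z a x))))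
  (mw Y (nat_lit 256) (Z a x))))) (mo Y d (nat_lit 0))) (fold (Nat.add (Nat.add (Nat.add (fold
  (Nat.add (Nat.add (Nat.mul (nat_lit 6) (mw Y (nat_lit 896) (Z a x))) (mv Y (nat_lit 8) (Nat.add
  (Nat.add (mw Y (nat_lit 128) (Z a3 x)) (Nat.add (mw Y (nat_lit 640) (Z a x)) (mw Y (nat_lit 512)
  (Z a x)))) (Nat.mul (nat_lit 2) (Nat.add (Nat.add (mw Y (nat_lit 384) (Z a1 x)) (Nat.add (mw Y
  (nat_lit 512) (Z a1 x)) (mw Y (nat_lit 256) (Z a1 x)))) (Nat.add (mw Y (nat_lit 128) (Z a1 x)) (Z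
  a1 x))))))) (mv Y (nat_lit 7) (Nat.add (Nat.add (Nat.add (mw Y (nat_lit 896) (Z a x)) (Nat.add (mw
  Y (nat_lit 512) (Z a1 x)) (mw Y (nat_lit 384) (Z a1 x)))) (Nat.add (mw Y (nat_lit 1024) (Z a x))
  (mw Y (nat_lit 512) (Z a x)))) (Nat.mul (nat_lit 2) (Nat.add (Nat.add (Nat.add (mw Y (nat_lit 256)
  (Z a3 x)) (mw Y (nat_lit 768) (Z a x))) (mw Y (nat_lit 384) (Z a x))) (mw Y (nat_lit 128) (Z a
  x))))))) (mo Y d (nat_lit 0))) (mv Y (nat_lit 16389) (Nat.add (Nat.mul (nat_lit 2) (Nat.add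
  (Nat.add (mw Y (nat_lit 640) (Z a x)) (mw Y (nat_lit 512) (Z a x))) (Nat.add (mw Y (nat_lit 128)
  (Z a1 x)) (Z a1 x)))) (mw Y (nat_lit 384) (Z a x))))) (mv Y (nat_lit 16391) (Nat.mul (nat_lit 2)
  (Nat.add (Nat.add (Nat.add (mw Y (nat_lit 128) (Z a1 x)) (mw Y (nat_lit 384) (Z a x))) (Nat.add
  (mw Y (nat_lit 512) (Z a x)) (mw Y (nat_lit 256) (Z a x)))) (Nat.add (mw Y (nat_lit 128) (Z a x))
  (Z a x)))))) (mv Y (nat_lit 3) (Nat.add (Nat.add (Nat.add (mw Y (nat_lit 384) (Z a3 x)) (Nat.mul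
  (nat_lit 2) (Nat.add (Nat.add (mw Y (nat_lit 128) (Z a3 x)) (Z a4 x)) (mw Y (nat_lit 896) (Z a
  x))))) (mw Y (nat_lit 768) (Z a x))) (Nat.add (mw Y (nat_lit 1024) (Z a x)) (mw Y (nat_lit 512) (Z
  a x)))))) (mo Y d (nat_lit 0)))) (fold (Nat.add (Nat.add (fold (Nat.add (mv Y (nat_lit 32769)
  (Nat.add (Nat.add (Nat.add (Nat.mul (nat_lit 6) (Z a2 x)) (Nat.mul (nat_lit 3) (Z a1 x))) (mw Y
  (nat_lit 384) (Z a x))) (Nat.mul (nat_lit 8) (mw Y (nat_lit 128) (Z a x))))) (mv Y (nat_lit 9)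
  (Nat.add (Nat.add (Nat.add (mw Y (nat_lit 768) (Z a x)) (Nat.add (mw Y (nat_lit 512) (Z a1 x)) (mw
  Y (nat_lit 256) (Z a1 x)))) (Nat.mul (nat_lit 2) (Nat.add (Nat.add (Nat.add (mw Y (nat_lit 896) (Z
  a x)) (Nat.add (mw Y (nat_lit 640) (Z a x)) (mw Y (nat_lit 512) (Z a x)))) (Z a3 x)) (Z a0 x))))
  (Z a x)))) (mo Y d (nat_lit 0))) (mv Y (nat_lit 5) (Nat.add (Nat.add (Nat.add (mw Y (nat_lit 256)
  (Z a3 x)) (mw Y (nat_lit 1024) (Z a x))) (Nat.add (mw Y (nat_lit 896) (Z a x)) (Nat.add (mw Y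
  (nat_lit 512) (Z a1 x)) (mw Y (nat_lit 384) (Z a1 x))))) (Nat.mul (nat_lit 2) (Nat.add (Nat.add
  (Nat.add (mw Y (nat_lit 768) (Z a x)) (mw Y (nat_lit 256) (Z a1 x))) (Nat.add (mw Y (nat_lit 640)
  (Z a x)) (mw Y (nat_lit 512) (Z a x)))) (mw Y (nat_lit 128) (Z a1 x))))))) (Nat.mul (nat_lit 8)
  (Nat.add (mw Y (nat_lit 1152) (Z a0 x)) (mw Y (nat_lit 384) (Z a x))))) (mo Y d (nat_lit 0))))
  (fold (Nat.add (mv Y (nat_lit 1) (Nat.add (Nat.add (Nat.add (fold (Nat.add (Nat.mul (nat_lit 8)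
  (mw Y (nat_lit 896) (Z a x))) (Nat.mul (nat_lit 6) (Nat.add (Nat.add (Nat.add (mw Y (nat_lit 768)
  (Z a2 x)) (mw Y (nat_lit 1152) (Z a x))) (mw Y (nat_lit 512) (Z a2 x))) (mw Y (nat_lit 256) (Z a2
  x))))) (mo Y d (nat_lit 1))) (Z a4 x)) (Nat.add (mw Y (nat_lit 640) (Z a x)) (Z a5 x))) (Nat.mul
  (nat_lit 3) (Nat.add (mw Y (nat_lit 768) (Z a1 x)) (Nat.add (mw Y (nat_lit 512) (Z a1 x)) (mw Y
  (nat_lit 256) (Z a1 x))))))) (mv Y (nat_lit 16384) (Nat.add (Nat.mul (nat_lit 6) (Nat.add (mw Y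
  (nat_lit 768) (Z a x)) (Nat.add (mw Y (nat_lit 512) (Z a x)) (mw Y (nat_lit 256) (Z a x))))) (Z a
  x)))) (mo Y d (nat_lit 0)))) (mv Y (nat_lit 32770) (Nat.mul (nat_lit 2) (Z a1 x)))) (mv Y (nat_lit
  32773) (Nat.mul (nat_lit 2) (mw Y (nat_lit 256) (Z a x))))) (mv Y (nat_lit 32775) (Nat.mul
  (nat_lit 2) (Z a x)))) (Nat.add (Nat.add (Nat.add (Nat.add (Nat.add (mv Y (nat_lit 16386) (Nat.add
  (Nat.mul (nat_lit 2) (mw Y (nat_lit 384) (Z a1 x))) (mw Y (nat_lit 128) (Z a1 x)))) (mv Y (nat_lit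
  16390) (Nat.add (mw Y (nat_lit 256) (Z a1 x)) (Nat.add (mw Y (nat_lit 512) (Z a x)) (mw Y (nat_lit
  384) (Z a x)))))) (mv Y (nat_lit 32772) (Nat.add (mw Y (nat_lit 128) (Z a x)) (Z a x)))) (mv Y
  (nat_lit 16392) (Nat.add (Nat.add (mw Y (nat_lit 512) (Z a x)) (mw Y (nat_lit 256) (Z a x))) (Z a1
  x)))) (mv Y (nat_lit 16387) (Nat.add (mw Y (nat_lit 640) (Z a x)) (Nat.mul (nat_lit 2) (Nat.add
  (mw Y (nat_lit 384) (Z a x)) (Z a3 x)))))) (mv Y (nat_lit 2) (Nat.mul (nat_lit 2) (Nat.add (mw Y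
  (nat_lit 768) (Z a1 x)) (Nat.add (mw Y (nat_lit 512) (Z a1 x)) (mw Y (nat_lit 256) (Z a1 x))))))))
  (mo Y d (nat_lit 0))) (mv Y (nat_lit 2097152) (Z a x))) (mw Y (nat_lit 128) (Z a4 x))) (mv Y
  (nat_lit 32776) (mw Y (nat_lit 128) (Z a x)))) (mv Y (nat_lit 32771) (mw Y (nat_lit 256) (Z a
  x)))) (mv Y (nat_lit 32774) (mw Y (nat_lit 128) (Z a x)))) (mw Y (nat_lit 1152) (Z a x))) (mv Y
  (nat_lit 32777) (Z a x))) (mo Y d (nat_lit 0)))

/-- compiled program -/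
def w4_10q : Prog2 := fun Y Z d a x => (w4_10kI a).1 (w4_10b Y Z d a x)

/-- keys -/
def b14_10kX (c : Nat) :
    Bx ((Nat → Nat → Nat → Nat → Nat → Nat → Nat → Nat → Nat → Nat → Nat → Nat → Nat → Nat → Nat →
    Nat → Nat → Nat → Nat → Nat → Nat → Nat → Nat → Nat → Nat → Nat → Nat → Nat → Nat → Nat → Nat →
    Nat → Nat → Nat → Nat → Nat → Nat → Nat → Nat → Nat → Nat → Nat → Nat → Nat → Nat → Nat → Nat →
    Nat → Nat → Nat → Nat → Nat → Nat → Nat → Nat → Nat → Nat → Nat → Nat → Nat → Nat → Nat → Nat →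
    Nat → Nat → Nat → Nat → Nat → Nat → Nat → Nat → Nat → Nat → Nat → Nat → Nat → Nat → Nat → Nat →
    Nat → Nat → Nat → Nat → Nat → Nat → Nat → Nat → Nat → Nat → Nat → Nat → Nat → Nat → Nat → Nat →
    Nat → Nat → Nat → Nat → Nat → Nat → Nat → Nat → Nat → Nat → Nat → Nat → Nat → Nat → Nat → Nat →
    Nat → Nat → Nat → Nat → Nat → Nat → Nat → Nat → Nat → Nat → Nat → Nat → Nat → Nat → Nat → Nat →
    Nat → Nat → Nat → Nat → Nat → Nat → Nat → Nat → Nat → Nat → Nat → Nat → Nat → Nat → Nat → Nat →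
    Nat → Nat → Nat → Nat → Nat → Nat → Nat → Nat → Nat → Nat → Nat → Nat → Nat → Nat → Nat → Nat →
    Nat → Nat → Nat → Nat → Nat → Nat → Nat → Nat → Nat → Nat → Nat → Nat → Nat → Nat → Nat → Nat →
    Nat → Nat → Nat → Nat → Nat → Nat → Nat → Nat → Nat → Nat → Nat → Nat → Nat → Nat → Nat → Nat →
    Nat → Nat) → Nat) :=
  bx192 Nat c (nat_lit 562949955518464) (nat_lit 1125899911036928) (nat_lit 1688849866555392)
  (nat_lit 2251799822073856) (nat_lit 2814749777592320) (nat_lit 3377699733110784) (nat_lit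
  3940649688629248) (nat_lit 4503599644147712) (nat_lit 5066549599666176) (nat_lit 5629499555184640)
  (nat_lit 5629499815231488) (nat_lit 6192449510703104) (nat_lit 6755399466221568) (nat_lit
  6755399726268416) (nat_lit 7318349421740032) (nat_lit 7318349681786880) (nat_lit 7318349941833728)
  (nat_lit 7881299377258496) (nat_lit 7881299637305344) (nat_lit 7881299897352192) (nat_lit
  7881300157399040) (nat_lit 8444249332776960) (nat_lit 8444249592823808) (nat_lit 8444249852870656)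
  (nat_lit 8444250112917504) (nat_lit 8444283665252352) (nat_lit 9007199288295424) (nat_lit
  9007199548342272) (nat_lit 9007199808389120) (nat_lit 9007200068435968) (nat_lit 9007233620770816)
  (nat_lit 9570149243813888) (nat_lit 9570149503860736) (nat_lit 9570149763907584) (nat_lit
  9570150023954432) (nat_lit 9570183576289280) (nat_lit 10133099199332352) (nat_lit
  10133099459379200) (nat_lit 10133099719426048) (nat_lit 10133099979472896) (nat_lit
  10133133531807744) (nat_lit 10696049154850816) (nat_lit 10696049414897664) (nat_lit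
  10696049674944512) (nat_lit 10696049934991360) (nat_lit 10696050195038208) (nat_lit
  10696083487326208) (nat_lit 11258999110369280) (nat_lit 11258999370416128) (nat_lit
  11258999630462976) (nat_lit 11258999890509824) (nat_lit 11259033442844672) (nat_lit
  11259033702891520) (nat_lit 11821949065887744) (nat_lit 11821949325934592) (nat_lit
  11821949585981440) (nat_lit 11821949846028288) (nat_lit 11821950106075136) (nat_lit
  11821983398363136) (nat_lit 12384899021406208) (nat_lit 12384899281453056) (nat_lit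
  12384899541499904) (nat_lit 12384899801546752) (nat_lit 12384900061593600) (nat_lit
  12384900321640448) (nat_lit 12384933353881600) (nat_lit 12384933613928448) (nat_lit
  12947848976924672) (nat_lit 12947849236971520) (nat_lit 12947849497018368) (nat_lit
  12947849757065216) (nat_lit 12947850017112064) (nat_lit 12947850277158912) (nat_lit
  12947883309400064) (nat_lit 12947883569446912) (nat_lit 12947883829493760) (nat_lit
  13510798932443136) (nat_lit 13510799192489984) (nat_lit 13510799452536832) (nat_lit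
  13510799712583680) (nat_lit 13510799972630528) (nat_lit 13510800232677376) (nat_lit
  13510833264918528) (nat_lit 13510833524965376) (nat_lit 13510833785012224) (nat_lit
  14073748887961600) (nat_lit 14073749148008448) (nat_lit 14073749408055296) (nat_lit
  14073749668102144) (nat_lit 14073749928148992) (nat_lit 14073750188195840) (nat_lit
  14073750448242688) (nat_lit 14073783220436992) (nat_lit 14073783480483840) (nat_lit
  14073783740530688) (nat_lit 14636698843480064) (nat_lit 14636699103526912) (nat_lit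
  14636699363573760) (nat_lit 14636699623620608) (nat_lit 14636699883667456) (nat_lit
  14636700143714304) (nat_lit 14636700403761152) (nat_lit 14636733175955456) (nat_lit
  14636733436002304) (nat_lit 14636733696049152) (nat_lit 14636733956096000) (nat_lit
  15199649059045376) (nat_lit 15199649319092224) (nat_lit 15199649579139072) (nat_lit
  15199649839185920) (nat_lit 15199650099232768) (nat_lit 15199650359279616) (nat_lit
  15199683131473920) (nat_lit 15199683391520768) (nat_lit 15199683651567616) (nat_lit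
  15199683911614464) (nat_lit 15199717463949312) (nat_lit 15762599014563840) (nat_lit
  15762599274610688) (nat_lit 15762599534657536) (nat_lit 15762599794704384) (nat_lit
  15762600054751232) (nat_lit 15762600314798080) (nat_lit 15762633086992384) (nat_lit
  15762633347039232) (nat_lit 15762633607086080) (nat_lit 15762633867132928) (nat_lit
  15762667419467776) (nat_lit 16325549230129152) (nat_lit 16325549490176000) (nat_lit
  16325549750222848) (nat_lit 16325550010269696) (nat_lit 16325550270316544) (nat_lit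
  16325583042510848) (nat_lit 16325583302557696) (nat_lit 16325583562604544) (nat_lit
  16325583822651392) (nat_lit 16325617374986240) (nat_lit 16888499445694464) (nat_lit
  16888499705741312) (nat_lit 16888499965788160) (nat_lit 16888500225835008) (nat_lit
  16888500485881856) (nat_lit 16888533258076160) (nat_lit 16888533518123008) (nat_lit
  16888533778169856) (nat_lit 16888567330504704) (nat_lit 17451449661259776) (nat_lit
  17451449921306624) (nat_lit 17451450181353472) (nat_lit 17451450441400320) (nat_lit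
  17451483213594624) (nat_lit 17451483473641472) (nat_lit 17451483733688320) (nat_lit
  17451483993735168) (nat_lit 17451517286023168) (nat_lit 18014399876825088) (nat_lit
  18014400136871936) (nat_lit 18014400396918784) (nat_lit 18014433429159936) (nat_lit
  18014433689206784) (nat_lit 18014433949253632) (nat_lit 18014467241541632) (nat_lit
  18014467501588480) (nat_lit 18577350092390400) (nat_lit 18577350352437248) (nat_lit
  18577350612484096) (nat_lit 18577383384678400) (nat_lit 18577383644725248) (nat_lit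
  18577383904772096) (nat_lit 18577417197060096) (nat_lit 18577417457106944) (nat_lit
  19140300307955712) (nat_lit 19140300568002560) (nat_lit 19140333600243712) (nat_lit
  19140333860290560) (nat_lit 19140334120337408) (nat_lit 19140367152578560) (nat_lit
  19140367412625408) (nat_lit 19703250523521024) (nat_lit 19703283815809024) (nat_lit
  19703284075855872) (nat_lit 19703317368143872) (nat_lit 19703317628190720) (nat_lit
  20266234031374336) (nat_lit 20266267323662336) (nat_lit 20266267583709184) (nat_lit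
  20829184246939648) (nat_lit 20829217539227648) (nat_lit 21392167754792960) (nat_lit
  21955151262646272) (nat_lit 22522396183363584)

/-- compiled program -/
def b14_10b (Y : Lay) (Z : Tb) (d a x : Nat)
    (x0 x1 x2 x3 x4 x5 x6 x7 x8 x9 x10 x11 x12 x13 x14 x15 x16 x17 x18 x19 x20 x21 x22 x23 x24 x25
    x26 x27 x28 x29 x30 x31 x32 x33 x34 x35 x36 x37 x38 x39 x40 x41 x42 x43 x44 x45 x46 x47 x48 x49
    x50 x51 x52 x53 x54 x55 x56 x57 x58 x59 x60 x61 x62 x63 x64 x65 x66 x67 x68 x69 x70 x71 x72 x73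
    x74 x75 x76 x77 x78 x79 x80 x81 x82 x83 x84 x85 x86 x87 x88 x89 x90 x91 x92 x93 x94 x95 x96 x97
    x98 x99 x100 x101 x102 x103 x104 x105 x106 x107 x108 x109 x110 x111 x112 x113 x114 x115 x116
    x117 x118 x119 x120 x121 x122 x123 x124 x125 x126 x127 x128 x129 x130 x131 x132 x133 x134 x135
    x136 x137 x138 x139 x140 x141 x142 x143 x144 x145 x146 x147 x148 x149 x150 x151 x152 x153 x154
    x155 x156 x157 x158 x159 x160 x161 x162 x163 x164 x165 x166 x167 x168 x169 x170 x171 x172 x173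
    x174 x175 x176 x177 x178 x179 x180 x181 x182 x183 x184 x185 x186 x187 x188 x189 x190 x191 : Nat)
    : Nat :=
  (fold (Nat.add (fold (Nat.add (Nat.add (fold (Nat.add (Nat.add (fold (Nat.add (fold (Nat.add (fold
  (Nat.add (fold (Nat.add (fold (Nat.add (fold (Nat.add (Nat.add (Z a x191) (Z a x190)) (mv Y
  (nat_lit 8) (Nat.add (Nat.add (Nat.add (Nat.add (Nat.add (Nat.add (Nat.mul (nat_lit 2) (fold
  (Nat.add (Nat.add (Nat.add (Nat.add (Nat.add (Nat.add (Nat.add (Nat.add (Nat.add (Nat.add (Z a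
  x98) (Z a x88)) (Z a x87)) (Nat.add (Nat.add (Z a x121) (Z a x110)) (Nat.add (Z a x90) (Z a
  x81)))) (Nat.add (Z a x103) (Z a x74))) (Z a x67)) (Nat.add (Nat.add (Z a x78) (Z a x59)) (Z a
  x60))) (Nat.add (Z a x70) (Z a x62))) (Nat.add (Nat.add (Nat.add (Z a x92) (Z a x79)) (Nat.add (Z
  a x65) (Z a x56))) (Z a x86))) (Nat.add (Nat.add (Z a x61) (Z a x55)) (Nat.add (Z a x47) (Z a
  x41)))) (Z a x42)) (mo Y d (nat_lit 8)))) (Nat.add (Z a x130) (Z a x134))) (Z a x96)) (Z a x52))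
  (Nat.add (Nat.add (Nat.add (Z a x123) (Z a x108)) (Z a x57)) (Nat.add (Nat.add (Z a x89) (Z a
  x63)) (Nat.add (Z a x45) (Z a x37))))) (Nat.add (Z a x46) (Z a x39))) (mw Y (nat_lit 128) (Nat.mul
  (nat_lit 2) (Nat.add (Nat.add (Nat.add (Nat.add (Z a x60) (Z a x53)) (Nat.add (Z a x27) (Z a
  x21))) (Z a x10)) (Z a x8))))))) (mo Y d (nat_lit 0))) (mv Y (nat_lit 2) (Nat.add (Nat.add
  (Nat.add (Nat.add (Nat.add (Z a x188) (Z a x185)) (Nat.mul (nat_lit 2) (Nat.add (Z a x184) (Z a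
  x180)))) (Nat.add (Z a x179) (Z a x172))) (mw Y (nat_lit 128) (Nat.add (Nat.add (Nat.add (Nat.add
  (Nat.add (Z a x134) (Z a x120)) (Nat.add (Z a x144) (Z a x114))) (Nat.add (Z a x131) (Z a x100)))
  (Z a x103)) (Z a x89)))) (mw Y (nat_lit 256) (Nat.add (Nat.add (Nat.add (Nat.add (Z a x69) (Z a
  x60)) (Nat.mul (nat_lit 2) (Nat.add (Z a x49) (Z a x42)))) (Z a x33)) (Z a x27)))))) (mo Y d
  (nat_lit 0))) (mv Y (nat_lit 9) (Nat.add (Nat.add (Nat.add (Nat.add (Nat.add (Nat.add (Nat.add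
  (Nat.add (fold (Nat.add (Nat.add (Nat.add (Nat.add (Z a x97) (Z a x79)) (Nat.add (Nat.add (Z a
  x120) (Z a x76)) (Nat.add (Nat.add (Z a x80) (Z a x71)) (Z a x99)))) (Nat.add (Nat.add (Nat.add (Z
  a x123) (Z a x108)) (Z a x57)) (Nat.add (Nat.add (Z a x89) (Z a x63)) (Nat.add (Z a x45) (Z a
  x37))))) (mw Y (nat_lit 128) (Nat.add (Nat.add (Nat.add (Nat.add (Z a x47) (Z a x6)) (Nat.add (Z a
  x53) (Z a x5))) (Nat.add (Z a x59) (Z a x4))) (Nat.mul (nat_lit 2) (Nat.add (Nat.add (Nat.add (Z a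
  x17) (Z a x14)) (Nat.add (Z a x26) (Z a x11))) (Nat.add (Z a x76) (Z a x2))))))) (mo Y d (nat_lit
  9))) (Nat.mul (nat_lit 2) (fold (Nat.add (Nat.add (Nat.add (Nat.add (Nat.add (Nat.add (Nat.add
  (Nat.add (Nat.add (Nat.add (Z a x133) (Z a x112)) (Z a x92)) (Z a x70)) (Nat.add (Nat.add (Z a
  x69) (Z a x60)) (Z a x119))) (Z a x56)) (Nat.add (Z a x49) (Z a x42))) (Nat.add (Z a x46) (Z a
  x39))) (Nat.add (Nat.add (Z a x98) (Z a x88)) (Nat.add (Z a x35) (Z a x29)))) (Z a x25)) (Z a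
  x20)) (mo Y d (nat_lit 9))))) (Z a x82)) (Z a x68)) (Z a x59)) (Z a x62)) (Z a x53)) (Nat.add
  (Nat.add (Z a x54) (Z a x48)) (Z a x102))) (Nat.add (Nat.add (Nat.add (Nat.add (Nat.add (Nat.add
  (Nat.add (Z a x47) (Z a x41)) (Z a x50)) (Nat.add (Nat.add (Z a x44) (Z a x36)) (Z a x51)))
  (Nat.add (Nat.add (Z a x40) (Z a x34)) (Z a x31))) (Z a x30)) (Nat.add (Z a x33) (Z a x21))) (Z a
  x24))))) (mo Y d (nat_lit 0))) (mv Y (nat_lit 3) (Nat.add (Nat.add (Nat.add (Nat.add (fold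
  (Nat.add (Nat.add (Nat.add (Nat.add (fold (Nat.add (Nat.add (Nat.add (Nat.add (Z a x165) (Z a
  x160)) (Z a x168)) (Z a x181)) (Nat.mul (nat_lit 2) (Nat.add (Nat.add (Nat.add (Nat.add (Nat.add
  (Nat.add (Nat.add (Nat.add (Nat.add (Nat.add (Z a x186) (Z a x180)) (Z a x183)) (Z a x172)) (Z a
  x175)) (Nat.add (Nat.add (Z a x173) (Z a x177)) (Nat.add (Z a x166) (Z a x170)))) (Z a x167)) (Z a
  x169)) (Z a x156)) (Z a x157)) (Z a x149)))) (mo Y d (nat_lit 3))) (Z a x182)) (Z a x174)) (Z a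
  x176)) (mw Y (nat_lit 256) (Nat.add (Nat.add (Nat.add (Nat.add (Z a x54) (Z a x48)) (Nat.add (Z a
  x26) (Z a x22))) (Nat.add (Nat.add (Z a x43) (Z a x38)) (Nat.add (Z a x31) (Z a x18)))) (Nat.mul
  (nat_lit 2) (Nat.add (Nat.add (Nat.add (Nat.add (Nat.add (Z a x61) (Z a x55)) (Nat.add (Z a x47)
  (Z a x41))) (Nat.add (Z a x37) (Z a x32))) (Nat.add (Z a x28) (Z a x23))) (Nat.add (Z a x17) (Z a
  x14))))))) (mo Y d (nat_lit 3))) (Z a x178)) (Z a x164)) (Z a x158)) (mw Y (nat_lit 128) (Nat.add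
  (Nat.add (Nat.add (Nat.add (Nat.add (Nat.add (Nat.add (fold (Nat.mul (nat_lit 2) (Nat.add (Nat.add
  (Nat.add (Nat.add (Z a x112) (Z a x102)) (Nat.add (Z a x98) (Z a x88))) (Nat.add (Nat.add (Nat.add
  (Z a x135) (Z a x125)) (Nat.add (Z a x104) (Z a x94))) (Nat.add (Nat.add (Z a x121) (Z a x110))
  (Nat.add (Z a x90) (Z a x81))))) (Nat.add (Nat.add (Z a x82) (Z a x73)) (Nat.add (Z a x70) (Z a
  x62))))) (mo Y d (nat_lit 7))) (Nat.add (Z a x141) (Z a x111))) (Z a x108)) (Z a x109)) (Z a x89))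
  (Nat.add (Nat.add (Nat.add (Z a x93) (Z a x83)) (Z a x113)) (Z a x124))) (Nat.add (Nat.add (Z a
  x97) (Z a x79)) (Nat.add (Nat.add (Z a x120) (Z a x76)) (Nat.add (Nat.add (Z a x80) (Z a x71)) (Z
  a x99))))) (Nat.add (Z a x69) (Z a x53))))))) (mo Y d (nat_lit 0))) (mv Y (nat_lit 5) (Nat.add
  (Nat.add (Nat.add (Nat.add (Nat.add (Nat.add (Nat.add (Nat.add (Nat.add (fold (Nat.add (Nat.add
  (Nat.add (Nat.add (Nat.add (Nat.add (Z a x139) (Z a x130)) (Nat.add (Z a x127) (Z a x116)))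
  (Nat.add (Nat.add (Z a x95) (Z a x85)) (Nat.add (Z a x101) (Z a x91)))) (Z a x158)) (mw Y (nat_lit
  128) (Nat.add (Nat.add (Nat.add (Nat.add (Nat.add (Nat.add (fold (Nat.add (Nat.add (Nat.add (Z a
  x61) (Z a x55)) (Nat.add (Z a x47) (Z a x41))) (Nat.mul (nat_lit 2) (Nat.add (Nat.add (Nat.add
  (Nat.add (Nat.add (Z a x89) (Z a x63)) (Nat.add (Z a x69) (Z a x53))) (Nat.add (Nat.add (Nat.add
  (Z a x82) (Z a x73)) (Nat.add (Z a x70) (Z a x62))) (Nat.add (Z a x58) (Z a x50)))) (Z a x49))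
  (Nat.add (Nat.add (Z a x44) (Z a x36)) (Z a x51))))) (mo Y d (nat_lit 9))) (Nat.add (Nat.add (Z a
  x80) (Z a x71)) (Z a x99))) (Nat.add (Z a x78) (Z a x59))) (Z a x57)) (Z a x43)) (Nat.add (Nat.add
  (Z a x40) (Z a x34)) (Z a x31))) (Nat.add (Nat.add (Z a x112) (Z a x102)) (Nat.add (Nat.add (Z a
  x98) (Z a x88)) (Nat.add (Z a x35) (Z a x29))))))) (mw Y (nat_lit 256) (Nat.add (Nat.add (Nat.add
  (Nat.add (Z a x47) (Z a x41)) (Nat.add (Z a x17) (Z a x14))) (Z a x7)) (Z a x6)))) (mo Y d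
  (nat_lit 5))) (Nat.mul (nat_lit 2) (fold (Nat.add (Nat.add (Nat.add (Nat.add (Nat.add (Nat.add
  (Nat.add (Nat.add (Z a x152) (Z a x154)) (Nat.add (Z a x169) (Z a x142))) (Nat.add (Z a x145) (Z a
  x136))) (Z a x135)) (Z a x121)) (Nat.add (Z a x133) (Z a x112))) (Nat.add (Nat.add (Nat.add (Z a
  x165) (Z a x160)) (Z a x168)) (Nat.add (Nat.add (Z a x106) (Z a x115)) (Nat.add (Z a x96) (Z a
  x105))))) (Z a x98)) (mo Y d (nat_lit 5))))) (Nat.add (Nat.add (Z a x173) (Z a x177)) (Nat.add (Z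
  a x166) (Z a x170)))) (Z a x148)) (Z a x150)) (Z a x144)) (Nat.add (Nat.add (Nat.add (Z a x149) (Z
  a x132)) (Z a x155)) (Z a x161))) (Z a x131)) (Nat.add (Nat.add (Z a x157) (Z a x146)) (Nat.add (Z
  a x129) (Z a x122)))) (Nat.add (Z a x123) (Z a x108))))) (mo Y d (nat_lit 0))) (mv Y (nat_lit 7)
  (Nat.add (Nat.add (Nat.add (Nat.add (Nat.add (Nat.add (Nat.add (fold (Nat.add (Nat.add (Nat.add
  (Nat.add (Nat.add (Nat.add (Nat.add (Z a x135) (Z a x125)) (Nat.add (Z a x104) (Z a x94)))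
  (Nat.add (Nat.add (Z a x121) (Z a x110)) (Nat.add (Z a x90) (Z a x81)))) (Nat.add (Nat.add (Z a
  x69) (Z a x60)) (Z a x119))) (Nat.add (Nat.add (Z a x123) (Z a x108)) (Z a x57))) (Nat.add
  (Nat.add (Nat.add (Z a x92) (Z a x79)) (Nat.add (Z a x65) (Z a x56))) (Z a x86))) (mw Y (nat_lit
  128) (Nat.add (Nat.add (Nat.add (Nat.add (Nat.add (Nat.add (Nat.add (fold (Nat.add (Nat.add
  (Nat.add (Z a x43) (Z a x38)) (Nat.add (Z a x31) (Z a x18))) (Nat.mul (nat_lit 2) (Nat.add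
  (Nat.add (Nat.add (Nat.add (Nat.add (Nat.add (Nat.add (Nat.add (Nat.add (Z a x68) (Z a x61))
  (Nat.add (Z a x69) (Z a x53))) (Z a x47)) (Nat.add (Z a x37) (Z a x32))) (Z a x27)) (Z a x23)) (Z
  a x19)) (Nat.add (Z a x42) (Z a x12))) (Nat.add (Z a x14) (Z a x13))))) (mo Y d (nat_lit 11)))
  (Nat.add (Nat.add (Z a x78) (Z a x59)) (Z a x60))) (Z a x54)) (Z a x49)) (Nat.add (Z a x33) (Z a
  x21))) (Nat.add (Z a x36) (Z a x15))) (Z a x16)) (Nat.add (Z a x26) (Z a x11))))) (mo Y d (nat_lit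
  7))) (Nat.mul (nat_lit 2) (fold (Nat.add (Nat.add (Nat.add (Nat.add (Nat.add (Nat.add (Nat.add
  (Nat.add (Nat.add (Nat.add (Nat.add (Z a x130) (Z a x134)) (Z a x140)) (Z a x129)) (Z a x133))
  (Nat.add (Z a x131) (Z a x100))) (Nat.add (Nat.add (Nat.add (Nat.add (Z a x93) (Z a x83)) (Z a
  x113)) (Z a x124)) (Z a x152))) (Nat.add (Z a x103) (Z a x74))) (Z a x75)) (Z a x63)) (Z a x64))
  (Nat.add (Z a x58) (Z a x50))) (mo Y d (nat_lit 7))))) (Z a x139)) (Z a x143)) (Nat.add (Z a x118)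
  (Z a x107))) (Nat.add (Z a x144) (Z a x114))) (Nat.add (Z a x112) (Z a x102))) (Nat.add (Nat.add
  (Nat.add (Nat.add (Nat.add (Nat.add (Nat.add (Z a x87) (Z a x78)) (Z a x97)) (Z a x84)) (Nat.add
  (Z a x82) (Z a x73))) (Z a x72)) (Z a x66)) (Nat.add (Z a x61) (Z a x55)))))) (mo Y d (nat_lit
  0))) (mv Y (nat_lit 1) (Nat.add (fold (Nat.add (Nat.add (fold (mw Y (nat_lit 256) (Nat.add
  (Nat.mul (nat_lit 8) (fold (Nat.add (Nat.add (Nat.add (Z a x92) (Z a x79)) (Nat.mul (nat_lit 2)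
  (Nat.add (Z a x65) (Z a x56)))) (Nat.add (Z a x46) (Z a x39))) (mo Y d (nat_lit 9)))) (Nat.mul
  (nat_lit 3) (Nat.add (Nat.add (Z a x40) (Z a x34)) (Nat.add (Nat.add (Z a x112) (Z a x102))
  (Nat.add (Nat.add (Z a x98) (Z a x88)) (Nat.add (Z a x35) (Z a x29)))))))) (mo Y d (nat_lit 1)))
  (mw Y (nat_lit 384) (Nat.add (fold (Nat.add (Nat.mul (nat_lit 5) (Nat.add (Nat.add (Z a x21) (Z a
  x12)) (Nat.add (Z a x53) (Z a x5)))) (Nat.mul (nat_lit 3) (Nat.add (Nat.add (Nat.add (Z a x59) (Z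
  a x4)) (Z a x67)) (Z a x3)))) (mo Y d (nat_lit 13))) (Nat.mul (nat_lit 8) (fold (Nat.add (Nat.add
  (Z a x76) (Z a x2)) (Nat.mul (nat_lit 3) (Nat.add (Nat.add (Nat.add (Nat.add (Nat.add (Nat.add (Z
  a x95) (Z a x85)) (Z a x31)) (Nat.add (Nat.add (Z a x17) (Z a x14)) (Nat.add (Z a x26) (Z a
  x11)))) (Z a x9)) (Z a x1)) (Z a x0)))) (mo Y d (nat_lit 13))))))) (mw Y (nat_lit 128) (Nat.add
  (Nat.add (Nat.add (Nat.add (Nat.add (Nat.mul (nat_lit 3) (fold (Nat.add (Nat.add (Nat.add (Nat.add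
  (Nat.add (Z a x173) (Z a x177)) (Nat.add (Z a x166) (Z a x170))) (Nat.add (Z a x145) (Z a x136)))
  (Nat.add (Z a x118) (Z a x107))) (Nat.add (Nat.add (Nat.add (Z a x139) (Z a x130)) (Nat.add (Z a
  x127) (Z a x116))) (Nat.add (Nat.add (Z a x95) (Z a x85)) (Nat.add (Z a x101) (Z a x91))))) (mo Y
  d (nat_lit 5)))) (Nat.mul (nat_lit 6) (fold (Nat.add (Nat.add (Nat.add (Nat.add (Nat.add (Z a
  x148) (Z a x140)) (Nat.add (Nat.add (Z a x149) (Z a x132)) (Z a x155))) (Nat.add (Nat.add (Z a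
  x157) (Z a x146)) (Nat.add (Z a x129) (Z a x122)))) (Nat.add (Z a x158) (Z a x119))) (Nat.add
  (Nat.add (Nat.add (Z a x165) (Z a x160)) (Z a x168)) (Nat.add (Nat.add (Z a x106) (Z a x115))
  (Nat.add (Z a x96) (Z a x105))))) (mo Y d (nat_lit 5))))) (Z a x162)) (Z a x137)) (Nat.mul
  (nat_lit 2) (Nat.add (Z a x153) (Z a x126)))) (Nat.add (Z a x141) (Z a x111))))) (mo Y d (nat_lit
  1))) (Nat.mul (nat_lit 8) (Nat.add (Z a x189) (Z a x187)))))) (mw Y (nat_lit 128) (Nat.add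
  (Nat.mul (nat_lit 8) (fold (Nat.add (Nat.add (Z a x164) (Z a x138)) (Nat.mul (nat_lit 3) (Nat.add
  (Nat.add (Z a x179) (Z a x172)) (Nat.add (Z a x128) (Z a x117))))) (mo Y d (nat_lit 4)))) (Nat.mul
  (nat_lit 3) (Nat.add (Z a x156) (Z a x147)))))) (mo Y d (nat_lit 0))) (mv Y (nat_lit 4) (Nat.add
  (Nat.add (Nat.add (Nat.add (Nat.add (Nat.add (fold (Nat.add (Nat.add (Nat.mul (nat_lit 2) (fold
  (Nat.add (Nat.add (Nat.add (Nat.add (Nat.add (Nat.add (Nat.add (Nat.add (Nat.add (Nat.add (Z a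
  x175) (Z a x171)) (Nat.add (Z a x165) (Z a x160))) (Z a x162)) (Nat.add (Z a x156) (Z a x147))) (Z
  a x154)) (Nat.add (Nat.add (Z a x150) (Z a x143)) (Z a x151))) (Z a x141)) (Z a x145)) (Nat.add (Z
  a x139) (Z a x130))) (Nat.add (Nat.add (Z a x179) (Z a x172)) (Nat.add (Z a x128) (Z a x117))))
  (mo Y d (nat_lit 4)))) (Nat.add (Nat.add (Nat.add (Z a x149) (Z a x132)) (Z a x155)) (Z a x161)))
  (mw Y (nat_lit 256) (Nat.add (Nat.add (Nat.add (Nat.add (Nat.add (Nat.add (Nat.add (Z a x48) (Z a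
  x41)) (Z a x37)) (Nat.add (Z a x27) (Z a x21))) (Nat.add (Z a x31) (Z a x18))) (Nat.add (Z a x14)
  (Z a x13))) (Nat.mul (nat_lit 2) (Nat.add (Nat.add (Nat.add (Nat.add (Nat.add (Z a x26) (Z a x22))
  (Z a x32)) (Z a x17)) (Nat.add (Z a x36) (Z a x15))) (Nat.add (Z a x42) (Z a x12))))) (Z a x11))))
  (mo Y d (nat_lit 4))) (Z a x178)) (Z a x170)) (Z a x163)) (Z a x153)) (Nat.add (Z a x169) (Z a
  x142))) (mw Y (nat_lit 128) (Nat.add (Nat.add (Nat.add (Nat.add (Nat.add (fold (Nat.add (Nat.add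
  (Nat.add (Nat.add (Nat.add (Z a x93) (Z a x83)) (Z a x113)) (Z a x109)) (Nat.mul (nat_lit 2)
  (Nat.add (Nat.add (Nat.add (Nat.add (Z a x103) (Z a x74)) (Nat.add (Nat.add (Z a x80) (Z a x71))
  (Z a x99))) (Nat.add (Z a x89) (Z a x63))) (Nat.add (Nat.add (Z a x92) (Z a x79)) (Nat.add (Z a
  x65) (Z a x56)))))) (Nat.add (Nat.add (Nat.add (Z a x82) (Z a x73)) (Nat.add (Z a x70) (Z a x62)))
  (Nat.add (Z a x58) (Z a x50)))) (mo Y d (nat_lit 8))) (Z a x88)) (Nat.add (Z a x77) (Z a x68))) (Z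
  a x66)) (Z a x57)) (Nat.add (Nat.add (Z a x54) (Z a x48)) (Z a x102))))))) (mv Y (nat_lit 16384)
  (Nat.add (Nat.mul (nat_lit 8) (fold (Nat.add (Nat.add (Z a x36) (Z a x8)) (Nat.mul (nat_lit 3)
  (Nat.add (Nat.add (Z a x53) (Z a x5)) (Nat.add (Z a x76) (Z a x2))))) (mo Y d (nat_lit 13))))
  (Nat.mul (nat_lit 3) (Nat.add (Z a x21) (Z a x12)))))) (mo Y d (nat_lit 0))) (mv Y (nat_lit 6)
  (Nat.add (Nat.add (Nat.add (Nat.add (Nat.add (fold (Nat.add (Nat.add (Nat.add (Nat.add (Z a x135)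
  (Z a x125)) (Nat.add (Z a x104) (Z a x94))) (Nat.add (Nat.add (Z a x121) (Z a x110)) (Nat.add (Z a
  x90) (Z a x81)))) (mw Y (nat_lit 128) (Nat.add (Nat.add (Nat.add (Nat.add (Nat.add (Z a x61) (Z a
  x55)) (Nat.add (Z a x54) (Z a x48))) (Nat.add (Z a x43) (Z a x38))) (Nat.add (Z a x37) (Z a x32)))
  (Nat.mul (nat_lit 2) (Nat.add (Nat.add (Nat.add (Nat.add (Nat.add (Z a x87) (Z a x78)) (Nat.add (Z
  a x77) (Z a x68))) (Nat.add (Z a x28) (Z a x23))) (Z a x22)) (Z a x18)))))) (mo Y d (nat_lit 6)))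
  (fold (Nat.add (Nat.add (Nat.add (Nat.add (Nat.add (Nat.add (Z a x93) (Z a x83)) (Z a x113)) (Z a
  x124)) (Z a x152)) (Z a x159)) (Nat.mul (nat_lit 2) (Nat.add (Nat.add (Nat.add (Nat.add (Nat.add
  (Nat.add (Nat.add (Nat.add (Nat.add (Z a x158) (Z a x119)) (Z a x142)) (Nat.add (Z a x153) (Z a
  x126))) (Z a x123)) (Nat.add (Z a x141) (Z a x111))) (Z a x98)) (Z a x85)) (Nat.add (Z a x92) (Z a
  x79))) (Z a x67)))) (mo Y d (nat_lit 6)))) (Nat.add (Z a x148) (Z a x140))) (Nat.add (Nat.add (Z a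
  x150) (Z a x143)) (Z a x151))) (Z a x139)) (Nat.add (Nat.add (Z a x120) (Z a x76)) (Nat.add
  (Nat.add (Z a x80) (Z a x71)) (Z a x99)))))) (mo Y d (nat_lit 0)))

/-- compiled program -/
def b14_10q : Prog2 := fun Y Z d a x => (b14_10kX x).1 (b14_10b Y Z d a x)

/-- compiled program -/
def w1_10_1q : Prog2 := fun Y Z d a x =>
  (qst (Nat.add (mv Y (nat_lit 1) (Z a x)) (Nat.mul (nat_lit 3) (Z a x))) (mo Y d (nat_lit 0)) (oo Y
  d (nat_lit 0)))

/-- compiled program -/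
def w1_10_2q : Prog2 := fun Y Z d a x =>
  (qst (mv Y (nat_lit 1) (Nat.add (mv Y (nat_lit 1) (Z a x)) (Nat.mul (nat_lit 6) (Z a x)))) (mo Y d
  (nat_lit 0)) (oo Y d (nat_lit 0)))

/-- compiled program -/
def w1_10_3q : Prog2 := fun Y Z d a x =>
  (mv Y (nat_lit 3) (Z a x))

/-- compiled program -/
def w1_10_4q : Prog2 := fun Y Z d a x =>
  (mv Y (nat_lit 4) (Z a x))

/-- compiled program -/
def w1_10_5q : Prog2 := fun Y Z d a x =>
  (mv Y (nat_lit 5) (Z a x))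

/-- compiled program -/
def w1_10_6q : Prog2 := fun Y Z d a x =>
  (mv Y (nat_lit 6) (Z a x))

/-- compiled program -/
def w1_10_7q : Prog2 := fun Y Z d a x =>
  (mv Y (nat_lit 7) (Z a x))

/-- compiled program -/
def w1_10_8q : Prog2 := fun Y Z d a x =>
  (mv Y (nat_lit 8) (Z a x))

/-- compiled program -/
def w1_10_9q : Prog2 := fun Y Z d a x =>
  (mv Y (nat_lit 9) (Z a x))

/-- compiled programs -/
def w1_10q : List Prog2 :=
  [zero2, w1_10_1q, w1_10_2q, w1_10_3q, w1_10_4q, w1_10_5q, w1_10_6q, w1_10_7q, w1_10_8q, w1_10_9q]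

end Vale.Agent.P236X
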