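import Vale.Agent.P236X.Bxn

/-!
# P236 / X : compiled programs with two keys (QB)
-/

set_option linter.unusedVariables false

noncomputable section

namespace Vale.Agent.P236X

/-- keys -/
def g3ckI (c : Nat) :
    Bx ((Nat → Nat → Nat) → Nat) :=
  bx2 Nat c (nat_lit 6755399441055747) (nat_lit 7318349394477184)

/-- compiled program -/
def g3cb (Y : Lay) (Z : Tb) (d a x : Nat)
    (a0 a1 : Nat) : Nat :=
  (fold (Nat.add (Nat.mul (nat_lit 8) (Z a0 x)) (Z a1 x)) (mo Y d (nat_lit 0)))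

/-- compiled program -/
def g3cq : Prog2 := fun Y Z d a x => (g3ckI a).1 (g3cb Y Z d a x)

/-- keys -/
def g4ckI (c : Nat) :
    Bx ((Nat → Nat → Nat → Nat → Nat) → Nat) :=
  bx4 Nat c (nat_lit 20829148276588678) (nat_lit 21392098230010115) (nat_lit 21955048183431552)
  (nat_lit 22517998136868864)

/-- compiled program -/
def g4cb (Y : Lay) (Z : Tb) (d a x : Nat)
    (a0 a1 a2 a3 : Nat) : Nat :=
  (fold (Nat.add (Nat.add (Nat.mul (nat_lit 8) (Z a2 x)) (Z a3 x)) (mv Y (nat_lit 1) (Nat.add (Z a1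
  x) (Z a0 x)))) (mo Y d (nat_lit 0)))

/-- compiled program -/
def g4cq : Prog2 := fun Y Z d a x => (g4ckI a).1 (g4cb Y Z d a x)

/-- keys -/
def w2ckI (c : Nat) :
    Bx ((Nat → Nat) → Nat) :=
  bx1 Nat c (nat_lit 2251799813685249)

/-- compiled program -/
def w2cb (Y : Lay) (Z : Tb) (d a x : Nat)
    (a0 : Nat) : Nat :=
  (fold (Nat.add (Nat.add (Nat.add (Nat.mul (nat_lit 3) (Z a0 x)) (mw Y (nat_lit 128) (Z a x))) (mv
  Y (nat_lit 3) (Nat.mul (nat_lit 2) (Z a x)))) (mv Y (nat_lit 1) (Z a x))) (mo Y d (nat_lit 0)))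

/-- compiled program -/
def w2cq : Prog2 := fun Y Z d a x => (w2ckI a).1 (w2cb Y Z d a x)

/-- keys -/
def b34ckI (c : Nat) :
    Bx ((Nat → Nat → Nat) → Nat) :=
  bx2 Nat c (nat_lit 7318349394477184) (nat_lit 14636698788954368)

/-- keys -/
def b34ckX (c : Nat) :
    Bx ((Nat → Nat → Nat → Nat → (Nat → Nat → Nat)) → (Nat → Nat → Nat)) :=
  bx4 (Nat → Nat → Nat) c (nat_lit 7318383754215424) (nat_lit 14636767508430848) (nat_lit
  15199648798998528) (nat_lit 22522396183363584)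

/-- compiled program -/
def b34cb (Y : Lay) (Z : Tb) (d a x : Nat)
    (x0 x1 x2 x3 a0 a1 : Nat) : Nat :=
  (fold (Nat.add (Nat.add (Nat.add (mv Y (nat_lit 1) (Nat.mul (nat_lit 8) (Nat.add (Z a1 x0) (Z a0
  x1)))) (Z a0 x2)) (Z a x3)) (Nat.mul (nat_lit 6) (Nat.add (Z a1 x0) (Z a0 x1)))) (mo Y d (nat_lit
  0)))

/-- compiled program -/
def b34cq : Prog2 := fun Y Z d a x => (b34ckI a).1 ((b34ckX x).1 (b34cb Y Z d a x))

/-- keys -/
def b23ckI (c : Nat) :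
    Bx ((Nat → Nat → Nat) → Nat) :=
  bx2 Nat c (nat_lit 2251799813685249) (nat_lit 4503599627370498)

/-- keys -/
def b23ckX (c : Nat) :
    Bx ((Nat → Nat → Nat → Nat → (Nat → Nat → Nat)) → (Nat → Nat → Nat)) :=
  bx4 (Nat → Nat → Nat) c (nat_lit 2251800082120704) (nat_lit 4503600164241408) (nat_lit
  5066549599666176) (nat_lit 7318383754215424)

/-- compiled program -/
def b23cb (Y : Lay) (Z : Tb) (d a x : Nat)
    (x0 x1 x2 x3 a0 a1 : Nat) : Nat :=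
  (fold (Nat.add (Nat.add (Nat.add (mv Y (nat_lit 1) (Nat.mul (nat_lit 8) (Nat.add (Z a1 x0) (Z a0
  x1)))) (Z a0 x2)) (Z a x3)) (Nat.mul (nat_lit 6) (Nat.add (Z a1 x0) (Z a0 x1)))) (mo Y d (nat_lit
  0)))

/-- compiled program -/
def b23cq : Prog2 := fun Y Z d a x => (b23ckI a).1 ((b23ckX x).1 (b23cb Y Z d a x))

/-- keys -/
def b12ckX (c : Nat) :
    Bx ((Nat → Nat → Nat → Nat → Nat) → Nat) :=
  bx4 Nat c (nat_lit 562949955518464) (nat_lit 1125899911036928) (nat_lit 1688849866555392) (nat_lit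
  2251800082120704)

/-- compiled program -/
def b12cb (Y : Lay) (Z : Tb) (d a x : Nat)
    (x0 x1 x2 x3 : Nat) : Nat :=
  (fold (Nat.add (Nat.add (Z a x3) (Z a x2)) (mv Y (nat_lit 1) (Nat.mul (nat_lit 8) (Nat.add (Z a
  x1) (Z a x0))))) (mo Y d (nat_lit 0)))

/-- compiled program -/
def b12cq : Prog2 := fun Y Z d a x => (b12ckX x).1 (b12cb Y Z d a x)

/-- keys -/
def b13_13kX (c : Nat) :
    Bx ((Nat → Nat → Nat → Nat → Nat → Nat → Nat → Nat → Nat → Nat → Nat → Nat → Nat → Nat → Nat →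
    Nat → Nat → Nat → Nat) → Nat) :=
  bx18 Nat c (nat_lit 562949955518464) (nat_lit 1125899911036928) (nat_lit 1688849866555392)
  (nat_lit 2251799822073856) (nat_lit 2814749777592320) (nat_lit 3377699733110784) (nat_lit
  3377699993157632) (nat_lit 3940649688629248) (nat_lit 3940649948676096) (nat_lit 4503599644147712)
  (nat_lit 4503599904194560) (nat_lit 5066549859713024) (nat_lit 5066550119759872) (nat_lit
  5629499815231488) (nat_lit 5629500075278336) (nat_lit 6192450030796800) (nat_lit 6755400246362112)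
  (nat_lit 7318383754215424)

/-- compiled program -/
def b13_13b (Y : Lay) (Z : Tb) (d a x : Nat)
    (x0 x1 x2 x3 x4 x5 x6 x7 x8 x9 x10 x11 x12 x13 x14 x15 x16 x17 : Nat) : Nat :=
  (fold (Nat.add (Nat.add (Nat.add (fold (Nat.add (Nat.add (Nat.add (Z a x17) (Z a x16)) (mv Y
  (nat_lit 1) (Nat.mul (nat_lit 8) (Nat.add (Z a x15) (Z a x13))))) (mw Y (nat_lit 128) (Nat.add
  (Nat.mul (nat_lit 8) (fold (Nat.add (Nat.add (Z a x5) (Z a x2)) (Nat.mul (nat_lit 3) (Nat.add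
  (Nat.add (Z a x9) (Z a x7)) (Nat.add (Z a x1) (Z a x0))))) (mo Y d (nat_lit 4)))) (Nat.mul
  (nat_lit 3) (Nat.add (Z a x4) (Z a x3)))))) (mo Y d (nat_lit 0))) (mv Y (nat_lit 2) (Nat.add
  (Nat.add (Nat.add (Z a x14) (Z a x12)) (Nat.mul (nat_lit 2) (Nat.add (Z a x11) (Z a x10))))
  (Nat.add (Z a x9) (Z a x7))))) (mv Y (nat_lit 3) (Nat.add (Nat.add (Z a x8) (Z a x5)) (Nat.mul
  (nat_lit 2) (Nat.add (Nat.add (Nat.add (Z a x10) (Z a x7)) (Z a x6)) (Z a x4)))))) (mv Y (nat_lit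
  4) (Nat.mul (nat_lit 2) (Nat.add (Nat.add (Z a x4) (Z a x3)) (Nat.add (Nat.add (Z a x9) (Z a x7))
  (Nat.add (Z a x1) (Z a x0))))))) (mo Y d (nat_lit 0)))

/-- compiled program -/
def b13_13q : Prog2 := fun Y Z d a x => (b13_13kX x).1 (b13_13b Y Z d a x)

/-- keys -/
def b13_4kX (c : Nat) :
    Bx ((Nat → Nat → Nat → Nat → Nat → Nat → Nat → Nat → Nat → Nat → Nat → Nat → Nat → Nat → Nat →
    Nat → Nat → Nat → Nat) → Nat) :=
  bx18 Nat c (nat_lit 562949955518464) (nat_lit 1125899911036928) (nat_lit 1688849866555392)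
  (nat_lit 2251799822073856) (nat_lit 2814749777592320) (nat_lit 3377699733110784) (nat_lit
  3377699993157632) (nat_lit 3940649688629248) (nat_lit 3940649948676096) (nat_lit 4503599644147712)
  (nat_lit 4503599904194560) (nat_lit 5066549859713024) (nat_lit 5066550119759872) (nat_lit
  5629499815231488) (nat_lit 5629500075278336) (nat_lit 6192450030796800) (nat_lit 6755400246362112)
  (nat_lit 7318383754215424)

/-- compiled program -/
def b13_4b (Y : Lay) (Z : Tb) (d a x : Nat)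
    (x0 x1 x2 x3 x4 x5 x6 x7 x8 x9 x10 x11 x12 x13 x14 x15 x16 x17 : Nat) : Nat :=
  (fold (Nat.add (Nat.add (fold (Nat.add (Nat.add (Nat.add (Z a x17) (Z a x16)) (mv Y (nat_lit 1)
  (Nat.mul (nat_lit 8) (Nat.add (Z a x15) (Z a x13))))) (mw Y (nat_lit 128) (Nat.add (Nat.mul
  (nat_lit 8) (fold (Nat.add (Nat.add (Z a x5) (Z a x2)) (Nat.mul (nat_lit 3) (Nat.add (Nat.add
  (Nat.add (Z a x9) (Z a x7)) (Z a x1)) (Z a x0)))) (mo Y d (nat_lit 4)))) (Nat.mul (nat_lit 3)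
  (Nat.add (Z a x4) (Z a x3)))))) (mo Y d (nat_lit 0))) (mv Y (nat_lit 2) (Nat.add (Nat.add (Nat.add
  (Z a x14) (Z a x12)) (Nat.mul (nat_lit 2) (Nat.add (Z a x11) (Z a x10)))) (Nat.add (Z a x9) (Z a
  x7))))) (mv Y (nat_lit 3) (Nat.add (Nat.add (Z a x8) (Z a x5)) (Nat.mul (nat_lit 2) (Nat.add
  (Nat.add (Nat.add (Z a x10) (Z a x7)) (Z a x6)) (Z a x4)))))) (mo Y d (nat_lit 0)))

/-- compiled program -/
def b13_4q : Prog2 := fun Y Z d a x => (b13_4kX x).1 (b13_4b Y Z d a x)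

/-- keys -/
def b24_13kI (c : Nat) :
    Bx ((Nat → Nat → Nat → Nat → Nat → Nat → Nat → Nat → Nat) → Nat) :=
  bx8 Nat c (nat_lit 2251799813685249) (nat_lit 4503599627370498) (nat_lit 6755399441055747)
  (nat_lit 9007199254740996) (nat_lit 11258999068426245) (nat_lit 13510798882111494) (nat_lit
  15762598695796743) (nat_lit 18014398509481992)

/-- keys -/
def b24_13kX (c : Nat) :
    Bx ((Nat → Nat → Nat → Nat → Nat → Nat → Nat → Nat → Nat → Nat → Nat → Nat → Nat → Nat → Nat →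
    Nat → Nat → Nat → Nat → Nat → Nat → Nat → Nat → Nat → (Nat → Nat → Nat → Nat → Nat → Nat → Nat →
    Nat → Nat)) → (Nat → Nat → Nat → Nat → Nat → Nat → Nat → Nat → Nat)) :=
  bx24 (Nat → Nat → Nat → Nat → Nat → Nat → Nat → Nat → Nat) c (nat_lit 2251800082120704) (nat_lit
  4503600164241408) (nat_lit 6755400246362112) (nat_lit 9007200328482816) (nat_lit 9570149763907584)
  (nat_lit 11259000410603520) (nat_lit 11821949846028288) (nat_lit 11821983918456832) (nat_lit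
  12384899281453056) (nat_lit 13510800492724224) (nat_lit 14073749928148992) (nat_lit
  14073784000577536) (nat_lit 14636699363573760) (nat_lit 14636733436002304) (nat_lit
  15762600574844928) (nat_lit 16325584082698240) (nat_lit 16888533518123008) (nat_lit
  16888567590551552) (nat_lit 17451482953547776) (nat_lit 18014400656965632) (nat_lit
  19140367672672256) (nat_lit 19703317108097024) (nat_lit 20266200739086336) (nat_lit
  22522396183363584)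

/-- compiled program -/
def b24_13b (Y : Lay) (Z : Tb) (d a x : Nat)
    (x0 x1 x2 x3 x4 x5 x6 x7 x8 x9 x10 x11 x12 x13 x14 x15 x16 x17 x18 x19 x20 x21 x22 x23 a0 a1 a2
    a3 a4 a5 a6 a7 : Nat) : Nat :=
  (fold (Nat.add (Nat.add (fold (Nat.add (Nat.add (Nat.add (Nat.add (fold (Nat.add (mv Y (nat_lit 4)
  (Nat.mul (nat_lit 2) (Nat.add (Nat.add (Nat.add (Z a7 x0) (Z a6 x1)) (Nat.add (Z a1 x14) (Z a0
  x19))) (Nat.add (Z a4 x3) (Z a3 x5))))) (mv Y (nat_lit 1) (Nat.add (Nat.mul (nat_lit 8) (fold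
  (Nat.add (Nat.add (Nat.add (Z a1 x18) (Z a0 x21)) (Nat.add (Z a5 x2) (Z a2 x9))) (Nat.mul (nat_lit
  3) (Nat.add (Nat.add (Nat.add (Z a3 x8) (Z a2 x12)) (Nat.add (Z a1 x17) (Z a0 x20))) (Nat.add
  (Nat.add (Z a7 x0) (Z a6 x1)) (Nat.add (Z a1 x14) (Z a0 x19)))))) (mo Y d (nat_lit 1)))) (Nat.mul
  (nat_lit 3) (Nat.add (Nat.add (Z a2 x13) (Z a1 x16)) (Nat.add (Z a4 x3) (Z a3 x5))))))) (mo Y d
  (nat_lit 0))) (mw Y (nat_lit 128) (Nat.add (Nat.mul (nat_lit 8) (fold (Nat.add (Nat.add (Z a5 x2)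
  (Z a2 x9)) (Nat.mul (nat_lit 3) (Nat.add (Nat.add (Z a7 x0) (Z a6 x1)) (Nat.add (Z a1 x14) (Z a0
  x19))))) (mo Y d (nat_lit 4)))) (Nat.mul (nat_lit 3) (Nat.add (Z a4 x3) (Z a3 x5)))))) (Z a0 x22))
  (Z a x23)) (Nat.mul (nat_lit 6) (Nat.add (Z a1 x18) (Z a0 x21)))) (mo Y d (nat_lit 0))) (mv Y
  (nat_lit 2) (Nat.add (Nat.add (Nat.add (Z a3 x8) (Z a2 x12)) (Nat.add (Z a1 x17) (Z a0 x20)))
  (Nat.mul (nat_lit 2) (Nat.add (Z a2 x13) (Z a1 x16)))))) (mv Y (nat_lit 3) (Nat.add (Nat.add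
  (Nat.add (Nat.mul (nat_lit 2) (Nat.add (Nat.add (Nat.add (Z a4 x4) (Z a2 x10)) (Z a3 x7)) (Z a1
  x15))) (Z a3 x6)) (Z a2 x11)) (Nat.add (Z a5 x2) (Z a2 x9))))) (mo Y d (nat_lit 0)))

/-- compiled program -/
def b24_13q : Prog2 := fun Y Z d a x => (b24_13kI a).1 ((b24_13kX x).1 (b24_13b Y Z d a x))

/-- keys -/
def b24_4kI (c : Nat) :
    Bx ((Nat → Nat → Nat → Nat → Nat → Nat → Nat → Nat → Nat) → Nat) :=
  bx8 Nat c (nat_lit 2251799813685249) (nat_lit 4503599627370498) (nat_lit 6755399441055747)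
  (nat_lit 9007199254740996) (nat_lit 11258999068426245) (nat_lit 13510798882111494) (nat_lit
  15762598695796743) (nat_lit 18014398509481992)

/-- keys -/
def b24_4kX (c : Nat) :
    Bx ((Nat → Nat → Nat → Nat → Nat → Nat → Nat → Nat → Nat → Nat → Nat → Nat → Nat → Nat → Nat →
    Nat → Nat → Nat → Nat → Nat → Nat → Nat → Nat → Nat → (Nat → Nat → Nat → Nat → Nat → Nat → Nat →
    Nat → Nat)) → (Nat → Nat → Nat → Nat → Nat → Nat → Nat → Nat → Nat)) :=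
  bx24 (Nat → Nat → Nat → Nat → Nat → Nat → Nat → Nat → Nat) c (nat_lit 2251800082120704) (nat_lit
  4503600164241408) (nat_lit 6755400246362112) (nat_lit 9007200328482816) (nat_lit 9570149763907584)
  (nat_lit 11259000410603520) (nat_lit 11821949846028288) (nat_lit 11821983918456832) (nat_lit
  12384899281453056) (nat_lit 13510800492724224) (nat_lit 14073749928148992) (nat_lit
  14073784000577536) (nat_lit 14636699363573760) (nat_lit 14636733436002304) (nat_lit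
  15762600574844928) (nat_lit 16325584082698240) (nat_lit 16888533518123008) (nat_lit
  16888567590551552) (nat_lit 17451482953547776) (nat_lit 18014400656965632) (nat_lit
  19140367672672256) (nat_lit 19703317108097024) (nat_lit 20266200739086336) (nat_lit
  22522396183363584)

/-- compiled program -/
def b24_4b (Y : Lay) (Z : Tb) (d a x : Nat)
    (x0 x1 x2 x3 x4 x5 x6 x7 x8 x9 x10 x11 x12 x13 x14 x15 x16 x17 x18 x19 x20 x21 x22 x23 a0 a1 a2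
    a3 a4 a5 a6 a7 : Nat) : Nat :=
  (fold (Nat.add (fold (Nat.add (Nat.add (Nat.add (Nat.add (fold (Nat.add (Nat.mul (nat_lit 6)
  (Nat.add (Z a1 x18) (Z a0 x21))) (mv Y (nat_lit 1) (Nat.add (Nat.mul (nat_lit 8) (fold (Nat.add
  (Nat.add (Nat.add (Z a1 x18) (Z a0 x21)) (Nat.add (Z a5 x2) (Z a2 x9))) (Nat.mul (nat_lit 3)
  (Nat.add (Nat.add (Nat.add (Z a3 x8) (Z a2 x12)) (Nat.add (Z a1 x17) (Z a0 x20))) (Nat.add
  (Nat.add (Z a7 x0) (Z a6 x1)) (Nat.add (Z a1 x14) (Z a0 x19)))))) (mo Y d (nat_lit 1)))) (Nat.mul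
  (nat_lit 3) (Nat.add (Nat.add (Z a2 x13) (Z a1 x16)) (Nat.add (Z a4 x3) (Z a3 x5))))))) (mo Y d
  (nat_lit 0))) (mw Y (nat_lit 128) (Nat.add (Nat.mul (nat_lit 8) (fold (Nat.add (Nat.add (Z a5 x2)
  (Z a2 x9)) (Nat.mul (nat_lit 3) (Nat.add (Nat.add (Z a7 x0) (Z a6 x1)) (Nat.add (Z a1 x14) (Z a0
  x19))))) (mo Y d (nat_lit 4)))) (Nat.mul (nat_lit 3) (Nat.add (Z a4 x3) (Z a3 x5)))))) (Z a0 x22))
  (Z a x23)) (mv Y (nat_lit 3) (Nat.add (Nat.add (Nat.add (Nat.mul (nat_lit 2) (Nat.add (Nat.add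
  (Nat.add (Z a4 x4) (Z a2 x10)) (Z a3 x7)) (Z a1 x15))) (Z a3 x6)) (Z a2 x11)) (Nat.add (Z a5 x2)
  (Z a2 x9))))) (mo Y d (nat_lit 0))) (mv Y (nat_lit 2) (Nat.add (Nat.add (Nat.add (Z a3 x8) (Z a2
  x12)) (Nat.add (Z a1 x17) (Z a0 x20))) (Nat.mul (nat_lit 2) (Nat.add (Z a2 x13) (Z a1 x16))))))
  (mo Y d (nat_lit 0)))

/-- compiled program -/
def b24_4q : Prog2 := fun Y Z d a x => (b24_4kI a).1 ((b24_4kX x).1 (b24_4b Y Z d a x))

/-- keys -/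
def w3_13kI (c : Nat) :
    Bx ((Nat → Nat → Nat → Nat) → Nat) :=
  bx3 Nat c (nat_lit 2251799813685249) (nat_lit 6755399441055747) (nat_lit 7318349394477184)

/-- compiled program -/
def w3_13b (Y : Lay) (Z : Tb) (d a x : Nat)
    (a0 a1 a2 : Nat) : Nat :=
  (fold (Nat.add (Nat.add (Nat.add (Nat.add (Nat.add (Nat.add (Nat.add (Nat.add (fold (Nat.add
  (Nat.add (Nat.add (Nat.add (mv Y (nat_lit 16384) (Z a x)) (Nat.mul (nat_lit 3) (Nat.add (Z a2 x)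
  (Z a1 x)))) (mw Y (nat_lit 384) (Nat.mul (nat_lit 8) (Z a x)))) (mv Y (nat_lit 1) (Nat.add (mw Y
  (nat_lit 256) (Nat.mul (nat_lit 6) (Nat.add (Z a0 x) (Z a x)))) (Z a1 x)))) (mv Y (nat_lit 3)
  (Nat.add (mw Y (nat_lit 128) (Nat.mul (nat_lit 2) (Z a x))) (Nat.mul (nat_lit 2) (Z a x))))) (mo Y
  d (nat_lit 0))) (mv Y (nat_lit 4) (mw Y (nat_lit 256) (Z a x)))) (mv Y (nat_lit 7) (mw Y (nat_lit
  128) (Nat.mul (nat_lit 2) (Z a x))))) (mv Y (nat_lit 2) (mw Y (nat_lit 256) (Nat.mul (nat_lit 2)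
  (Z a x))))) (mv Y (nat_lit 5) (mw Y (nat_lit 128) (Nat.mul (nat_lit 2) (Z a x))))) (mv Y (nat_lit
  9) (Nat.add (Nat.mul (nat_lit 2) (Z a0 x)) (Z a x)))) (mv Y (nat_lit 8) (Nat.mul (nat_lit 2) (Z a
  x)))) (mv Y (nat_lit 6) (Z a x))) (mw Y (nat_lit 128) (Z a x))) (mo Y d (nat_lit 0)))

/-- compiled program -/
def w3_13q : Prog2 := fun Y Z d a x => (w3_13kI a).1 (w3_13b Y Z d a x)

/-- keys -/
def w3_5kI (c : Nat) :
    Bx ((Nat → Nat → Nat → Nat) → Nat) :=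
  bx3 Nat c (nat_lit 2251799813685249) (nat_lit 6755399441055747) (nat_lit 7318349394477184)

/-- compiled program -/
def w3_5b (Y : Lay) (Z : Tb) (d a x : Nat)
    (a0 a1 a2 : Nat) : Nat :=
  (fold (Nat.add (Nat.add (Nat.add (fold (Nat.add (Nat.add (Nat.add (Nat.add (mv Y (nat_lit 16384)
  (Z a x)) (Nat.mul (nat_lit 3) (Nat.add (Z a2 x) (Z a1 x)))) (Nat.mul (nat_lit 8) (mw Y (nat_lit
  384) (Z a x)))) (mv Y (nat_lit 1) (Nat.add (mw Y (nat_lit 256) (Nat.mul (nat_lit 6) (Nat.add (Z a0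
  x) (Z a x)))) (Z a1 x)))) (mv Y (nat_lit 3) (Nat.mul (nat_lit 2) (Nat.add (mw Y (nat_lit 128) (Z a
  x)) (Z a x))))) (mo Y d (nat_lit 0))) (mv Y (nat_lit 4) (mw Y (nat_lit 256) (Z a x)))) (mv Y
  (nat_lit 2) (Nat.mul (nat_lit 2) (mw Y (nat_lit 256) (Z a x))))) (mw Y (nat_lit 128) (Z a x))) (mo
  Y d (nat_lit 0)))

/-- compiled program -/
def w3_5q : Prog2 := fun Y Z d a x => (w3_5kI a).1 (w3_5b Y Z d a x)

/-- keys -/
def w3_4kI (c : Nat) :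
    Bx ((Nat → Nat → Nat → Nat) → Nat) :=
  bx3 Nat c (nat_lit 2251799813685249) (nat_lit 6755399441055747) (nat_lit 7318349394477184)

/-- compiled program -/
def w3_4b (Y : Lay) (Z : Tb) (d a x : Nat)
    (a0 a1 a2 : Nat) : Nat :=
  (fold (Nat.add (Nat.add (fold (Nat.add (Nat.add (Nat.add (Nat.add (mv Y (nat_lit 16384) (Z a x))
  (Nat.mul (nat_lit 3) (Nat.add (Z a2 x) (Z a1 x)))) (mw Y (nat_lit 384) (Nat.mul (nat_lit 8) (Z a
  x)))) (mv Y (nat_lit 1) (Nat.add (mw Y (nat_lit 256) (Nat.mul (nat_lit 6) (Nat.add (Z a0 x) (Z a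
  x)))) (Z a1 x)))) (mv Y (nat_lit 3) (Nat.add (mw Y (nat_lit 128) (Nat.mul (nat_lit 2) (Z a x)))
  (Nat.mul (nat_lit 2) (Z a x))))) (mo Y d (nat_lit 0))) (mv Y (nat_lit 2) (mw Y (nat_lit 256)
  (Nat.mul (nat_lit 2) (Z a x))))) (mw Y (nat_lit 128) (Z a x))) (mo Y d (nat_lit 0)))

/-- compiled program -/
def w3_4q : Prog2 := fun Y Z d a x => (w3_4kI a).1 (w3_4b Y Z d a x)

/-- keys -/
def b22k2I (c : Nat) :
    Bx ((Nat → Nat → Nat) → Nat) :=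
  bx2 Nat c (nat_lit 2251799813685249) (nat_lit 4503599627370498)

/-- keys -/
def b22k2X (c : Nat) :
    Bx ((Nat → Nat → (Nat → Nat → Nat)) → (Nat → Nat → Nat)) :=
  bx2 (Nat → Nat → Nat) c (nat_lit 2251800082120704) (nat_lit 4503600164241408)

/-- compiled program -/
def b22_1b (Y : Lay) (Z : Tb) (d a x : Nat)
    (x0 x1 a0 a1 : Nat) : Nat :=
  (fold (Nat.add (Z a0 x) (Z a x0)) (mo Y d (nat_lit 0)))

/-- compiled program -/
def b22_1q : Prog2 := fun Y Z d a x => (b22k2I a).1 ((b22k2X x).1 (b22_1b Y Z d a x))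

/-- compiled program -/
def b22_2b (Y : Lay) (Z : Tb) (d a x : Nat)
    (x0 x1 a0 a1 : Nat) : Nat :=
  (fold (Nat.add (Nat.add (Nat.mul (nat_lit 2) (Z a0 x0)) (Z a1 x)) (Z a x1)) (mo Y d (nat_lit 0)))

/-- compiled program -/
def b22_2q : Prog2 := fun Y Z d a x => (b22k2I a).1 ((b22k2X x).1 (b22_2b Y Z d a x))

/-- keys -/
def b22k4I (c : Nat) :
    Bx ((Nat → Nat → Nat → Nat → Nat) → Nat) :=
  bx4 Nat c (nat_lit 2251799813685249) (nat_lit 4503599627370498) (nat_lit 6755399441055747)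
  (nat_lit 9007199254740996)

/-- keys -/
def b22k4X (c : Nat) :
    Bx ((Nat → Nat → Nat → Nat → (Nat → Nat → Nat → Nat → Nat)) → (Nat → Nat → Nat → Nat → Nat)) :=
  bx4 (Nat → Nat → Nat → Nat → Nat) c (nat_lit 2251800082120704) (nat_lit 4503600164241408) (nat_lit
  6755400246362112) (nat_lit 9007200328482816)

/-- compiled program -/
def b22_3b (Y : Lay) (Z : Tb) (d a x : Nat)
    (x0 x1 x2 x3 a0 a1 a2 a3 : Nat) : Nat :=
  (fold (Nat.add (Nat.add (Nat.mul (nat_lit 3) (Nat.add (Z a1 x0) (Z a0 x1))) (Z a2 x)) (Z a x2))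
  (mo Y d (nat_lit 0)))

/-- compiled program -/
def b22_3q : Prog2 := fun Y Z d a x => (b22k4I a).1 ((b22k4X x).1 (b22_3b Y Z d a x))

/-- compiled program -/
def b22_4b (Y : Lay) (Z : Tb) (d a x : Nat)
    (x0 x1 x2 x3 a0 a1 a2 a3 : Nat) : Nat :=
  (fold (Nat.add (Nat.add (Nat.add (Nat.mul (nat_lit 4) (Nat.add (Z a2 x0) (Z a0 x2))) (Nat.mul
  (nat_lit 6) (Z a1 x1))) (Z a3 x)) (Z a x3)) (mo Y d (nat_lit 0)))

/-- compiled program -/
def b22_4q : Prog2 := fun Y Z d a x => (b22k4I a).1 ((b22k4X x).1 (b22_4b Y Z d a x))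

/-- keys -/
def b22k8I (c : Nat) :
    Bx ((Nat → Nat → Nat → Nat → Nat → Nat → Nat → Nat → Nat) → Nat) :=
  bx8 Nat c (nat_lit 2251799813685249) (nat_lit 4503599627370498) (nat_lit 6755399441055747)
  (nat_lit 9007199254740996) (nat_lit 11258999068426245) (nat_lit 13510798882111494) (nat_lit
  15762598695796743) (nat_lit 18014398509481992)

/-- keys -/
def b22k8X (c : Nat) :
    Bx ((Nat → Nat → Nat → Nat → Nat → Nat → Nat → Nat → (Nat → Nat → Nat → Nat → Nat → Nat → Nat →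
    Nat → Nat)) → (Nat → Nat → Nat → Nat → Nat → Nat → Nat → Nat → Nat)) :=
  bx8 (Nat → Nat → Nat → Nat → Nat → Nat → Nat → Nat → Nat) c (nat_lit 2251800082120704) (nat_lit
  4503600164241408) (nat_lit 6755400246362112) (nat_lit 9007200328482816) (nat_lit
  11259000410603520) (nat_lit 13510800492724224) (nat_lit 15762600574844928) (nat_lit
  18014400656965632)

/-- compiled program -/
def b22_5b (Y : Lay) (Z : Tb) (d a x : Nat)
    (x0 x1 x2 x3 x4 x5 x6 x7 a0 a1 a2 a3 a4 a5 a6 a7 : Nat) : Nat :=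
  (fold (Nat.add (Nat.add (Nat.add (Nat.add (Nat.mul (nat_lit 5) (Nat.add (Z a3 x0) (Z a0 x3))) (Z
  a4 x)) (Z a2 x1)) (Z a1 x2)) (Z a x4)) (mo Y d (nat_lit 0)))

/-- compiled program -/
def b22_5q : Prog2 := fun Y Z d a x => (b22k8I a).1 ((b22k8X x).1 (b22_5b Y Z d a x))

/-- compiled program -/
def b22_6b (Y : Lay) (Z : Tb) (d a x : Nat)
    (x0 x1 x2 x3 x4 x5 x6 x7 a0 a1 a2 a3 a4 a5 a6 a7 : Nat) : Nat :=
  (fold (Nat.add (Nat.add (Nat.add (Nat.mul (nat_lit 2) (Z a2 x2)) (Nat.mul (nat_lit 6) (Nat.add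
  (Nat.add (Nat.add (Z a4 x0) (Z a3 x1)) (Z a1 x3)) (Z a0 x4)))) (Z a5 x)) (Z a x5)) (mo Y d
  (nat_lit 0)))

/-- compiled program -/
def b22_6q : Prog2 := fun Y Z d a x => (b22k8I a).1 ((b22k8X x).1 (b22_6b Y Z d a x))

/-- compiled program -/
def b22_7b (Y : Lay) (Z : Tb) (d a x : Nat)
    (x0 x1 x2 x3 x4 x5 x6 x7 a0 a1 a2 a3 a4 a5 a6 a7 : Nat) : Nat :=
  (fold (Nat.add (fold (Nat.add (Nat.add (Nat.add (Nat.mul (nat_lit 7) (Nat.add (Z a5 x0) (Z a0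
  x5))) (Nat.mul (nat_lit 8) (Nat.add (Z a3 x2) (Z a2 x3)))) (Z a6 x)) (Z a x6)) (mo Y d (nat_lit
  0))) (Nat.mul (nat_lit 3) (Nat.add (Z a4 x1) (Z a1 x4)))) (mo Y d (nat_lit 0)))

/-- compiled program -/
def b22_7q : Prog2 := fun Y Z d a x => (b22k8I a).1 ((b22k8X x).1 (b22_7b Y Z d a x))

/-- compiled program -/
def b22_8b (Y : Lay) (Z : Tb) (d a x : Nat)
    (x0 x1 x2 x3 x4 x5 x6 x7 a0 a1 a2 a3 a4 a5 a6 a7 : Nat) : Nat :=
  (fold (Nat.add (Nat.add (Nat.add (Nat.add (Nat.add (Nat.add (Nat.mul (nat_lit 2) (Nat.add (Z a4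
  x2) (Z a2 x4))) (Nat.mul (nat_lit 7) (Z a3 x3))) (Nat.mul (nat_lit 8) (Nat.add (Z a6 x0) (Z a0
  x6)))) (Z a7 x)) (Z a5 x1)) (Z a1 x5)) (Z a x7)) (mo Y d (nat_lit 0)))

/-- compiled program -/
def b22_8q : Prog2 := fun Y Z d a x => (b22k8I a).1 ((b22k8X x).1 (b22_8b Y Z d a x))

/-- keys -/
def b22k16I (c : Nat) :
    Bx ((Nat → Nat → Nat → Nat → Nat → Nat → Nat → Nat → Nat → Nat → Nat → Nat → Nat → Nat → Nat →
    Nat → Nat) → Nat) :=
  bx16 Nat c (nat_lit 2251799813685249) (nat_lit 4503599627370498) (nat_lit 6755399441055747)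
  (nat_lit 9007199254740996) (nat_lit 11258999068426245) (nat_lit 13510798882111494) (nat_lit
  15762598695796743) (nat_lit 18014398509481992) (nat_lit 20266198323167241) (nat_lit
  22517998136852490) (nat_lit 24769797950537739) (nat_lit 27021597764222988) (nat_lit
  29273397577908237) (nat_lit 31525197391593486) (nat_lit 33776997205278735) (nat_lit
  36028797018963984)

/-- keys -/
def b22k16X (c : Nat) :
    Bx ((Nat → Nat → Nat → Nat → Nat → Nat → Nat → Nat → Nat → Nat → Nat → Nat → Nat → Nat → Nat →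
    Nat → (Nat → Nat → Nat → Nat → Nat → Nat → Nat → Nat → Nat → Nat → Nat → Nat → Nat → Nat → Nat →
    Nat → Nat)) → (Nat → Nat → Nat → Nat → Nat → Nat → Nat → Nat → Nat → Nat → Nat → Nat → Nat → Nat
    → Nat → Nat → Nat)) :=
  bx16 (Nat → Nat → Nat → Nat → Nat → Nat → Nat → Nat → Nat → Nat → Nat → Nat → Nat → Nat → Nat →
  Nat → Nat) c (nat_lit 2251800082120704) (nat_lit 4503600164241408) (nat_lit 6755400246362112)
  (nat_lit 9007200328482816) (nat_lit 11259000410603520) (nat_lit 13510800492724224) (nat_lit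
  15762600574844928) (nat_lit 18014400656965632) (nat_lit 20266200739086336) (nat_lit
  22518000821207040) (nat_lit 24769800903327744) (nat_lit 27021600985448448) (nat_lit
  29273401067569152) (nat_lit 31525201149689856) (nat_lit 33777001231810560) (nat_lit
  36028801313931264)

/-- compiled program -/
def b22_9b (Y : Lay) (Z : Tb) (d a x : Nat)
    (x0 x1 x2 x3 x4 x5 x6 x7 x8 x9 x10 x11 x12 x13 x14 x15 a0 a1 a2 a3 a4 a5 a6 a7 a8 a9 a10 a11 a12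
    a13 a14 a15 : Nat) : Nat :=
  (fold (Nat.add (Nat.add (Nat.mul (nat_lit 3) (Nat.add (Z a5 x2) (Z a2 x5))) (Z a8 x)) (Z a x8))
  (mo Y d (nat_lit 0)))

/-- compiled program -/
def b22_9q : Prog2 := fun Y Z d a x => (b22k16I a).1 ((b22k16X x).1 (b22_9b Y Z d a x))

/-- compiled program -/
def b22_10b (Y : Lay) (Z : Tb) (d a x : Nat)
    (x0 x1 x2 x3 x4 x5 x6 x7 x8 x9 x10 x11 x12 x13 x14 x15 a0 a1 a2 a3 a4 a5 a6 a7 a8 a9 a10 a11 a12
    a13 a14 a15 : Nat) : Nat :=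
  (fold (Nat.add (Nat.add (Nat.add (Nat.add (Nat.mul (nat_lit 3) (Nat.add (Nat.add (Nat.add (Z a6
  x2) (Z a5 x3)) (Z a3 x5)) (Z a2 x6))) (Z a9 x)) (Z a8 x0)) (Z a0 x8)) (Z a x9)) (mo Y d (nat_lit
  0)))

/-- compiled program -/
def b22_10q : Prog2 := fun Y Z d a x => (b22k16I a).1 ((b22k16X x).1 (b22_10b Y Z d a x))

/-- compiled program -/
def b22_11b (Y : Lay) (Z : Tb) (d a x : Nat)
    (x0 x1 x2 x3 x4 x5 x6 x7 x8 x9 x10 x11 x12 x13 x14 x15 a0 a1 a2 a3 a4 a5 a6 a7 a8 a9 a10 a11 a12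
    a13 a14 a15 : Nat) : Nat :=
  (fold (Nat.add (Nat.add (Nat.add (Nat.add (Nat.add (Nat.add (Nat.mul (nat_lit 2) (Nat.add (Z a9
  x0) (Z a0 x9))) (Nat.mul (nat_lit 3) (Nat.add (Nat.add (Nat.add (Z a7 x2) (Z a5 x4)) (Z a4 x5)) (Z
  a2 x7)))) (Nat.mul (nat_lit 6) (Nat.add (Z a6 x3) (Z a3 x6)))) (Z a10 x)) (Z a8 x1)) (Z a1 x8)) (Z
  a x10)) (mo Y d (nat_lit 0)))

/-- compiled program -/
def b22_11q : Prog2 := fun Y Z d a x => (b22k16I a).1 ((b22k16X x).1 (b22_11b Y Z d a x))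

/-- compiled program -/
def b22_12b (Y : Lay) (Z : Tb) (d a x : Nat)
    (x0 x1 x2 x3 x4 x5 x6 x7 x8 x9 x10 x11 x12 x13 x14 x15 a0 a1 a2 a3 a4 a5 a6 a7 a8 a9 a10 a11 a12
    a13 a14 a15 : Nat) : Nat :=
  (fold (Nat.add (Nat.add (Nat.add (Nat.add (Nat.mul (nat_lit 3) (Nat.add (Nat.add (Nat.add (Z a10
  x0) (Z a9 x1)) (Z a1 x9)) (Z a0 x10))) (Nat.mul (nat_lit 4) (Nat.add (Z a8 x2) (Z a2 x8))))
  (Nat.mul (nat_lit 6) (Z a5 x5))) (Z a11 x)) (Z a x11)) (mo Y d (nat_lit 0)))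

/-- compiled program -/
def b22_12q : Prog2 := fun Y Z d a x => (b22k16I a).1 ((b22k16X x).1 (b22_12b Y Z d a x))

/-- compiled program -/
def b22_13b (Y : Lay) (Z : Tb) (d a x : Nat)
    (x0 x1 x2 x3 x4 x5 x6 x7 x8 x9 x10 x11 x12 x13 x14 x15 a0 a1 a2 a3 a4 a5 a6 a7 a8 a9 a10 a11 a12
    a13 a14 a15 : Nat) : Nat :=
  (fold (Nat.add (Nat.add (fold (Nat.add (Nat.add (Nat.mul (nat_lit 6) (Nat.add (Nat.add (Nat.add (Z
  a10 x1) (Z a6 x5)) (Z a5 x6)) (Z a1 x10))) (Z a12 x)) (Z a x12)) (mo Y d (nat_lit 0))) (Nat.mul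
  (nat_lit 4) (Nat.add (Nat.add (Nat.add (Z a11 x0) (Z a8 x3)) (Z a3 x8)) (Z a0 x11)))) (Nat.mul
  (nat_lit 7) (Nat.add (Z a9 x2) (Z a2 x9)))) (mo Y d (nat_lit 0)))

/-- compiled program -/
def b22_13q : Prog2 := fun Y Z d a x => (b22k16I a).1 ((b22k16X x).1 (b22_13b Y Z d a x))

/-- compiled program -/
def b22_14b (Y : Lay) (Z : Tb) (d a x : Nat)
    (x0 x1 x2 x3 x4 x5 x6 x7 x8 x9 x10 x11 x12 x13 x14 x15 a0 a1 a2 a3 a4 a5 a6 a7 a8 a9 a10 a11 a12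
    a13 a14 a15 : Nat) : Nat :=
  (fold (Nat.add (Nat.add (Nat.add (Nat.add (Nat.add (Nat.add (fold (Nat.add (Nat.add (Nat.mul
  (nat_lit 2) (Nat.add (Z a9 x3) (Z a3 x9))) (Nat.mul (nat_lit 4) (Nat.add (Nat.add (Nat.add (Z a10
  x2) (Z a8 x4)) (Z a4 x8)) (Z a2 x10)))) (Nat.mul (nat_lit 6) (Nat.add (Z a7 x5) (Z a5 x7)))) (mo Y
  d (nat_lit 0))) (Nat.mul (nat_lit 3) (Z a6 x6))) (Nat.mul (nat_lit 5) (Nat.add (Z a12 x0) (Z a0
  x12)))) (Z a13 x)) (Z a11 x1)) (Z a1 x11)) (Z a x13)) (mo Y d (nat_lit 0)))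

/-- compiled program -/
def b22_14q : Prog2 := fun Y Z d a x => (b22k16I a).1 ((b22k16X x).1 (b22_14b Y Z d a x))

/-- compiled program -/
def b22_15b (Y : Lay) (Z : Tb) (d a x : Nat)
    (x0 x1 x2 x3 x4 x5 x6 x7 x8 x9 x10 x11 x12 x13 x14 x15 a0 a1 a2 a3 a4 a5 a6 a7 a8 a9 a10 a11 a12
    a13 a14 a15 : Nat) : Nat :=
  (fold (Nat.add (Nat.add (Nat.add (Nat.add (Nat.mul (nat_lit 8) (fold (Nat.add (Nat.mul (nat_lit 3)
  (Nat.add (Nat.add (Nat.add (Nat.add (Nat.add (Nat.add (Nat.add (Z a13 x0) (Z a12 x1)) (Z a10 x3))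
  (Z a9 x4)) (Z a4 x9)) (Z a3 x10)) (Z a1 x12)) (Z a0 x13))) (Nat.mul (nat_lit 4) (Nat.add (Z a11
  x2) (Z a2 x11)))) (mo Y d (nat_lit 0)))) (Z a14 x)) (Z a8 x5)) (Z a5 x8)) (Z a x14)) (mo Y d
  (nat_lit 0)))

/-- compiled program -/
def b22_15q : Prog2 := fun Y Z d a x => (b22k16I a).1 ((b22k16X x).1 (b22_15b Y Z d a x))

/-- compiled program -/
def b22_16b (Y : Lay) (Z : Tb) (d a x : Nat)
    (x0 x1 x2 x3 x4 x5 x6 x7 x8 x9 x10 x11 x12 x13 x14 x15 a0 a1 a2 a3 a4 a5 a6 a7 a8 a9 a10 a11 a12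
    a13 a14 a15 : Nat) : Nat :=
  (fold (Nat.add (Nat.add (fold (Nat.add (Nat.add (Nat.add (Nat.add (Nat.mul (nat_lit 7) (Nat.add
  (Nat.add (Nat.add (Z a14 x0) (Z a9 x5)) (Z a5 x9)) (Z a0 x14))) (Z a15 x)) (Z a8 x6)) (Z a6 x8))
  (Z a x15)) (mo Y d (nat_lit 0))) (Nat.mul (nat_lit 2) (Nat.add (Nat.add (Nat.add (Z a12 x2) (Z a11
  x3)) (Z a3 x11)) (Z a2 x12)))) (Nat.mul (nat_lit 3) (Nat.add (Nat.add (Nat.add (Z a13 x1) (Z a10
  x4)) (Z a4 x10)) (Z a1 x13)))) (mo Y d (nat_lit 0)))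

/-- compiled program -/
def b22_16q : Prog2 := fun Y Z d a x => (b22k16I a).1 ((b22k16X x).1 (b22_16b Y Z d a x))

/-- keys -/
def b22k24I (c : Nat) :
    Bx ((Nat → Nat → Nat → Nat → Nat → Nat → Nat → Nat → Nat → Nat → Nat → Nat → Nat → Nat → Nat →
    Nat → Nat → Nat → Nat → Nat → Nat → Nat → Nat → Nat) → Nat) :=
  bx23 Nat c (nat_lit 2251799813685249) (nat_lit 4503599627370498) (nat_lit 6755399441055747)
  (nat_lit 9007199254740996) (nat_lit 11258999068426245) (nat_lit 13510798882111494) (nat_lit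
  15762598695796743) (nat_lit 18014398509481992) (nat_lit 20266198323167241) (nat_lit
  22517998136852490) (nat_lit 24769797950537739) (nat_lit 27021597764222988) (nat_lit
  29273397577908237) (nat_lit 31525197391593486) (nat_lit 33776997205278735) (nat_lit
  36028797018963984) (nat_lit 38280596832649233) (nat_lit 40532396646334482) (nat_lit
  42784196460019731) (nat_lit 45035996273704980) (nat_lit 47287796087390229) (nat_lit
  49539595901075478) (nat_lit 51791395714760727)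

/-- keys -/
def b22k24X (c : Nat) :
    Bx ((Nat → Nat → Nat → Nat → Nat → Nat → Nat → Nat → Nat → Nat → Nat → Nat → Nat → Nat → Nat →
    Nat → Nat → Nat → Nat → Nat → Nat → Nat → Nat → (Nat → Nat → Nat → Nat → Nat → Nat → Nat → Nat →
    Nat → Nat → Nat → Nat → Nat → Nat → Nat → Nat → Nat → Nat → Nat → Nat → Nat → Nat → Nat → Nat))
    → (Nat → Nat → Nat → Nat → Nat → Nat → Nat → Nat → Nat → Nat → Nat → Nat → Nat → Nat → Nat → Nat
    → Nat → Nat → Nat → Nat → Nat → Nat → Nat → Nat)) :=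
  bx23 (Nat → Nat → Nat → Nat → Nat → Nat → Nat → Nat → Nat → Nat → Nat → Nat → Nat → Nat → Nat →
  Nat → Nat → Nat → Nat → Nat → Nat → Nat → Nat → Nat) c (nat_lit 2251800082120704) (nat_lit
  4503600164241408) (nat_lit 6755400246362112) (nat_lit 9007200328482816) (nat_lit
  11259000410603520) (nat_lit 13510800492724224) (nat_lit 15762600574844928) (nat_lit
  18014400656965632) (nat_lit 20266200739086336) (nat_lit 22518000821207040) (nat_lit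
  24769800903327744) (nat_lit 27021600985448448) (nat_lit 29273401067569152) (nat_lit
  31525201149689856) (nat_lit 33777001231810560) (nat_lit 36028801313931264) (nat_lit
  38280601396051968) (nat_lit 40532401478172672) (nat_lit 42784201560293376) (nat_lit
  45036001642414080) (nat_lit 47287801724534784) (nat_lit 49539601806655488) (nat_lit
  51791401888776192)

/-- compiled program -/
def b22_17b (Y : Lay) (Z : Tb) (d a x : Nat)
    (x0 x1 x2 x3 x4 x5 x6 x7 x8 x9 x10 x11 x12 x13 x14 x15 x16 x17 x18 x19 x20 x21 x22 a0 a1 a2 a3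
    a4 a5 a6 a7 a8 a9 a10 a11 a12 a13 a14 a15 a16 a17 a18 a19 a20 a21 a22 : Nat) : Nat :=
  (fold (Nat.add (Nat.add (Nat.add (Nat.add (Nat.add (Nat.add (Nat.add (Nat.add (Nat.add (Nat.mul
  (nat_lit 8) (fold (Nat.add (Nat.add (Nat.add (Nat.add (Nat.mul (nat_lit 4) (Nat.add (Nat.add
  (Nat.add (Z a13 x2) (Z a11 x4)) (Z a4 x11)) (Z a2 x13))) (Z a15 x0)) (Z a9 x6)) (Z a6 x9)) (Z a0
  x15)) (mo Y d (nat_lit 0)))) (Nat.mul (nat_lit 4) (Nat.add (Z a12 x3) (Z a3 x12)))) (Z a16 x)) (Z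
  a14 x1)) (Z a10 x5)) (Z a8 x7)) (Z a7 x8)) (Z a5 x10)) (Z a1 x14)) (Z a x16)) (mo Y d (nat_lit
  0)))

/-- compiled program -/
def b22_17q : Prog2 := fun Y Z d a x => (b22k24I a).1 ((b22k24X x).1 (b22_17b Y Z d a x))

/-- compiled program -/
def b22_18b (Y : Lay) (Z : Tb) (d a x : Nat)
    (x0 x1 x2 x3 x4 x5 x6 x7 x8 x9 x10 x11 x12 x13 x14 x15 x16 x17 x18 x19 x20 x21 x22 a0 a1 a2 a3
    a4 a5 a6 a7 a8 a9 a10 a11 a12 a13 a14 a15 a16 a17 a18 a19 a20 a21 a22 : Nat) : Nat :=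
  (fold (Nat.add (Nat.add (Nat.add (Nat.mul (nat_lit 2) (Z a8 x8)) (Nat.mul (nat_lit 6) (Nat.add
  (Nat.add (Nat.add (Z a14 x2) (Z a11 x5)) (Z a5 x11)) (Z a2 x14)))) (Z a17 x)) (Z a x17)) (mo Y d
  (nat_lit 0)))

/-- compiled program -/
def b22_18q : Prog2 := fun Y Z d a x => (b22k24I a).1 ((b22k24X x).1 (b22_18b Y Z d a x))

/-- compiled program -/
def b22_19b (Y : Lay) (Z : Tb) (d a x : Nat)
    (x0 x1 x2 x3 x4 x5 x6 x7 x8 x9 x10 x11 x12 x13 x14 x15 x16 x17 x18 x19 x20 x21 x22 a0 a1 a2 a3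
    a4 a5 a6 a7 a8 a9 a10 a11 a12 a13 a14 a15 a16 a17 a18 a19 a20 a21 a22 : Nat) : Nat :=
  (fold (Nat.add (Nat.add (Nat.add (Nat.add (Nat.add (Nat.mul (nat_lit 6) (fold (Nat.add (Nat.add
  (Nat.add (Nat.add (Nat.add (Nat.add (Nat.add (Z a15 x2) (Z a14 x3)) (Z a12 x5)) (Z a11 x6)) (Z a6
  x11)) (Z a5 x12)) (Z a3 x14)) (Z a2 x15)) (mo Y d (nat_lit 0)))) (Nat.mul (nat_lit 2) (Nat.add (Z
  a9 x8) (Z a8 x9)))) (Z a18 x)) (Z a17 x0)) (Z a0 x17)) (Z a x18)) (mo Y d (nat_lit 0)))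

/-- compiled program -/
def b22_19q : Prog2 := fun Y Z d a x => (b22k24I a).1 ((b22k24X x).1 (b22_19b Y Z d a x))

/-- compiled program -/
def b22_20b (Y : Lay) (Z : Tb) (d a x : Nat)
    (x0 x1 x2 x3 x4 x5 x6 x7 x8 x9 x10 x11 x12 x13 x14 x15 x16 x17 x18 x19 x20 x21 x22 a0 a1 a2 a3
    a4 a5 a6 a7 a8 a9 a10 a11 a12 a13 a14 a15 a16 a17 a18 a19 a20 a21 a22 : Nat) : Nat :=
  (fold (Nat.add (Nat.add (fold (Nat.add (Nat.add (Nat.add (Nat.add (Nat.add (Nat.mul (nat_lit 6)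
  (fold (Nat.add (Nat.add (Nat.add (Nat.add (Nat.add (Nat.add (Nat.add (Z a16 x2) (Z a14 x4)) (Z a13
  x5)) (Z a11 x7)) (Z a7 x11)) (Z a5 x13)) (Z a4 x14)) (Z a2 x16)) (mo Y d (nat_lit 0)))) (Nat.mul
  (nat_lit 2) (Nat.add (Nat.add (Nat.add (Z a18 x0) (Z a10 x8)) (Z a8 x10)) (Z a0 x18)))) (Nat.mul
  (nat_lit 3) (Nat.add (Nat.add (Nat.add (Z a15 x3) (Z a12 x6)) (Z a6 x12)) (Z a3 x15)))) (Nat.mul
  (nat_lit 4) (Z a9 x9))) (Z a19 x)) (Z a17 x1)) (mo Y d (nat_lit 0))) (Z a1 x17)) (Z a x19)) (mo Y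
  d (nat_lit 0)))

/-- compiled program -/
def b22_20q : Prog2 := fun Y Z d a x => (b22k24I a).1 ((b22k24X x).1 (b22_20b Y Z d a x))

/-- compiled program -/
def b22_21b (Y : Lay) (Z : Tb) (d a x : Nat)
    (x0 x1 x2 x3 x4 x5 x6 x7 x8 x9 x10 x11 x12 x13 x14 x15 x16 x17 x18 x19 x20 x21 x22 a0 a1 a2 a3
    a4 a5 a6 a7 a8 a9 a10 a11 a12 a13 a14 a15 a16 a17 a18 a19 a20 a21 a22 : Nat) : Nat :=
  (fold (Nat.add (Nat.add (Nat.add (Nat.mul (nat_lit 8) (fold (Nat.add (Nat.add (Nat.add (Nat.mul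
  (nat_lit 2) (Nat.add (Z a17 x2) (Z a2 x17))) (Nat.mul (nat_lit 3) (Nat.add (Z a10 x9) (Z a9
  x10)))) (Z a11 x8)) (Z a8 x11)) (mo Y d (nat_lit 0)))) (Nat.mul (nat_lit 3) (Nat.add (Nat.add
  (Nat.add (Nat.add (Nat.add (Z a19 x0) (Z a18 x1)) (Z a14 x5)) (Z a5 x14)) (Z a1 x18)) (Z a0
  x19)))) (Z a20 x)) (Z a x20)) (mo Y d (nat_lit 0)))

/-- compiled program -/
def b22_21q : Prog2 := fun Y Z d a x => (b22k24I a).1 ((b22k24X x).1 (b22_21b Y Z d a x))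

/-- compiled program -/
def b22_22b (Y : Lay) (Z : Tb) (d a x : Nat)
    (x0 x1 x2 x3 x4 x5 x6 x7 x8 x9 x10 x11 x12 x13 x14 x15 x16 x17 x18 x19 x20 x21 x22 a0 a1 a2 a3
    a4 a5 a6 a7 a8 a9 a10 a11 a12 a13 a14 a15 a16 a17 a18 a19 a20 a21 a22 : Nat) : Nat :=
  (fold (Nat.add (Nat.add (Nat.add (fold (Nat.add (Nat.add (Nat.add (Nat.mul (nat_lit 8) (fold
  (Nat.add (Nat.add (Nat.add (Nat.add (Nat.mul (nat_lit 2) (Nat.add (Z a17 x3) (Z a3 x17))) (Nat.mul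
  (nat_lit 3) (Nat.add (Z a19 x1) (Z a1 x19)))) (Nat.mul (nat_lit 4) (Nat.add (Z a11 x9) (Z a9
  x11)))) (Z a12 x8)) (Z a8 x12)) (mo Y d (nat_lit 0)))) (Nat.mul (nat_lit 3) (Nat.add (Nat.add
  (Nat.add (Nat.add (Z a15 x5) (Z a14 x6)) (Z a10 x10)) (Z a6 x14)) (Z a5 x15)))) (Nat.mul (nat_lit
  4) (Nat.add (Z a20 x0) (Z a0 x20)))) (Z a21 x)) (mo Y d (nat_lit 0))) (Z a18 x2)) (Z a2 x18)) (Z a
  x21)) (mo Y d (nat_lit 0)))

/-- compiled program -/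
def b22_22q : Prog2 := fun Y Z d a x => (b22k24I a).1 ((b22k24X x).1 (b22_22b Y Z d a x))

/-- compiled program -/
def b22_23b (Y : Lay) (Z : Tb) (d a x : Nat)
    (x0 x1 x2 x3 x4 x5 x6 x7 x8 x9 x10 x11 x12 x13 x14 x15 x16 x17 x18 x19 x20 x21 x22 a0 a1 a2 a3
    a4 a5 a6 a7 a8 a9 a10 a11 a12 a13 a14 a15 a16 a17 a18 a19 a20 a21 a22 : Nat) : Nat :=
  (fold (Nat.add (Nat.add (Nat.add (Nat.add (Nat.add (Nat.add (Nat.mul (nat_lit 8) (fold (Nat.add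
  (Nat.add (Nat.add (Nat.add (Nat.add (Nat.add (Nat.add (Nat.add (Nat.mul (nat_lit 2) (Nat.add
  (Nat.add (Nat.add (Z a19 x2) (Z a17 x4)) (Z a4 x17)) (Z a2 x19))) (Nat.mul (nat_lit 3) (Nat.add (Z
  a15 x6) (Z a6 x15)))) (Nat.mul (nat_lit 4) (Nat.add (Z a21 x0) (Z a0 x21)))) (Z a18 x3)) (Z a13
  x8)) (Z a11 x10)) (Z a10 x11)) (Z a8 x13)) (Z a3 x18)) (mo Y d (nat_lit 0)))) (Nat.mul (nat_lit 3)
  (Nat.add (Nat.add (Nat.add (Z a16 x5) (Z a14 x7)) (Z a7 x14)) (Z a5 x16)))) (Nat.mul (nat_lit 4)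
  (Nat.add (Z a12 x9) (Z a9 x12)))) (Z a22 x)) (Z a20 x1)) (Z a1 x20)) (Z a x22)) (mo Y d (nat_lit
  0)))

/-- compiled program -/
def b22_23q : Prog2 := fun Y Z d a x => (b22k24I a).1 ((b22k24X x).1 (b22_23b Y Z d a x))

/-- compiled programs -/
def b22q : List Prog2 :=
  [zero2, b22_1q, b22_2q, b22_3q, b22_4q, b22_5q, b22_6q, b22_7q, b22_8q, b22_9q, b22_10q, b22_11q,
  b22_12q, b22_13q, b22_14q, b22_15q, b22_16q, b22_17q, b22_18q, b22_19q, b22_20q, b22_21q, b22_22q,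
  b22_23q]

/-- keys -/
def b33k1I (c : Nat) :
    Bx ((Nat → Nat) → Nat) :=
  bx1 Nat c (nat_lit 7318349394477184)

/-- keys -/
def b33k1X (c : Nat) :
    Bx ((Nat → (Nat → Nat)) → (Nat → Nat)) :=
  bx1 (Nat → Nat) c (nat_lit 7318383754215424)

/-- compiled program -/
def b33_1b (Y : Lay) (Z : Tb) (d a x : Nat)
    (x0 a0 : Nat) : Nat :=
  (fold (Nat.add (Z a0 x) (Z a x0)) (mo Y d (nat_lit 0)))

/-- compiled program -/
def b33_1q : Prog2 := fun Y Z d a x => (b33k1I a).1 ((b33k1X x).1 (b33_1b Y Z d a x))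

/-- keys -/
def b33k2I (c : Nat) :
    Bx ((Nat → Nat → Nat) → Nat) :=
  bx2 Nat c (nat_lit 7318349394477184) (nat_lit 14636698788954368)

/-- keys -/
def b33k2X (c : Nat) :
    Bx ((Nat → Nat → (Nat → Nat → Nat)) → (Nat → Nat → Nat)) :=
  bx2 (Nat → Nat → Nat) c (nat_lit 7318383754215424) (nat_lit 14636767508430848)

/-- compiled program -/
def b33_2b (Y : Lay) (Z : Tb) (d a x : Nat)
    (x0 x1 a0 a1 : Nat) : Nat :=
  (fold (Nat.add (Nat.add (Nat.mul (nat_lit 2) (Z a0 x0)) (Z a1 x)) (Z a x1)) (mo Y d (nat_lit 0)))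

/-- compiled program -/
def b33_2q : Prog2 := fun Y Z d a x => (b33k2I a).1 ((b33k2X x).1 (b33_2b Y Z d a x))

/-- keys -/
def b33k4I (c : Nat) :
    Bx ((Nat → Nat → Nat → Nat → Nat) → Nat) :=
  bx4 Nat c (nat_lit 7318349394477184) (nat_lit 14636698788954368) (nat_lit 21955048183431552)
  (nat_lit 29273397577908736)

/-- keys -/
def b33k4X (c : Nat) :
    Bx ((Nat → Nat → Nat → Nat → (Nat → Nat → Nat → Nat → Nat)) → (Nat → Nat → Nat → Nat → Nat)) :=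
  bx4 (Nat → Nat → Nat → Nat → Nat) c (nat_lit 7318383754215424) (nat_lit 14636767508430848)
  (nat_lit 21955151262646272) (nat_lit 29273535016861696)

/-- compiled program -/
def b33_3b (Y : Lay) (Z : Tb) (d a x : Nat)
    (x0 x1 x2 x3 a0 a1 a2 a3 : Nat) : Nat :=
  (fold (Nat.add (Nat.add (Nat.mul (nat_lit 3) (Nat.add (Z a1 x0) (Z a0 x1))) (Z a2 x)) (Z a x2))
  (mo Y d (nat_lit 0)))

/-- compiled program -/
def b33_3q : Prog2 := fun Y Z d a x => (b33k4I a).1 ((b33k4X x).1 (b33_3b Y Z d a x))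

/-- compiled program -/
def b33_4b (Y : Lay) (Z : Tb) (d a x : Nat)
    (x0 x1 x2 x3 a0 a1 a2 a3 : Nat) : Nat :=
  (fold (Nat.add (Nat.add (Nat.add (Nat.mul (nat_lit 4) (Nat.add (Z a2 x0) (Z a0 x2))) (Nat.mul
  (nat_lit 6) (Z a1 x1))) (Z a3 x)) (Z a x3)) (mo Y d (nat_lit 0)))

/-- compiled program -/
def b33_4q : Prog2 := fun Y Z d a x => (b33k4I a).1 ((b33k4X x).1 (b33_4b Y Z d a x))

/-- keys -/
def b33k8I (c : Nat) :
    Bx ((Nat → Nat → Nat → Nat → Nat → Nat → Nat → Nat) → Nat) :=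
  bx7 Nat c (nat_lit 7318349394477184) (nat_lit 14636698788954368) (nat_lit 21955048183431552)
  (nat_lit 29273397577908736) (nat_lit 36591746972385920) (nat_lit 43910096366863104) (nat_lit
  51228445761340288)

/-- keys -/
def b33k8X (c : Nat) :
    Bx ((Nat → Nat → Nat → Nat → Nat → Nat → Nat → (Nat → Nat → Nat → Nat → Nat → Nat → Nat → Nat))
    → (Nat → Nat → Nat → Nat → Nat → Nat → Nat → Nat)) :=
  bx7 (Nat → Nat → Nat → Nat → Nat → Nat → Nat → Nat) c (nat_lit 7318383754215424) (nat_lit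
  14636767508430848) (nat_lit 21955151262646272) (nat_lit 29273535016861696) (nat_lit
  36591918771077120) (nat_lit 43910302525292544) (nat_lit 51228686279507968)

/-- compiled program -/
def b33_5b (Y : Lay) (Z : Tb) (d a x : Nat)
    (x0 x1 x2 x3 x4 x5 x6 a0 a1 a2 a3 a4 a5 a6 : Nat) : Nat :=
  (fold (Nat.add (Nat.add (Nat.add (Nat.add (Nat.mul (nat_lit 5) (Nat.add (Z a3 x0) (Z a0 x3))) (Z
  a4 x)) (Z a2 x1)) (Z a1 x2)) (Z a x4)) (mo Y d (nat_lit 0)))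

/-- compiled program -/
def b33_5q : Prog2 := fun Y Z d a x => (b33k8I a).1 ((b33k8X x).1 (b33_5b Y Z d a x))

/-- compiled program -/
def b33_6b (Y : Lay) (Z : Tb) (d a x : Nat)
    (x0 x1 x2 x3 x4 x5 x6 a0 a1 a2 a3 a4 a5 a6 : Nat) : Nat :=
  (fold (Nat.add (Nat.add (Nat.add (Nat.mul (nat_lit 2) (Z a2 x2)) (Nat.mul (nat_lit 6) (Nat.add
  (Nat.add (Nat.add (Z a4 x0) (Z a3 x1)) (Z a1 x3)) (Z a0 x4)))) (Z a5 x)) (Z a x5)) (mo Y d
  (nat_lit 0)))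

/-- compiled program -/
def b33_6q : Prog2 := fun Y Z d a x => (b33k8I a).1 ((b33k8X x).1 (b33_6b Y Z d a x))

/-- compiled program -/
def b33_7b (Y : Lay) (Z : Tb) (d a x : Nat)
    (x0 x1 x2 x3 x4 x5 x6 a0 a1 a2 a3 a4 a5 a6 : Nat) : Nat :=
  (fold (Nat.add (fold (Nat.add (Nat.add (Nat.add (Nat.mul (nat_lit 7) (Nat.add (Z a5 x0) (Z a0
  x5))) (Nat.mul (nat_lit 8) (Nat.add (Z a3 x2) (Z a2 x3)))) (Z a6 x)) (Z a x6)) (mo Y d (nat_lit
  0))) (Nat.mul (nat_lit 3) (Nat.add (Z a4 x1) (Z a1 x4)))) (mo Y d (nat_lit 0)))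

/-- compiled program -/
def b33_7q : Prog2 := fun Y Z d a x => (b33k8I a).1 ((b33k8X x).1 (b33_7b Y Z d a x))

/-- compiled programs -/
def b33q : List Prog2 :=
  [zero2, b33_1q, b33_2q, b33_3q, b33_4q, b33_5q, b33_6q, b33_7q]

/-- keys -/
def b44k1I (c : Nat) :
    Bx ((Nat → Nat) → Nat) :=
  bx1 Nat c (nat_lit 22517998136868864)

/-- keys -/
def b44k1X (c : Nat) :
    Bx ((Nat → (Nat → Nat)) → (Nat → Nat)) :=
  bx1 (Nat → Nat) c (nat_lit 22522396183363584)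

/-- compiled program -/
def b44_1b (Y : Lay) (Z : Tb) (d a x : Nat)
    (x0 a0 : Nat) : Nat :=
  (fold (Nat.add (Z a0 x) (Z a x0)) (mo Y d (nat_lit 0)))

/-- compiled program -/
def b44_1q : Prog2 := fun Y Z d a x => (b44k1I a).1 ((b44k1X x).1 (b44_1b Y Z d a x))

/-- keys -/
def b44k2I (c : Nat) :
    Bx ((Nat → Nat → Nat) → Nat) :=
  bx2 Nat c (nat_lit 22517998136868864) (nat_lit 45035996273737728)

/-- keys -/
def b44k2X (c : Nat) :
    Bx ((Nat → Nat → (Nat → Nat → Nat)) → (Nat → Nat → Nat)) :=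
  bx2 (Nat → Nat → Nat) c (nat_lit 22522396183363584) (nat_lit 45044792366727168)

/-- compiled program -/
def b44_2b (Y : Lay) (Z : Tb) (d a x : Nat)
    (x0 x1 a0 a1 : Nat) : Nat :=
  (fold (Nat.add (Nat.add (Nat.mul (nat_lit 2) (Z a0 x0)) (Z a1 x)) (Z a x1)) (mo Y d (nat_lit 0)))

/-- compiled program -/
def b44_2q : Prog2 := fun Y Z d a x => (b44k2I a).1 ((b44k2X x).1 (b44_2b Y Z d a x))

/-- compiled programs -/
def b44q : List Prog2 :=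
  [zero2, b44_1q, b44_2q]

end Vale.Agent.P236X
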