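import Vale.Agent.P236X.QA
import Vale.Agent.P236X.QB
import Vale.Agent.P236X.Q13
import Vale.Agent.P236X.Q10
import Vale.Agent.P236X.Q5
import Vale.Agent.P236X.Q4

/-!
# P236 / X : the programs with two keys
-/

noncomputable section

namespace Vale.Agent.P236X

/-- the programs for `N = 13`, `a = 2` -/
def C13 : Prg2 :=
  ⟨g3cq, g4cq, w4_13q, w3_13q, w2cq, w1_13q, b44q, b34cq, b33q, b24_13q, b23cq, b22q, b14_13q, b13_13q, b12cq, b11q⟩

/-- the programs for `N = 10`, `a = 2` -/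
def C10 : Prg2 :=
  ⟨g3cq, g4cq, w4_10q, w3_13q, w2cq, w1_10q, b44q, b34cq, b33q, b24_13q, b23cq, b22q, b14_10q, b13_13q, b12cq, b11q⟩

/-- the programs for `N = 5`, `a = 2` -/
def C5 : Prg2 :=
  ⟨g3cq, g4cq, w4_5q, w3_5q, w2cq, w1_5q, b44q, b34cq, b33q, b24_13q, b23cq, b22q, b14_5q, b13_13q, b12cq, b11q⟩

/-- the programs for `N = 4`, `a = 2` -/
def C4 : Prg2 :=
  ⟨g3cq, g4cq, w4_4q, w3_4q, w2cq, w1_4q, b44q, b34cq, b33q, b24_4q, b23cq, b22q, b14_4q, b13_4q, b12cq, b11q⟩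

end Vale.Agent.P236X
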