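import Vale.Agent.P236X.Bxn

/-!
# P236 / X : compiled programs with two keys (QA)
-/

set_option linter.unusedVariables false

noncomputable section

namespace Vale.Agent.P236X

/-- keys -/
def b11k4X (c : Nat) :
    Bx ((Nat → Nat → Nat → Nat → Nat) → Nat) :=
  bx4 Nat c (nat_lit 562949955518464) (nat_lit 1125899911036928) (nat_lit 1688849866555392) (nat_lit
  2251799822073856)

/-- compiled program -/
def b11_1b (Y : Lay) (Z : Tb) (d a x : Nat)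
    (x0 x1 x2 x3 : Nat) : Nat :=
  (fold (Nat.add (Z a x0) (Z a x)) (mo Y d (nat_lit 0)))

/-- compiled program -/
def b11_1q : Prog2 := fun Y Z d a x => (b11k4X x).1 (b11_1b Y Z d a x)

/-- compiled program -/
def b11_2b (Y : Lay) (Z : Tb) (d a x : Nat)
    (x0 x1 x2 x3 : Nat) : Nat :=
  (fold (Nat.add (Nat.add (Nat.mul (nat_lit 2) (Z a x0)) (Z a x1)) (Z a x)) (mo Y d (nat_lit 0)))

/-- compiled program -/
def b11_2q : Prog2 := fun Y Z d a x => (b11k4X x).1 (b11_2b Y Z d a x)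

/-- compiled program -/
def b11_3b (Y : Lay) (Z : Tb) (d a x : Nat)
    (x0 x1 x2 x3 : Nat) : Nat :=
  (fold (Nat.add (Nat.add (Nat.mul (nat_lit 3) (Nat.add (Z a x1) (Z a x0))) (Z a x2)) (Z a x)) (mo Y
  d (nat_lit 0)))

/-- compiled program -/
def b11_3q : Prog2 := fun Y Z d a x => (b11k4X x).1 (b11_3b Y Z d a x)

/-- compiled program -/
def b11_4b (Y : Lay) (Z : Tb) (d a x : Nat)
    (x0 x1 x2 x3 : Nat) : Nat :=
  (fold (Nat.add (Nat.add (Nat.add (Nat.mul (nat_lit 6) (Z a x1)) (Z a x3)) (Nat.mul (nat_lit 4)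
  (Nat.add (Z a x2) (Z a x0)))) (Z a x)) (mo Y d (nat_lit 0)))

/-- compiled program -/
def b11_4q : Prog2 := fun Y Z d a x => (b11k4X x).1 (b11_4b Y Z d a x)

/-- keys -/
def b11k8X (c : Nat) :
    Bx ((Nat → Nat → Nat → Nat → Nat → Nat → Nat → Nat → Nat) → Nat) :=
  bx8 Nat c (nat_lit 562949955518464) (nat_lit 1125899911036928) (nat_lit 1688849866555392) (nat_lit
  2251799822073856) (nat_lit 2814749777592320) (nat_lit 3377699733110784) (nat_lit 3940649688629248)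
  (nat_lit 4503599644147712)

/-- compiled program -/
def b11_5b (Y : Lay) (Z : Tb) (d a x : Nat)
    (x0 x1 x2 x3 x4 x5 x6 x7 : Nat) : Nat :=
  (fold (Nat.add (Nat.add (Nat.add (Nat.add (Z a x4) (Z a x2)) (Z a x1)) (Nat.mul (nat_lit 5)
  (Nat.add (Z a x3) (Z a x0)))) (Z a x)) (mo Y d (nat_lit 0)))

/-- compiled program -/
def b11_5q : Prog2 := fun Y Z d a x => (b11k8X x).1 (b11_5b Y Z d a x)

/-- compiled program -/
def b11_6b (Y : Lay) (Z : Tb) (d a x : Nat)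
    (x0 x1 x2 x3 x4 x5 x6 x7 : Nat) : Nat :=
  (fold (Nat.add (Nat.add (Nat.add (Nat.mul (nat_lit 2) (Z a x2)) (Z a x5)) (Nat.mul (nat_lit 6)
  (Nat.add (Nat.add (Nat.add (Z a x4) (Z a x3)) (Z a x1)) (Z a x0)))) (Z a x)) (mo Y d (nat_lit 0)))

/-- compiled program -/
def b11_6q : Prog2 := fun Y Z d a x => (b11k8X x).1 (b11_6b Y Z d a x)

/-- compiled program -/
def b11_7b (Y : Lay) (Z : Tb) (d a x : Nat)
    (x0 x1 x2 x3 x4 x5 x6 x7 : Nat) : Nat :=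
  (fold (Nat.add (fold (Nat.add (Nat.add (Nat.add (Nat.mul (nat_lit 8) (Nat.add (Z a x3) (Z a x2)))
  (Z a x6)) (Nat.mul (nat_lit 7) (Nat.add (Z a x5) (Z a x0)))) (Z a x)) (mo Y d (nat_lit 0)))
  (Nat.mul (nat_lit 3) (Nat.add (Z a x4) (Z a x1)))) (mo Y d (nat_lit 0)))

/-- compiled program -/
def b11_7q : Prog2 := fun Y Z d a x => (b11k8X x).1 (b11_7b Y Z d a x)

/-- compiled program -/
def b11_8b (Y : Lay) (Z : Tb) (d a x : Nat)
    (x0 x1 x2 x3 x4 x5 x6 x7 : Nat) : Nat :=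
  (fold (Nat.add (Nat.add (Nat.add (Nat.add (Nat.add (Nat.add (Z a x7) (Z a x5)) (Nat.mul (nat_lit
  7) (Z a x3))) (Nat.mul (nat_lit 2) (Nat.add (Z a x4) (Z a x2)))) (Z a x1)) (Nat.mul (nat_lit 8)
  (Nat.add (Z a x6) (Z a x0)))) (Z a x)) (mo Y d (nat_lit 0)))

/-- compiled program -/
def b11_8q : Prog2 := fun Y Z d a x => (b11k8X x).1 (b11_8b Y Z d a x)

/-- keys -/
def b11k16X (c : Nat) :
    Bx ((Nat → Nat → Nat → Nat → Nat → Nat → Nat → Nat → Nat → Nat → Nat → Nat → Nat → Nat → Nat →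
    Nat → Nat) → Nat) :=
  bx16 Nat c (nat_lit 562949955518464) (nat_lit 1125899911036928) (nat_lit 1688849866555392)
  (nat_lit 2251799822073856) (nat_lit 2814749777592320) (nat_lit 3377699733110784) (nat_lit
  3940649688629248) (nat_lit 4503599644147712) (nat_lit 5066549599666176) (nat_lit 5629499555184640)
  (nat_lit 6192449510703104) (nat_lit 6755399466221568) (nat_lit 7318349421740032) (nat_lit
  7881299377258496) (nat_lit 8444249332776960) (nat_lit 9007199288295424)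

/-- compiled program -/
def b11_9b (Y : Lay) (Z : Tb) (d a x : Nat)
    (x0 x1 x2 x3 x4 x5 x6 x7 x8 x9 x10 x11 x12 x13 x14 x15 : Nat) : Nat :=
  (fold (Nat.add (Nat.add (Nat.mul (nat_lit 3) (Nat.add (Z a x5) (Z a x2))) (Z a x8)) (Z a x)) (mo Y
  d (nat_lit 0)))

/-- compiled program -/
def b11_9q : Prog2 := fun Y Z d a x => (b11k16X x).1 (b11_9b Y Z d a x)

/-- compiled program -/
def b11_10b (Y : Lay) (Z : Tb) (d a x : Nat)
    (x0 x1 x2 x3 x4 x5 x6 x7 x8 x9 x10 x11 x12 x13 x14 x15 : Nat) : Nat :=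
  (fold (Nat.add (Nat.add (Nat.add (Nat.add (Z a x9) (Z a x8)) (Nat.mul (nat_lit 3) (Nat.add
  (Nat.add (Nat.add (Z a x6) (Z a x5)) (Z a x3)) (Z a x2)))) (Z a x0)) (Z a x)) (mo Y d (nat_lit
  0)))

/-- compiled program -/
def b11_10q : Prog2 := fun Y Z d a x => (b11k16X x).1 (b11_10b Y Z d a x)

/-- compiled program -/
def b11_11b (Y : Lay) (Z : Tb) (d a x : Nat)
    (x0 x1 x2 x3 x4 x5 x6 x7 x8 x9 x10 x11 x12 x13 x14 x15 : Nat) : Nat :=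
  (fold (Nat.add (Nat.add (Nat.add (Nat.add (Nat.add (Nat.add (Z a x10) (Z a x8)) (Nat.mul (nat_lit
  6) (Nat.add (Z a x6) (Z a x3)))) (Nat.mul (nat_lit 3) (Nat.add (Nat.add (Nat.add (Z a x7) (Z a
  x5)) (Z a x4)) (Z a x2)))) (Z a x1)) (Nat.mul (nat_lit 2) (Nat.add (Z a x9) (Z a x0)))) (Z a x))
  (mo Y d (nat_lit 0)))

/-- compiled program -/
def b11_11q : Prog2 := fun Y Z d a x => (b11k16X x).1 (b11_11b Y Z d a x)

/-- compiled program -/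
def b11_12b (Y : Lay) (Z : Tb) (d a x : Nat)
    (x0 x1 x2 x3 x4 x5 x6 x7 x8 x9 x10 x11 x12 x13 x14 x15 : Nat) : Nat :=
  (fold (Nat.add (Nat.add (Nat.add (Nat.add (Nat.mul (nat_lit 6) (Z a x5)) (Z a x11)) (Nat.mul
  (nat_lit 4) (Nat.add (Z a x8) (Z a x2)))) (Nat.mul (nat_lit 3) (Nat.add (Nat.add (Nat.add (Z a
  x10) (Z a x9)) (Z a x1)) (Z a x0)))) (Z a x)) (mo Y d (nat_lit 0)))

/-- compiled program -/
def b11_12q : Prog2 := fun Y Z d a x => (b11k16X x).1 (b11_12b Y Z d a x)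

/-- compiled program -/
def b11_13b (Y : Lay) (Z : Tb) (d a x : Nat)
    (x0 x1 x2 x3 x4 x5 x6 x7 x8 x9 x10 x11 x12 x13 x14 x15 : Nat) : Nat :=
  (fold (Nat.add (Nat.add (fold (Nat.add (Nat.add (Nat.mul (nat_lit 6) (Nat.add (Nat.add (Nat.add (Z
  a x10) (Z a x6)) (Z a x5)) (Z a x1))) (Z a x12)) (Z a x)) (mo Y d (nat_lit 0))) (Nat.mul (nat_lit
  7) (Nat.add (Z a x9) (Z a x2)))) (Nat.mul (nat_lit 4) (Nat.add (Nat.add (Nat.add (Z a x11) (Z a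
  x8)) (Z a x3)) (Z a x0)))) (mo Y d (nat_lit 0)))

/-- compiled program -/
def b11_13q : Prog2 := fun Y Z d a x => (b11k16X x).1 (b11_13b Y Z d a x)

/-- compiled program -/
def b11_14b (Y : Lay) (Z : Tb) (d a x : Nat)
    (x0 x1 x2 x3 x4 x5 x6 x7 x8 x9 x10 x11 x12 x13 x14 x15 : Nat) : Nat :=
  (fold (Nat.add (Nat.add (Nat.add (Nat.add (Nat.add (Nat.add (fold (Nat.add (Nat.add (Nat.mul
  (nat_lit 6) (Nat.add (Z a x7) (Z a x5))) (Nat.mul (nat_lit 2) (Nat.add (Z a x9) (Z a x3))))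
  (Nat.mul (nat_lit 4) (Nat.add (Nat.add (Nat.add (Z a x10) (Z a x8)) (Z a x4)) (Z a x2)))) (mo Y d
  (nat_lit 0))) (Z a x13)) (Z a x11)) (Nat.mul (nat_lit 3) (Z a x6))) (Z a x1)) (Nat.mul (nat_lit 5)
  (Nat.add (Z a x12) (Z a x0)))) (Z a x)) (mo Y d (nat_lit 0)))

/-- compiled program -/
def b11_14q : Prog2 := fun Y Z d a x => (b11k16X x).1 (b11_14b Y Z d a x)

/-- compiled program -/
def b11_15b (Y : Lay) (Z : Tb) (d a x : Nat)
    (x0 x1 x2 x3 x4 x5 x6 x7 x8 x9 x10 x11 x12 x13 x14 x15 : Nat) : Nat :=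
  (fold (Nat.add (Nat.add (Nat.add (Nat.add (Nat.mul (nat_lit 8) (fold (Nat.add (Nat.mul (nat_lit 4)
  (Nat.add (Z a x11) (Z a x2))) (Nat.mul (nat_lit 3) (Nat.add (Nat.add (Nat.add (Nat.add (Nat.add
  (Nat.add (Nat.add (Z a x13) (Z a x12)) (Z a x10)) (Z a x9)) (Z a x4)) (Z a x3)) (Z a x1)) (Z a
  x0)))) (mo Y d (nat_lit 0)))) (Z a x14)) (Z a x8)) (Z a x5)) (Z a x)) (mo Y d (nat_lit 0)))

/-- compiled program -/
def b11_15q : Prog2 := fun Y Z d a x => (b11k16X x).1 (b11_15b Y Z d a x)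

/-- compiled program -/
def b11_16b (Y : Lay) (Z : Tb) (d a x : Nat)
    (x0 x1 x2 x3 x4 x5 x6 x7 x8 x9 x10 x11 x12 x13 x14 x15 : Nat) : Nat :=
  (fold (Nat.add (Nat.add (fold (Nat.add (Nat.add (Nat.add (Nat.add (Z a x15) (Z a x8)) (Z a x6))
  (Nat.mul (nat_lit 7) (Nat.add (Nat.add (Nat.add (Z a x14) (Z a x9)) (Z a x5)) (Z a x0)))) (Z a x))
  (mo Y d (nat_lit 0))) (Nat.mul (nat_lit 2) (Nat.add (Nat.add (Nat.add (Z a x12) (Z a x11)) (Z a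
  x3)) (Z a x2)))) (Nat.mul (nat_lit 3) (Nat.add (Nat.add (Nat.add (Z a x13) (Z a x10)) (Z a x4)) (Z
  a x1)))) (mo Y d (nat_lit 0)))

/-- compiled program -/
def b11_16q : Prog2 := fun Y Z d a x => (b11k16X x).1 (b11_16b Y Z d a x)

/-- keys -/
def b11k24X (c : Nat) :
    Bx ((Nat → Nat → Nat → Nat → Nat → Nat → Nat → Nat → Nat → Nat → Nat → Nat → Nat → Nat → Nat →
    Nat → Nat → Nat → Nat → Nat → Nat → Nat → Nat → Nat → Nat) → Nat) :=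
  bx24 Nat c (nat_lit 562949955518464) (nat_lit 1125899911036928) (nat_lit 1688849866555392)
  (nat_lit 2251799822073856) (nat_lit 2814749777592320) (nat_lit 3377699733110784) (nat_lit
  3940649688629248) (nat_lit 4503599644147712) (nat_lit 5066549599666176) (nat_lit 5629499555184640)
  (nat_lit 6192449510703104) (nat_lit 6755399466221568) (nat_lit 7318349421740032) (nat_lit
  7881299377258496) (nat_lit 8444249332776960) (nat_lit 9007199288295424) (nat_lit 9570149243813888)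
  (nat_lit 10133099199332352) (nat_lit 10696049154850816) (nat_lit 11258999110369280) (nat_lit
  11821949065887744) (nat_lit 12384899021406208) (nat_lit 12947848976924672) (nat_lit
  13510798932443136)

/-- compiled program -/
def b11_17b (Y : Lay) (Z : Tb) (d a x : Nat)
    (x0 x1 x2 x3 x4 x5 x6 x7 x8 x9 x10 x11 x12 x13 x14 x15 x16 x17 x18 x19 x20 x21 x22 x23 : Nat) :
    Nat :=
  (fold (Nat.add (Nat.add (Nat.add (Nat.add (Nat.add (Nat.add (Nat.add (Nat.add (Nat.add (Nat.mul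
  (nat_lit 8) (fold (Nat.add (Nat.add (Nat.add (Nat.add (Z a x15) (Z a x9)) (Z a x6)) (Nat.mul
  (nat_lit 4) (Nat.add (Nat.add (Nat.add (Z a x13) (Z a x11)) (Z a x4)) (Z a x2)))) (Z a x0)) (mo Y
  d (nat_lit 0)))) (Z a x16)) (Z a x14)) (Z a x10)) (Z a x8)) (Z a x7)) (Z a x5)) (Nat.mul (nat_lit
  4) (Nat.add (Z a x12) (Z a x3)))) (Z a x1)) (Z a x)) (mo Y d (nat_lit 0)))

/-- compiled program -/
def b11_17q : Prog2 := fun Y Z d a x => (b11k24X x).1 (b11_17b Y Z d a x)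

/-- compiled program -/
def b11_18b (Y : Lay) (Z : Tb) (d a x : Nat)
    (x0 x1 x2 x3 x4 x5 x6 x7 x8 x9 x10 x11 x12 x13 x14 x15 x16 x17 x18 x19 x20 x21 x22 x23 : Nat) :
    Nat :=
  (fold (Nat.add (Nat.add (Nat.add (Nat.mul (nat_lit 2) (Z a x8)) (Z a x17)) (Nat.mul (nat_lit 6)
  (Nat.add (Nat.add (Nat.add (Z a x14) (Z a x11)) (Z a x5)) (Z a x2)))) (Z a x)) (mo Y d (nat_lit
  0)))

/-- compiled program -/
def b11_18q : Prog2 := fun Y Z d a x => (b11k24X x).1 (b11_18b Y Z d a x)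

/-- compiled program -/
def b11_19b (Y : Lay) (Z : Tb) (d a x : Nat)
    (x0 x1 x2 x3 x4 x5 x6 x7 x8 x9 x10 x11 x12 x13 x14 x15 x16 x17 x18 x19 x20 x21 x22 x23 : Nat) :
    Nat :=
  (fold (Nat.add (Nat.add (Nat.add (Nat.add (Nat.add (Nat.mul (nat_lit 6) (fold (Nat.add (Nat.add
  (Nat.add (Nat.add (Nat.add (Nat.add (Nat.add (Z a x15) (Z a x14)) (Z a x12)) (Z a x11)) (Z a x6))
  (Z a x5)) (Z a x3)) (Z a x2)) (mo Y d (nat_lit 0)))) (Z a x18)) (Z a x17)) (Nat.mul (nat_lit 2)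
  (Nat.add (Z a x9) (Z a x8)))) (Z a x0)) (Z a x)) (mo Y d (nat_lit 0)))

/-- compiled program -/
def b11_19q : Prog2 := fun Y Z d a x => (b11k24X x).1 (b11_19b Y Z d a x)

/-- compiled program -/
def b11_20b (Y : Lay) (Z : Tb) (d a x : Nat)
    (x0 x1 x2 x3 x4 x5 x6 x7 x8 x9 x10 x11 x12 x13 x14 x15 x16 x17 x18 x19 x20 x21 x22 x23 : Nat) :
    Nat :=
  (fold (Nat.add (Nat.add (fold (Nat.add (Nat.add (Nat.add (Nat.add (Nat.add (Nat.mul (nat_lit 6)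
  (fold (Nat.add (Nat.add (Nat.add (Nat.add (Nat.add (Nat.add (Nat.add (Z a x16) (Z a x14)) (Z a
  x13)) (Z a x11)) (Z a x7)) (Z a x5)) (Z a x4)) (Z a x2)) (mo Y d (nat_lit 0)))) (Z a x19)) (Z a
  x17)) (Nat.mul (nat_lit 4) (Z a x9))) (Nat.mul (nat_lit 3) (Nat.add (Nat.add (Nat.add (Z a x15) (Z
  a x12)) (Z a x6)) (Z a x3)))) (Nat.mul (nat_lit 2) (Nat.add (Nat.add (Nat.add (Z a x18) (Z a x10))
  (Z a x8)) (Z a x0)))) (mo Y d (nat_lit 0))) (Z a x1)) (Z a x)) (mo Y d (nat_lit 0)))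

/-- compiled program -/
def b11_20q : Prog2 := fun Y Z d a x => (b11k24X x).1 (b11_20b Y Z d a x)

/-- compiled program -/
def b11_21b (Y : Lay) (Z : Tb) (d a x : Nat)
    (x0 x1 x2 x3 x4 x5 x6 x7 x8 x9 x10 x11 x12 x13 x14 x15 x16 x17 x18 x19 x20 x21 x22 x23 : Nat) :
    Nat :=
  (fold (Nat.add (Nat.add (Nat.add (Nat.mul (nat_lit 8) (fold (Nat.add (Nat.add (Nat.add (Nat.mul
  (nat_lit 3) (Nat.add (Z a x10) (Z a x9))) (Z a x11)) (Z a x8)) (Nat.mul (nat_lit 2) (Nat.add (Z a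
  x17) (Z a x2)))) (mo Y d (nat_lit 0)))) (Z a x20)) (Nat.mul (nat_lit 3) (Nat.add (Nat.add (Nat.add
  (Nat.add (Nat.add (Z a x19) (Z a x18)) (Z a x14)) (Z a x5)) (Z a x1)) (Z a x0)))) (Z a x)) (mo Y d
  (nat_lit 0)))

/-- compiled program -/
def b11_21q : Prog2 := fun Y Z d a x => (b11k24X x).1 (b11_21b Y Z d a x)

/-- compiled program -/
def b11_22b (Y : Lay) (Z : Tb) (d a x : Nat)
    (x0 x1 x2 x3 x4 x5 x6 x7 x8 x9 x10 x11 x12 x13 x14 x15 x16 x17 x18 x19 x20 x21 x22 x23 : Nat) :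
    Nat :=
  (fold (Nat.add (Nat.add (Nat.add (fold (Nat.add (Nat.add (Nat.add (Nat.mul (nat_lit 8) (fold
  (Nat.add (Nat.add (Nat.add (Nat.add (Nat.mul (nat_lit 4) (Nat.add (Z a x11) (Z a x9))) (Z a x12))
  (Z a x8)) (Nat.mul (nat_lit 2) (Nat.add (Z a x17) (Z a x3)))) (Nat.mul (nat_lit 3) (Nat.add (Z a
  x19) (Z a x1)))) (mo Y d (nat_lit 0)))) (Z a x21)) (Nat.mul (nat_lit 3) (Nat.add (Nat.add (Nat.add
  (Nat.add (Z a x15) (Z a x14)) (Z a x10)) (Z a x6)) (Z a x5)))) (Nat.mul (nat_lit 4) (Nat.add (Z a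
  x20) (Z a x0)))) (mo Y d (nat_lit 0))) (Z a x18)) (Z a x2)) (Z a x)) (mo Y d (nat_lit 0)))

/-- compiled program -/
def b11_22q : Prog2 := fun Y Z d a x => (b11k24X x).1 (b11_22b Y Z d a x)

/-- compiled program -/
def b11_23b (Y : Lay) (Z : Tb) (d a x : Nat)
    (x0 x1 x2 x3 x4 x5 x6 x7 x8 x9 x10 x11 x12 x13 x14 x15 x16 x17 x18 x19 x20 x21 x22 x23 : Nat) :
    Nat :=
  (fold (Nat.add (Nat.add (Nat.add (Nat.add (Nat.add (Nat.add (Nat.mul (nat_lit 8) (fold (Nat.add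
  (Nat.add (Nat.add (Nat.add (Nat.add (Nat.add (Nat.add (Nat.add (Z a x18) (Z a x13)) (Z a x11)) (Z
  a x10)) (Z a x8)) (Nat.mul (nat_lit 3) (Nat.add (Z a x15) (Z a x6)))) (Z a x3)) (Nat.mul (nat_lit
  2) (Nat.add (Nat.add (Nat.add (Z a x19) (Z a x17)) (Z a x4)) (Z a x2)))) (Nat.mul (nat_lit 4)
  (Nat.add (Z a x21) (Z a x0)))) (mo Y d (nat_lit 0)))) (Z a x22)) (Z a x20)) (Nat.mul (nat_lit 4)
  (Nat.add (Z a x12) (Z a x9)))) (Nat.mul (nat_lit 3) (Nat.add (Nat.add (Nat.add (Z a x16) (Z a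
  x14)) (Z a x7)) (Z a x5)))) (Z a x1)) (Z a x)) (mo Y d (nat_lit 0)))

/-- compiled program -/
def b11_23q : Prog2 := fun Y Z d a x => (b11k24X x).1 (b11_23b Y Z d a x)

/-- compiled program -/
def b11_24b (Y : Lay) (Z : Tb) (d a x : Nat)
    (x0 x1 x2 x3 x4 x5 x6 x7 x8 x9 x10 x11 x12 x13 x14 x15 x16 x17 x18 x19 x20 x21 x22 x23 : Nat) :
    Nat :=
  (fold (Nat.add (Nat.add (Nat.add (Nat.add (Nat.add (Nat.add (Nat.mul (nat_lit 8) (fold (Nat.add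
  (Nat.add (Nat.add (Nat.mul (nat_lit 2) (Z a x11)) (Z a x20)) (Z a x2)) (Nat.mul (nat_lit 3)
  (Nat.add (Nat.add (Nat.add (Nat.add (Nat.add (Nat.add (Nat.add (Z a x22) (Z a x21)) (Z a x19)) (Z
  a x18)) (Z a x4)) (Z a x3)) (Z a x1)) (Z a x0)))) (mo Y d (nat_lit 0)))) (Z a x23)) (Z a x17))
  (Nat.mul (nat_lit 3) (Nat.add (Nat.add (Nat.add (Z a x13) (Z a x12)) (Z a x10)) (Z a x9))))
  (Nat.mul (nat_lit 2) (Nat.add (Z a x14) (Z a x8)))) (Z a x5)) (Z a x)) (mo Y d (nat_lit 0)))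

/-- compiled program -/
def b11_24q : Prog2 := fun Y Z d a x => (b11k24X x).1 (b11_24b Y Z d a x)

/-- keys -/
def b11k32X (c : Nat) :
    Bx ((Nat → Nat → Nat → Nat → Nat → Nat → Nat → Nat → Nat → Nat → Nat → Nat → Nat → Nat → Nat →
    Nat → Nat → Nat → Nat → Nat → Nat → Nat → Nat → Nat → Nat → Nat → Nat → Nat → Nat → Nat → Nat →
    Nat → Nat) → Nat) :=
  bx32 Nat c (nat_lit 562949955518464) (nat_lit 1125899911036928) (nat_lit 1688849866555392)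
  (nat_lit 2251799822073856) (nat_lit 2814749777592320) (nat_lit 3377699733110784) (nat_lit
  3940649688629248) (nat_lit 4503599644147712) (nat_lit 5066549599666176) (nat_lit 5629499555184640)
  (nat_lit 6192449510703104) (nat_lit 6755399466221568) (nat_lit 7318349421740032) (nat_lit
  7881299377258496) (nat_lit 8444249332776960) (nat_lit 9007199288295424) (nat_lit 9570149243813888)
  (nat_lit 10133099199332352) (nat_lit 10696049154850816) (nat_lit 11258999110369280) (nat_lit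
  11821949065887744) (nat_lit 12384899021406208) (nat_lit 12947848976924672) (nat_lit
  13510798932443136) (nat_lit 14073748887961600) (nat_lit 14636698843480064) (nat_lit
  15199648798998528) (nat_lit 15762598754516992) (nat_lit 16325548710035456) (nat_lit
  16888498665553920) (nat_lit 17451448621072384) (nat_lit 18014398576590848)

/-- compiled program -/
def b11_25b (Y : Lay) (Z : Tb) (d a x : Nat)
    (x0 x1 x2 x3 x4 x5 x6 x7 x8 x9 x10 x11 x12 x13 x14 x15 x16 x17 x18 x19 x20 x21 x22 x23 x24 x25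
    x26 x27 x28 x29 x30 x31 : Nat) : Nat :=
  (fold (Nat.add (Nat.add (Nat.add (Nat.add (Nat.add (Nat.add (Nat.add (fold (Nat.add (Nat.add
  (Nat.mul (nat_lit 8) (fold (Nat.add (Nat.mul (nat_lit 4) (Nat.add (Nat.add (Nat.add (Nat.add
  (Nat.add (Z a x21) (Z a x20)) (Z a x14)) (Z a x9)) (Z a x3)) (Z a x2))) (Nat.mul (nat_lit 2)
  (Nat.add (Nat.add (Nat.add (Z a x23) (Z a x18)) (Z a x5)) (Z a x0)))) (mo Y d (nat_lit 0))))
  (Nat.mul (nat_lit 6) (Nat.add (Z a x13) (Z a x10)))) (Nat.mul (nat_lit 3) (Nat.add (Nat.add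
  (Nat.add (Z a x22) (Z a x19)) (Z a x4)) (Z a x1)))) (mo Y d (nat_lit 0))) (Z a x24)) (Z a x17)) (Z
  a x12)) (Z a x11)) (Nat.mul (nat_lit 2) (Nat.add (Z a x15) (Z a x8)))) (Z a x6)) (Z a x)) (mo Y d
  (nat_lit 0)))

/-- compiled program -/
def b11_25q : Prog2 := fun Y Z d a x => (b11k32X x).1 (b11_25b Y Z d a x)

/-- compiled program -/
def b11_26b (Y : Lay) (Z : Tb) (d a x : Nat)
    (x0 x1 x2 x3 x4 x5 x6 x7 x8 x9 x10 x11 x12 x13 x14 x15 x16 x17 x18 x19 x20 x21 x22 x23 x24 x25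
    x26 x27 x28 x29 x30 x31 : Nat) : Nat :=
  (fold (Nat.add (Nat.add (Nat.add (Nat.add (Nat.add (Nat.add (Nat.add (Nat.add (Nat.add (Nat.add
  (Nat.add (Nat.mul (nat_lit 8) (fold (Nat.add (Nat.add (Nat.add (Nat.add (Nat.add (Nat.add (Nat.add
  (Nat.add (Z a x24) (Z a x22)) (Z a x20)) (Z a x18)) (Nat.mul (nat_lit 2) (Nat.add (Nat.add
  (Nat.add (Z a x15) (Z a x13)) (Z a x11)) (Z a x9)))) (Z a x6)) (Z a x4)) (Z a x2)) (Z a x0)) (mo Y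
  d (nat_lit 0)))) (Z a x25)) (Z a x23)) (Z a x21)) (Z a x19)) (Z a x17)) (Nat.mul (nat_lit 2)
  (Nat.add (Nat.add (Nat.add (Nat.add (Z a x16) (Z a x14)) (Z a x12)) (Z a x10)) (Z a x8)))) (Z a
  x7)) (Z a x5)) (Z a x3)) (Z a x1)) (Z a x)) (mo Y d (nat_lit 0)))

/-- compiled program -/
def b11_26q : Prog2 := fun Y Z d a x => (b11k32X x).1 (b11_26b Y Z d a x)

/-- compiled program -/
def b11_27b (Y : Lay) (Z : Tb) (d a x : Nat)
    (x0 x1 x2 x3 x4 x5 x6 x7 x8 x9 x10 x11 x12 x13 x14 x15 x16 x17 x18 x19 x20 x21 x22 x23 x24 x25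
    x26 x27 x28 x29 x30 x31 : Nat) : Nat :=
  (fold (Nat.add (Nat.add (Nat.mul (nat_lit 3) (Nat.add (Z a x17) (Z a x8))) (Z a x26)) (Z a x)) (mo
  Y d (nat_lit 0)))

/-- compiled program -/
def b11_27q : Prog2 := fun Y Z d a x => (b11k32X x).1 (b11_27b Y Z d a x)

/-- compiled program -/
def b11_28b (Y : Lay) (Z : Tb) (d a x : Nat)
    (x0 x1 x2 x3 x4 x5 x6 x7 x8 x9 x10 x11 x12 x13 x14 x15 x16 x17 x18 x19 x20 x21 x22 x23 x24 x25
    x26 x27 x28 x29 x30 x31 : Nat) : Nat :=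
  (fold (Nat.add (Nat.add (Nat.add (Nat.add (Z a x27) (Z a x26)) (Nat.mul (nat_lit 3) (Nat.add
  (Nat.add (Nat.add (Z a x18) (Z a x17)) (Z a x9)) (Z a x8)))) (Z a x0)) (Z a x)) (mo Y d (nat_lit
  0)))

/-- compiled program -/
def b11_28q : Prog2 := fun Y Z d a x => (b11k32X x).1 (b11_28b Y Z d a x)

/-- compiled program -/
def b11_29b (Y : Lay) (Z : Tb) (d a x : Nat)
    (x0 x1 x2 x3 x4 x5 x6 x7 x8 x9 x10 x11 x12 x13 x14 x15 x16 x17 x18 x19 x20 x21 x22 x23 x24 x25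
    x26 x27 x28 x29 x30 x31 : Nat) : Nat :=
  (fold (Nat.add (Nat.add (Nat.add (Nat.add (Nat.add (Nat.add (Z a x28) (Z a x26)) (Nat.mul (nat_lit
  6) (Nat.add (Z a x18) (Z a x9)))) (Nat.mul (nat_lit 3) (Nat.add (Nat.add (Nat.add (Z a x19) (Z a
  x17)) (Z a x10)) (Z a x8)))) (Z a x1)) (Nat.mul (nat_lit 2) (Nat.add (Z a x27) (Z a x0)))) (Z a
  x)) (mo Y d (nat_lit 0)))

/-- compiled program -/
def b11_29q : Prog2 := fun Y Z d a x => (b11k32X x).1 (b11_29b Y Z d a x)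

/-- compiled program -/
def b11_30b (Y : Lay) (Z : Tb) (d a x : Nat)
    (x0 x1 x2 x3 x4 x5 x6 x7 x8 x9 x10 x11 x12 x13 x14 x15 x16 x17 x18 x19 x20 x21 x22 x23 x24 x25
    x26 x27 x28 x29 x30 x31 : Nat) : Nat :=
  (fold (Nat.add (Nat.add (Nat.add (Nat.add (Z a x29) (Z a x26)) (Z a x2)) (Nat.mul (nat_lit 3)
  (Nat.add (Nat.add (Nat.add (Nat.add (Nat.add (Nat.add (Nat.add (Z a x28) (Z a x27)) (Z a x20)) (Z
  a x17)) (Z a x11)) (Z a x8)) (Z a x1)) (Z a x0)))) (Z a x)) (mo Y d (nat_lit 0)))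

/-- compiled program -/
def b11_30q : Prog2 := fun Y Z d a x => (b11k32X x).1 (b11_30b Y Z d a x)

/-- compiled program -/
def b11_31b (Y : Lay) (Z : Tb) (d a x : Nat)
    (x0 x1 x2 x3 x4 x5 x6 x7 x8 x9 x10 x11 x12 x13 x14 x15 x16 x17 x18 x19 x20 x21 x22 x23 x24 x25
    x26 x27 x28 x29 x30 x31 : Nat) : Nat :=
  (fold (Nat.add (Nat.add (fold (Nat.add (Nat.add (Nat.add (Nat.add (Z a x30) (Z a x26)) (Nat.mul
  (nat_lit 3) (Nat.add (Nat.add (Nat.add (Nat.add (Nat.add (Nat.add (Nat.add (Z a x21) (Z a x20)) (Z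
  a x18)) (Z a x17)) (Z a x12)) (Z a x11)) (Z a x9)) (Z a x8)))) (Z a x3)) (Z a x)) (mo Y d (nat_lit
  0))) (Nat.mul (nat_lit 6) (Nat.add (Z a x28) (Z a x1)))) (Nat.mul (nat_lit 4) (Nat.add (Nat.add
  (Nat.add (Z a x29) (Z a x27)) (Z a x2)) (Z a x0)))) (mo Y d (nat_lit 0)))

/-- compiled program -/
def b11_31q : Prog2 := fun Y Z d a x => (b11k32X x).1 (b11_31b Y Z d a x)

/-- compiled program -/
def b11_32b (Y : Lay) (Z : Tb) (d a x : Nat)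
    (x0 x1 x2 x3 x4 x5 x6 x7 x8 x9 x10 x11 x12 x13 x14 x15 x16 x17 x18 x19 x20 x21 x22 x23 x24 x25
    x26 x27 x28 x29 x30 x31 : Nat) : Nat :=
  (fold (Nat.add (fold (Nat.add (fold (Nat.add (Nat.add (Nat.add (Nat.add (Nat.add (Nat.add (Nat.add
  (Nat.add (Z a x31) (Z a x29)) (Z a x28)) (Z a x26)) (Nat.mul (nat_lit 6) (Nat.add (Nat.add
  (Nat.add (Z a x21) (Z a x18)) (Z a x12)) (Z a x9)))) (Z a x4)) (Z a x2)) (Z a x1)) (Z a x)) (mo Y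
  d (nat_lit 0))) (Nat.mul (nat_lit 3) (Nat.add (Nat.add (Nat.add (Nat.add (Nat.add (Nat.add
  (Nat.add (Z a x22) (Z a x20)) (Z a x19)) (Z a x17)) (Z a x13)) (Z a x11)) (Z a x10)) (Z a x8))))
  (mo Y d (nat_lit 0))) (Nat.mul (nat_lit 5) (Nat.add (Nat.add (Nat.add (Z a x30) (Z a x27)) (Z a
  x3)) (Z a x0)))) (mo Y d (nat_lit 0)))

/-- compiled program -/
def b11_32q : Prog2 := fun Y Z d a x => (b11k32X x).1 (b11_32b Y Z d a x)

/-- keys -/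
def b11k48X (c : Nat) :
    Bx ((Nat → Nat → Nat → Nat → Nat → Nat → Nat → Nat → Nat → Nat → Nat → Nat → Nat → Nat → Nat →
    Nat → Nat → Nat → Nat → Nat → Nat → Nat → Nat → Nat → Nat → Nat → Nat → Nat → Nat → Nat → Nat →
    Nat → Nat → Nat → Nat → Nat → Nat → Nat → Nat → Nat → Nat → Nat → Nat → Nat → Nat → Nat → Nat →
    Nat → Nat) → Nat) :=
  bx48 Nat c (nat_lit 562949955518464) (nat_lit 1125899911036928) (nat_lit 1688849866555392)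
  (nat_lit 2251799822073856) (nat_lit 2814749777592320) (nat_lit 3377699733110784) (nat_lit
  3940649688629248) (nat_lit 4503599644147712) (nat_lit 5066549599666176) (nat_lit 5629499555184640)
  (nat_lit 6192449510703104) (nat_lit 6755399466221568) (nat_lit 7318349421740032) (nat_lit
  7881299377258496) (nat_lit 8444249332776960) (nat_lit 9007199288295424) (nat_lit 9570149243813888)
  (nat_lit 10133099199332352) (nat_lit 10696049154850816) (nat_lit 11258999110369280) (nat_lit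
  11821949065887744) (nat_lit 12384899021406208) (nat_lit 12947848976924672) (nat_lit
  13510798932443136) (nat_lit 14073748887961600) (nat_lit 14636698843480064) (nat_lit
  15199648798998528) (nat_lit 15762598754516992) (nat_lit 16325548710035456) (nat_lit
  16888498665553920) (nat_lit 17451448621072384) (nat_lit 18014398576590848) (nat_lit
  18577348532109312) (nat_lit 19140298487627776) (nat_lit 19703248443146240) (nat_lit
  20266198398664704) (nat_lit 20829148354183168) (nat_lit 21392098309701632) (nat_lit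
  21955048265220096) (nat_lit 22517998220738560) (nat_lit 23080948176257024) (nat_lit
  23643898131775488) (nat_lit 24206848087293952) (nat_lit 24769798042812416) (nat_lit
  25332747998330880) (nat_lit 25895697953849344) (nat_lit 26458647909367808) (nat_lit
  27021597864886272)

/-- compiled program -/
def b11_33b (Y : Lay) (Z : Tb) (d a x : Nat)
    (x0 x1 x2 x3 x4 x5 x6 x7 x8 x9 x10 x11 x12 x13 x14 x15 x16 x17 x18 x19 x20 x21 x22 x23 x24 x25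
    x26 x27 x28 x29 x30 x31 x32 x33 x34 x35 x36 x37 x38 x39 x40 x41 x42 x43 x44 x45 x46 x47 : Nat) :
    Nat :=
  (fold (Nat.add (Nat.add (Nat.add (Nat.add (Nat.add (Nat.add (Nat.mul (nat_lit 6) (fold (Nat.add
  (Nat.add (Nat.add (Nat.add (Nat.add (Nat.add (Nat.add (Nat.add (Nat.add (Z a x31) (Z a x30)) (Z a
  x28)) (Z a x27)) (Z a x20)) (Z a x11)) (Z a x4)) (Z a x3)) (Z a x1)) (Z a x0)) (mo Y d (nat_lit
  0)))) (Z a x32)) (Z a x26)) (Nat.mul (nat_lit 3) (Nat.add (Nat.add (Nat.add (Z a x23) (Z a x17))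
  (Z a x14)) (Z a x8)))) (Z a x5)) (Nat.mul (nat_lit 2) (Nat.add (Z a x29) (Z a x2)))) (Z a x)) (mo
  Y d (nat_lit 0)))

/-- compiled program -/
def b11_33q : Prog2 := fun Y Z d a x => (b11k48X x).1 (b11_33b Y Z d a x)

/-- compiled program -/
def b11_34b (Y : Lay) (Z : Tb) (d a x : Nat)
    (x0 x1 x2 x3 x4 x5 x6 x7 x8 x9 x10 x11 x12 x13 x14 x15 x16 x17 x18 x19 x20 x21 x22 x23 x24 x25
    x26 x27 x28 x29 x30 x31 x32 x33 x34 x35 x36 x37 x38 x39 x40 x41 x42 x43 x44 x45 x46 x47 : Nat) :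
    Nat :=
  (fold (Nat.add (Nat.add (Nat.add (Nat.add (Nat.add (Nat.mul (nat_lit 3) (fold (Nat.add (Nat.add
  (Nat.add (Nat.add (Nat.add (Nat.add (Nat.add (Nat.add (Nat.add (Nat.add (Nat.add (Z a x31) (Z a
  x28)) (Z a x24)) (Z a x23)) (Z a x18)) (Z a x17)) (Z a x15)) (Z a x14)) (Z a x9)) (Z a x8)) (Z a
  x4)) (Z a x1)) (mo Y d (nat_lit 0)))) (Nat.mul (nat_lit 8) (fold (Nat.add (Nat.add (Nat.add
  (Nat.add (Nat.add (Z a x30) (Z a x29)) (Nat.mul (nat_lit 3) (Nat.add (Nat.add (Nat.add (Z a x21)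
  (Z a x20)) (Z a x12)) (Z a x11)))) (Z a x3)) (Z a x2)) (Nat.mul (nat_lit 2) (Nat.add (Nat.add
  (Nat.add (Z a x32) (Z a x27)) (Z a x5)) (Z a x0)))) (mo Y d (nat_lit 0))))) (Z a x33)) (Z a x26))
  (Z a x6)) (Z a x)) (mo Y d (nat_lit 0)))

/-- compiled program -/
def b11_34q : Prog2 := fun Y Z d a x => (b11k48X x).1 (b11_34b Y Z d a x)

/-- compiled program -/
def b11_35b (Y : Lay) (Z : Tb) (d a x : Nat)
    (x0 x1 x2 x3 x4 x5 x6 x7 x8 x9 x10 x11 x12 x13 x14 x15 x16 x17 x18 x19 x20 x21 x22 x23 x24 x25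
    x26 x27 x28 x29 x30 x31 x32 x33 x34 x35 x36 x37 x38 x39 x40 x41 x42 x43 x44 x45 x46 x47 : Nat) :
    Nat :=
  (fold (Nat.add (Nat.add (Nat.add (Nat.add (Nat.add (Nat.add (Nat.add (Nat.add (fold (Nat.add
  (Nat.add (Z a x34) (Z a x32)) (Nat.mul (nat_lit 3) (Nat.add (Nat.add (Nat.add (Nat.add (Nat.add
  (Nat.add (Nat.add (Nat.add (Nat.add (Z a x25) (Z a x23)) (Z a x21)) (Z a x19)) (Z a x17)) (Z a
  x16)) (Z a x14)) (Z a x12)) (Z a x10)) (Z a x8)))) (mo Y d (nat_lit 0))) (Nat.mul (nat_lit 8)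
  (fold (Nat.add (Nat.add (Nat.add (Nat.add (Nat.add (Z a x33) (Z a x27)) (Nat.mul (nat_lit 3)
  (Nat.add (Nat.add (Nat.add (Nat.add (Nat.add (Nat.add (Nat.add (Z a x24) (Z a x22)) (Z a x20)) (Z
  a x18)) (Z a x15)) (Z a x13)) (Z a x11)) (Z a x9)))) (Z a x6)) (Nat.mul (nat_lit 2) (Nat.add (Z a
  x30) (Z a x3)))) (Z a x0)) (mo Y d (nat_lit 0))))) (Z a x28)) (Z a x26)) (Z a x7)) (Z a x5))
  (Nat.mul (nat_lit 2) (Nat.add (Nat.add (Nat.add (Z a x31) (Z a x29)) (Z a x4)) (Z a x2)))) (Z a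
  x1)) (Z a x)) (mo Y d (nat_lit 0)))

/-- compiled program -/
def b11_35q : Prog2 := fun Y Z d a x => (b11k48X x).1 (b11_35b Y Z d a x)

/-- compiled program -/
def b11_36b (Y : Lay) (Z : Tb) (d a x : Nat)
    (x0 x1 x2 x3 x4 x5 x6 x7 x8 x9 x10 x11 x12 x13 x14 x15 x16 x17 x18 x19 x20 x21 x22 x23 x24 x25
    x26 x27 x28 x29 x30 x31 x32 x33 x34 x35 x36 x37 x38 x39 x40 x41 x42 x43 x44 x45 x46 x47 : Nat) :
    Nat :=
  (fold (Nat.add (Nat.add (Nat.add (Nat.add (Nat.mul (nat_lit 6) (Z a x17)) (Z a x35)) (Nat.mul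
  (nat_lit 4) (Nat.add (Z a x26) (Z a x8)))) (Nat.mul (nat_lit 3) (Nat.add (Nat.add (Nat.add (Z a
  x32) (Z a x29)) (Z a x5)) (Z a x2)))) (Z a x)) (mo Y d (nat_lit 0)))

/-- compiled program -/
def b11_36q : Prog2 := fun Y Z d a x => (b11k48X x).1 (b11_36b Y Z d a x)

/-- compiled program -/
def b11_37b (Y : Lay) (Z : Tb) (d a x : Nat)
    (x0 x1 x2 x3 x4 x5 x6 x7 x8 x9 x10 x11 x12 x13 x14 x15 x16 x17 x18 x19 x20 x21 x22 x23 x24 x25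
    x26 x27 x28 x29 x30 x31 x32 x33 x34 x35 x36 x37 x38 x39 x40 x41 x42 x43 x44 x45 x46 x47 : Nat) :
    Nat :=
  (fold (Nat.add (Nat.add (fold (Nat.add (Nat.add (Nat.add (Nat.add (Z a x36) (Z a x35)) (Nat.mul
  (nat_lit 3) (Nat.add (Nat.add (Nat.add (Nat.add (Nat.add (Nat.add (Nat.add (Z a x33) (Z a x32)) (Z
  a x30)) (Z a x29)) (Z a x6)) (Z a x5)) (Z a x3)) (Z a x2)))) (Z a x0)) (Z a x)) (mo Y d (nat_lit
  0))) (Nat.mul (nat_lit 6) (Nat.add (Z a x18) (Z a x17)))) (Nat.mul (nat_lit 4) (Nat.add (Nat.add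
  (Nat.add (Z a x27) (Z a x26)) (Z a x9)) (Z a x8)))) (mo Y d (nat_lit 0)))

/-- compiled program -/
def b11_37q : Prog2 := fun Y Z d a x => (b11k48X x).1 (b11_37b Y Z d a x)

/-- compiled program -/
def b11_38b (Y : Lay) (Z : Tb) (d a x : Nat)
    (x0 x1 x2 x3 x4 x5 x6 x7 x8 x9 x10 x11 x12 x13 x14 x15 x16 x17 x18 x19 x20 x21 x22 x23 x24 x25
    x26 x27 x28 x29 x30 x31 x32 x33 x34 x35 x36 x37 x38 x39 x40 x41 x42 x43 x44 x45 x46 x47 : Nat) :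
    Nat :=
  (fold (Nat.add (Nat.add (Nat.add (Nat.add (Nat.add (fold (Nat.add (Nat.add (Nat.mul (nat_lit 3)
  (Nat.add (Nat.add (Nat.add (Nat.add (Nat.add (Nat.add (Nat.add (Nat.add (Z a x34) (Z a x32)) (Z a
  x31)) (Z a x29)) (Z a x18)) (Z a x7)) (Z a x5)) (Z a x4)) (Z a x2))) (Z a x37)) (Nat.mul (nat_lit
  2) (Nat.add (Z a x36) (Z a x0)))) (mo Y d (nat_lit 0))) (Nat.mul (nat_lit 8) (fold (Nat.add
  (Nat.add (Z a x27) (Z a x9)) (Nat.mul (nat_lit 3) (Nat.add (Nat.add (Nat.add (Nat.add (Nat.add (Z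
  a x33) (Z a x30)) (Z a x19)) (Z a x17)) (Z a x6)) (Z a x3)))) (mo Y d (nat_lit 0))))) (Z a x35))
  (Nat.mul (nat_lit 4) (Nat.add (Nat.add (Nat.add (Z a x28) (Z a x26)) (Z a x10)) (Z a x8)))) (Z a
  x1)) (Z a x)) (mo Y d (nat_lit 0)))

/-- compiled program -/
def b11_38q : Prog2 := fun Y Z d a x => (b11k48X x).1 (b11_38b Y Z d a x)

/-- compiled program -/
def b11_39b (Y : Lay) (Z : Tb) (d a x : Nat)
    (x0 x1 x2 x3 x4 x5 x6 x7 x8 x9 x10 x11 x12 x13 x14 x15 x16 x17 x18 x19 x20 x21 x22 x23 x24 x25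
    x26 x27 x28 x29 x30 x31 x32 x33 x34 x35 x36 x37 x38 x39 x40 x41 x42 x43 x44 x45 x46 x47 : Nat) :
    Nat :=
  (fold (Nat.add (Nat.add (fold (Nat.add (fold (Nat.add (Nat.add (Nat.mul (nat_lit 6) (Nat.add
  (Nat.add (Nat.add (Z a x32) (Z a x20)) (Z a x17)) (Z a x5))) (Z a x38)) (Z a x)) (mo Y d (nat_lit
  0))) (Nat.mul (nat_lit 3) (Nat.add (Nat.add (Nat.add (Nat.add (Nat.add (Nat.add (Nat.add (Z a x37)
  (Z a x36)) (Z a x28)) (Z a x27)) (Z a x10)) (Z a x9)) (Z a x1)) (Z a x0)))) (mo Y d (nat_lit 0)))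
  (Nat.mul (nat_lit 7) (Nat.add (Z a x29) (Z a x8)))) (Nat.mul (nat_lit 4) (Nat.add (Nat.add
  (Nat.add (Z a x35) (Z a x26)) (Z a x11)) (Z a x2)))) (mo Y d (nat_lit 0)))

/-- compiled program -/
def b11_39q : Prog2 := fun Y Z d a x => (b11k48X x).1 (b11_39b Y Z d a x)

/-- compiled program -/
def b11_40b (Y : Lay) (Z : Tb) (d a x : Nat)
    (x0 x1 x2 x3 x4 x5 x6 x7 x8 x9 x10 x11 x12 x13 x14 x15 x16 x17 x18 x19 x20 x21 x22 x23 x24 x25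
    x26 x27 x28 x29 x30 x31 x32 x33 x34 x35 x36 x37 x38 x39 x40 x41 x42 x43 x44 x45 x46 x47 : Nat) :
    Nat :=
  (fold (Nat.add (Nat.add (Nat.add (Nat.add (fold (Nat.add (Nat.add (Nat.mul (nat_lit 7) (fold
  (Nat.add (Nat.add (Nat.add (Nat.add (Nat.add (Z a x36) (Z a x30)) (Z a x27)) (Z a x11)) (Z a x8))
  (Z a x2)) (mo Y d (nat_lit 0)))) (Z a x39)) (Nat.mul (nat_lit 4) (Nat.add (Nat.add (Nat.add
  (Nat.add (Nat.add (Z a x38) (Z a x35)) (Z a x26)) (Z a x12)) (Z a x3)) (Z a x0)))) (mo Y d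
  (nat_lit 0))) (Nat.mul (nat_lit 6) (fold (Nat.add (Nat.add (Nat.add (Nat.add (Nat.add (Nat.add
  (Nat.add (Nat.add (Nat.add (Nat.add (Nat.add (Z a x37) (Z a x33)) (Z a x32)) (Z a x28)) (Z a x21))
  (Z a x20)) (Z a x18)) (Z a x17)) (Z a x10)) (Z a x6)) (Z a x5)) (Z a x1)) (mo Y d (nat_lit 0)))))
  (Z a x29)) (Z a x9)) (Z a x)) (mo Y d (nat_lit 0)))

/-- compiled program -/
def b11_40q : Prog2 := fun Y Z d a x => (b11k48X x).1 (b11_40b Y Z d a x)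

/-- compiled program -/
def b11_41b (Y : Lay) (Z : Tb) (d a x : Nat)
    (x0 x1 x2 x3 x4 x5 x6 x7 x8 x9 x10 x11 x12 x13 x14 x15 x16 x17 x18 x19 x20 x21 x22 x23 x24 x25
    x26 x27 x28 x29 x30 x31 x32 x33 x34 x35 x36 x37 x38 x39 x40 x41 x42 x43 x44 x45 x46 x47 : Nat) :
    Nat :=
  (fold (Nat.add (Nat.add (Nat.add (Nat.add (Nat.add (Nat.add (Nat.add (fold (Nat.add (Nat.mul
  (nat_lit 8) (Nat.add (Nat.add (fold (Nat.add (Nat.mul (nat_lit 2) (Nat.add (Nat.add (Nat.add (Z a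
  x31) (Z a x29)) (Z a x10)) (Z a x8))) (Nat.mul (nat_lit 3) (Nat.add (Nat.add (Nat.add (Nat.add
  (Nat.add (Nat.add (Nat.add (Z a x34) (Z a x32)) (Z a x22)) (Z a x20)) (Z a x19)) (Z a x17)) (Z a
  x7)) (Z a x5)))) (mo Y d (nat_lit 0))) (Z a x30)) (Z a x9))) (Nat.mul (nat_lit 2) (Nat.add
  (Nat.add (Nat.add (Z a x36) (Z a x27)) (Z a x12)) (Z a x3)))) (mo Y d (nat_lit 0))) (fold (Nat.mul
  (nat_lit 4) (Nat.add (Nat.add (Nat.add (Nat.add (Nat.add (Nat.add (Nat.add (Z a x37) (Z a x35)) (Z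
  a x28)) (Z a x26)) (Z a x13)) (Z a x11)) (Z a x4)) (Z a x2))) (mo Y d (nat_lit 0)))) (Z a x40)) (Z
  a x38)) (Nat.mul (nat_lit 3) (Nat.add (Nat.add (Nat.add (Z a x33) (Z a x21)) (Z a x18)) (Z a
  x6)))) (Z a x1)) (Nat.mul (nat_lit 5) (Nat.add (Z a x39) (Z a x0)))) (Z a x)) (mo Y d (nat_lit
  0)))

/-- compiled program -/
def b11_41q : Prog2 := fun Y Z d a x => (b11k48X x).1 (b11_41b Y Z d a x)

/-- compiled program -/
def b11_42b (Y : Lay) (Z : Tb) (d a x : Nat)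
    (x0 x1 x2 x3 x4 x5 x6 x7 x8 x9 x10 x11 x12 x13 x14 x15 x16 x17 x18 x19 x20 x21 x22 x23 x24 x25
    x26 x27 x28 x29 x30 x31 x32 x33 x34 x35 x36 x37 x38 x39 x40 x41 x42 x43 x44 x45 x46 x47 : Nat) :
    Nat :=
  (fold (Nat.add (Nat.add (Nat.add (Nat.add (Nat.add (Nat.add (fold (Nat.add (Nat.add (Nat.mul
  (nat_lit 6) (fold (Nat.add (Nat.add (Nat.add (Nat.add (Nat.add (Nat.add (Nat.add (Nat.add (Nat.add
  (Z a x40) (Z a x39)) (Z a x37)) (Z a x36)) (Z a x31)) (Z a x30)) (Z a x28)) (Z a x27)) (Z a x23))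
  (Nat.add (Nat.add (Nat.add (Nat.add (Nat.add (Nat.add (Nat.add (Nat.add (Z a x17) (Z a x13)) (Z a
  x12)) (Z a x10)) (Z a x9)) (Z a x4)) (Z a x3)) (Z a x1)) (Z a x0))) (mo Y d (nat_lit 0))))
  (Nat.mul (nat_lit 4) (Nat.add (Nat.add (Nat.add (Z a x32) (Z a x26)) (Z a x14)) (Z a x8))))
  (Nat.mul (nat_lit 5) (Nat.add (Z a x38) (Z a x2)))) (mo Y d (nat_lit 0))) (Z a x41)) (Z a x35))
  (Nat.mul (nat_lit 3) (Z a x20))) (Nat.mul (nat_lit 2) (Nat.add (Z a x29) (Z a x11)))) (Z a x5)) (Z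
  a x)) (mo Y d (nat_lit 0)))

/-- compiled program -/
def b11_42q : Prog2 := fun Y Z d a x => (b11k48X x).1 (b11_42b Y Z d a x)

/-- compiled program -/
def b11_43b (Y : Lay) (Z : Tb) (d a x : Nat)
    (x0 x1 x2 x3 x4 x5 x6 x7 x8 x9 x10 x11 x12 x13 x14 x15 x16 x17 x18 x19 x20 x21 x22 x23 x24 x25
    x26 x27 x28 x29 x30 x31 x32 x33 x34 x35 x36 x37 x38 x39 x40 x41 x42 x43 x44 x45 x46 x47 : Nat) :
    Nat :=
  (fold (Nat.add (Nat.add (Nat.add (Nat.add (Nat.add (Nat.add (Nat.add (fold (Nat.add (Nat.add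
  (Nat.mul (nat_lit 8) (fold (Nat.add (Nat.add (Nat.add (Nat.add (Nat.add (Z a x30) (Z a x29))
  (Nat.mul (nat_lit 3) (Nat.add (Nat.add (Nat.add (Z a x24) (Z a x23)) (Z a x18)) (Z a x17)))) (Z a
  x12)) (Z a x11)) (Nat.mul (nat_lit 2) (Nat.add (Nat.add (Nat.add (Z a x41) (Z a x36)) (Z a x5)) (Z
  a x0)))) (mo Y d (nat_lit 0)))) (Nat.mul (nat_lit 4) (Nat.add (Nat.add (Nat.add (Z a x33) (Z a
  x26)) (Z a x15)) (Z a x8)))) (Nat.mul (nat_lit 2) (Nat.add (Nat.add (Nat.add (Z a x39) (Z a x38))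
  (Z a x3)) (Z a x2)))) (mo Y d (nat_lit 0))) (fold (Nat.add (Nat.add (Z a x42) (Z a x35)) (Nat.mul
  (nat_lit 3) (Nat.add (Nat.add (Nat.add (Nat.add (Nat.add (Nat.add (Nat.add (Nat.add (Nat.add (Z a
  x40) (Z a x37)) (Z a x31)) (Z a x28)) (Z a x21)) (Z a x20)) (Z a x13)) (Z a x10)) (Z a x4)) (Z a
  x1)))) (mo Y d (nat_lit 0)))) (Z a x32)) (Z a x27)) (Z a x14)) (Z a x9)) (Z a x6)) (Z a x)) (mo Y
  d (nat_lit 0)))

/-- compiled program -/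
def b11_43q : Prog2 := fun Y Z d a x => (b11k48X x).1 (b11_43b Y Z d a x)

/-- compiled program -/
def b11_44b (Y : Lay) (Z : Tb) (d a x : Nat)
    (x0 x1 x2 x3 x4 x5 x6 x7 x8 x9 x10 x11 x12 x13 x14 x15 x16 x17 x18 x19 x20 x21 x22 x23 x24 x25
    x26 x27 x28 x29 x30 x31 x32 x33 x34 x35 x36 x37 x38 x39 x40 x41 x42 x43 x44 x45 x46 x47 : Nat) :
    Nat :=
  (fold (Nat.add (Nat.add (Nat.add (Nat.add (Nat.add (Nat.add (Nat.add (Nat.add (fold (Nat.add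
  (Nat.add (Nat.add (Nat.mul (nat_lit 4) (fold (Nat.add (Nat.add (Nat.add (Nat.add (Nat.add (Nat.add
  (Nat.add (Nat.add (Nat.add (Z a x39) (Z a x34)) (Z a x32)) (Z a x28)) (Z a x26)) (Z a x16)) (Z a
  x14)) (Z a x10)) (Z a x8)) (Z a x3)) (mo Y d (nat_lit 0)))) (Nat.mul (nat_lit 8) (fold (Nat.add
  (Nat.add (Nat.add (Nat.add (Nat.add (Nat.add (fold (Nat.mul (nat_lit 4) (Nat.add (Nat.add (Nat.add
  (Nat.add (Nat.add (Nat.add (Nat.add (Z a x40) (Z a x38)) (Z a x33)) (Z a x27)) (Z a x15)) (Z a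
  x9)) (Z a x4)) (Z a x2))) (mo Y d (nat_lit 0))) (Z a x42)) (Z a x36)) (Nat.mul (nat_lit 3)
  (Nat.add (Nat.add (Nat.add (Nat.add (Z a x25) (Z a x23)) (Z a x21)) (Z a x19)) (Z a x17))))
  (Nat.mul (nat_lit 2) (Nat.add (Z a x30) (Z a x12)))) (Z a x6)) (Z a x0)) (mo Y d (nat_lit 0)))))
  (Nat.mul (nat_lit 3) (Nat.add (Nat.add (Nat.add (Z a x24) (Z a x22)) (Z a x20)) (Z a x18))))
  (Nat.mul (nat_lit 2) (Nat.add (Nat.add (Nat.add (Z a x31) (Z a x29)) (Z a x13)) (Z a x11)))) (mo Y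
  d (nat_lit 0))) (Z a x43)) (Z a x41)) (Z a x37)) (Z a x35)) (Z a x7)) (Z a x5)) (Z a x1)) (Z a x))
  (mo Y d (nat_lit 0)))

/-- compiled program -/
def b11_44q : Prog2 := fun Y Z d a x => (b11k48X x).1 (b11_44b Y Z d a x)

/-- compiled program -/
def b11_45b (Y : Lay) (Z : Tb) (d a x : Nat)
    (x0 x1 x2 x3 x4 x5 x6 x7 x8 x9 x10 x11 x12 x13 x14 x15 x16 x17 x18 x19 x20 x21 x22 x23 x24 x25
    x26 x27 x28 x29 x30 x31 x32 x33 x34 x35 x36 x37 x38 x39 x40 x41 x42 x43 x44 x45 x46 x47 : Nat) :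
    Nat :=
  (fold (Nat.add (Nat.add (Nat.add (Nat.add (Nat.mul (nat_lit 8) (fold (Nat.add (Nat.mul (nat_lit 4)
  (Nat.add (Z a x35) (Z a x8))) (Nat.mul (nat_lit 3) (Nat.add (Nat.add (Nat.add (Nat.add (Nat.add
  (Nat.add (Nat.add (Z a x41) (Z a x38)) (Z a x32)) (Z a x29)) (Z a x14)) (Z a x11)) (Z a x5)) (Z a
  x2)))) (mo Y d (nat_lit 0)))) (Z a x44)) (Z a x26)) (Z a x17)) (Z a x)) (mo Y d (nat_lit 0)))

/-- compiled program -/
def b11_45q : Prog2 := fun Y Z d a x => (b11k48X x).1 (b11_45b Y Z d a x)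

/-- compiled program -/
def b11_46b (Y : Lay) (Z : Tb) (d a x : Nat)
    (x0 x1 x2 x3 x4 x5 x6 x7 x8 x9 x10 x11 x12 x13 x14 x15 x16 x17 x18 x19 x20 x21 x22 x23 x24 x25
    x26 x27 x28 x29 x30 x31 x32 x33 x34 x35 x36 x37 x38 x39 x40 x41 x42 x43 x44 x45 x46 x47 : Nat) :
    Nat :=
  (fold (Nat.add (Nat.add (fold (Nat.add (Nat.add (Nat.add (Nat.add (Nat.add (Nat.add (Nat.add
  (Nat.mul (nat_lit 6) (fold (Nat.add (Nat.add (Nat.add (Nat.add (Nat.add (Nat.add (Nat.add (Nat.add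
  (Z a x42) (Z a x41)) (Z a x39)) (Z a x38)) (Z a x33)) (Z a x32)) (Z a x30)) (Z a x29)) (Nat.add
  (Nat.add (Nat.add (Nat.add (Nat.add (Nat.add (Nat.add (Z a x15) (Z a x14)) (Z a x12)) (Z a x11))
  (Z a x6)) (Z a x5)) (Z a x3)) (Z a x2))) (mo Y d (nat_lit 0)))) (Z a x45)) (Z a x44)) (Z a x27))
  (Z a x26)) (Z a x18)) (Z a x17)) (Nat.mul (nat_lit 5) (Nat.add (Nat.add (Nat.add (Z a x36) (Z a
  x35)) (Z a x9)) (Z a x8)))) (mo Y d (nat_lit 0))) (Z a x0)) (Z a x)) (mo Y d (nat_lit 0)))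

/-- compiled program -/
def b11_46q : Prog2 := fun Y Z d a x => (b11k48X x).1 (b11_46b Y Z d a x)

/-- compiled program -/
def b11_47b (Y : Lay) (Z : Tb) (d a x : Nat)
    (x0 x1 x2 x3 x4 x5 x6 x7 x8 x9 x10 x11 x12 x13 x14 x15 x16 x17 x18 x19 x20 x21 x22 x23 x24 x25
    x26 x27 x28 x29 x30 x31 x32 x33 x34 x35 x36 x37 x38 x39 x40 x41 x42 x43 x44 x45 x46 x47 : Nat) :
    Nat :=
  (fold (Nat.add (Nat.add (Nat.add (Nat.add (Nat.add (fold (Nat.add (Nat.add (Nat.add (Nat.add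
  (Nat.add (Nat.add (Nat.add (fold (Nat.add (Nat.mul (nat_lit 3) (Nat.add (Nat.add (Nat.add (Nat.add
  (Nat.add (Nat.add (Nat.add (Z a x42) (Z a x39)) (Z a x33)) (Z a x30)) (Z a x15)) (Z a x12)) (Z a
  x6)) (Z a x3))) (Nat.mul (nat_lit 2) (Nat.add (Nat.add (Nat.add (Z a x45) (Z a x27)) (Z a x18)) (Z
  a x0)))) (mo Y d (nat_lit 0))) (Nat.mul (nat_lit 6) (fold (Nat.add (Nat.add (Nat.add (Nat.add
  (Nat.add (Nat.add (Nat.add (Nat.add (Z a x43) (Z a x41)) (Z a x40)) (Z a x38)) (Z a x34)) (Z a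
  x32)) (Z a x31)) (Z a x29)) (Nat.add (Nat.add (Nat.add (Nat.add (Nat.add (Nat.add (Nat.add (Z a
  x16) (Z a x14)) (Z a x13)) (Z a x11)) (Z a x7)) (Z a x5)) (Z a x4)) (Z a x2))) (mo Y d (nat_lit
  0))))) (Z a x46)) (Z a x44)) (Z a x36)) (Z a x28)) (Z a x26)) (Nat.mul (nat_lit 5) (Nat.add
  (Nat.add (Nat.add (Z a x37) (Z a x35)) (Z a x10)) (Z a x8)))) (mo Y d (nat_lit 0))) (Z a x19)) (Z
  a x17)) (Z a x9)) (Z a x1)) (Z a x)) (mo Y d (nat_lit 0)))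

/-- compiled program -/
def b11_47q : Prog2 := fun Y Z d a x => (b11k48X x).1 (b11_47b Y Z d a x)

/-- compiled program -/
def b11_48b (Y : Lay) (Z : Tb) (d a x : Nat)
    (x0 x1 x2 x3 x4 x5 x6 x7 x8 x9 x10 x11 x12 x13 x14 x15 x16 x17 x18 x19 x20 x21 x22 x23 x24 x25
    x26 x27 x28 x29 x30 x31 x32 x33 x34 x35 x36 x37 x38 x39 x40 x41 x42 x43 x44 x45 x46 x47 : Nat) :
    Nat :=
  (fold (Nat.add (Nat.add (Nat.add (Nat.add (Nat.add (Nat.add (Nat.mul (nat_lit 3) (fold (Nat.add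
  (Nat.add (Nat.add (Nat.add (Nat.add (Nat.add (Nat.add (Nat.add (Nat.add (Nat.add (Nat.add (Z a
  x46) (Z a x45)) (Z a x41)) (Z a x32)) (Z a x28)) (Z a x27)) (Z a x19)) (Z a x18)) (Z a x14)) (Z a
  x5)) (Z a x1)) (Z a x0)) (mo Y d (nat_lit 0)))) (Nat.mul (nat_lit 8) (fold (Nat.add (Nat.mul
  (nat_lit 3) (Nat.add (Nat.add (Nat.add (Z a x37) (Z a x36)) (Z a x10)) (Z a x9))) (Nat.mul
  (nat_lit 2) (Nat.add (Nat.add (Nat.add (Z a x44) (Z a x29)) (Z a x17)) (Z a x2)))) (mo Y d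
  (nat_lit 0))))) (Z a x47)) (Z a x26)) (Z a x20)) (Nat.mul (nat_lit 2) (Nat.add (Nat.add (Nat.add
  (Z a x38) (Z a x35)) (Z a x11)) (Z a x8)))) (Z a x)) (mo Y d (nat_lit 0)))

/-- compiled program -/
def b11_48q : Prog2 := fun Y Z d a x => (b11k48X x).1 (b11_48b Y Z d a x)

/-- keys -/
def b11k64X (c : Nat) :
    Bx ((Nat → Nat → Nat → Nat → Nat → Nat → Nat → Nat → Nat → Nat → Nat → Nat → Nat → Nat → Nat →
    Nat → Nat → Nat → Nat → Nat → Nat → Nat → Nat → Nat → Nat → Nat → Nat → Nat → Nat → Nat → Nat →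
    Nat → Nat → Nat → Nat → Nat → Nat → Nat → Nat → Nat → Nat → Nat → Nat → Nat → Nat → Nat → Nat →
    Nat → Nat → Nat → Nat → Nat → Nat → Nat → Nat → Nat → Nat → Nat → Nat → Nat → Nat → Nat → Nat →
    Nat → Nat) → Nat) :=
  bx64 Nat c (nat_lit 562949955518464) (nat_lit 1125899911036928) (nat_lit 1688849866555392)
  (nat_lit 2251799822073856) (nat_lit 2814749777592320) (nat_lit 3377699733110784) (nat_lit
  3940649688629248) (nat_lit 4503599644147712) (nat_lit 5066549599666176) (nat_lit 5629499555184640)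
  (nat_lit 6192449510703104) (nat_lit 6755399466221568) (nat_lit 7318349421740032) (nat_lit
  7881299377258496) (nat_lit 8444249332776960) (nat_lit 9007199288295424) (nat_lit 9570149243813888)
  (nat_lit 10133099199332352) (nat_lit 10696049154850816) (nat_lit 11258999110369280) (nat_lit
  11821949065887744) (nat_lit 12384899021406208) (nat_lit 12947848976924672) (nat_lit
  13510798932443136) (nat_lit 14073748887961600) (nat_lit 14636698843480064) (nat_lit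
  15199648798998528) (nat_lit 15762598754516992) (nat_lit 16325548710035456) (nat_lit
  16888498665553920) (nat_lit 17451448621072384) (nat_lit 18014398576590848) (nat_lit
  18577348532109312) (nat_lit 19140298487627776) (nat_lit 19703248443146240) (nat_lit
  20266198398664704) (nat_lit 20829148354183168) (nat_lit 21392098309701632) (nat_lit
  21955048265220096) (nat_lit 22517998220738560) (nat_lit 23080948176257024) (nat_lit
  23643898131775488) (nat_lit 24206848087293952) (nat_lit 24769798042812416) (nat_lit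
  25332747998330880) (nat_lit 25895697953849344) (nat_lit 26458647909367808) (nat_lit
  27021597864886272) (nat_lit 27584547820404736) (nat_lit 28147497775923200) (nat_lit
  28710447731441664) (nat_lit 29273397686960128) (nat_lit 29836347642478592) (nat_lit
  30399297597997056) (nat_lit 30962247553515520) (nat_lit 31525197509033984) (nat_lit
  32088147464552448) (nat_lit 32651097420070912) (nat_lit 33214047375589376) (nat_lit
  33776997331107840) (nat_lit 34339947286626304) (nat_lit 34902897242144768) (nat_lit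
  35465847197663232) (nat_lit 36028797153181696)

/-- compiled program -/
def b11_49b (Y : Lay) (Z : Tb) (d a x : Nat)
    (x0 x1 x2 x3 x4 x5 x6 x7 x8 x9 x10 x11 x12 x13 x14 x15 x16 x17 x18 x19 x20 x21 x22 x23 x24 x25
    x26 x27 x28 x29 x30 x31 x32 x33 x34 x35 x36 x37 x38 x39 x40 x41 x42 x43 x44 x45 x46 x47 x48 x49
    x50 x51 x52 x53 x54 x55 x56 x57 x58 x59 x60 x61 x62 x63 : Nat) : Nat :=
  (fold (Nat.add (Nat.add (Nat.add (Nat.add (Nat.add (Nat.add (Nat.add (fold (Nat.add (Nat.add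
  (Nat.mul (nat_lit 8) (fold (Nat.add (Nat.add (Nat.add (Nat.add (Nat.add (Z a x38) (Z a x36)) (Z a
  x11)) (Z a x9)) (Nat.mul (nat_lit 2) (Nat.add (Nat.add (Nat.add (Z a x44) (Z a x30)) (Z a x17)) (Z
  a x3)))) (Nat.mul (nat_lit 3) (Nat.add (Nat.add (Nat.add (Z a x46) (Z a x28)) (Z a x19)) (Z a
  x1)))) (mo Y d (nat_lit 0)))) (Nat.mul (nat_lit 2) (Nat.add (Nat.add (Nat.add (Z a x39) (Z a x35))
  (Z a x12)) (Z a x8)))) (Nat.mul (nat_lit 4) (Nat.add (Nat.add (Nat.add (Z a x47) (Z a x27)) (Z a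
  x20)) (Z a x0)))) (mo Y d (nat_lit 0))) (fold (Nat.add (Nat.add (Z a x48) (Z a x45)) (Nat.mul
  (nat_lit 3) (Nat.add (Nat.add (Nat.add (Nat.add (Nat.add (Nat.add (Nat.add (Nat.add (Nat.add (Z a
  x42) (Z a x41)) (Z a x37)) (Z a x33)) (Z a x32)) (Z a x15)) (Z a x14)) (Z a x10)) (Z a x6)) (Z a
  x5)))) (mo Y d (nat_lit 0)))) (Z a x29)) (Z a x26)) (Z a x21)) (Z a x18)) (Z a x2)) (Z a x)) (mo Y
  d (nat_lit 0)))

/-- compiled program -/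
def b11_49q : Prog2 := fun Y Z d a x => (b11k64X x).1 (b11_49b Y Z d a x)

/-- compiled program -/
def b11_50b (Y : Lay) (Z : Tb) (d a x : Nat)
    (x0 x1 x2 x3 x4 x5 x6 x7 x8 x9 x10 x11 x12 x13 x14 x15 x16 x17 x18 x19 x20 x21 x22 x23 x24 x25
    x26 x27 x28 x29 x30 x31 x32 x33 x34 x35 x36 x37 x38 x39 x40 x41 x42 x43 x44 x45 x46 x47 x48 x49
    x50 x51 x52 x53 x54 x55 x56 x57 x58 x59 x60 x61 x62 x63 : Nat) : Nat :=
  (fold (Nat.add (Nat.add (fold (Nat.add (Nat.add (Nat.add (Nat.add (Nat.add (Nat.add (Nat.add (fold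
  (Nat.add (Nat.mul (nat_lit 8) (fold (Nat.add (Nat.add (Nat.add (Nat.add (Nat.add (Z a x45) (Z a
  x30)) (Z a x18)) (Nat.mul (nat_lit 3) (Nat.add (Nat.add (Nat.add (Z a x42) (Z a x33)) (Z a x15))
  (Z a x6)))) (Z a x3)) (Nat.mul (nat_lit 2) (Nat.add (Nat.add (Nat.add (Nat.add (Nat.add (Nat.add
  (Nat.add (Z a x46) (Z a x44)) (Z a x31)) (Z a x29)) (Z a x19)) (Z a x17)) (Z a x4)) (Z a x2))))
  (mo Y d (nat_lit 0)))) (Nat.mul (nat_lit 3) (Nat.add (Nat.add (Nat.add (Nat.add (Nat.add (Nat.add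
  (Nat.add (Z a x43) (Z a x41)) (Z a x34)) (Z a x32)) (Z a x16)) (Z a x14)) (Z a x7)) (Z a x5))))
  (mo Y d (nat_lit 0))) (Z a x49)) (Z a x47)) (Z a x39)) (Z a x36)) (Z a x28)) (Z a x26)) (Nat.add
  (Nat.add (Nat.add (Nat.add (Nat.add (Z a x22) (Z a x20)) (Z a x12)) (Z a x9)) (Z a x1)) (Nat.mul
  (nat_lit 5) (Nat.add (Nat.add (Nat.add (Z a x48) (Z a x27)) (Z a x21)) (Z a x0))))) (mo Y d
  (nat_lit 0))) (Nat.mul (nat_lit 2) (Nat.add (Nat.add (Nat.add (Nat.add (Nat.add (Nat.add (Nat.add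
  (Z a x40) (Z a x38)) (Z a x37)) (Z a x35)) (Z a x13)) (Z a x11)) (Z a x10)) (Z a x8)))) (Z a x))
  (mo Y d (nat_lit 0)))

/-- compiled program -/
def b11_50q : Prog2 := fun Y Z d a x => (b11k64X x).1 (b11_50b Y Z d a x)

/-- compiled program -/
def b11_51b (Y : Lay) (Z : Tb) (d a x : Nat)
    (x0 x1 x2 x3 x4 x5 x6 x7 x8 x9 x10 x11 x12 x13 x14 x15 x16 x17 x18 x19 x20 x21 x22 x23 x24 x25
    x26 x27 x28 x29 x30 x31 x32 x33 x34 x35 x36 x37 x38 x39 x40 x41 x42 x43 x44 x45 x46 x47 x48 x49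
    x50 x51 x52 x53 x54 x55 x56 x57 x58 x59 x60 x61 x62 x63 : Nat) : Nat :=
  (fold (Nat.add (Nat.add (Nat.add (Nat.add (Nat.add (Nat.add (Nat.add (Nat.add (Nat.add (fold
  (Nat.add (Nat.mul (nat_lit 8) (fold (Nat.add (Nat.add (Nat.add (Nat.add (Nat.add (Nat.mul (nat_lit
  3) (fold (Nat.add (Nat.add (Nat.add (Nat.add (Nat.add (Nat.add (Nat.add (Nat.add (Z a x49) (Z a
  x48)) (Z a x46)) (Z a x45)) (Z a x31)) (Z a x30)) (Z a x28)) (Z a x27)) (Nat.add (Nat.add (Nat.add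
  (Nat.add (Nat.add (Nat.add (Nat.add (Z a x22) (Z a x21)) (Z a x19)) (Z a x18)) (Z a x4)) (Z a x3))
  (Z a x1)) (Z a x0))) (mo Y d (nat_lit 0)))) (Z a x47)) (Z a x29)) (Z a x20)) (Nat.mul (nat_lit 4)
  (Nat.add (Nat.add (Nat.add (Z a x41) (Z a x35)) (Z a x14)) (Z a x8)))) (Z a x2)) (mo Y d (nat_lit
  0)))) (Nat.mul (nat_lit 3) (Nat.add (Nat.add (Nat.add (Nat.add (Nat.add (Nat.add (Nat.add (Z a
  x40) (Z a x39)) (Z a x37)) (Z a x36)) (Z a x13)) (Z a x12)) (Z a x10)) (Z a x9)))) (mo Y d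
  (nat_lit 0))) (Z a x50)) (Z a x44)) (Z a x32)) (Z a x26)) (Z a x23)) (Z a x17)) (Nat.mul (nat_lit
  4) (Nat.add (Z a x38) (Z a x11)))) (Z a x5)) (Z a x)) (mo Y d (nat_lit 0)))

/-- compiled program -/
def b11_51q : Prog2 := fun Y Z d a x => (b11k64X x).1 (b11_51b Y Z d a x)

/-- compiled program -/
def b11_52b (Y : Lay) (Z : Tb) (d a x : Nat)
    (x0 x1 x2 x3 x4 x5 x6 x7 x8 x9 x10 x11 x12 x13 x14 x15 x16 x17 x18 x19 x20 x21 x22 x23 x24 x25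
    x26 x27 x28 x29 x30 x31 x32 x33 x34 x35 x36 x37 x38 x39 x40 x41 x42 x43 x44 x45 x46 x47 x48 x49
    x50 x51 x52 x53 x54 x55 x56 x57 x58 x59 x60 x61 x62 x63 : Nat) : Nat :=
  (fold (Nat.add (fold (Nat.add (Nat.add (Nat.add (Nat.add (Nat.add (Nat.add (Nat.add (Nat.add (fold
  (Nat.add (Nat.mul (nat_lit 8) (fold (Nat.add (Nat.add (Nat.add (Nat.add (Nat.add (Nat.mul (nat_lit
  4) (fold (Nat.add (Nat.add (Nat.add (Nat.add (Nat.add (Nat.add (Nat.add (Nat.add (Nat.add (Nat.add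
  (Nat.add (Z a x48) (Z a x47)) (Z a x42)) (Z a x35)) (Z a x30)) (Z a x29)) (Z a x21)) (Z a x20)) (Z
  a x15)) (Z a x8)) (Z a x3)) (Z a x2)) (mo Y d (nat_lit 0)))) (Z a x41)) (Z a x36)) (Z a x14)) (Z a
  x9)) (Nat.mul (nat_lit 2) (Nat.add (Nat.add (Nat.add (Nat.add (Nat.add (Nat.add (Nat.add (Nat.add
  (Nat.add (Nat.add (Nat.add (Z a x50) (Z a x45)) (Z a x39)) (Z a x38)) (Z a x32)) (Z a x27)) (Z a
  x23)) (Z a x18)) (Z a x12)) (Z a x11)) (Z a x5)) (Z a x0)))) (mo Y d (nat_lit 0)))) (Nat.mul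
  (nat_lit 6) (Nat.add (Nat.add (Nat.add (Z a x40) (Z a x37)) (Z a x13)) (Z a x10)))) (mo Y d
  (nat_lit 0))) (Z a x51)) (Z a x44)) (Z a x33)) (Z a x26)) (Z a x24)) (Z a x17)) (Z a x6)) (Nat.mul
  (nat_lit 3) (Nat.add (Nat.add (Nat.add (Nat.add (Nat.add (Nat.add (Nat.add (Z a x49) (Z a x46)) (Z
  a x31)) (Z a x28)) (Z a x22)) (Z a x19)) (Z a x4)) (Z a x1)))) (mo Y d (nat_lit 0))) (Z a x)) (mo
  Y d (nat_lit 0)))

/-- compiled program -/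
def b11_52q : Prog2 := fun Y Z d a x => (b11k64X x).1 (b11_52b Y Z d a x)

/-- compiled program -/
def b11_53b (Y : Lay) (Z : Tb) (d a x : Nat)
    (x0 x1 x2 x3 x4 x5 x6 x7 x8 x9 x10 x11 x12 x13 x14 x15 x16 x17 x18 x19 x20 x21 x22 x23 x24 x25
    x26 x27 x28 x29 x30 x31 x32 x33 x34 x35 x36 x37 x38 x39 x40 x41 x42 x43 x44 x45 x46 x47 x48 x49
    x50 x51 x52 x53 x54 x55 x56 x57 x58 x59 x60 x61 x62 x63 : Nat) : Nat :=
  (fold (Nat.add (Nat.add (Nat.add (Nat.add (Nat.add (Nat.add (Nat.add (Nat.add (Nat.add (Nat.add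
  (Nat.add (fold (Nat.mul (nat_lit 4) (Nat.add (Nat.add (Nat.add (Nat.add (Nat.add (Nat.add (Nat.add
  (Z a x42) (Z a x40)) (Z a x38)) (Z a x36)) (Z a x15)) (Z a x13)) (Z a x11)) (Z a x9))) (mo Y d
  (nat_lit 0))) (Nat.mul (nat_lit 8) (fold (Nat.add (Nat.add (Nat.add (Nat.add (Nat.add (Nat.add
  (Nat.add (Nat.add (Nat.add (Nat.mul (nat_lit 4) (fold (Nat.add (Nat.add (Nat.add (Nat.add (Nat.add
  (Nat.add (Nat.add (Nat.add (Nat.add (Z a x43) (Z a x41)) (Z a x39)) (Z a x37)) (Z a x35)) (Z a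
  x16)) (Z a x14)) (Z a x12)) (Z a x10)) (Z a x8)) (mo Y d (nat_lit 0)))) (Z a x51)) (Z a x49)) (Z a
  x47)) (Z a x45)) (Z a x33)) (Z a x31)) (Z a x29)) (Z a x27)) (Nat.add (Nat.add (Nat.add (Nat.add
  (Nat.add (Nat.add (Nat.add (Z a x24) (Z a x22)) (Z a x20)) (Z a x18)) (Z a x6)) (Z a x4)) (Z a
  x2)) (Z a x0))) (mo Y d (nat_lit 0))))) (Z a x52)) (Z a x50)) (Z a x48)) (Z a x46)) (Z a x44)) (Z
  a x34)) (Z a x32)) (Z a x30)) (Z a x28)) (Nat.add (Nat.add (Nat.add (Nat.add (Nat.add (Nat.add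
  (Nat.add (Nat.add (Nat.add (Nat.add (Z a x26) (Z a x25)) (Z a x23)) (Z a x21)) (Z a x19)) (Z a
  x17)) (Z a x7)) (Z a x5)) (Z a x3)) (Z a x1)) (Z a x))) (mo Y d (nat_lit 0)))

/-- compiled program -/
def b11_53q : Prog2 := fun Y Z d a x => (b11k64X x).1 (b11_53b Y Z d a x)

/-- compiled program -/
def b11_54b (Y : Lay) (Z : Tb) (d a x : Nat)
    (x0 x1 x2 x3 x4 x5 x6 x7 x8 x9 x10 x11 x12 x13 x14 x15 x16 x17 x18 x19 x20 x21 x22 x23 x24 x25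
    x26 x27 x28 x29 x30 x31 x32 x33 x34 x35 x36 x37 x38 x39 x40 x41 x42 x43 x44 x45 x46 x47 x48 x49
    x50 x51 x52 x53 x54 x55 x56 x57 x58 x59 x60 x61 x62 x63 : Nat) : Nat :=
  (fold (Nat.add (Nat.add (Nat.add (Nat.mul (nat_lit 2) (Z a x26)) (Z a x53)) (Nat.mul (nat_lit 6)
  (Nat.add (Nat.add (Nat.add (Z a x44) (Z a x35)) (Z a x17)) (Z a x8)))) (Z a x)) (mo Y d (nat_lit
  0)))

/-- compiled program -/
def b11_54q : Prog2 := fun Y Z d a x => (b11k64X x).1 (b11_54b Y Z d a x)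

/-- compiled program -/
def b11_55b (Y : Lay) (Z : Tb) (d a x : Nat)
    (x0 x1 x2 x3 x4 x5 x6 x7 x8 x9 x10 x11 x12 x13 x14 x15 x16 x17 x18 x19 x20 x21 x22 x23 x24 x25
    x26 x27 x28 x29 x30 x31 x32 x33 x34 x35 x36 x37 x38 x39 x40 x41 x42 x43 x44 x45 x46 x47 x48 x49
    x50 x51 x52 x53 x54 x55 x56 x57 x58 x59 x60 x61 x62 x63 : Nat) : Nat :=
  (fold (Nat.add (Nat.add (Nat.add (Nat.add (Nat.add (Nat.mul (nat_lit 6) (fold (Nat.add (Nat.add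
  (Nat.add (Nat.add (Nat.add (Nat.add (Nat.add (Z a x45) (Z a x44)) (Z a x36)) (Z a x35)) (Z a x18))
  (Z a x17)) (Z a x9)) (Z a x8)) (mo Y d (nat_lit 0)))) (Z a x54)) (Z a x53)) (Nat.mul (nat_lit 2)
  (Nat.add (Z a x27) (Z a x26)))) (Z a x0)) (Z a x)) (mo Y d (nat_lit 0)))

/-- compiled program -/
def b11_55q : Prog2 := fun Y Z d a x => (b11k64X x).1 (b11_55b Y Z d a x)

/-- compiled program -/
def b11_56b (Y : Lay) (Z : Tb) (d a x : Nat)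
    (x0 x1 x2 x3 x4 x5 x6 x7 x8 x9 x10 x11 x12 x13 x14 x15 x16 x17 x18 x19 x20 x21 x22 x23 x24 x25
    x26 x27 x28 x29 x30 x31 x32 x33 x34 x35 x36 x37 x38 x39 x40 x41 x42 x43 x44 x45 x46 x47 x48 x49
    x50 x51 x52 x53 x54 x55 x56 x57 x58 x59 x60 x61 x62 x63 : Nat) : Nat :=
  (fold (Nat.add (Nat.add (fold (Nat.add (Nat.add (Nat.add (Nat.add (Nat.add (Nat.mul (nat_lit 6)
  (fold (Nat.add (Nat.add (Nat.add (Nat.add (Nat.add (Nat.add (Nat.add (Z a x46) (Z a x44)) (Z a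
  x37)) (Z a x35)) (Z a x19)) (Z a x17)) (Z a x10)) (Z a x8)) (mo Y d (nat_lit 0)))) (Z a x55)) (Z a
  x53)) (Nat.mul (nat_lit 4) (Z a x27))) (Nat.mul (nat_lit 3) (Nat.add (Nat.add (Nat.add (Z a x45)
  (Z a x36)) (Z a x18)) (Z a x9)))) (Nat.mul (nat_lit 2) (Nat.add (Nat.add (Nat.add (Z a x54) (Z a
  x28)) (Z a x26)) (Z a x0)))) (mo Y d (nat_lit 0))) (Z a x1)) (Z a x)) (mo Y d (nat_lit 0)))

/-- compiled program -/
def b11_56q : Prog2 := fun Y Z d a x => (b11k64X x).1 (b11_56b Y Z d a x)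

/-- compiled program -/
def b11_57b (Y : Lay) (Z : Tb) (d a x : Nat)
    (x0 x1 x2 x3 x4 x5 x6 x7 x8 x9 x10 x11 x12 x13 x14 x15 x16 x17 x18 x19 x20 x21 x22 x23 x24 x25
    x26 x27 x28 x29 x30 x31 x32 x33 x34 x35 x36 x37 x38 x39 x40 x41 x42 x43 x44 x45 x46 x47 x48 x49
    x50 x51 x52 x53 x54 x55 x56 x57 x58 x59 x60 x61 x62 x63 : Nat) : Nat :=
  (fold (Nat.add (Nat.add (Nat.add (Nat.add (Nat.add (Nat.add (Nat.mul (nat_lit 6) (fold (Nat.add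
  (Nat.add (Nat.add (Nat.add (Nat.add (Nat.add (Nat.add (Nat.add (Nat.add (Z a x47) (Z a x44)) (Z a
  x38)) (Z a x35)) (Z a x28)) (Z a x27)) (Z a x20)) (Z a x17)) (Z a x11)) (Z a x8)) (mo Y d (nat_lit
  0)))) (Z a x56)) (Z a x53)) (Nat.mul (nat_lit 2) (Nat.add (Z a x29) (Z a x26)))) (Z a x2))
  (Nat.mul (nat_lit 3) (Nat.add (Nat.add (Nat.add (Z a x55) (Z a x54)) (Z a x1)) (Z a x0)))) (Z a
  x)) (mo Y d (nat_lit 0)))

/-- compiled program -/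
def b11_57q : Prog2 := fun Y Z d a x => (b11k64X x).1 (b11_57b Y Z d a x)

/-- compiled program -/
def b11_58b (Y : Lay) (Z : Tb) (d a x : Nat)
    (x0 x1 x2 x3 x4 x5 x6 x7 x8 x9 x10 x11 x12 x13 x14 x15 x16 x17 x18 x19 x20 x21 x22 x23 x24 x25
    x26 x27 x28 x29 x30 x31 x32 x33 x34 x35 x36 x37 x38 x39 x40 x41 x42 x43 x44 x45 x46 x47 x48 x49
    x50 x51 x52 x53 x54 x55 x56 x57 x58 x59 x60 x61 x62 x63 : Nat) : Nat :=
  (fold (Nat.add (Nat.add (Nat.add (Nat.add (Nat.add (Nat.add (Nat.add (fold (Nat.add (Nat.mul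
  (nat_lit 8) (Nat.add (Z a x29) (Z a x27))) (Nat.mul (nat_lit 4) (Nat.add (Nat.add (Nat.add (Z a
  x56) (Z a x54)) (Z a x2)) (Z a x0)))) (mo Y d (nat_lit 0))) (Nat.mul (nat_lit 6) (fold (Nat.add
  (Nat.add (Nat.add (Nat.add (Nat.add (Nat.add (Nat.add (Nat.add (Nat.add (Z a x55) (Z a x48)) (Z a
  x47)) (Z a x45)) (Z a x44)) (Z a x39)) (Z a x38)) (Z a x36)) (Z a x35)) (Nat.add (Nat.add (Nat.add
  (Nat.add (Nat.add (Nat.add (Nat.add (Nat.add (Z a x21) (Z a x20)) (Z a x18)) (Z a x17)) (Z a x12))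
  (Z a x11)) (Z a x9)) (Z a x8)) (Z a x1))) (mo Y d (nat_lit 0))))) (Z a x57)) (Z a x53)) (Nat.mul
  (nat_lit 3) (Z a x28))) (Nat.mul (nat_lit 2) (Nat.add (Z a x30) (Z a x26)))) (Z a x3)) (Z a x))
  (mo Y d (nat_lit 0)))

/-- compiled program -/
def b11_58q : Prog2 := fun Y Z d a x => (b11k64X x).1 (b11_58b Y Z d a x)

/-- compiled program -/
def b11_59b (Y : Lay) (Z : Tb) (d a x : Nat)
    (x0 x1 x2 x3 x4 x5 x6 x7 x8 x9 x10 x11 x12 x13 x14 x15 x16 x17 x18 x19 x20 x21 x22 x23 x24 x25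
    x26 x27 x28 x29 x30 x31 x32 x33 x34 x35 x36 x37 x38 x39 x40 x41 x42 x43 x44 x45 x46 x47 x48 x49
    x50 x51 x52 x53 x54 x55 x56 x57 x58 x59 x60 x61 x62 x63 : Nat) : Nat :=
  (fold (Nat.add (Nat.add (Nat.add (Nat.add (Nat.add (fold (Nat.add (Nat.add (Nat.add (Nat.add
  (Nat.add (Nat.add (Nat.add (fold (Nat.add (Nat.mul (nat_lit 2) (Nat.add (Nat.add (Nat.add (Z a
  x31) (Z a x29)) (Z a x28)) (Z a x26))) (Nat.mul (nat_lit 3) (Nat.add (Nat.add (Nat.add (Nat.add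
  (Nat.add (Nat.add (Nat.add (Z a x48) (Z a x45)) (Z a x39)) (Z a x36)) (Z a x21)) (Z a x18)) (Z a
  x12)) (Z a x9)))) (mo Y d (nat_lit 0))) (Nat.mul (nat_lit 6) (fold (Nat.add (Nat.add (Nat.add
  (Nat.add (Nat.add (Nat.add (Nat.add (Nat.add (Z a x49) (Z a x47)) (Z a x46)) (Z a x44)) (Z a x40))
  (Z a x38)) (Z a x37)) (Z a x35)) (Nat.add (Nat.add (Nat.add (Nat.add (Nat.add (Nat.add (Nat.add (Z
  a x22) (Z a x20)) (Z a x19)) (Z a x17)) (Z a x13)) (Z a x11)) (Z a x10)) (Z a x8))) (mo Y d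
  (nat_lit 0))))) (Z a x58)) (Z a x56)) (Z a x55)) (Z a x53)) (Z a x30)) (Nat.mul (nat_lit 5)
  (Nat.add (Nat.add (Nat.add (Z a x57) (Z a x54)) (Z a x3)) (Z a x0)))) (mo Y d (nat_lit 0))) (Z a
  x27)) (Z a x4)) (Z a x2)) (Z a x1)) (Z a x)) (mo Y d (nat_lit 0)))

/-- compiled program -/
def b11_59q : Prog2 := fun Y Z d a x => (b11k64X x).1 (b11_59b Y Z d a x)

/-- compiled program -/
def b11_60b (Y : Lay) (Z : Tb) (d a x : Nat)
    (x0 x1 x2 x3 x4 x5 x6 x7 x8 x9 x10 x11 x12 x13 x14 x15 x16 x17 x18 x19 x20 x21 x22 x23 x24 x25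
    x26 x27 x28 x29 x30 x31 x32 x33 x34 x35 x36 x37 x38 x39 x40 x41 x42 x43 x44 x45 x46 x47 x48 x49
    x50 x51 x52 x53 x54 x55 x56 x57 x58 x59 x60 x61 x62 x63 : Nat) : Nat :=
  (fold (Nat.add (Nat.add (Nat.add (Nat.add (Nat.add (Nat.add (fold (Nat.add (Nat.mul (nat_lit 3)
  (Nat.add (Nat.add (Nat.add (Nat.add (Nat.add (Nat.add (Nat.add (Z a x47) (Z a x38)) (Z a x31)) (Z
  a x30)) (Z a x28)) (Z a x27)) (Z a x20)) (Z a x11))) (Nat.mul (nat_lit 2) (Nat.add (Nat.add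
  (Nat.add (Z a x56) (Z a x32)) (Z a x26)) (Z a x2)))) (mo Y d (nat_lit 0))) (Nat.mul (nat_lit 6)
  (fold (Nat.add (Nat.add (Nat.add (Nat.add (Nat.add (Nat.add (Nat.add (Nat.add (Z a x58) (Z a x57))
  (Z a x55)) (Z a x54)) (Z a x50)) (Z a x44)) (Z a x41)) (Z a x35)) (Nat.add (Nat.add (Nat.add
  (Nat.add (Nat.add (Nat.add (Nat.add (Z a x23) (Z a x17)) (Z a x14)) (Z a x8)) (Z a x4)) (Z a x3))
  (Z a x1)) (Z a x0))) (mo Y d (nat_lit 0))))) (Z a x59)) (Z a x53)) (Nat.mul (nat_lit 4) (Z a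
  x29))) (Z a x5)) (Z a x)) (mo Y d (nat_lit 0)))

/-- compiled program -/
def b11_60q : Prog2 := fun Y Z d a x => (b11k64X x).1 (b11_60b Y Z d a x)

/-- compiled program -/
def b11_61b (Y : Lay) (Z : Tb) (d a x : Nat)
    (x0 x1 x2 x3 x4 x5 x6 x7 x8 x9 x10 x11 x12 x13 x14 x15 x16 x17 x18 x19 x20 x21 x22 x23 x24 x25
    x26 x27 x28 x29 x30 x31 x32 x33 x34 x35 x36 x37 x38 x39 x40 x41 x42 x43 x44 x45 x46 x47 x48 x49
    x50 x51 x52 x53 x54 x55 x56 x57 x58 x59 x60 x61 x62 x63 : Nat) : Nat :=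
  (fold (Nat.add (Nat.add (Nat.add (Nat.add (Nat.add (Nat.add (Nat.mul (nat_lit 3) (fold (Nat.add
  (Nat.add (Nat.add (Nat.add (Nat.add (Nat.add (Nat.add (Nat.add (Nat.add (Nat.add (Nat.add (Z a
  x58) (Z a x55)) (Z a x48)) (Z a x47)) (Z a x39)) (Z a x38)) (Z a x21)) (Z a x20)) (Z a x12)) (Z a
  x11)) (Z a x4)) (Z a x1)) (mo Y d (nat_lit 0)))) (Nat.mul (nat_lit 8) (fold (Nat.add (Nat.add
  (Nat.add (Nat.add (Nat.add (Nat.add (Nat.mul (nat_lit 3) (fold (Nat.add (Nat.add (Nat.add (Nat.add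
  (Nat.add (Nat.add (Nat.add (Nat.add (Nat.add (Z a x51) (Z a x50)) (Z a x45)) (Z a x44)) (Z a x42))
  (Z a x41)) (Z a x36)) (Z a x35)) (Z a x31)) (Nat.add (Nat.add (Nat.add (Nat.add (Nat.add (Nat.add
  (Nat.add (Nat.add (Z a x28) (Z a x24)) (Z a x23)) (Z a x18)) (Z a x17)) (Z a x15)) (Z a x14)) (Z a
  x9)) (Z a x8))) (mo Y d (nat_lit 0)))) (Z a x57)) (Z a x56)) (Nat.mul (nat_lit 4) (Nat.add (Z a
  x32) (Z a x27)))) (Z a x3)) (Z a x2)) (Nat.mul (nat_lit 2) (Nat.add (Nat.add (Nat.add (Nat.add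
  (Nat.add (Z a x59) (Z a x54)) (Z a x30)) (Z a x29)) (Z a x5)) (Z a x0)))) (mo Y d (nat_lit 0)))))
  (Z a x60)) (Z a x53)) (Nat.mul (nat_lit 2) (Nat.add (Z a x33) (Z a x26)))) (Z a x6)) (Z a x)) (mo
  Y d (nat_lit 0)))

/-- compiled program -/
def b11_61q : Prog2 := fun Y Z d a x => (b11k64X x).1 (b11_61b Y Z d a x)

/-- compiled program -/
def b11_62b (Y : Lay) (Z : Tb) (d a x : Nat)
    (x0 x1 x2 x3 x4 x5 x6 x7 x8 x9 x10 x11 x12 x13 x14 x15 x16 x17 x18 x19 x20 x21 x22 x23 x24 x25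
    x26 x27 x28 x29 x30 x31 x32 x33 x34 x35 x36 x37 x38 x39 x40 x41 x42 x43 x44 x45 x46 x47 x48 x49
    x50 x51 x52 x53 x54 x55 x56 x57 x58 x59 x60 x61 x62 x63 : Nat) : Nat :=
  (fold (Nat.add (Nat.add (Nat.add (Nat.add (Nat.add (Nat.add (Nat.add (Nat.add (Nat.add (fold
  (Nat.add (Nat.add (Nat.mul (nat_lit 8) (fold (Nat.add (Nat.add (Nat.add (Nat.add (Nat.add (Nat.add
  (Nat.mul (nat_lit 3) (fold (Nat.add (Nat.add (Nat.add (Nat.add (Nat.add (Nat.add (Nat.add (Nat.add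
  (Nat.add (Nat.add (Z a x52) (Z a x50)) (Z a x48)) (Z a x46)) (Z a x44)) (Z a x43)) (Z a x41)) (Z a
  x39)) (Z a x37)) (Z a x35)) (Nat.add (Nat.add (Nat.add (Nat.add (Nat.add (Nat.add (Nat.add
  (Nat.add (Nat.add (Z a x25) (Z a x23)) (Z a x21)) (Z a x19)) (Z a x17)) (Z a x16)) (Z a x14)) (Z a
  x12)) (Z a x10)) (Z a x8))) (mo Y d (nat_lit 0)))) (Z a x60)) (Z a x54)) (Nat.mul (nat_lit 4) (Z a
  x30))) (Z a x6)) (Nat.mul (nat_lit 2) (Nat.add (Nat.add (Nat.add (Z a x57) (Z a x33)) (Z a x27))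
  (Z a x3)))) (Z a x0)) (mo Y d (nat_lit 0)))) (Nat.mul (nat_lit 4) (Nat.add (Z a x31) (Z a x29))))
  (Nat.mul (nat_lit 2) (Nat.add (Nat.add (Nat.add (Nat.add (Nat.add (Nat.add (Nat.add (Z a x58) (Z a
  x56)) (Z a x34)) (Z a x32)) (Z a x28)) (Z a x26)) (Z a x4)) (Z a x2)))) (mo Y d (nat_lit 0)))
  (Nat.mul (nat_lit 3) (fold (Nat.add (Nat.add (Nat.add (Nat.add (Nat.add (Nat.add (Nat.add (Nat.add
  (Z a x51) (Z a x49)) (Z a x47)) (Z a x45)) (Z a x42)) (Z a x40)) (Z a x38)) (Z a x36)) (Nat.add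
  (Nat.add (Nat.add (Nat.add (Nat.add (Nat.add (Nat.add (Z a x24) (Z a x22)) (Z a x20)) (Z a x18))
  (Z a x15)) (Z a x13)) (Z a x11)) (Z a x9))) (mo Y d (nat_lit 0))))) (Z a x61)) (Z a x59)) (Z a
  x55)) (Z a x53)) (Z a x7)) (Z a x5)) (Z a x1)) (Z a x)) (mo Y d (nat_lit 0)))

/-- compiled program -/
def b11_62q : Prog2 := fun Y Z d a x => (b11k64X x).1 (b11_62b Y Z d a x)

/-- compiled program -/
def b11_63b (Y : Lay) (Z : Tb) (d a x : Nat)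
    (x0 x1 x2 x3 x4 x5 x6 x7 x8 x9 x10 x11 x12 x13 x14 x15 x16 x17 x18 x19 x20 x21 x22 x23 x24 x25
    x26 x27 x28 x29 x30 x31 x32 x33 x34 x35 x36 x37 x38 x39 x40 x41 x42 x43 x44 x45 x46 x47 x48 x49
    x50 x51 x52 x53 x54 x55 x56 x57 x58 x59 x60 x61 x62 x63 : Nat) : Nat :=
  (fold (Nat.add (Nat.add (Nat.add (Nat.mul (nat_lit 8) (fold (Nat.add (Nat.add (Nat.add (Nat.mul
  (nat_lit 3) (Nat.add (Z a x32) (Z a x29))) (Z a x35)) (Z a x26)) (Nat.mul (nat_lit 2) (Nat.add (Z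
  a x53) (Z a x8)))) (mo Y d (nat_lit 0)))) (Z a x62)) (Nat.mul (nat_lit 3) (Nat.add (Nat.add
  (Nat.add (Nat.add (Nat.add (Z a x59) (Z a x56)) (Z a x44)) (Z a x17)) (Z a x5)) (Z a x2)))) (Z a
  x)) (mo Y d (nat_lit 0)))

/-- compiled program -/
def b11_63q : Prog2 := fun Y Z d a x => (b11k64X x).1 (b11_63b Y Z d a x)

/-- compiled program -/
def b11_64b (Y : Lay) (Z : Tb) (d a x : Nat)
    (x0 x1 x2 x3 x4 x5 x6 x7 x8 x9 x10 x11 x12 x13 x14 x15 x16 x17 x18 x19 x20 x21 x22 x23 x24 x25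
    x26 x27 x28 x29 x30 x31 x32 x33 x34 x35 x36 x37 x38 x39 x40 x41 x42 x43 x44 x45 x46 x47 x48 x49
    x50 x51 x52 x53 x54 x55 x56 x57 x58 x59 x60 x61 x62 x63 : Nat) : Nat :=
  (fold (Nat.add (Nat.add (Nat.add (Nat.add (Nat.add (Nat.mul (nat_lit 3) (fold (Nat.add (Nat.add
  (Nat.add (Nat.add (Nat.add (Nat.add (Nat.add (Nat.add (Nat.add (Nat.add (Nat.add (Z a x60) (Z a
  x59)) (Z a x57)) (Z a x56)) (Z a x45)) (Z a x44)) (Z a x18)) (Z a x17)) (Z a x6)) (Z a x5)) (Z a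
  x3)) (Z a x2)) (mo Y d (nat_lit 0)))) (Nat.mul (nat_lit 8) (fold (Nat.add (Nat.add (Nat.add
  (Nat.add (Nat.add (Z a x36) (Z a x35)) (Nat.mul (nat_lit 3) (Nat.add (Nat.add (Nat.add (Z a x33)
  (Z a x32)) (Z a x30)) (Z a x29)))) (Z a x27)) (Z a x26)) (Nat.mul (nat_lit 2) (Nat.add (Nat.add
  (Nat.add (Z a x54) (Z a x53)) (Z a x9)) (Z a x8)))) (mo Y d (nat_lit 0))))) (Z a x63)) (Z a x62))
  (Z a x0)) (Z a x)) (mo Y d (nat_lit 0)))

/-- compiled program -/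
def b11_64q : Prog2 := fun Y Z d a x => (b11k64X x).1 (b11_64b Y Z d a x)

/-- keys -/
def b11k96X (c : Nat) :
    Bx ((Nat → Nat → Nat → Nat → Nat → Nat → Nat → Nat → Nat → Nat → Nat → Nat → Nat → Nat → Nat →
    Nat → Nat → Nat → Nat → Nat → Nat → Nat → Nat → Nat → Nat → Nat → Nat → Nat → Nat → Nat → Nat →
    Nat → Nat → Nat → Nat → Nat → Nat → Nat → Nat → Nat → Nat → Nat → Nat → Nat → Nat → Nat → Nat →
    Nat → Nat → Nat → Nat → Nat → Nat → Nat → Nat → Nat → Nat → Nat → Nat → Nat → Nat → Nat → Nat →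
    Nat → Nat → Nat → Nat → Nat → Nat → Nat → Nat → Nat → Nat → Nat → Nat → Nat → Nat → Nat → Nat →
    Nat → Nat → Nat → Nat → Nat → Nat → Nat → Nat → Nat → Nat → Nat → Nat → Nat → Nat → Nat → Nat) →
    Nat) :=
  bx94 Nat c (nat_lit 562949955518464) (nat_lit 1125899911036928) (nat_lit 1688849866555392)
  (nat_lit 2251799822073856) (nat_lit 2814749777592320) (nat_lit 3377699733110784) (nat_lit
  3940649688629248) (nat_lit 4503599644147712) (nat_lit 5066549599666176) (nat_lit 5629499555184640)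
  (nat_lit 6192449510703104) (nat_lit 6755399466221568) (nat_lit 7318349421740032) (nat_lit
  7881299377258496) (nat_lit 8444249332776960) (nat_lit 9007199288295424) (nat_lit 9570149243813888)
  (nat_lit 10133099199332352) (nat_lit 10696049154850816) (nat_lit 11258999110369280) (nat_lit
  11821949065887744) (nat_lit 12384899021406208) (nat_lit 12947848976924672) (nat_lit
  13510798932443136) (nat_lit 14073748887961600) (nat_lit 14636698843480064) (nat_lit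
  15199648798998528) (nat_lit 15762598754516992) (nat_lit 16325548710035456) (nat_lit
  16888498665553920) (nat_lit 17451448621072384) (nat_lit 18014398576590848) (nat_lit
  18577348532109312) (nat_lit 19140298487627776) (nat_lit 19703248443146240) (nat_lit
  20266198398664704) (nat_lit 20829148354183168) (nat_lit 21392098309701632) (nat_lit
  21955048265220096) (nat_lit 22517998220738560) (nat_lit 23080948176257024) (nat_lit
  23643898131775488) (nat_lit 24206848087293952) (nat_lit 24769798042812416) (nat_lit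
  25332747998330880) (nat_lit 25895697953849344) (nat_lit 26458647909367808) (nat_lit
  27021597864886272) (nat_lit 27584547820404736) (nat_lit 28147497775923200) (nat_lit
  28710447731441664) (nat_lit 29273397686960128) (nat_lit 29836347642478592) (nat_lit
  30399297597997056) (nat_lit 30962247553515520) (nat_lit 31525197509033984) (nat_lit
  32088147464552448) (nat_lit 32651097420070912) (nat_lit 33214047375589376) (nat_lit
  33776997331107840) (nat_lit 34339947286626304) (nat_lit 34902897242144768) (nat_lit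
  35465847197663232) (nat_lit 36028797153181696) (nat_lit 36591747108700160) (nat_lit
  37154697064218624) (nat_lit 37717647019737088) (nat_lit 38280596975255552) (nat_lit
  38843546930774016) (nat_lit 39406496886292480) (nat_lit 39969446841810944) (nat_lit
  40532396797329408) (nat_lit 41095346752847872) (nat_lit 41658296708366336) (nat_lit
  42221246663884800) (nat_lit 42784196619403264) (nat_lit 43347146574921728) (nat_lit
  43910096530440192) (nat_lit 44473046485958656) (nat_lit 45035996441477120) (nat_lit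
  45598946396995584) (nat_lit 46161896352514048) (nat_lit 46724846308032512) (nat_lit
  47287796263550976) (nat_lit 47850746219069440) (nat_lit 48413696174587904) (nat_lit
  48976646130106368) (nat_lit 49539596085624832) (nat_lit 50102546041143296) (nat_lit
  50665495996661760) (nat_lit 51228445952180224) (nat_lit 51791395907698688) (nat_lit
  52354345863217152) (nat_lit 52917295818735616)

/-- compiled program -/
def b11_65b (Y : Lay) (Z : Tb) (d a x : Nat)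
    (x0 x1 x2 x3 x4 x5 x6 x7 x8 x9 x10 x11 x12 x13 x14 x15 x16 x17 x18 x19 x20 x21 x22 x23 x24 x25
    x26 x27 x28 x29 x30 x31 x32 x33 x34 x35 x36 x37 x38 x39 x40 x41 x42 x43 x44 x45 x46 x47 x48 x49
    x50 x51 x52 x53 x54 x55 x56 x57 x58 x59 x60 x61 x62 x63 x64 x65 x66 x67 x68 x69 x70 x71 x72 x73
    x74 x75 x76 x77 x78 x79 x80 x81 x82 x83 x84 x85 x86 x87 x88 x89 x90 x91 x92 x93 : Nat) : Nat :=
  (fold (Nat.add (Nat.add (Nat.add (Nat.add (Nat.add (Nat.add (Nat.mul (nat_lit 3) (fold (Nat.add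
  (Nat.add (Nat.add (Nat.add (Nat.add (Nat.add (Nat.add (Z a x61) (Z a x59)) (Z a x58)) (Z a x56))
  (Z a x46)) (Z a x44)) (Z a x33)) (Nat.add (Nat.add (Nat.add (Nat.add (Nat.add (Nat.add (Z a x30)
  (Z a x19)) (Z a x17)) (Z a x7)) (Z a x5)) (Z a x4)) (Z a x2))) (mo Y d (nat_lit 0)))) (Nat.mul
  (nat_lit 8) (fold (Nat.add (Nat.add (Nat.add (Nat.add (fold (Nat.add (Nat.add (Z a x37) (Z a x35))
  (Nat.mul (nat_lit 3) (Nat.add (Nat.add (Nat.add (Nat.add (Nat.add (Nat.add (Nat.add (Nat.add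
  (Nat.add (Z a x60) (Z a x57)) (Z a x45)) (Z a x34)) (Z a x32)) (Z a x31)) (Z a x29)) (Z a x18)) (Z
  a x6)) (Z a x3)))) (mo Y d (nat_lit 0))) (Z a x28)) (Z a x26)) (Nat.mul (nat_lit 4) (Nat.add (Z a
  x54) (Z a x9)))) (Nat.mul (nat_lit 2) (Nat.add (Nat.add (Nat.add (Nat.add (Nat.add (Z a x55) (Z a
  x53)) (Z a x36)) (Z a x27)) (Z a x10)) (Z a x8)))) (mo Y d (nat_lit 0))))) (Z a x64)) (Z a x62))
  (Z a x1)) (Nat.mul (nat_lit 2) (Nat.add (Z a x63) (Z a x0)))) (Z a x)) (mo Y d (nat_lit 0)))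

/-- compiled program -/
def b11_65q : Prog2 := fun Y Z d a x => (b11k96X x).1 (b11_65b Y Z d a x)

/-- compiled program -/
def b11_66b (Y : Lay) (Z : Tb) (d a x : Nat)
    (x0 x1 x2 x3 x4 x5 x6 x7 x8 x9 x10 x11 x12 x13 x14 x15 x16 x17 x18 x19 x20 x21 x22 x23 x24 x25
    x26 x27 x28 x29 x30 x31 x32 x33 x34 x35 x36 x37 x38 x39 x40 x41 x42 x43 x44 x45 x46 x47 x48 x49
    x50 x51 x52 x53 x54 x55 x56 x57 x58 x59 x60 x61 x62 x63 x64 x65 x66 x67 x68 x69 x70 x71 x72 x73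
    x74 x75 x76 x77 x78 x79 x80 x81 x82 x83 x84 x85 x86 x87 x88 x89 x90 x91 x92 x93 : Nat) : Nat :=
  (fold (Nat.add (Nat.add (Nat.add (Nat.add (Nat.add (Nat.add (Nat.mul (nat_lit 3) (fold (Nat.add
  (Nat.add (Nat.add (Nat.add (Nat.add (Nat.add (Nat.add (Z a x64) (Z a x63)) (Z a x55)) (Z a x54))
  (Z a x47)) (Z a x44)) (Z a x32)) (Nat.add (Nat.add (Nat.add (Nat.add (Nat.add (Z a x20) (Z a x17))
  (Z a x10)) (Z a x9)) (Z a x1)) (Z a x0))) (mo Y d (nat_lit 0)))) (Nat.mul (nat_lit 8) (fold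
  (Nat.add (Nat.add (Nat.add (Nat.add (Nat.mul (nat_lit 4) (Nat.add (Z a x35) (Z a x29))) (Z a x38))
  (Z a x26)) (Nat.mul (nat_lit 2) (Nat.add (Z a x53) (Z a x11)))) (Nat.mul (nat_lit 3) (Nat.add
  (Nat.add (Nat.add (Nat.add (Nat.add (Z a x59) (Z a x37)) (Z a x36)) (Z a x28)) (Z a x27)) (Z a
  x5)))) (mo Y d (nat_lit 0))))) (Z a x65)) (Z a x56)) (Z a x8)) (Nat.mul (nat_lit 4) (Nat.add (Z a
  x62) (Z a x2)))) (Z a x)) (mo Y d (nat_lit 0)))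

/-- compiled program -/
def b11_66q : Prog2 := fun Y Z d a x => (b11k96X x).1 (b11_66b Y Z d a x)

/-- compiled program -/
def b11_67b (Y : Lay) (Z : Tb) (d a x : Nat)
    (x0 x1 x2 x3 x4 x5 x6 x7 x8 x9 x10 x11 x12 x13 x14 x15 x16 x17 x18 x19 x20 x21 x22 x23 x24 x25
    x26 x27 x28 x29 x30 x31 x32 x33 x34 x35 x36 x37 x38 x39 x40 x41 x42 x43 x44 x45 x46 x47 x48 x49
    x50 x51 x52 x53 x54 x55 x56 x57 x58 x59 x60 x61 x62 x63 x64 x65 x66 x67 x68 x69 x70 x71 x72 x73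
    x74 x75 x76 x77 x78 x79 x80 x81 x82 x83 x84 x85 x86 x87 x88 x89 x90 x91 x92 x93 : Nat) : Nat :=
  (fold (Nat.add (Nat.add (Nat.add (Nat.add (Nat.add (Nat.add (Nat.add (Nat.add (fold (Nat.add
  (Nat.mul (nat_lit 8) (fold (Nat.add (Nat.add (Nat.add (fold (Nat.add (Nat.mul (nat_lit 2) (Nat.add
  (Nat.add (Nat.add (Z a x63) (Z a x53)) (Z a x12)) (Z a x2))) (Nat.mul (nat_lit 3) (Nat.add
  (Nat.add (Nat.add (Nat.add (Nat.add (Nat.add (Nat.add (Z a x64) (Z a x60)) (Z a x59)) (Z a x55))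
  (Z a x10)) (Z a x6)) (Z a x5)) (Z a x1)))) (mo Y d (nat_lit 0))) (Z a x39)) (Nat.mul (nat_lit 4)
  (Nat.add (Nat.add (Nat.add (Z a x38) (Z a x35)) (Z a x30)) (Z a x27)))) (Z a x26)) (mo Y d
  (nat_lit 0)))) (Nat.mul (nat_lit 4) (Nat.add (Nat.add (Nat.add (Nat.add (Nat.add (Z a x65) (Z a
  x62)) (Z a x56)) (Z a x9)) (Z a x3)) (Z a x0)))) (mo Y d (nat_lit 0))) (Nat.mul (nat_lit 3) (fold
  (Nat.add (Nat.add (Nat.add (Nat.add (Nat.add (Nat.add (Nat.add (Nat.add (Nat.add (Nat.add (Nat.add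
  (Z a x48) (Z a x47)) (Z a x45)) (Z a x44)) (Z a x37)) (Z a x33)) (Z a x32)) (Z a x28)) (Z a x21))
  (Z a x20)) (Z a x18)) (Z a x17)) (mo Y d (nat_lit 0))))) (Z a x66)) (Z a x57)) (Z a x54)) (Nat.mul
  (nat_lit 2) (Nat.add (Z a x36) (Z a x29)))) (Z a x11)) (Z a x8)) (Z a x)) (mo Y d (nat_lit 0)))

/-- compiled program -/
def b11_67q : Prog2 := fun Y Z d a x => (b11k96X x).1 (b11_67b Y Z d a x)

/-- compiled program -/
def b11_68b (Y : Lay) (Z : Tb) (d a x : Nat)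
    (x0 x1 x2 x3 x4 x5 x6 x7 x8 x9 x10 x11 x12 x13 x14 x15 x16 x17 x18 x19 x20 x21 x22 x23 x24 x25
    x26 x27 x28 x29 x30 x31 x32 x33 x34 x35 x36 x37 x38 x39 x40 x41 x42 x43 x44 x45 x46 x47 x48 x49
    x50 x51 x52 x53 x54 x55 x56 x57 x58 x59 x60 x61 x62 x63 x64 x65 x66 x67 x68 x69 x70 x71 x72 x73
    x74 x75 x76 x77 x78 x79 x80 x81 x82 x83 x84 x85 x86 x87 x88 x89 x90 x91 x92 x93 : Nat) : Nat :=
  (fold (Nat.add (Nat.add (Nat.add (Nat.add (Nat.add (Nat.add (Nat.add (Nat.add (Nat.add (Nat.add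
  (fold (Nat.add (Nat.mul (nat_lit 8) (fold (Nat.add (Nat.add (Nat.add (fold (Nat.add (Nat.add
  (Nat.add (Nat.add (Nat.add (fold (Nat.mul (nat_lit 4) (Nat.add (Nat.add (Nat.add (Nat.add (Nat.add
  (Nat.add (Nat.add (Z a x66) (Z a x57)) (Z a x37)) (Z a x35)) (Z a x31)) (Z a x29)) (Z a x9)) (Z a
  x0))) (mo Y d (nat_lit 0))) (Z a x54)) (Z a x40)) (Z a x38)) (Z a x28)) (Nat.mul (nat_lit 3)
  (Nat.add (Nat.add (Nat.add (Nat.add (Nat.add (Nat.add (Nat.add (Nat.add (Z a x61) (Z a x59)) (Z a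
  x48)) (Z a x45)) (Z a x33)) (Z a x21)) (Z a x18)) (Z a x7)) (Z a x5)))) (mo Y d (nat_lit 0))) (Z a
  x26)) (Z a x12)) (Nat.mul (nat_lit 2) (Nat.add (Nat.add (Nat.add (Nat.add (Nat.add (Z a x55) (Z a
  x53)) (Z a x36)) (Z a x30)) (Z a x13)) (Z a x11)))) (mo Y d (nat_lit 0)))) (Nat.mul (nat_lit 4)
  (Nat.add (Nat.add (Nat.add (Nat.add (Nat.add (Z a x64) (Z a x62)) (Z a x39)) (Z a x27)) (Z a x4))
  (Z a x2)))) (mo Y d (nat_lit 0))) (Nat.mul (nat_lit 3) (fold (Nat.add (Nat.add (Nat.add (Nat.add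
  (Nat.add (Nat.add (Nat.add (Nat.add (Nat.add (Nat.add (Nat.add (Z a x60) (Z a x49)) (Z a x47)) (Z
  a x46)) (Z a x44)) (Z a x34)) (Z a x32)) (Z a x22)) (Z a x20)) (Z a x19)) (Z a x17)) (Z a x6)) (mo
  Y d (nat_lit 0))))) (Z a x67)) (Z a x65)) (Z a x58)) (Z a x56)) (Z a x10)) (Z a x8)) (Nat.mul
  (nat_lit 2) (Nat.add (Z a x63) (Z a x3)))) (Z a x1)) (Z a x)) (mo Y d (nat_lit 0)))

/-- compiled program -/
def b11_68q : Prog2 := fun Y Z d a x => (b11k96X x).1 (b11_68b Y Z d a x)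

/-- compiled program -/
def b11_69b (Y : Lay) (Z : Tb) (d a x : Nat)
    (x0 x1 x2 x3 x4 x5 x6 x7 x8 x9 x10 x11 x12 x13 x14 x15 x16 x17 x18 x19 x20 x21 x22 x23 x24 x25
    x26 x27 x28 x29 x30 x31 x32 x33 x34 x35 x36 x37 x38 x39 x40 x41 x42 x43 x44 x45 x46 x47 x48 x49
    x50 x51 x52 x53 x54 x55 x56 x57 x58 x59 x60 x61 x62 x63 x64 x65 x66 x67 x68 x69 x70 x71 x72 x73
    x74 x75 x76 x77 x78 x79 x80 x81 x82 x83 x84 x85 x86 x87 x88 x89 x90 x91 x92 x93 : Nat) : Nat :=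
  (fold (Nat.add (Nat.add (Nat.add (Nat.add (Nat.add (Nat.add (Nat.mul (nat_lit 3) (fold (Nat.add
  (Nat.add (Nat.add (Nat.add (Nat.add (Nat.add (Nat.add (Nat.add (Nat.add (Nat.add (Nat.add (Z a
  x50) (Z a x44)) (Z a x40)) (Z a x39)) (Z a x37)) (Z a x36)) (Z a x31)) (Z a x30)) (Z a x28)) (Z a
  x27)) (Z a x23)) (Z a x17)) (mo Y d (nat_lit 0)))) (Nat.mul (nat_lit 8) (fold (Nat.add (Nat.add
  (Nat.add (Nat.add (Nat.add (Nat.add (Nat.add (Nat.add (Nat.mul (nat_lit 3) (fold (Nat.add (Nat.add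
  (Nat.add (Nat.add (Nat.add (Nat.add (Nat.add (Nat.add (Nat.add (Z a x67) (Z a x66)) (Z a x64)) (Z
  a x63)) (Z a x58)) (Z a x57)) (Z a x55)) (Z a x54)) (Z a x47)) (Nat.add (Nat.add (Nat.add (Nat.add
  (Nat.add (Nat.add (Nat.add (Nat.add (Z a x20) (Z a x13)) (Z a x12)) (Z a x10)) (Z a x9)) (Z a x4))
  (Z a x3)) (Z a x1)) (Z a x0))) (mo Y d (nat_lit 0)))) (Z a x56)) (Z a x41)) (Z a x35)) (Z a x32))
  (Z a x26)) (Z a x11)) (Nat.mul (nat_lit 2) (Nat.add (Nat.add (Nat.add (Z a x59) (Z a x53)) (Z a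
  x14)) (Z a x8)))) (Nat.mul (nat_lit 4) (Nat.add (Z a x65) (Z a x2)))) (mo Y d (nat_lit 0))))) (Z a
  x68)) (Z a x62)) (Nat.mul (nat_lit 4) (Nat.add (Z a x38) (Z a x29)))) (Z a x5)) (Z a x)) (mo Y d
  (nat_lit 0)))

/-- compiled program -/
def b11_69q : Prog2 := fun Y Z d a x => (b11k96X x).1 (b11_69b Y Z d a x)

/-- compiled program -/
def b11_70b (Y : Lay) (Z : Tb) (d a x : Nat)
    (x0 x1 x2 x3 x4 x5 x6 x7 x8 x9 x10 x11 x12 x13 x14 x15 x16 x17 x18 x19 x20 x21 x22 x23 x24 x25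
    x26 x27 x28 x29 x30 x31 x32 x33 x34 x35 x36 x37 x38 x39 x40 x41 x42 x43 x44 x45 x46 x47 x48 x49
    x50 x51 x52 x53 x54 x55 x56 x57 x58 x59 x60 x61 x62 x63 x64 x65 x66 x67 x68 x69 x70 x71 x72 x73
    x74 x75 x76 x77 x78 x79 x80 x81 x82 x83 x84 x85 x86 x87 x88 x89 x90 x91 x92 x93 : Nat) : Nat :=
  (fold (Nat.add (Nat.add (Nat.add (Nat.add (fold (Nat.add (Nat.mul (nat_lit 4) (Nat.add (Nat.add
  (Nat.add (Z a x59) (Z a x54)) (Z a x14)) (Z a x9))) (Nat.mul (nat_lit 2) (Nat.add (Nat.add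
  (Nat.add (Nat.add (Nat.add (Nat.add (Nat.add (Z a x66) (Z a x65)) (Z a x41)) (Z a x36)) (Z a x32))
  (Z a x27)) (Z a x3)) (Z a x2)))) (mo Y d (nat_lit 0))) (fold (Nat.add (Nat.add (Nat.add (Nat.mul
  (nat_lit 3) (fold (Nat.add (Nat.add (Nat.add (Nat.add (Nat.add (Nat.add (Nat.add (Nat.add (Z a
  x67) (Z a x64)) (Z a x58)) (Z a x55)) (Z a x51)) (Z a x50)) (Z a x45)) (Z a x44)) (Nat.add
  (Nat.add (Nat.add (Nat.add (Nat.add (Nat.add (Nat.add (Z a x24) (Z a x23)) (Z a x18)) (Z a x17))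
  (Z a x13)) (Z a x10)) (Z a x4)) (Z a x1))) (mo Y d (nat_lit 0)))) (Nat.mul (nat_lit 8) (fold
  (Nat.add (fold (Nat.add (Nat.add (Nat.add (Nat.add (Z a x42) (Z a x35)) (Z a x33)) (Z a x26))
  (Nat.mul (nat_lit 3) (Nat.add (Nat.add (Nat.add (Nat.add (Nat.add (Nat.add (Nat.add (Z a x48) (Z a
  x47)) (Z a x40)) (Z a x37)) (Z a x31)) (Z a x28)) (Z a x21)) (Z a x20)))) (mo Y d (nat_lit 0)))
  (Nat.mul (nat_lit 2) (Nat.add (Nat.add (Nat.add (Nat.add (Nat.add (Nat.add (Nat.add (Nat.add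
  (Nat.add (Nat.add (Nat.add (Z a x68) (Z a x63)) (Z a x60)) (Z a x53)) (Z a x39)) (Z a x38)) (Z a
  x30)) (Z a x29)) (Z a x15)) (Z a x8)) (Z a x5)) (Z a x0)))) (mo Y d (nat_lit 0))))) (Z a x69))
  (Nat.mul (nat_lit 5) (Nat.add (Nat.add (Nat.add (Z a x57) (Z a x56)) (Z a x12)) (Z a x11)))) (mo Y
  d (nat_lit 0)))) (Z a x62)) (Z a x6)) (Z a x)) (mo Y d (nat_lit 0)))

/-- compiled program -/
def b11_70q : Prog2 := fun Y Z d a x => (b11k96X x).1 (b11_70b Y Z d a x)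

/-- compiled program -/
def b11_71b (Y : Lay) (Z : Tb) (d a x : Nat)
    (x0 x1 x2 x3 x4 x5 x6 x7 x8 x9 x10 x11 x12 x13 x14 x15 x16 x17 x18 x19 x20 x21 x22 x23 x24 x25
    x26 x27 x28 x29 x30 x31 x32 x33 x34 x35 x36 x37 x38 x39 x40 x41 x42 x43 x44 x45 x46 x47 x48 x49
    x50 x51 x52 x53 x54 x55 x56 x57 x58 x59 x60 x61 x62 x63 x64 x65 x66 x67 x68 x69 x70 x71 x72 x73
    x74 x75 x76 x77 x78 x79 x80 x81 x82 x83 x84 x85 x86 x87 x88 x89 x90 x91 x92 x93 : Nat) : Nat :=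
  (fold (Nat.add (Nat.add (Nat.add (Nat.add (Nat.add (Nat.add (Nat.add (fold (Nat.add (Nat.mul
  (nat_lit 8) (fold (Nat.add (Nat.add (Nat.add (Nat.add (Nat.add (Nat.add (Nat.add (Nat.add (Nat.add
  (fold (Nat.add (Nat.add (Nat.add (Nat.add (Nat.add (Nat.add (Nat.add (Nat.add (Z a x69) (Z a x63))
  (Z a x58)) (Z a x56)) (Z a x43)) (Z a x41)) (Z a x37)) (Z a x35)) (Nat.mul (nat_lit 3) (Nat.add
  (Nat.add (Nat.add (Nat.add (Nat.add (Nat.add (Nat.add (Z a x51) (Z a x49)) (Z a x47)) (Z a x45))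
  (Z a x24)) (Z a x22)) (Z a x20)) (Z a x18)))) (mo Y d (nat_lit 0))) (Z a x34)) (Z a x32)) (Z a
  x28)) (Z a x26)) (Z a x13)) (Z a x11)) (Nat.mul (nat_lit 2) (Nat.add (Nat.add (Nat.add (Nat.add
  (Nat.add (Nat.add (Nat.add (Z a x61) (Z a x59)) (Z a x55)) (Z a x53)) (Z a x16)) (Z a x14)) (Z a
  x10)) (Z a x8)))) (Z a x6)) (Z a x0)) (mo Y d (nat_lit 0)))) (Nat.mul (nat_lit 4) (Nat.add
  (Nat.add (Nat.add (Nat.add (Nat.add (Z a x66) (Z a x40)) (Z a x38)) (Z a x31)) (Z a x29)) (Z a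
  x3)))) (mo Y d (nat_lit 0))) (fold (Nat.add (Nat.add (fold (Nat.add (Nat.add (Z a x70) (Z a x68))
  (Nat.mul (nat_lit 3) (Nat.add (Nat.add (Nat.add (Nat.add (Nat.add (Nat.add (Nat.add (Nat.add
  (Nat.add (Z a x52) (Z a x50)) (Z a x48)) (Z a x46)) (Z a x44)) (Z a x25)) (Z a x23)) (Z a x21)) (Z
  a x19)) (Z a x17)))) (mo Y d (nat_lit 0))) (Z a x64)) (Nat.mul (nat_lit 5) (Nat.add (Nat.add
  (Nat.add (Nat.add (Nat.add (Z a x67) (Z a x65)) (Z a x39)) (Z a x30)) (Z a x4)) (Z a x2)))) (mo Y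
  d (nat_lit 0)))) (Z a x62)) (Z a x57)) (Z a x42)) (Z a x36)) (Z a x33)) (Nat.add (Nat.add (Nat.add
  (Nat.add (Nat.add (Nat.add (Z a x27) (Z a x12)) (Nat.mul (nat_lit 2) (Nat.add (Nat.add (Nat.add (Z
  a x60) (Z a x54)) (Z a x15)) (Z a x9)))) (Z a x7)) (Z a x5)) (Z a x1)) (Z a x))) (mo Y d (nat_lit
  0)))

/-- compiled program -/
def b11_71q : Prog2 := fun Y Z d a x => (b11k96X x).1 (b11_71b Y Z d a x)

/-- compiled program -/
def b11_72b (Y : Lay) (Z : Tb) (d a x : Nat)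
    (x0 x1 x2 x3 x4 x5 x6 x7 x8 x9 x10 x11 x12 x13 x14 x15 x16 x17 x18 x19 x20 x21 x22 x23 x24 x25
    x26 x27 x28 x29 x30 x31 x32 x33 x34 x35 x36 x37 x38 x39 x40 x41 x42 x43 x44 x45 x46 x47 x48 x49
    x50 x51 x52 x53 x54 x55 x56 x57 x58 x59 x60 x61 x62 x63 x64 x65 x66 x67 x68 x69 x70 x71 x72 x73
    x74 x75 x76 x77 x78 x79 x80 x81 x82 x83 x84 x85 x86 x87 x88 x89 x90 x91 x92 x93 : Nat) : Nat :=
  (fold (Nat.add (Nat.add (Nat.add (Nat.add (Nat.add (Nat.add (Nat.mul (nat_lit 8) (fold (Nat.add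
  (Nat.add (Nat.add (Nat.mul (nat_lit 2) (Z a x35)) (Z a x62)) (Z a x8)) (Nat.mul (nat_lit 3)
  (Nat.add (Nat.add (Nat.add (Nat.add (Nat.add (Nat.add (Nat.add (Z a x68) (Z a x65)) (Z a x59)) (Z
  a x56)) (Z a x14)) (Z a x11)) (Z a x5)) (Z a x2)))) (mo Y d (nat_lit 0)))) (Z a x71)) (Z a x53))
  (Nat.mul (nat_lit 3) (Nat.add (Nat.add (Nat.add (Z a x41) (Z a x38)) (Z a x32)) (Z a x29))))
  (Nat.mul (nat_lit 2) (Nat.add (Z a x44) (Z a x26)))) (Z a x17)) (Z a x)) (mo Y d (nat_lit 0)))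

/-- compiled program -/
def b11_72q : Prog2 := fun Y Z d a x => (b11k96X x).1 (b11_72b Y Z d a x)

/-- compiled program -/
def b11_73b (Y : Lay) (Z : Tb) (d a x : Nat)
    (x0 x1 x2 x3 x4 x5 x6 x7 x8 x9 x10 x11 x12 x13 x14 x15 x16 x17 x18 x19 x20 x21 x22 x23 x24 x25
    x26 x27 x28 x29 x30 x31 x32 x33 x34 x35 x36 x37 x38 x39 x40 x41 x42 x43 x44 x45 x46 x47 x48 x49
    x50 x51 x52 x53 x54 x55 x56 x57 x58 x59 x60 x61 x62 x63 x64 x65 x66 x67 x68 x69 x70 x71 x72 x73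
    x74 x75 x76 x77 x78 x79 x80 x81 x82 x83 x84 x85 x86 x87 x88 x89 x90 x91 x92 x93 : Nat) : Nat :=
  (fold (Nat.add (Nat.add (Nat.add (Nat.add (Nat.add (Nat.add (Nat.add (Nat.add (Nat.add (fold
  (Nat.add (Nat.mul (nat_lit 8) (fold (Nat.add (Nat.add (Nat.add (Nat.add (Nat.add (Nat.mul (nat_lit
  3) (fold (Nat.add (Nat.add (Nat.add (Nat.add (Nat.add (Nat.add (Nat.add (Nat.add (Z a x69) (Z a
  x68)) (Z a x66)) (Z a x65)) (Z a x60)) (Z a x59)) (Z a x57)) (Z a x56)) (Nat.add (Nat.add (Nat.add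
  (Nat.add (Nat.add (Nat.add (Nat.add (Z a x15) (Z a x14)) (Z a x12)) (Z a x11)) (Z a x6)) (Z a x5))
  (Z a x3)) (Z a x2))) (mo Y d (nat_lit 0)))) (Z a x63)) (Z a x62)) (Nat.mul (nat_lit 2) (Nat.add (Z
  a x36) (Z a x35)))) (Z a x9)) (Z a x8)) (mo Y d (nat_lit 0)))) (Nat.mul (nat_lit 3) (Nat.add
  (Nat.add (Nat.add (Nat.add (Nat.add (Nat.add (Nat.add (Z a x42) (Z a x41)) (Z a x39)) (Z a x38))
  (Z a x33)) (Z a x32)) (Z a x30)) (Z a x29)))) (mo Y d (nat_lit 0))) (Z a x72)) (Z a x71)) (Z a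
  x54)) (Z a x53)) (Nat.mul (nat_lit 2) (Nat.add (Nat.add (Nat.add (Z a x45) (Z a x44)) (Z a x27))
  (Z a x26)))) (Z a x18)) (Z a x17)) (Z a x0)) (Z a x)) (mo Y d (nat_lit 0)))

/-- compiled program -/
def b11_73q : Prog2 := fun Y Z d a x => (b11k96X x).1 (b11_73b Y Z d a x)

/-- compiled program -/
def b11_74b (Y : Lay) (Z : Tb) (d a x : Nat)
    (x0 x1 x2 x3 x4 x5 x6 x7 x8 x9 x10 x11 x12 x13 x14 x15 x16 x17 x18 x19 x20 x21 x22 x23 x24 x25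
    x26 x27 x28 x29 x30 x31 x32 x33 x34 x35 x36 x37 x38 x39 x40 x41 x42 x43 x44 x45 x46 x47 x48 x49
    x50 x51 x52 x53 x54 x55 x56 x57 x58 x59 x60 x61 x62 x63 x64 x65 x66 x67 x68 x69 x70 x71 x72 x73
    x74 x75 x76 x77 x78 x79 x80 x81 x82 x83 x84 x85 x86 x87 x88 x89 x90 x91 x92 x93 : Nat) : Nat :=
  (fold (Nat.add (Nat.add (Nat.add (Nat.add (Nat.add (Nat.add (Nat.add (Nat.add (Nat.add (fold
  (Nat.add (Nat.add (Nat.mul (nat_lit 8) (fold (Nat.add (Nat.add (Nat.add (Nat.add (Nat.add (Nat.add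
  (Nat.mul (nat_lit 3) (fold (Nat.add (Nat.add (Nat.add (Nat.add (Nat.add (Nat.add (Nat.add (Nat.add
  (Nat.add (Nat.add (Z a x70) (Z a x68)) (Z a x67)) (Z a x65)) (Z a x61)) (Z a x59)) (Z a x58)) (Z a
  x56)) (Z a x42)) (Z a x39)) (Nat.add (Nat.add (Nat.add (Nat.add (Nat.add (Nat.add (Nat.add
  (Nat.add (Nat.add (Z a x33) (Z a x30)) (Z a x16)) (Z a x14)) (Z a x13)) (Z a x11)) (Z a x7)) (Z a
  x5)) (Z a x4)) (Z a x2))) (mo Y d (nat_lit 0)))) (Z a x64)) (Z a x62)) (Nat.mul (nat_lit 4) (Z a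
  x36))) (Z a x10)) (Nat.mul (nat_lit 2) (Nat.add (Nat.add (Nat.add (Z a x63) (Z a x37)) (Z a x35))
  (Z a x9)))) (Z a x8)) (mo Y d (nat_lit 0)))) (Nat.mul (nat_lit 4) (Nat.add (Z a x45) (Z a x27))))
  (Nat.mul (nat_lit 2) (Nat.add (Nat.add (Nat.add (Nat.add (Nat.add (Nat.add (Nat.add (Z a x72) (Z a
  x54)) (Z a x46)) (Z a x44)) (Z a x28)) (Z a x26)) (Z a x18)) (Z a x0)))) (mo Y d (nat_lit 0)))
  (Nat.mul (nat_lit 3) (fold (Nat.add (Nat.add (Nat.add (Nat.add (Nat.add (Nat.add (Nat.add (Nat.add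
  (Z a x69) (Z a x66)) (Z a x60)) (Z a x57)) (Z a x43)) (Z a x41)) (Z a x40)) (Z a x38)) (Nat.add
  (Nat.add (Nat.add (Nat.add (Nat.add (Nat.add (Nat.add (Z a x34) (Z a x32)) (Z a x31)) (Z a x29))
  (Z a x15)) (Z a x12)) (Z a x6)) (Z a x3))) (mo Y d (nat_lit 0))))) (Z a x73)) (Z a x71)) (Z a
  x55)) (Z a x53)) (Z a x19)) (Z a x17)) (Z a x1)) (Z a x)) (mo Y d (nat_lit 0)))

/-- compiled program -/
def b11_74q : Prog2 := fun Y Z d a x => (b11k96X x).1 (b11_74b Y Z d a x)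

/-- compiled program -/
def b11_75b (Y : Lay) (Z : Tb) (d a x : Nat)
    (x0 x1 x2 x3 x4 x5 x6 x7 x8 x9 x10 x11 x12 x13 x14 x15 x16 x17 x18 x19 x20 x21 x22 x23 x24 x25
    x26 x27 x28 x29 x30 x31 x32 x33 x34 x35 x36 x37 x38 x39 x40 x41 x42 x43 x44 x45 x46 x47 x48 x49
    x50 x51 x52 x53 x54 x55 x56 x57 x58 x59 x60 x61 x62 x63 x64 x65 x66 x67 x68 x69 x70 x71 x72 x73
    x74 x75 x76 x77 x78 x79 x80 x81 x82 x83 x84 x85 x86 x87 x88 x89 x90 x91 x92 x93 : Nat) : Nat :=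
  (fold (Nat.add (Nat.add (Nat.add (Nat.add (Nat.add (Nat.add (Nat.add (Nat.add (Nat.add (Nat.mul
  (nat_lit 3) (fold (Nat.add (Nat.add (Nat.add (Nat.add (Nat.add (Nat.add (Nat.add (Z a x73) (Z a
  x72)) (Z a x68)) (Z a x59)) (Z a x55)) (Z a x54)) (Z a x37)) (Nat.add (Nat.add (Nat.add (Nat.add
  (Nat.add (Nat.add (Z a x36) (Z a x19)) (Z a x18)) (Z a x14)) (Z a x5)) (Z a x1)) (Z a x0))) (mo Y
  d (nat_lit 0)))) (Nat.mul (nat_lit 6) (fold (Nat.add (Nat.add (Nat.add (Nat.add (Nat.add (Nat.add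
  (Nat.add (Nat.add (Nat.add (Z a x64) (Z a x63)) (Z a x46)) (Z a x45)) (Z a x41)) (Z a x32)) (Z a
  x28)) (Z a x27)) (Z a x10)) (Z a x9)) (mo Y d (nat_lit 0))))) (Nat.mul (nat_lit 8) (fold (Nat.add
  (Nat.mul (nat_lit 4) (Nat.add (Nat.add (Nat.add (Nat.add (Nat.add (Z a x65) (Z a x62)) (Z a x44))
  (Z a x29)) (Z a x11)) (Z a x8))) (Nat.mul (nat_lit 2) (Nat.add (Nat.add (Nat.add (Z a x71) (Z a
  x56)) (Z a x17)) (Z a x2)))) (mo Y d (nat_lit 0))))) (Z a x74)) (Z a x53)) (Z a x38)) (Z a x35))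
  (Nat.mul (nat_lit 2) (Nat.add (Z a x47) (Z a x26)))) (Z a x20)) (Z a x)) (mo Y d (nat_lit 0)))

/-- compiled program -/
def b11_75q : Prog2 := fun Y Z d a x => (b11k96X x).1 (b11_75b Y Z d a x)

/-- compiled program -/
def b11_76b (Y : Lay) (Z : Tb) (d a x : Nat)
    (x0 x1 x2 x3 x4 x5 x6 x7 x8 x9 x10 x11 x12 x13 x14 x15 x16 x17 x18 x19 x20 x21 x22 x23 x24 x25
    x26 x27 x28 x29 x30 x31 x32 x33 x34 x35 x36 x37 x38 x39 x40 x41 x42 x43 x44 x45 x46 x47 x48 x49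
    x50 x51 x52 x53 x54 x55 x56 x57 x58 x59 x60 x61 x62 x63 x64 x65 x66 x67 x68 x69 x70 x71 x72 x73
    x74 x75 x76 x77 x78 x79 x80 x81 x82 x83 x84 x85 x86 x87 x88 x89 x90 x91 x92 x93 : Nat) : Nat :=
  (fold (Nat.add (Nat.add (Nat.add (Nat.add (Nat.add (Nat.add (fold (Nat.add (Nat.mul (nat_lit 8)
  (Nat.add (fold (Nat.add (Nat.mul (nat_lit 4) (Nat.add (Nat.add (Nat.add (Nat.add (Nat.add (Z a
  x66) (Z a x62)) (Z a x44)) (Z a x30)) (Z a x12)) (Z a x8))) (Nat.mul (nat_lit 2) (Nat.add (Nat.add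
  (Nat.add (Z a x71) (Z a x57)) (Z a x17)) (Z a x3)))) (mo Y d (nat_lit 0))) (fold (Nat.add (Nat.add
  (Z a x47) (Z a x27)) (Nat.mul (nat_lit 3) (Nat.add (Nat.add (Nat.add (Nat.add (Nat.add (Nat.add
  (Nat.add (Nat.add (Z a x73) (Z a x55)) (Z a x42)) (Z a x41)) (Z a x37)) (Z a x33)) (Z a x32)) (Z a
  x19)) (Z a x1)))) (mo Y d (nat_lit 0))))) (Nat.mul (nat_lit 2) (Nat.add (Nat.add (Nat.add (Nat.add
  (Nat.add (Nat.add (Nat.add (Z a x65) (Z a x63)) (Z a x48)) (Z a x45)) (Z a x29)) (Z a x26)) (Z a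
  x11)) (Z a x9)))) (mo Y d (nat_lit 0))) (fold (Nat.add (Nat.add (Nat.add (Nat.add (Nat.add
  (Nat.add (Nat.mul (nat_lit 3) (fold (Nat.add (Nat.add (Nat.add (Nat.add (Nat.add (Nat.add (Nat.add
  (Nat.add (Nat.add (Nat.add (Nat.add (Z a x69) (Z a x68)) (Z a x64)) (Z a x60)) (Z a x59)) (Z a
  x46)) (Z a x28)) (Z a x15)) (Z a x14)) (Z a x10)) (Z a x6)) (Z a x5)) (mo Y d (nat_lit 0)))) (Z a
  x75)) (Z a x72)) (Z a x56)) (Z a x53)) (Z a x39)) (Nat.mul (nat_lit 4) (Nat.add (Nat.add (Nat.add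
  (Nat.add (Nat.add (Z a x74) (Z a x54)) (Z a x38)) (Z a x36)) (Z a x20)) (Z a x0)))) (mo Y d
  (nat_lit 0)))) (Z a x35)) (Z a x21)) (Z a x18)) (Z a x2)) (Z a x)) (mo Y d (nat_lit 0)))

/-- compiled program -/
def b11_76q : Prog2 := fun Y Z d a x => (b11k96X x).1 (b11_76b Y Z d a x)

/-- compiled program -/
def b11_77b (Y : Lay) (Z : Tb) (d a x : Nat)
    (x0 x1 x2 x3 x4 x5 x6 x7 x8 x9 x10 x11 x12 x13 x14 x15 x16 x17 x18 x19 x20 x21 x22 x23 x24 x25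
    x26 x27 x28 x29 x30 x31 x32 x33 x34 x35 x36 x37 x38 x39 x40 x41 x42 x43 x44 x45 x46 x47 x48 x49
    x50 x51 x52 x53 x54 x55 x56 x57 x58 x59 x60 x61 x62 x63 x64 x65 x66 x67 x68 x69 x70 x71 x72 x73
    x74 x75 x76 x77 x78 x79 x80 x81 x82 x83 x84 x85 x86 x87 x88 x89 x90 x91 x92 x93 : Nat) : Nat :=
  (fold (Nat.add (Nat.add (Nat.add (Nat.add (Nat.add (Nat.add (Nat.add (Nat.add (fold (Nat.add
  (Nat.add (Z a x76) (Z a x74)) (Nat.mul (nat_lit 3) (Nat.add (Nat.add (Nat.add (Nat.add (Nat.add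
  (Nat.add (Nat.add (Nat.add (Nat.add (Z a x70) (Z a x68)) (Z a x61)) (Z a x59)) (Z a x42)) (Z a
  x33)) (Z a x16)) (Z a x14)) (Z a x7)) (Z a x5)))) (mo Y d (nat_lit 0))) (Nat.mul (nat_lit 8) (fold
  (Nat.add (Nat.add (Nat.add (Nat.add (Nat.add (fold (Nat.add (Nat.mul (nat_lit 4) (fold (Nat.add
  (Nat.add (Nat.add (Nat.add (Nat.add (Nat.add (Nat.add (Nat.add (Nat.add (Z a x75) (Z a x67)) (Z a
  x65)) (Z a x64)) (Z a x62)) (Z a x54)) (Z a x46)) (Z a x44)) (Z a x39)) (Nat.add (Nat.add (Nat.add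
  (Nat.add (Nat.add (Nat.add (Nat.add (Nat.add (Z a x36) (Z a x31)) (Z a x29)) (Z a x21)) (Z a x13))
  (Z a x11)) (Z a x10)) (Z a x8)) (Z a x0))) (mo Y d (nat_lit 0)))) (Nat.mul (nat_lit 2) (Nat.add
  (Nat.add (Nat.add (Nat.add (Nat.add (Nat.add (Nat.add (Z a x73) (Z a x71)) (Z a x66)) (Z a x63))
  (Z a x58)) (Z a x56)) (Z a x45)) (Nat.add (Nat.add (Nat.add (Nat.add (Nat.add (Nat.add (Z a x30)
  (Z a x19)) (Z a x17)) (Z a x12)) (Z a x9)) (Z a x4)) (Z a x2))))) (mo Y d (nat_lit 0))) (Z a x72))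
  (Z a x57)) (Z a x18)) (Nat.mul (nat_lit 3) (Nat.add (Nat.add (Nat.add (Nat.add (Nat.add (Nat.add
  (Nat.add (Z a x69) (Z a x60)) (Z a x43)) (Z a x41)) (Z a x34)) (Z a x32)) (Z a x15)) (Z a x6))))
  (Z a x3)) (mo Y d (nat_lit 0))))) (Z a x55)) (Z a x53)) (Z a x48)) (Z a x40)) (Z a x38)) (Z a
  x37)) (Nat.add (Nat.add (Nat.add (Nat.add (Nat.add (Nat.add (Z a x35) (Z a x27)) (Nat.mul (nat_lit
  2) (Nat.add (Nat.add (Nat.add (Z a x49) (Z a x47)) (Z a x28)) (Z a x26)))) (Z a x22)) (Z a x20))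
  (Z a x1)) (Z a x))) (mo Y d (nat_lit 0)))

/-- compiled program -/
def b11_77q : Prog2 := fun Y Z d a x => (b11k96X x).1 (b11_77b Y Z d a x)

/-- compiled program -/
def b11_78b (Y : Lay) (Z : Tb) (d a x : Nat)
    (x0 x1 x2 x3 x4 x5 x6 x7 x8 x9 x10 x11 x12 x13 x14 x15 x16 x17 x18 x19 x20 x21 x22 x23 x24 x25
    x26 x27 x28 x29 x30 x31 x32 x33 x34 x35 x36 x37 x38 x39 x40 x41 x42 x43 x44 x45 x46 x47 x48 x49
    x50 x51 x52 x53 x54 x55 x56 x57 x58 x59 x60 x61 x62 x63 x64 x65 x66 x67 x68 x69 x70 x71 x72 x73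
    x74 x75 x76 x77 x78 x79 x80 x81 x82 x83 x84 x85 x86 x87 x88 x89 x90 x91 x92 x93 : Nat) : Nat :=
  (fold (Nat.add (Nat.add (Nat.add (Nat.add (Nat.add (Nat.add (Nat.add (Nat.mul (nat_lit 3) (fold
  (Nat.add (Nat.add (Nat.add (Nat.add (Nat.add (Nat.add (Nat.add (Nat.add (Z a x67) (Z a x66)) (Z a
  x64)) (Z a x63)) (Z a x49)) (Z a x48)) (Z a x46)) (Z a x45)) (Nat.add (Nat.add (Nat.add (Nat.add
  (Nat.add (Nat.add (Nat.add (Z a x31) (Z a x30)) (Z a x28)) (Z a x27)) (Z a x13)) (Z a x12)) (Z a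
  x10)) (Z a x9))) (mo Y d (nat_lit 0)))) (Nat.mul (nat_lit 8) (fold (Nat.add (Nat.add (Nat.add
  (Nat.add (Nat.add (Nat.add (Nat.add (Nat.add (Nat.add (Nat.mul (nat_lit 3) (fold (Nat.add (Nat.add
  (Nat.add (Nat.add (Nat.add (Nat.add (Nat.add (Nat.add (Nat.add (Nat.add (Z a x76) (Z a x75)) (Z a
  x73)) (Z a x72)) (Z a x58)) (Z a x57)) (Z a x55)) (Z a x54)) (Z a x40)) (Z a x39)) (Nat.add
  (Nat.add (Nat.add (Nat.add (Nat.add (Nat.add (Nat.add (Nat.add (Nat.add (Z a x37) (Z a x36)) (Z a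
  x22)) (Z a x21)) (Z a x19)) (Z a x18)) (Z a x4)) (Z a x3)) (Z a x1)) (Z a x0))) (mo Y d (nat_lit
  0)))) (Z a x74)) (Z a x68)) (Z a x62)) (Z a x56)) (Nat.mul (nat_lit 2) (Nat.add (Nat.add (Nat.add
  (Z a x47) (Z a x41)) (Z a x35)) (Z a x29)))) (Z a x20)) (Z a x14)) (Z a x8)) (Z a x2)) (mo Y d
  (nat_lit 0))))) (Z a x77)) (Z a x71)) (Z a x65)) (Z a x59)) (Z a x53)) (Nat.add (Nat.add (Nat.add
  (Nat.add (Nat.add (Nat.mul (nat_lit 2) (Nat.add (Nat.add (Nat.add (Nat.add (Z a x50) (Z a x44)) (Z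
  a x38)) (Z a x32)) (Z a x26))) (Z a x23)) (Z a x17)) (Z a x11)) (Z a x5)) (Z a x))) (mo Y d
  (nat_lit 0)))

/-- compiled program -/
def b11_78q : Prog2 := fun Y Z d a x => (b11k96X x).1 (b11_78b Y Z d a x)

/-- compiled program -/
def b11_79b (Y : Lay) (Z : Tb) (d a x : Nat)
    (x0 x1 x2 x3 x4 x5 x6 x7 x8 x9 x10 x11 x12 x13 x14 x15 x16 x17 x18 x19 x20 x21 x22 x23 x24 x25
    x26 x27 x28 x29 x30 x31 x32 x33 x34 x35 x36 x37 x38 x39 x40 x41 x42 x43 x44 x45 x46 x47 x48 x49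
    x50 x51 x52 x53 x54 x55 x56 x57 x58 x59 x60 x61 x62 x63 x64 x65 x66 x67 x68 x69 x70 x71 x72 x73
    x74 x75 x76 x77 x78 x79 x80 x81 x82 x83 x84 x85 x86 x87 x88 x89 x90 x91 x92 x93 : Nat) : Nat :=
  (fold (Nat.add (Nat.add (Nat.add (Nat.add (Nat.add (Nat.add (Nat.add (fold (Nat.add (Nat.mul
  (nat_lit 8) (fold (Nat.add (Nat.add (Nat.add (fold (Nat.add (Nat.add (Nat.add (Nat.add (Nat.add
  (Nat.mul (nat_lit 4) (fold (Nat.add (Nat.add (Nat.add (Nat.add (Nat.add (Nat.add (Nat.add (Nat.add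
  (Nat.add (Nat.add (Nat.add (Z a x75) (Z a x74)) (Z a x57)) (Z a x56)) (Z a x50)) (Z a x45)) (Z a
  x32)) (Z a x27)) (Z a x21)) (Z a x20)) (Z a x3)) (Z a x2)) (mo Y d (nat_lit 0)))) (Z a x69)) (Z a
  x62)) (Z a x39)) (Z a x38)) (Nat.mul (nat_lit 3) (Nat.add (Nat.add (Nat.add (Nat.add (Nat.add
  (Nat.add (Nat.add (Z a x67) (Z a x64)) (Z a x49)) (Z a x46)) (Z a x31)) (Z a x28)) (Z a x13)) (Z a
  x10)))) (mo Y d (nat_lit 0))) (Z a x15)) (Z a x8)) (Nat.mul (nat_lit 2) (Nat.add (Nat.add (Nat.add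
  (Nat.add (Nat.add (Nat.add (Nat.add (Nat.add (Nat.add (Z a x77) (Z a x72)) (Z a x59)) (Z a x54))
  (Z a x42)) (Z a x35)) (Z a x23)) (Z a x18)) (Z a x5)) (Z a x0)))) (mo Y d (nat_lit 0)))) (Nat.mul
  (nat_lit 4) (Nat.add (Nat.add (Nat.add (Nat.add (Nat.add (Z a x66) (Z a x65)) (Z a x41)) (Z a
  x36)) (Z a x12)) (Z a x11)))) (mo Y d (nat_lit 0))) (fold (Nat.add (Nat.add (Z a x78) (Z a x71))
  (Nat.mul (nat_lit 3) (Nat.add (Nat.add (Nat.add (Nat.add (Nat.add (Nat.add (Nat.add (Nat.add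
  (Nat.add (Z a x76) (Z a x73)) (Z a x58)) (Z a x55)) (Z a x40)) (Z a x37)) (Z a x22)) (Z a x19)) (Z
  a x4)) (Z a x1)))) (mo Y d (nat_lit 0)))) (Z a x60)) (Z a x53)) (Z a x48)) (Z a x47)) (Z a x30))
  (Nat.add (Nat.add (Nat.add (Nat.add (Nat.add (Z a x29) (Z a x24)) (Z a x17)) (Nat.mul (nat_lit 2)
  (Nat.add (Nat.add (Nat.add (Nat.add (Nat.add (Nat.add (Nat.add (Z a x68) (Z a x63)) (Z a x51)) (Z
  a x44)) (Z a x33)) (Z a x26)) (Z a x14)) (Z a x9)))) (Z a x6)) (Z a x))) (mo Y d (nat_lit 0)))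

/-- compiled program -/
def b11_79q : Prog2 := fun Y Z d a x => (b11k96X x).1 (b11_79b Y Z d a x)

/-- compiled program -/
def b11_80b (Y : Lay) (Z : Tb) (d a x : Nat)
    (x0 x1 x2 x3 x4 x5 x6 x7 x8 x9 x10 x11 x12 x13 x14 x15 x16 x17 x18 x19 x20 x21 x22 x23 x24 x25
    x26 x27 x28 x29 x30 x31 x32 x33 x34 x35 x36 x37 x38 x39 x40 x41 x42 x43 x44 x45 x46 x47 x48 x49
    x50 x51 x52 x53 x54 x55 x56 x57 x58 x59 x60 x61 x62 x63 x64 x65 x66 x67 x68 x69 x70 x71 x72 x73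
    x74 x75 x76 x77 x78 x79 x80 x81 x82 x83 x84 x85 x86 x87 x88 x89 x90 x91 x92 x93 : Nat) : Nat :=
  (fold (Nat.add (fold (Nat.add (Nat.add (Nat.add (Nat.add (Nat.add (Nat.add (Nat.add (Nat.add (fold
  (Nat.add (Nat.add (Nat.add (Nat.add (Z a x79) (Z a x77)) (Z a x75)) (Z a x73)) (Nat.mul (nat_lit
  2) (Nat.add (Nat.add (Nat.add (Nat.add (Nat.add (Nat.add (Nat.add (Z a x52) (Z a x50)) (Z a x48))
  (Z a x46)) (Z a x44)) (Z a x42)) (Z a x40)) (Nat.add (Nat.add (Nat.add (Nat.add (Nat.add (Nat.add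
  (Z a x38) (Z a x36)) (Z a x34)) (Z a x32)) (Z a x30)) (Z a x28)) (Z a x26))))) (mo Y d (nat_lit
  0))) (Nat.mul (nat_lit 8) (fold (Nat.add (Nat.add (Nat.add (Nat.add (Nat.add (Nat.add (Nat.add
  (Nat.add (Nat.add (Nat.add (Nat.add (fold (Nat.add (Nat.add (Nat.add (Nat.add (Nat.add (Nat.add (Z
  a x78) (Z a x76)) (Z a x74)) (Z a x72)) (Z a x70)) (Z a x68)) (Nat.mul (nat_lit 2) (Nat.add
  (Nat.add (Nat.add (Nat.add (Nat.add (Nat.add (Nat.add (Z a x51) (Z a x49)) (Z a x47)) (Z a x45))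
  (Z a x43)) (Z a x41)) (Z a x39)) (Nat.add (Nat.add (Nat.add (Nat.add (Nat.add (Z a x37) (Z a x35))
  (Z a x33)) (Z a x31)) (Z a x29)) (Z a x27))))) (mo Y d (nat_lit 0))) (Z a x66)) (Z a x64)) (Z a
  x62)) (Z a x60)) (Z a x58)) (Z a x56)) (Z a x54)) (Z a x24)) (Z a x22)) (Z a x20)) (Nat.add
  (Nat.add (Nat.add (Nat.add (Nat.add (Nat.add (Nat.add (Nat.add (Nat.add (Z a x18) (Z a x16)) (Z a
  x14)) (Z a x12)) (Z a x10)) (Z a x8)) (Z a x6)) (Z a x4)) (Z a x2)) (Z a x0))) (mo Y d (nat_lit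
  0))))) (Z a x71)) (Z a x69)) (Z a x67)) (Z a x65)) (Z a x63)) (Nat.add (Nat.add (Nat.add (Nat.add
  (Nat.add (Z a x61) (Z a x59)) (Z a x57)) (Z a x55)) (Z a x53)) (Z a x25))) (Nat.add (Nat.add
  (Nat.add (Nat.add (Nat.add (Nat.add (Nat.add (Nat.add (Nat.add (Nat.add (Nat.add (Z a x23) (Z a
  x21)) (Z a x19)) (Z a x17)) (Z a x15)) (Z a x13)) (Z a x11)) (Z a x9)) (Z a x7)) (Z a x5)) (Z a
  x3)) (Z a x1))) (mo Y d (nat_lit 0))) (Z a x)) (mo Y d (nat_lit 0)))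

/-- compiled program -/
def b11_80q : Prog2 := fun Y Z d a x => (b11k96X x).1 (b11_80b Y Z d a x)

/-- compiled program -/
def b11_81b (Y : Lay) (Z : Tb) (d a x : Nat)
    (x0 x1 x2 x3 x4 x5 x6 x7 x8 x9 x10 x11 x12 x13 x14 x15 x16 x17 x18 x19 x20 x21 x22 x23 x24 x25
    x26 x27 x28 x29 x30 x31 x32 x33 x34 x35 x36 x37 x38 x39 x40 x41 x42 x43 x44 x45 x46 x47 x48 x49
    x50 x51 x52 x53 x54 x55 x56 x57 x58 x59 x60 x61 x62 x63 x64 x65 x66 x67 x68 x69 x70 x71 x72 x73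
    x74 x75 x76 x77 x78 x79 x80 x81 x82 x83 x84 x85 x86 x87 x88 x89 x90 x91 x92 x93 : Nat) : Nat :=
  (fold (Nat.add (Nat.add (Nat.mul (nat_lit 3) (Nat.add (Z a x53) (Z a x26))) (Z a x80)) (Z a x))
  (mo Y d (nat_lit 0)))

/-- compiled program -/
def b11_81q : Prog2 := fun Y Z d a x => (b11k96X x).1 (b11_81b Y Z d a x)

/-- compiled program -/
def b11_82b (Y : Lay) (Z : Tb) (d a x : Nat)
    (x0 x1 x2 x3 x4 x5 x6 x7 x8 x9 x10 x11 x12 x13 x14 x15 x16 x17 x18 x19 x20 x21 x22 x23 x24 x25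
    x26 x27 x28 x29 x30 x31 x32 x33 x34 x35 x36 x37 x38 x39 x40 x41 x42 x43 x44 x45 x46 x47 x48 x49
    x50 x51 x52 x53 x54 x55 x56 x57 x58 x59 x60 x61 x62 x63 x64 x65 x66 x67 x68 x69 x70 x71 x72 x73
    x74 x75 x76 x77 x78 x79 x80 x81 x82 x83 x84 x85 x86 x87 x88 x89 x90 x91 x92 x93 : Nat) : Nat :=
  (fold (Nat.add (Nat.add (Nat.add (Nat.add (Z a x81) (Z a x80)) (Nat.mul (nat_lit 3) (Nat.add
  (Nat.add (Nat.add (Z a x54) (Z a x53)) (Z a x27)) (Z a x26)))) (Z a x0)) (Z a x)) (mo Y d (nat_lit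
  0)))

/-- compiled program -/
def b11_82q : Prog2 := fun Y Z d a x => (b11k96X x).1 (b11_82b Y Z d a x)

/-- compiled program -/
def b11_83b (Y : Lay) (Z : Tb) (d a x : Nat)
    (x0 x1 x2 x3 x4 x5 x6 x7 x8 x9 x10 x11 x12 x13 x14 x15 x16 x17 x18 x19 x20 x21 x22 x23 x24 x25
    x26 x27 x28 x29 x30 x31 x32 x33 x34 x35 x36 x37 x38 x39 x40 x41 x42 x43 x44 x45 x46 x47 x48 x49
    x50 x51 x52 x53 x54 x55 x56 x57 x58 x59 x60 x61 x62 x63 x64 x65 x66 x67 x68 x69 x70 x71 x72 x73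
    x74 x75 x76 x77 x78 x79 x80 x81 x82 x83 x84 x85 x86 x87 x88 x89 x90 x91 x92 x93 : Nat) : Nat :=
  (fold (Nat.add (Nat.add (Nat.add (Nat.add (Nat.add (Nat.add (Z a x82) (Z a x80)) (Nat.mul (nat_lit
  6) (Nat.add (Z a x54) (Z a x27)))) (Nat.mul (nat_lit 3) (Nat.add (Nat.add (Nat.add (Z a x55) (Z a
  x53)) (Z a x28)) (Z a x26)))) (Z a x1)) (Nat.mul (nat_lit 2) (Nat.add (Z a x81) (Z a x0)))) (Z a
  x)) (mo Y d (nat_lit 0)))

/-- compiled program -/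
def b11_83q : Prog2 := fun Y Z d a x => (b11k96X x).1 (b11_83b Y Z d a x)

/-- compiled program -/
def b11_84b (Y : Lay) (Z : Tb) (d a x : Nat)
    (x0 x1 x2 x3 x4 x5 x6 x7 x8 x9 x10 x11 x12 x13 x14 x15 x16 x17 x18 x19 x20 x21 x22 x23 x24 x25
    x26 x27 x28 x29 x30 x31 x32 x33 x34 x35 x36 x37 x38 x39 x40 x41 x42 x43 x44 x45 x46 x47 x48 x49
    x50 x51 x52 x53 x54 x55 x56 x57 x58 x59 x60 x61 x62 x63 x64 x65 x66 x67 x68 x69 x70 x71 x72 x73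
    x74 x75 x76 x77 x78 x79 x80 x81 x82 x83 x84 x85 x86 x87 x88 x89 x90 x91 x92 x93 : Nat) : Nat :=
  (fold (Nat.add (Nat.add (Nat.add (Nat.add (Z a x83) (Z a x80)) (Z a x2)) (Nat.mul (nat_lit 3)
  (Nat.add (Nat.add (Nat.add (Nat.add (Nat.add (Nat.add (Nat.add (Z a x82) (Z a x81)) (Z a x56)) (Z
  a x53)) (Z a x29)) (Z a x26)) (Z a x1)) (Z a x0)))) (Z a x)) (mo Y d (nat_lit 0)))

/-- compiled program -/
def b11_84q : Prog2 := fun Y Z d a x => (b11k96X x).1 (b11_84b Y Z d a x)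

/-- compiled program -/
def b11_85b (Y : Lay) (Z : Tb) (d a x : Nat)
    (x0 x1 x2 x3 x4 x5 x6 x7 x8 x9 x10 x11 x12 x13 x14 x15 x16 x17 x18 x19 x20 x21 x22 x23 x24 x25
    x26 x27 x28 x29 x30 x31 x32 x33 x34 x35 x36 x37 x38 x39 x40 x41 x42 x43 x44 x45 x46 x47 x48 x49
    x50 x51 x52 x53 x54 x55 x56 x57 x58 x59 x60 x61 x62 x63 x64 x65 x66 x67 x68 x69 x70 x71 x72 x73
    x74 x75 x76 x77 x78 x79 x80 x81 x82 x83 x84 x85 x86 x87 x88 x89 x90 x91 x92 x93 : Nat) : Nat :=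
  (fold (Nat.add (Nat.add (fold (Nat.add (Nat.add (Nat.add (Nat.add (Z a x84) (Z a x80)) (Nat.mul
  (nat_lit 3) (Nat.add (Nat.add (Nat.add (Nat.add (Nat.add (Nat.add (Nat.add (Z a x57) (Z a x56)) (Z
  a x54)) (Z a x53)) (Z a x30)) (Z a x29)) (Z a x27)) (Z a x26)))) (Z a x3)) (Z a x)) (mo Y d
  (nat_lit 0))) (Nat.mul (nat_lit 6) (Nat.add (Z a x82) (Z a x1)))) (Nat.mul (nat_lit 4) (Nat.add
  (Nat.add (Nat.add (Z a x83) (Z a x81)) (Z a x2)) (Z a x0)))) (mo Y d (nat_lit 0)))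

/-- compiled program -/
def b11_85q : Prog2 := fun Y Z d a x => (b11k96X x).1 (b11_85b Y Z d a x)

/-- compiled program -/
def b11_86b (Y : Lay) (Z : Tb) (d a x : Nat)
    (x0 x1 x2 x3 x4 x5 x6 x7 x8 x9 x10 x11 x12 x13 x14 x15 x16 x17 x18 x19 x20 x21 x22 x23 x24 x25
    x26 x27 x28 x29 x30 x31 x32 x33 x34 x35 x36 x37 x38 x39 x40 x41 x42 x43 x44 x45 x46 x47 x48 x49
    x50 x51 x52 x53 x54 x55 x56 x57 x58 x59 x60 x61 x62 x63 x64 x65 x66 x67 x68 x69 x70 x71 x72 x73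
    x74 x75 x76 x77 x78 x79 x80 x81 x82 x83 x84 x85 x86 x87 x88 x89 x90 x91 x92 x93 : Nat) : Nat :=
  (fold (Nat.add (fold (Nat.add (fold (Nat.add (Nat.add (Nat.add (Nat.add (Nat.add (Nat.add (Nat.add
  (Nat.add (Z a x85) (Z a x83)) (Z a x82)) (Z a x80)) (Nat.mul (nat_lit 6) (Nat.add (Nat.add
  (Nat.add (Z a x57) (Z a x54)) (Z a x30)) (Z a x27)))) (Z a x4)) (Z a x2)) (Z a x1)) (Z a x)) (mo Y
  d (nat_lit 0))) (Nat.mul (nat_lit 3) (Nat.add (Nat.add (Nat.add (Nat.add (Nat.add (Nat.add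
  (Nat.add (Z a x58) (Z a x56)) (Z a x55)) (Z a x53)) (Z a x31)) (Z a x29)) (Z a x28)) (Z a x26))))
  (mo Y d (nat_lit 0))) (Nat.mul (nat_lit 5) (Nat.add (Nat.add (Nat.add (Z a x84) (Z a x81)) (Z a
  x3)) (Z a x0)))) (mo Y d (nat_lit 0)))

/-- compiled program -/
def b11_86q : Prog2 := fun Y Z d a x => (b11k96X x).1 (b11_86b Y Z d a x)

/-- compiled program -/
def b11_87b (Y : Lay) (Z : Tb) (d a x : Nat)
    (x0 x1 x2 x3 x4 x5 x6 x7 x8 x9 x10 x11 x12 x13 x14 x15 x16 x17 x18 x19 x20 x21 x22 x23 x24 x25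
    x26 x27 x28 x29 x30 x31 x32 x33 x34 x35 x36 x37 x38 x39 x40 x41 x42 x43 x44 x45 x46 x47 x48 x49
    x50 x51 x52 x53 x54 x55 x56 x57 x58 x59 x60 x61 x62 x63 x64 x65 x66 x67 x68 x69 x70 x71 x72 x73
    x74 x75 x76 x77 x78 x79 x80 x81 x82 x83 x84 x85 x86 x87 x88 x89 x90 x91 x92 x93 : Nat) : Nat :=
  (fold (Nat.add (Nat.add (Nat.add (Nat.add (Nat.add (Nat.add (Nat.mul (nat_lit 6) (fold (Nat.add
  (Nat.add (Nat.add (Nat.add (Nat.add (Nat.add (Nat.add (Nat.add (Nat.add (Z a x85) (Z a x84)) (Z a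
  x82)) (Z a x81)) (Z a x56)) (Z a x29)) (Z a x4)) (Z a x3)) (Z a x1)) (Z a x0)) (mo Y d (nat_lit
  0)))) (Z a x86)) (Z a x80)) (Nat.mul (nat_lit 3) (Nat.add (Nat.add (Nat.add (Z a x59) (Z a x53))
  (Z a x32)) (Z a x26)))) (Z a x5)) (Nat.mul (nat_lit 2) (Nat.add (Z a x83) (Z a x2)))) (Z a x)) (mo
  Y d (nat_lit 0)))

/-- compiled program -/
def b11_87q : Prog2 := fun Y Z d a x => (b11k96X x).1 (b11_87b Y Z d a x)

/-- compiled program -/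
def b11_88b (Y : Lay) (Z : Tb) (d a x : Nat)
    (x0 x1 x2 x3 x4 x5 x6 x7 x8 x9 x10 x11 x12 x13 x14 x15 x16 x17 x18 x19 x20 x21 x22 x23 x24 x25
    x26 x27 x28 x29 x30 x31 x32 x33 x34 x35 x36 x37 x38 x39 x40 x41 x42 x43 x44 x45 x46 x47 x48 x49
    x50 x51 x52 x53 x54 x55 x56 x57 x58 x59 x60 x61 x62 x63 x64 x65 x66 x67 x68 x69 x70 x71 x72 x73
    x74 x75 x76 x77 x78 x79 x80 x81 x82 x83 x84 x85 x86 x87 x88 x89 x90 x91 x92 x93 : Nat) : Nat :=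
  (fold (Nat.add (Nat.add (Nat.add (Nat.add (Nat.add (Nat.mul (nat_lit 3) (fold (Nat.add (Nat.add
  (Nat.add (Nat.add (Nat.add (Nat.add (Nat.add (Nat.add (Nat.add (Nat.add (Nat.add (Z a x85) (Z a
  x82)) (Z a x60)) (Z a x59)) (Z a x54)) (Z a x53)) (Z a x33)) (Z a x32)) (Z a x27)) (Z a x26)) (Z a
  x4)) (Z a x1)) (mo Y d (nat_lit 0)))) (Nat.mul (nat_lit 8) (fold (Nat.add (Nat.add (Nat.add
  (Nat.add (Nat.add (Z a x84) (Z a x83)) (Nat.mul (nat_lit 3) (Nat.add (Nat.add (Nat.add (Z a x57)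
  (Z a x56)) (Z a x30)) (Z a x29)))) (Z a x3)) (Z a x2)) (Nat.mul (nat_lit 2) (Nat.add (Nat.add
  (Nat.add (Z a x86) (Z a x81)) (Z a x5)) (Z a x0)))) (mo Y d (nat_lit 0))))) (Z a x87)) (Z a x80))
  (Z a x6)) (Z a x)) (mo Y d (nat_lit 0)))

/-- compiled program -/
def b11_88q : Prog2 := fun Y Z d a x => (b11k96X x).1 (b11_88b Y Z d a x)

/-- compiled program -/
def b11_89b (Y : Lay) (Z : Tb) (d a x : Nat)
    (x0 x1 x2 x3 x4 x5 x6 x7 x8 x9 x10 x11 x12 x13 x14 x15 x16 x17 x18 x19 x20 x21 x22 x23 x24 x25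
    x26 x27 x28 x29 x30 x31 x32 x33 x34 x35 x36 x37 x38 x39 x40 x41 x42 x43 x44 x45 x46 x47 x48 x49
    x50 x51 x52 x53 x54 x55 x56 x57 x58 x59 x60 x61 x62 x63 x64 x65 x66 x67 x68 x69 x70 x71 x72 x73
    x74 x75 x76 x77 x78 x79 x80 x81 x82 x83 x84 x85 x86 x87 x88 x89 x90 x91 x92 x93 : Nat) : Nat :=
  (fold (Nat.add (Nat.add (Nat.add (Nat.add (Nat.add (Nat.add (Nat.add (Nat.add (fold (Nat.add
  (Nat.add (Z a x88) (Z a x86)) (Nat.mul (nat_lit 3) (Nat.add (Nat.add (Nat.add (Nat.add (Nat.add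
  (Nat.add (Nat.add (Nat.add (Nat.add (Z a x61) (Z a x59)) (Z a x57)) (Z a x55)) (Z a x53)) (Z a
  x34)) (Z a x32)) (Z a x30)) (Z a x28)) (Z a x26)))) (mo Y d (nat_lit 0))) (Nat.mul (nat_lit 8)
  (fold (Nat.add (Nat.add (Nat.add (Nat.add (Nat.add (Z a x87) (Z a x81)) (Nat.mul (nat_lit 3)
  (Nat.add (Nat.add (Nat.add (Nat.add (Nat.add (Nat.add (Nat.add (Z a x60) (Z a x58)) (Z a x56)) (Z
  a x54)) (Z a x33)) (Z a x31)) (Z a x29)) (Z a x27)))) (Z a x6)) (Nat.mul (nat_lit 2) (Nat.add (Z a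
  x84) (Z a x3)))) (Z a x0)) (mo Y d (nat_lit 0))))) (Z a x82)) (Z a x80)) (Z a x7)) (Z a x5))
  (Nat.mul (nat_lit 2) (Nat.add (Nat.add (Nat.add (Z a x85) (Z a x83)) (Z a x4)) (Z a x2)))) (Z a
  x1)) (Z a x)) (mo Y d (nat_lit 0)))

/-- compiled program -/
def b11_89q : Prog2 := fun Y Z d a x => (b11k96X x).1 (b11_89b Y Z d a x)

/-- compiled program -/
def b11_90b (Y : Lay) (Z : Tb) (d a x : Nat)
    (x0 x1 x2 x3 x4 x5 x6 x7 x8 x9 x10 x11 x12 x13 x14 x15 x16 x17 x18 x19 x20 x21 x22 x23 x24 x25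
    x26 x27 x28 x29 x30 x31 x32 x33 x34 x35 x36 x37 x38 x39 x40 x41 x42 x43 x44 x45 x46 x47 x48 x49
    x50 x51 x52 x53 x54 x55 x56 x57 x58 x59 x60 x61 x62 x63 x64 x65 x66 x67 x68 x69 x70 x71 x72 x73
    x74 x75 x76 x77 x78 x79 x80 x81 x82 x83 x84 x85 x86 x87 x88 x89 x90 x91 x92 x93 : Nat) : Nat :=
  (fold (Nat.add (Nat.add (Nat.add (Nat.add (Z a x89) (Z a x80)) (Z a x8)) (Nat.mul (nat_lit 3)
  (Nat.add (Nat.add (Nat.add (Nat.add (Nat.add (Nat.add (Nat.add (Z a x86) (Z a x83)) (Z a x62)) (Z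
  a x53)) (Z a x35)) (Z a x26)) (Z a x5)) (Z a x2)))) (Z a x)) (mo Y d (nat_lit 0)))

/-- compiled program -/
def b11_90q : Prog2 := fun Y Z d a x => (b11k96X x).1 (b11_90b Y Z d a x)

/-- compiled program -/
def b11_91b (Y : Lay) (Z : Tb) (d a x : Nat)
    (x0 x1 x2 x3 x4 x5 x6 x7 x8 x9 x10 x11 x12 x13 x14 x15 x16 x17 x18 x19 x20 x21 x22 x23 x24 x25
    x26 x27 x28 x29 x30 x31 x32 x33 x34 x35 x36 x37 x38 x39 x40 x41 x42 x43 x44 x45 x46 x47 x48 x49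
    x50 x51 x52 x53 x54 x55 x56 x57 x58 x59 x60 x61 x62 x63 x64 x65 x66 x67 x68 x69 x70 x71 x72 x73
    x74 x75 x76 x77 x78 x79 x80 x81 x82 x83 x84 x85 x86 x87 x88 x89 x90 x91 x92 x93 : Nat) : Nat :=
  (fold (Nat.add (Nat.add (Nat.add (Nat.add (Nat.add (Nat.add (Nat.add (Nat.add (Nat.mul (nat_lit 3)
  (fold (Nat.add (Nat.add (Nat.add (Nat.add (Nat.add (Nat.add (Nat.add (Nat.add (Z a x87) (Z a x86))
  (Z a x84)) (Z a x83)) (Z a x63)) (Z a x62)) (Z a x54)) (Z a x53)) (Nat.add (Nat.add (Nat.add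
  (Nat.add (Nat.add (Nat.add (Nat.add (Z a x36) (Z a x35)) (Z a x27)) (Z a x26)) (Z a x6)) (Z a x5))
  (Z a x3)) (Z a x2))) (mo Y d (nat_lit 0)))) (Z a x90)) (Z a x89)) (Z a x81)) (Z a x80)) (Z a x9))
  (Z a x8)) (Z a x0)) (Z a x)) (mo Y d (nat_lit 0)))

/-- compiled program -/
def b11_91q : Prog2 := fun Y Z d a x => (b11k96X x).1 (b11_91b Y Z d a x)

/-- compiled program -/
def b11_92b (Y : Lay) (Z : Tb) (d a x : Nat)
    (x0 x1 x2 x3 x4 x5 x6 x7 x8 x9 x10 x11 x12 x13 x14 x15 x16 x17 x18 x19 x20 x21 x22 x23 x24 x25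
    x26 x27 x28 x29 x30 x31 x32 x33 x34 x35 x36 x37 x38 x39 x40 x41 x42 x43 x44 x45 x46 x47 x48 x49
    x50 x51 x52 x53 x54 x55 x56 x57 x58 x59 x60 x61 x62 x63 x64 x65 x66 x67 x68 x69 x70 x71 x72 x73
    x74 x75 x76 x77 x78 x79 x80 x81 x82 x83 x84 x85 x86 x87 x88 x89 x90 x91 x92 x93 : Nat) : Nat :=
  (fold (Nat.add (Nat.add (Nat.add (Nat.add (Nat.add (Nat.add (Nat.add (Nat.add (Nat.add (Nat.add
  (Nat.mul (nat_lit 3) (fold (Nat.add (Nat.add (Nat.add (Nat.add (Nat.add (Nat.add (Nat.add (Nat.add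
  (Z a x88) (Z a x86)) (Z a x85)) (Z a x83)) (Z a x64)) (Z a x62)) (Z a x55)) (Z a x53)) (Nat.add
  (Nat.add (Nat.add (Nat.add (Nat.add (Nat.add (Nat.add (Z a x37) (Z a x35)) (Z a x28)) (Z a x26))
  (Z a x7)) (Z a x5)) (Z a x4)) (Z a x2))) (mo Y d (nat_lit 0)))) (Nat.mul (nat_lit 6) (fold
  (Nat.add (Nat.add (Nat.add (Nat.add (Nat.add (Nat.add (Nat.add (Z a x87) (Z a x84)) (Z a x63)) (Z
  a x54)) (Z a x36)) (Z a x27)) (Z a x6)) (Z a x3)) (mo Y d (nat_lit 0))))) (Z a x91)) (Z a x89)) (Z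
  a x82)) (Z a x80)) (Z a x10)) (Z a x8)) (Z a x1)) (Nat.mul (nat_lit 2) (Nat.add (Nat.add (Nat.add
  (Z a x90) (Z a x81)) (Z a x9)) (Z a x0)))) (Z a x)) (mo Y d (nat_lit 0)))

/-- compiled program -/
def b11_92q : Prog2 := fun Y Z d a x => (b11k96X x).1 (b11_92b Y Z d a x)

/-- compiled program -/
def b11_93b (Y : Lay) (Z : Tb) (d a x : Nat)
    (x0 x1 x2 x3 x4 x5 x6 x7 x8 x9 x10 x11 x12 x13 x14 x15 x16 x17 x18 x19 x20 x21 x22 x23 x24 x25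
    x26 x27 x28 x29 x30 x31 x32 x33 x34 x35 x36 x37 x38 x39 x40 x41 x42 x43 x44 x45 x46 x47 x48 x49
    x50 x51 x52 x53 x54 x55 x56 x57 x58 x59 x60 x61 x62 x63 x64 x65 x66 x67 x68 x69 x70 x71 x72 x73
    x74 x75 x76 x77 x78 x79 x80 x81 x82 x83 x84 x85 x86 x87 x88 x89 x90 x91 x92 x93 : Nat) : Nat :=
  (fold (Nat.add (Nat.add (Nat.add (fold (Nat.add (Nat.add (Nat.add (Nat.mul (nat_lit 3) (fold
  (Nat.add (Nat.add (Nat.add (Nat.add (Nat.add (Nat.add (Nat.add (Nat.add (Z a x91) (Z a x90)) (Z a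
  x82)) (Z a x81)) (Z a x65)) (Z a x62)) (Z a x56)) (Z a x53)) (Nat.add (Nat.add (Nat.add (Nat.add
  (Nat.add (Nat.add (Nat.add (Z a x38) (Z a x35)) (Z a x29)) (Z a x26)) (Z a x10)) (Z a x9)) (Z a
  x1)) (Z a x0))) (mo Y d (nat_lit 0)))) (Z a x92)) (Nat.mul (nat_lit 6) (Nat.add (Z a x86) (Z a
  x5)))) (Nat.mul (nat_lit 4) (Nat.add (Nat.add (Nat.add (Z a x89) (Z a x83)) (Z a x8)) (Z a x2))))
  (mo Y d (nat_lit 0))) (Z a x80)) (Z a x11)) (Z a x)) (mo Y d (nat_lit 0)))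

/-- compiled program -/
def b11_93q : Prog2 := fun Y Z d a x => (b11k96X x).1 (b11_93b Y Z d a x)

/-- compiled program -/
def b11_94b (Y : Lay) (Z : Tb) (d a x : Nat)
    (x0 x1 x2 x3 x4 x5 x6 x7 x8 x9 x10 x11 x12 x13 x14 x15 x16 x17 x18 x19 x20 x21 x22 x23 x24 x25
    x26 x27 x28 x29 x30 x31 x32 x33 x34 x35 x36 x37 x38 x39 x40 x41 x42 x43 x44 x45 x46 x47 x48 x49
    x50 x51 x52 x53 x54 x55 x56 x57 x58 x59 x60 x61 x62 x63 x64 x65 x66 x67 x68 x69 x70 x71 x72 x73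
    x74 x75 x76 x77 x78 x79 x80 x81 x82 x83 x84 x85 x86 x87 x88 x89 x90 x91 x92 x93 : Nat) : Nat :=
  (fold (Nat.add (Nat.add (Nat.add (Nat.add (Nat.add (Nat.add (fold (Nat.mul (nat_lit 4) (Nat.add
  (Nat.add (Nat.add (Nat.add (Nat.add (Nat.add (Nat.add (Z a x92) (Z a x89)) (Z a x84)) (Z a x81))
  (Z a x11)) (Z a x8)) (Z a x3)) (Z a x0))) (mo Y d (nat_lit 0))) (Nat.mul (nat_lit 3) (fold
  (Nat.add (Nat.add (Nat.add (Nat.add (Nat.add (Nat.add (Nat.add (Nat.add (Z a x66) (Z a x65)) (Z a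
  x63)) (Z a x62)) (Z a x57)) (Z a x56)) (Z a x54)) (Z a x53)) (Nat.add (Nat.add (Nat.add (Nat.add
  (Nat.add (Nat.add (Nat.add (Z a x39) (Z a x38)) (Z a x36)) (Z a x35)) (Z a x30)) (Z a x29)) (Z a
  x27)) (Z a x26))) (mo Y d (nat_lit 0))))) (Nat.mul (nat_lit 8) (fold (Nat.add (Nat.mul (nat_lit 2)
  (Nat.add (Nat.add (Nat.add (Z a x90) (Z a x83)) (Z a x9)) (Z a x2))) (Nat.mul (nat_lit 3) (Nat.add
  (Nat.add (Nat.add (Nat.add (Nat.add (Nat.add (Nat.add (Z a x91) (Z a x87)) (Z a x86)) (Z a x82))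
  (Z a x10)) (Z a x6)) (Z a x5)) (Z a x1)))) (mo Y d (nat_lit 0))))) (Z a x93)) (Z a x80)) (Z a
  x12)) (Z a x)) (mo Y d (nat_lit 0)))

/-- compiled program -/
def b11_94q : Prog2 := fun Y Z d a x => (b11k96X x).1 (b11_94b Y Z d a x)

/-- compiled programs -/
def b11q : List Prog2 :=
  [zero2, b11_1q, b11_2q, b11_3q, b11_4q, b11_5q, b11_6q, b11_7q, b11_8q, b11_9q, b11_10q, b11_11q,
  b11_12q, b11_13q, b11_14q, b11_15q, b11_16q, b11_17q, b11_18q, b11_19q, b11_20q, b11_21q, b11_22q,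
  b11_23q, b11_24q, b11_25q, b11_26q, b11_27q, b11_28q, b11_29q, b11_30q, b11_31q, b11_32q, b11_33q,
  b11_34q, b11_35q, b11_36q, b11_37q, b11_38q, b11_39q, b11_40q, b11_41q, b11_42q, b11_43q, b11_44q,
  b11_45q, b11_46q, b11_47q, b11_48q, b11_49q, b11_50q, b11_51q, b11_52q, b11_53q, b11_54q, b11_55q,
  b11_56q, b11_57q, b11_58q, b11_59q, b11_60q, b11_61q, b11_62q, b11_63q, b11_64q, b11_65q, b11_66q,
  b11_67q, b11_68q, b11_69q, b11_70q, b11_71q, b11_72q, b11_73q, b11_74q, b11_75q, b11_76q, b11_77q,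
  b11_78q, b11_79q, b11_80q, b11_81q, b11_82q, b11_83q, b11_84q, b11_85q, b11_86q, b11_87q, b11_88q,
  b11_89q, b11_90q, b11_91q, b11_92q, b11_93q, b11_94q]

end Vale.Agent.P236X
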