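import Vale.Agent.P236X.Dig

/-!
# P236 / X : the coefficients in the quotient and the basic rules for `Rep`
-/

namespace Vale.Agent.P236X

open MvPolynomial Vale.Agent.P236A Vale.Agent.P236B

section cf

variable {a N : ℕ}

theorem mu_mul_of_mem (h : a < N) {r : Av K9} (hr : r ∈ JJ 3 K9 a N) (L : ℕ →₀ ℕ) :
    mu a N (L 0) * coeff L r = 0 := by
  unfold mu
  split_ifs with h1 h2
  · rw [coeff_eq_zero_of_mem_JJ 3 hr h1 (h1.trans h), mul_zero]
  · obtain ⟨c, hc⟩ := dvd_coeff_of_mem_JJ 3 hr h2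
    rw [hc, ← mul_assoc]
    exact mul_eq_zero_of_left rfl c
  · exact zero_mul _

theorem cf_mk (h : a < N) (r : Av K9) (L : ℕ →₀ ℕ) :
    cf (xq a N r) L = mu a N (L 0) * coeff L r := by
  have := mu_mul_of_mem h (Ideal.Quotient.eq.1 (Ideal.Quotient.mk_out (xq a N r))) L
  rwa [coeff_sub, mul_sub, sub_eq_zero] at this

theorem xq_surj (y : Ab a N) : ∃ r, xq a N r = y := Ideal.Quotient.mk_surjective y

theorem cf_zero (h : a < N) (L : ℕ →₀ ℕ) : cf (0 : Ab a N) L = 0 := by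
  rw [← map_zero (xq a N), cf_mk h, coeff_zero, mul_zero]

theorem cf_add (h : a < N) (x y : Ab a N) (L : ℕ →₀ ℕ) : cf (x + y) L = cf x L + cf y L := by
  obtain ⟨r, rfl⟩ := xq_surj x
  obtain ⟨s, rfl⟩ := xq_surj y
  rw [← map_add, cf_mk h, cf_mk h, cf_mk h, coeff_add, mul_add]

/-- the coefficient as an additive map -/
noncomputable def cfH (h : a < N) (L : ℕ →₀ ℕ) : Ab a N →+ K9 :=
  ⟨⟨fun x => cf x L, cf_zero h L⟩, fun x y => cf_add h x y L⟩

theorem cf_nsmul (h : a < N) (k : ℕ) (x : Ab a N) (L : ℕ →₀ ℕ) : cf (k • x) L = k • cf x L :=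
  map_nsmul (cfH h L) k x

theorem cf_sub (h : a < N) (x y : Ab a N) (L : ℕ →₀ ℕ) : cf (x - y) L = cf x L - cf y L :=
  map_sub (cfH h L) x y

theorem mem_of_mu {r : Av K9} (hr : ∀ L : ℕ →₀ ℕ, L 0 < N → mu a N (L 0) * coeff L r = 0) :
    r ∈ JJ 3 K9 a N :=
  mem_JJ 3 (fun L h1 h2 => by simpa [mu, h1] using hr L h2) fun L h1 h2 => by
    have := hr L h2
    rw [mu, if_neg h1.not_gt, if_pos h2] at this
    exact (by decide : ∀ c : K9, 3 * c = 0 → ∃ e, c = ((3 : ℕ) : K9) * e) _ this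

theorem eq_zero_of_cf {x : Ab a N} (hx : ∀ L : ℕ →₀ ℕ, L 0 < N → cf x L = 0) : x = 0 := by
  rw [← Ideal.Quotient.mk_out x]
  exact Ideal.Quotient.eq_zero_iff_mem.2 (mem_of_mu hx)

theorem mu_mono (h : a < N) {i j : ℕ} (hij : i ≤ j) : ∃ c, mu a N j = c * mu a N i := by
  unfold mu
  split_ifs <;> first | omega | exact ⟨_, (mul_one _).symm⟩ | exact ⟨1, rfl⟩ | exact ⟨0, rfl⟩

theorem cf_vmul (h : a < N) {L L' : ℕ →₀ ℕ} (hL : L' ≤ L) {y : Ab a N} {z : K9}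
    (hz : mu a N ((L - L') 0) * z = cf y (L - L')) :
    mu a N (L 0) * z = cf (xq a N (monomial L' 1) * y) L := by
  obtain ⟨r, rfl⟩ := xq_surj y
  obtain ⟨c, hc⟩ := mu_mono h (i := (L - L') 0) (j := L 0) (Nat.sub_le _ _)
  rw [← map_mul, cf_mk h, coeff_monomial_mul', if_pos hL, one_mul, hc, mul_assoc, hz, cf_mk h,
    mul_assoc]

theorem cf_vmul_zero (h : a < N) {L L' : ℕ →₀ ℕ} (hL : ¬ L' ≤ L) (y : Ab a N) :
    cf (xq a N (monomial L' 1) * y) L = 0 := by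
  obtain ⟨r, rfl⟩ := xq_surj y
  rw [← map_mul, cf_mk h, coeff_monomial_mul', if_neg hL, mul_zero]

end cf

variable {Y : Lay} {x y d V V' p : ℕ} {F F' : ℕ → ℕ → Ab Y.a Y.N}

theorem lay_base (hY : layOK Y = true) : Y.S = Y.sl.length ∧ 0 < Y.S ∧ 4 ≤ Y.N ∧ Y.a < Y.N ∧
    Y.T ≤ 94 ∧ ∀ h ∈ Y.sl, h3 h + hd h % 4 ≤ Y.um := by
  simp only [layOK, Bool.and_eq_true, Nat.beq_eq, Nat.blt_eq, Nat.ble_eq, allL_iff] at hY
  tauto

theorem lay_a (hY : layOK Y = true) : Y.a < Y.N := (lay_base hY).2.2.2.1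

theorem ph_mem (hY : layOK Y = true) (p : ℕ) : Y.ph p ∈ Y.sl := by
  have h := Nat.mod_lt p (lay_base hY).2.1
  rw [Lay.ph, nth_eq, List.getD_eq_getElem _ _ ((lay_base hY).1 ▸ h)]
  exact List.getElem_mem _

theorem lt_len (hY : layOK Y = true) (hp : Y.pin p) (hd : d ≤ Y.pD p) : p < lenb Y d * Y.S :=
  let ⟨_, h2, h3, _, _, h6⟩ := lay_base hY
  (Nat.div_lt_iff_lt_mul h2).1 (lenb_spec (by omega) hp (h6 _ (ph_mem hY p))
    (hd.trans_eq (add_assoc _ _ _)))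

namespace Rep

theorem zero (hY : layOK Y = true) (d V : ℕ) : Rep Y 0 d V fun _ _ => 0 :=
  ⟨fun p => (dg_zero p).trans_le V.zero_le, fun p _ => dg_zero p, fun p _ _ _ => by
    simp [dg_zero, cf_zero (lay_a hY)]⟩

theorem mono (h : Rep Y x d V F) (hV : V ≤ V') : Rep Y x d V' F :=
  ⟨fun p => (h.bd p).trans hV, h.out, h.eq⟩

theorem congr' (h : Rep Y x d V F) (e : ∀ p, Y.pin p → d ≤ Y.pD p → Y.pD p ≤ Y.T →
    F (Y.pD p - d) (hk (Y.ph p)) = F' (Y.pD p - d) (hk (Y.ph p))) : Rep Y x d V F' :=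
  ⟨h.bd, h.out, fun p a b c => e p a b c ▸ h.eq p a b c⟩

theorem congr (h : Rep Y x d V F) (e : ∀ i k, d + i ≤ Y.T → F i k = F' i k) : Rep Y x d V F' :=
  h.congr' fun _ _ _ _ => e _ _ (by omega)

theorem add (hY : layOK Y = true) (h : Rep Y x d V F) (h' : Rep Y y d V' F') (hV : V + V' < 4096) :
    Rep Y (x + y) d (V + V') fun i k => F i k + F' i k := by
  have e := dg_add fun p => (add_le_add (h.bd p) (h'.bd p)).trans_lt hV
  refine ⟨fun p => e p ▸ add_le_add (h.bd p) (h'.bd p), fun p a => by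
    rw [e, h.out p a, h'.out p a], fun p a b c => ?_⟩
  rw [e, Nat.cast_add, mul_add, h.eq p a b c, h'.eq p a b c, cf_add (lay_a hY)]
  split_ifs <;> simp

theorem mul (hY : layOK Y = true) (h : Rep Y x d V F) {k : ℕ} (hV : k * V < 4096) :
    Rep Y (k * x) d (k * V) fun i j => k • F i j := by
  have e := dg_mul fun p => (Nat.mul_le_mul_left k (h.bd p)).trans_lt hV
  refine ⟨fun p => e p ▸ Nat.mul_le_mul_left k (h.bd p), fun p a => by
    rw [e, h.out p a, mul_zero], fun p a b c => ?_⟩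
  rw [e, Nat.cast_mul, mul_left_comm, h.eq p a b c, cf_nsmul (lay_a hY), nsmul_eq_mul]
  split_ifs <;> simp

theorem weaken (h : Rep Y x d V F) (A : ℕ) : Rep Y x (d + A) V fun i => F (i + A) :=
  ⟨h.bd, h.out, fun p a b c => by
    rw [h.eq p a (by omega) c, show Y.pD p - (d + A) + A = Y.pD p - d by omega]⟩

theorem of_mod (h : Rep Y x d V F) (hb : ∀ p, dg y p ≤ V') (h0 : ∀ p, dg x p = 0 → dg y p = 0)
    (e : ∀ p, Y.pin p → d ≤ Y.pD p → dg y p % 9 = dg x p % 9) : Rep Y y d V' F :=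
  ⟨hb, fun p a => h0 p (h.out p a), fun p a b c => by
    rw [← h.eq p a b c, (ZMod.natCast_eq_natCast_iff' _ _ 9).2 (e p a b)]⟩

theorem fold (hY : layOK Y = true) (h : Rep Y x d V F) : Rep Y (fold x (m63 Y d)) d 126 F :=
  h.of_mod (dg_fold_le Y d x) (fun p a => by simp [dg_fold, a]) fun p a b => by
    rw [dg_fold, if_pos (lt_len hY a b), fold_mod]

theorem qst (hY : layOK Y = true) (h : Rep Y x d V F) (hV : V ≤ 585) :
    Rep Y (qst x (m63 Y d) (o12 Y d)) d (V / 64 + 9) F :=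
  have e := dg_qst Y d fun p => (h.bd p).trans hV
  h.of_mod (fun p => by have := h.bd p; rw [e]; split_ifs <;> omega) (fun p a => by simp [e, a])
    fun p a b => by rw [e, if_pos (lt_len hY a b), qst_mod]

end Rep

end Vale.Agent.P236X
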