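import Vale.Agent.P236X.StageA
import Vale.Agent.P236X.Rep2
import Vale.Agent.P236X.PrgOK

/-!
# P236 / X : soundness of the stages
-/

noncomputable section

namespace Vale.Agent.P236X

open MvPolynomial Vale.Agent.P236M

variable {Y : Lay} {Z : ℕ → ℕ} {b s V W c f w u : ℕ}
  {Φ : ℕ → Pb Y.a Y.N →ₗ[Ab Y.a Y.N] Ab Y.a Y.N}

theorem api (hY : layOK Y = true) : Api Y where
  hT := (lay_base hY).2.2.2.2.1.trans_lt (by norm_num)
  zero := Rep.zero hY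
  le h k := h.mono k
  add h h' k := Rep.add hY h h' k
  mul _ h k := Rep.mul hY h k
  weaken A h := h.weaken A
  fold h _ := Rep.fold hY h
  qst h _ k := Rep.qst hY h k
  mv _ h _ _ := Rep.mv hY h
  mw _ h := Rep.mw hY h

theorem wgt_eq (hf : f < 7) : mdeg (128 ^ f) = wgt f := by
  interval_cases f <;> rfl

theorem run_ok (hY : layOK Y = true) (h : TabOK Y Z b V Φ) {p : Pg} {o : ℕ}
    (k : p.ok V W o = true) (h1 : cdeg c = b + mdeg c) (h2 : cdeg c + W ≤ Y.T) :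
    Rep Y (run p Y Z c (cdeg c + W)) (cdeg c + W - o) (p.bd V)
      fun i k => Φ k (X 0 ^ i * mono c * p.den fun n => xq Y.a Y.N (X n)) :=
  (api hY).run_ok h k h1 h2

theorem iter_ok {β : Prog} {q : Pb Y.a Y.N} (P : ItOK Y.a Y.N β w q) (hY : layOK Y = true)
    (e : f < 7 ∧ w = mdeg (128 ^ f) ∧ s = 7 * f ∧ u = 128 ^ f + w * 2 ^ 49)
    (h : TabOK Y Z b 126 Φ) :
    TabOK Y (iterS Y β s w u Z) b 126 fun k => Φ k ∘ₗ (tau (f + 1) q).toLinearMap := by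
  obtain ⟨p, p1, p2, p3, rfl⟩ := P
  exact (api hY).iter_ok e.1 e.2.2.1 (e.2.1.trans (wgt_eq e.1))
    (e.2.2.2.trans (by norm_num)) p1 p2 p3 h

theorem dir_ok {βs : List Prog} {q : Pb Y.a Y.N} (P : DiOK Y.a Y.N βs w V q) (hY : layOK Y = true)
    (e : f < 7 ∧ w = mdeg (128 ^ f) ∧ s = 7 * f ∧ u = 128 ^ f + w * 2 ^ 49)
    (h : TabOK Y Z b V Φ) :
    TabOK Y (dirS Y βs s u Z) b V fun k => Φ k ∘ₗ (tau (f + 1) q).toLinearMap := by
  obtain ⟨ps, p1, p2⟩ := P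
  exact (api hY).dir_ok e.1 e.2.2.1 (e.2.1.trans (wgt_eq e.1)) (e.2.2.2.trans (by norm_num)) p1
    (fun j j1 j2 => p2 j j1 (j2.trans (lay_base hY).2.2.2.2.1)) h

theorem red_ok (hY : layOK Y = true) (h : TabOK Y Z b 126 Φ) : TabOK Y (redS Y Z) b 10 Φ :=
  (api hY).red_ok h

theorem tab_mono (hY : layOK Y = true) (h : TabOK Y Z b V Φ) (k : V ≤ W) : TabOK Y Z b W Φ :=
  (api hY).tab_mono h k

end Vale.Agent.P236X
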