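import Vale.Agent.P236X.Dig
import Vale.Agent.P236M.Algc

/-!
# P236 / X : soundness of the stages, relative to the rules for `Rep`
-/

noncomputable section

namespace Vale.Agent.P236X

open MvPolynomial Vale.Agent.P236A Vale.Agent.P236M

/-- the images of the `v` -/
def vq (a N : ℕ) : ℕ → Ab a N := fun n => xq a N (X n)

/-- the weight of a digit -/
def wgt : ℕ → ℕ
  | 0 => 4
  | 1 => 13
  | 2 => 40
  | 3 => 1
  | 4 => 4
  | 5 => 13
  | 6 => 40
  | _ => 0

/-- the rules for `Rep` -/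
structure Api (Y : Lay) : Prop where
  hT : Y.T < 128
  zero : ∀ d V, Rep Y 0 d V fun _ _ => 0
  le : ∀ {x d V V' F}, Rep Y x d V F → V ≤ V' → Rep Y x d V' F
  add : ∀ {x y d V V' F G}, Rep Y x d V F → Rep Y y d V' G → V + V' < 4096 →
    Rep Y (x + y) d (V + V') fun i k => F i k + G i k
  mul : ∀ {x d V F} (m : ℕ), Rep Y x d V F → m * V < 4096 →
    Rep Y (m * x) d (m * V) fun i k => m • F i k
  weaken : ∀ {x d V F} (A : ℕ), Rep Y x d V F → Rep Y x (d + A) V fun i => F (i + A)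
  fold : ∀ {x d V F}, Rep Y x d V F → d ≤ Y.T → Rep Y (fold x (m63 Y d)) d 126 F
  qst : ∀ {x d V F}, Rep Y x d V F → d ≤ Y.T → V ≤ 585 →
    Rep Y (qst x (m63 Y d) (o12 Y d)) d (V / 64 + 9) F
  mv : ∀ {x d V F} (L : ℕ), Rep Y x d V F → fld L 2 < 8 → fld L 3 < 4 →
    Rep Y (mv Y L x) (d + ldeg L) V fun i k => vmon (vq Y.a Y.N) L * F i k
  mw : ∀ {x d V F} (L : ℕ), Rep Y x d V F → fld L 0 = 0 → fld L 2 = 0 → fld L 3 = 0 →
    Rep Y (mw Y L x) (d + ldeg L) V fun i k => vmon (vq Y.a Y.N) L * F i k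

variable {Y : Lay} {Z : ℕ → ℕ} {b s V W c f w u : ℕ}
  {Φ : ℕ → Pb Y.a Y.N →ₗ[Ab Y.a Y.N] Ab Y.a Y.N}

section eqs

variable (Y Z c) (d δ E : ℕ) (p p' : Pg)

theorem run_t : run (.t δ E) Y Z c d = Z (c + δ) := Nat.mod_zero _
theorem run_at : run (.at δ E p) Y Z c d = run p Y Z c d + Z (c + δ) := rfl
theorem run_add : run (.add p p') Y Z c d = run p Y Z c d + run p' Y Z c d := rfl
theorem run_mul : run (.mul E p) Y Z c d = E * run p Y Z c d := rfl
theorem run_fold : run (.fold E p) Y Z c d = fold (run p Y Z c d) (m63 Y (d - E)) := rfl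
theorem run_qs : run (.qs E p) Y Z c d = qst (run p Y Z c d) (m63 Y (d - E)) (o12 Y (d - E)) := rfl
theorem run_mv : run (.mv E p) Y Z c d = mv Y E (run p Y Z c d) := rfl
theorem run_mw : run (.mw E p) Y Z c d = mw Y E (run p Y Z c d) := rfl

/-- the iterated tables -/
def itT (β : Prog) (w j : ℕ) : ℕ → ℕ :=
  Nat.rec (motive := fun _ => ℕ → ℕ) (base Z) (stepF Y β w) j

theorem itT_zero (β : Prog) : itT Y Z β w 0 c = Z c := Nat.mod_zero _
theorem itT_succ (β : Prog) (j : ℕ) :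
    itT Y Z β w (j + 1) c = β Y (itT Y Z β w j) c (cdeg c + (j + 1) * w) := rfl

theorem iterS_eq (β : Prog) : iterS Y β (7 * f) w u Z c =
    cond (Nat.beq (fld c f) 0) (Z c % 0) (itT Y Z β w (fld c f) (c - fld c f * u) % 0) := rfl

theorem dirS_eq (βs : List Prog) : dirS Y βs (7 * f) u Z c = cond (Nat.beq (fld c f) 0) (Z c % 0)
    (nth zeroP βs (fld c f) Y Z (c - fld c f * u) (cdeg c)) := rfl

theorem redS_eq : redS Y Z c = qst (Z c) (m63 Y (cdeg c)) (o12 Y (cdeg c)) := rfl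

end eqs

theorem Rep.cast {x d d' : ℕ} {F G : ℕ → ℕ → Ab Y.a Y.N} (h : Rep Y x d V F) (hd : d' = d)
    (k : ∀ i j, G i j = F i j) : Rep Y x d' V G := by
  rw [hd, show G = F from funext₂ k]
  exact h

theorem fld_le (c : ℕ) (hf : f < 7) : fld c f * wgt f ≤ mdeg c ∧ fld c f ≤ mdeg c := by
  unfold mdeg
  interval_cases f <;> simp only [wgt] <;> omega

theorem mdeg_add {δ : ℕ} (h : ∀ j < 7, fld c j + fld δ j < 128) :
    mdeg (c + δ) = mdeg c + mdeg δ := by
  unfold mdeg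
  rw [fld_add h (i := 0), fld_add h (i := 1), fld_add h (i := 2), fld_add h (i := 3),
    fld_add h (i := 4), fld_add h (i := 5), fld_add h (i := 6)] <;> omega

theorem mono_add {B : Type} [CommRing B] {δ : ℕ} (h : ∀ j < 7, fld c j + fld δ j < 128) :
    (mono (c + δ) : MvPolynomial ℕ B) = mono c * mono δ := by
  rw [mono, mono, mono, ← Finset.prod_mul_distrib]
  exact Finset.prod_congr rfl fun j hj => by rw [fld_add h (Finset.mem_range.1 hj), pow_add]

/-- a table with a shift of the degree and a factor -/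
def TabS (Y : Lay) (Z : ℕ → ℕ) (b s V : ℕ) (Φ : ℕ → Pb Y.a Y.N →ₗ[Ab Y.a Y.N] Ab Y.a Y.N)
    (q : Pb Y.a Y.N) : Prop :=
  ∀ c, cdeg c = b + mdeg c → cdeg c + s ≤ Y.T →
    Rep Y (Z c) (cdeg c + s) V fun i k => Φ k (X 0 ^ i * mono c * q)

theorem TabOK.tabS (h : TabOK Y Z b V Φ) : TabS Y Z b 0 V Φ 1 := fun c h1 h2 =>
  (h c h1 h2).cast rfl fun _ _ => by rw [mul_one]

variable {q : Pb Y.a Y.N}

theorem term_ok (A : Api Y) (h : TabS Y Z b s V Φ q) {o δ E : ℕ} (k : okT W o δ E = true)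
    (h1 : cdeg c = b + mdeg c) (h2 : cdeg c + s + W ≤ Y.T) :
    Rep Y (Z (c + δ)) (cdeg c + s + W - o) V
      fun i k => Φ k (X 0 ^ i * mono c * q * (X 0 ^ E * mono δ)) := by
  simp only [okT, Bool.and_eq_true, Nat.beq_eq] at k
  have hT := A.hT
  have m : ∀ j < 7, fld c j + fld δ j < 128 := fun j hj => by
    have := (fld_le c hj).2
    have := (fld_le δ hj).2
    omega
  have e := cdeg_add m
  refine (A.weaken E (h (c + δ) (by rw [e, mdeg_add m]; omega) (by omega))).cast (by omega)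
    fun i j => ?_
  rw [mono_add m, pow_add]
  congr 1
  ring

theorem run_okS (A : Api Y) (h : TabS Y Z b s V Φ q) (h1 : cdeg c = b + mdeg c)
    (h2 : cdeg c + s + W ≤ Y.T) (p : Pg) : ∀ {o : ℕ}, p.ok V W o = true →
    Rep Y (run p Y Z c (cdeg c + s + W)) (cdeg c + s + W - o) (p.bd V)
      fun i k => Φ k (X 0 ^ i * mono c * q * p.den (vq Y.a Y.N)) := by
  induction p with
  | zero => exact fun _ => (A.zero _ _).cast rfl fun _ _ => by simp [Pg.den]
  | t δ E =>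
    intro o k
    rw [run_t]
    exact term_ok A h k h1 h2
  | add p p' ih ih' =>
    intro o k
    simp only [Pg.ok, Bool.and_eq_true, Nat.blt_eq] at k
    rw [run_add]
    exact (A.add (ih k.1.1) (ih' k.1.2) k.2).cast rfl fun _ _ => by rw [Pg.den, mul_add, map_add]
  | mul m p ih =>
    intro o k
    simp only [Pg.ok, Bool.and_eq_true, Nat.blt_eq] at k
    rw [run_mul]
    exact (A.mul m (ih k.1) k.2).cast rfl fun _ _ => by
      rw [Pg.den, mul_left_comm, ← nsmul_eq_mul, map_nsmul]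
  | fold o' p ih =>
    intro o k
    simp only [Pg.ok, Bool.and_eq_true, Nat.beq_eq] at k
    obtain ⟨rfl, k⟩ := k
    rw [run_fold]
    exact A.fold (ih k) (by omega)
  | qs o' p ih =>
    intro o k
    simp only [Pg.ok, Bool.and_eq_true, Nat.beq_eq, Nat.ble_eq] at k
    obtain ⟨⟨rfl, k⟩, k'⟩ := k
    rw [run_qs]
    exact A.qst (ih k) (by omega) k'
  | mv L p ih =>
    intro o k
    simp only [Pg.ok, Bool.and_eq_true, Nat.blt_eq, Nat.ble_eq] at k
    rw [run_mv]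
    exact (A.mv L (ih k.1.1.1) k.1.2 k.2).cast (by omega) fun _ _ => by
      rw [Pg.den, mul_left_comm, ← smul_eq_C_mul, map_smul, smul_eq_mul]
  | mw L p ih =>
    intro o k
    simp only [Pg.ok, Bool.and_eq_true, Nat.beq_eq, Nat.ble_eq] at k
    rw [run_mw]
    exact (A.mw L (ih k.1.1.1.1) k.1.1.2 k.1.2 k.2).cast (by omega) fun _ _ => by
      rw [Pg.den, mul_left_comm, ← smul_eq_C_mul, map_smul, smul_eq_mul]
  | _ δ E p ih =>
    intro o k
    simp only [Pg.ok, Bool.and_eq_true, Nat.blt_eq] at k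
    rw [run_at]
    exact (A.add (ih k.1.2) (term_ok A h k.1.1 h1 h2) k.2).cast rfl fun _ _ => by
      rw [Pg.den, mul_add, map_add]

theorem Api.run_ok (A : Api Y) (h : TabOK Y Z b V Φ) {p : Pg} {o : ℕ} (k : p.ok V W o = true)
    (h1 : cdeg c = b + mdeg c) (h2 : cdeg c + W ≤ Y.T) :
    Rep Y (run p Y Z c (cdeg c + W)) (cdeg c + W - o) (p.bd V)
      fun i k => Φ k (X 0 ^ i * mono c * p.den (vq Y.a Y.N)) :=
  (run_okS A h.tabS h1 h2 p k).cast rfl fun _ _ => by rw [mul_one]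

theorem iter_tab (A : Api Y) (h : TabOK Y Z b V Φ) {p : Pg} (k : p.ok V w 0 = true)
    (hb : p.bd V ≤ V) (j : ℕ) :
    TabS Y (itT Y Z (run p) w j) b (j * w) V Φ (p.den (vq Y.a Y.N) ^ j) := by
  induction j with
  | zero =>
    intro c h1 h2
    rw [itT_zero]
    exact (h c h1 (by omega)).cast (by omega) fun _ _ => by simp
  | succ j ih =>
    intro c h1 h2
    have e : cdeg c + (j + 1) * w = cdeg c + j * w + w := by ring
    have := A.le (run_okS A ih h1 (e ▸ h2) p k) hb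
    rw [itT_succ, e]
    exact this.cast (Nat.sub_zero _).symm fun _ _ => by rw [pow_succ, mul_assoc (_ * _)]

/-- removal of a digit -/
theorem del_ok (hf : f < 7) (h1 : cdeg c = b + mdeg c) {c' : ℕ}
    (e : c' = c - fld c f * (128 ^ f + wgt f * 128 ^ 7)) :
    cdeg c' = b + mdeg c' ∧ cdeg c' + fld c f * wgt f = cdeg c ∧
      ∀ (β : Pb Y.a Y.N) (i : ℕ),
        tau (f + 1) β (X 0 ^ i * mono c) = X 0 ^ i * mono c' * β ^ fld c f := by
  have m := (fld_le c hf).1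
  obtain ⟨k1, k2⟩ := code_del (c := c) (w := wgt f) hf (by omega)
  rw [← e] at k1 k2
  refine ⟨?_, by omega, fun β i => ?_⟩
  · have : mdeg c' + fld c f * wgt f = mdeg c := by
      unfold mdeg
      rw [k1 0, k1 1, k1 2, k1 3, k1 4, k1 5, k1 6] <;> try omega
      interval_cases f <;> simp only [wgt, reduceIte, Nat.reduceEqDiff] <;> omega
    omega
  · have hf' := Finset.mem_range.2 hf
    rw [map_mul, map_pow, tau_ne (by omega), mul_assoc, mono, mono, map_prod,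
      ← Finset.prod_erase_mul _ _ hf', ← Finset.prod_erase_mul _ _ hf', k1 f hf, if_pos rfl,
      pow_zero, mul_one, map_pow, tau_self]
    refine congrArg (_ * · * _) ?_ |>.trans (mul_assoc _ _ _) |> (mul_assoc _ _ _).symm.trans
    refine Finset.prod_congr rfl fun j hj => ?_
    obtain ⟨j1, j2⟩ := Finset.mem_erase.1 hj
    rw [map_pow, tau_ne (by omega), k1 j (Finset.mem_range.1 j2), if_neg j1]

theorem zero_ok (h : TabOK Y Z b V Φ) (hf : f < 7) (β : Pb Y.a Y.N) (h1 : cdeg c = b + mdeg c)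
    (h2 : cdeg c ≤ Y.T) (j : fld c f = 0) : Rep Y (Z c) (cdeg c) V
      fun i k => (Φ k ∘ₗ (tau (f + 1) β).toLinearMap) (X 0 ^ i * mono c) :=
  (h c h1 h2).cast rfl fun i k => by
    have := (del_ok (Y := Y) hf h1 (c' := c) (by rw [j, zero_mul, Nat.sub_zero])).2.2 β i
    rw [j, pow_zero, mul_one] at this
    exact congrArg (Φ k) this

theorem Api.iter_ok (A : Api Y) (hf : f < 7) (hs : s = 7 * f) (hw : w = wgt f)
    (hu : u = 128 ^ f + w * 128 ^ 7) {β : Prog} {p : Pg} (hβ : β = run p) (k : p.ok V w 0 = true)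
    (hb : p.bd V ≤ V) (h : TabOK Y Z b V Φ) : TabOK Y (iterS Y β s w u Z) b V
      fun k => Φ k ∘ₗ (tau (f + 1) (p.den (vq Y.a Y.N))).toLinearMap := by
  subst hs hw hu hβ
  intro c h1 h2
  rw [iterS_eq, Nat.mod_zero, Nat.mod_zero]
  cases j : Nat.beq (fld c f) 0
  · obtain ⟨k1, k2, k3⟩ := del_ok (Y := Y) hf h1 rfl
    rw [cond_false]
    exact (iter_tab A h k hb _ _ k1 (k2.trans_le h2)).cast k2.symm fun i k =>
      congrArg (Φ k) (k3 _ i)
  · rw [cond_true]
    exact zero_ok h hf _ h1 h2 (Nat.eq_of_beq_eq_true j)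

theorem Api.dir_ok (A : Api Y) (hf : f < 7) (hs : s = 7 * f) (hw : w = wgt f)
    (hu : u = 128 ^ f + w * 128 ^ 7) {βs : List Prog} {ps : List Pg} (hβ : βs = ps.map run)
    {β : Pb Y.a Y.N} (k : ∀ j, 1 ≤ j → j * w ≤ Y.T → (ps.getD j .zero).ok V (j * w) 0 = true ∧
      (ps.getD j .zero).bd V ≤ V ∧ (ps.getD j .zero).den (vq Y.a Y.N) = β ^ j)
    (h : TabOK Y Z b V Φ) :
    TabOK Y (dirS Y βs s u Z) b V fun k => Φ k ∘ₗ (tau (f + 1) β).toLinearMap := by
  subst hs hw hu hβ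
  intro c h1 h2
  rw [dirS_eq, Nat.mod_zero]
  cases j : Nat.beq (fld c f) 0
  · obtain ⟨k1, k2, k3⟩ := del_ok (Y := Y) hf h1 rfl
    obtain ⟨m1, m2, m3⟩ := k (fld c f) (Nat.pos_of_ne_zero (Nat.ne_of_beq_eq_false j)) (by omega)
    have := A.le (A.run_ok h m1 k1 (k2.trans_le h2)) m2
    rw [k2, m3] at this
    rw [cond_false, nth_eq, show zeroP = run .zero from rfl, List.getD_map]
    exact this.cast (Nat.sub_zero _).symm fun i k => congrArg (Φ k) (k3 _ i)
  · rw [cond_true]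
    exact zero_ok h hf _ h1 h2 (Nat.eq_of_beq_eq_true j)

theorem Api.red_ok (A : Api Y) (h : TabOK Y Z b 126 Φ) : TabOK Y (redS Y Z) b 10 Φ :=
  fun c h1 h2 => redS_eq Y Z c ▸ A.qst (h c h1 h2) h2 (by norm_num)

theorem Api.tab_mono (A : Api Y) (h : TabOK Y Z b V Φ) (k : V ≤ W) : TabOK Y Z b W Φ :=
  fun c h1 h2 => A.le (h c h1 h2) k

end Vale.Agent.P236X
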