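import Vale.Agent.P236X.T4

/-!
# P236 / X : the programs with three keys
-/

noncomputable section

namespace Vale.Agent.P236X

/-- the programs for `N = 13`, `a = 2` -/
def E13p : Prg3 :=
  ⟨g3cr, g4cr, w4_13r, w3_13r, w2cr, w1_13r, b44r, b34cr, b33r, b24_13r, b23cr, b22r, b14_13r, b13_13r, b12cr, b11r⟩

/-- the programs for `N = 10`, `a = 2` -/
def E10p : Prg3 :=
  ⟨g3cr, g4cr, w4_10r, w3_13r, w2cr, w1_10r, b44r, b34cr, b33r, b24_13r, b23cr, b22r, b14_10r, b13_13r, b12cr, b11r⟩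

/-- the programs for `N = 5`, `a = 2` -/
def E5p : Prg3 :=
  ⟨g3cr, g4cr, w4_5r, w3_5r, w2cr, w1_5r, b44r, b34cr, b33r, b24_13r, b23cr, b22r, b14_5r, b13_13r, b12cr, b11r⟩

/-- the programs for `N = 4`, `a = 2` -/
def E4p : Prg3 :=
  ⟨g3cr, g4cr, w4_4r, w3_4r, w2cr, w1_4r, b44r, b34cr, b33r, b24_4r, b23cr, b22r, b14_4r, b13_4r, b12cr, b11r⟩

end Vale.Agent.P236X
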