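import Vale.Agent.P236X.T13

/-!
# P236 / X : compiled programs with three keys (T10)
-/

set_option linter.unusedVariables false

noncomputable section

namespace Vale.Agent.P236X

/-- keys -/
def w4_10mI (c : Nat) :
    Bx ((Nat → Nat → Nat → Nat → Nat → Nat → Nat → Nat) → Nat) :=
  bx7 Nat c (nat_lit 2251799813685249) (nat_lit 6755399441055747) (nat_lit 7318349394477184)
  (nat_lit 13510798882111494) (nat_lit 20266198323167241) (nat_lit 21955048183431552) (nat_lit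
  22517998136868864)

/-- keys -/
def w4_10mD (c : Nat) :
    Bx ((Nat → Nat → Nat → Nat → Nat → Nat → Nat → (Nat → Nat → Nat → Nat → Nat → Nat → Nat → Nat))
    → (Nat → Nat → Nat → Nat → Nat → Nat → Nat → Nat)) :=
  bs7 (Nat → Nat → Nat → Nat → Nat → Nat → Nat → Nat) c (nat_lit 1) (nat_lit 4) (nat_lit 16)
  (nat_lit 27) (nat_lit 28) (nat_lit 36) (nat_lit 40)

/-- compiled program -/
def w4_10e (Y : Lay) (Z : Tc) :
    Bx (Nat → Nat → Nat → (Nat → Nat → Nat → Nat → Nat → Nat → Nat → (Nat → Nat → Nat → Nat → Nat →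
    Nat → Nat → Nat))) :=
  Bx.mk fun a x d d0 d1 d2 d3 d4 d5 d6 a0 a1 a2 a3 a4 a5 a6 => (fold (Nat.add (Nat.add (Nat.add
  (Nat.add (Nat.add (Nat.add (Nat.add (fold (Nat.add (Nat.add (Nat.add (Nat.add (Nat.add (Nat.add
  (Nat.add (fold (Nat.add (Nat.add (Nat.add (Nat.add (fold (Nat.add (Nat.add (Nat.add (mv Y (nat_lit
  16393) (Nat.add (Nat.mul (nat_lit 2) (Nat.add (mw Y (nat_lit 128) (Z a1 x d4)) (mw Y (nat_lit 512)
  (Z a x d6)))) (mw Y (nat_lit 384) (Z a x d6)))) (mv Y (nat_lit 32768) (Nat.add (Nat.mul (nat_lit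
  3) (mw Y (nat_lit 384) (Z a x d6))) (Nat.mul (nat_lit 6) (mw Y (nat_lit 128) (Z a x d6))))))
  (Nat.mul (nat_lit 3) (Nat.add (Nat.add (mw Y (nat_lit 640) (Z a x d6)) (Z a5 x d0)) (Z a6 x d))))
  (mv Y (nat_lit 6) (Nat.add (Nat.add (Nat.add (mw Y (nat_lit 128) (Z a3 x d2)) (mw Y (nat_lit 384)
  (Z a1 x d4))) (Z a3 x d2)) (Nat.mul (nat_lit 2) (Nat.add (mw Y (nat_lit 512) (Z a1 x d4)) (Nat.add
  (mw Y (nat_lit 640) (Z a1 x d4)) (mw Y (nat_lit 384) (Z a x d6)))))))) (mo Y d (nat_lit 0))) (mv Y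
  (nat_lit 49152) (Nat.mul (nat_lit 8) (Z a x d6)))) (mv Y (nat_lit 16385) (Nat.add (fold (Nat.add
  (Nat.add (Nat.mul (nat_lit 2) (mw Y (nat_lit 512) (Z a x d6))) (Nat.mul (nat_lit 6) (Nat.add (mw Y
  (nat_lit 384) (Z a2 x d3)) (mw Y (nat_lit 128) (Z a1 x d4))))) (Nat.mul (nat_lit 8) (Nat.add (mw Y
  (nat_lit 768) (Z a x d6)) (mw Y (nat_lit 256) (Z a x d6))))) (mo Y d (nat_lit 14))) (Nat.mul
  (nat_lit 3) (Nat.add (mw Y (nat_lit 384) (Z a1 x d4)) (mw Y (nat_lit 128) (Z a2 x d3))))))) (mv Y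
  (nat_lit 16388) (Nat.add (Nat.add (mw Y (nat_lit 512) (Z a x d6)) (mw Y (nat_lit 384) (Z a x d6)))
  (Nat.mul (nat_lit 2) (Nat.add (Nat.add (mw Y (nat_lit 256) (Z a1 x d4)) (mw Y (nat_lit 256) (Z a x
  d6))) (mw Y (nat_lit 128) (Z a x d6))))))) (mv Y (nat_lit 4) (Nat.add (Nat.add (Nat.add (Nat.mul
  (nat_lit 2) (mw Y (nat_lit 384) (Z a1 x d4))) (Nat.add (mw Y (nat_lit 896) (Z a x d6)) (Nat.add
  (mw Y (nat_lit 640) (Z a x d6)) (mw Y (nat_lit 512) (Z a x d6))))) (Nat.add (mw Y (nat_lit 640) (Z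
  a1 x d4)) (mw Y (nat_lit 384) (Z a x d6)))) (mw Y (nat_lit 256) (Z a x d6))))) (mo Y d (nat_lit
  0))) (fold (Nat.add (Nat.add (Nat.add (fold (Nat.add (Nat.add (Nat.mul (nat_lit 6) (mw Y (nat_lit
  896) (Z a x d6))) (mv Y (nat_lit 8) (Nat.add (Nat.add (mw Y (nat_lit 128) (Z a3 x d2)) (Nat.add
  (mw Y (nat_lit 640) (Z a x d6)) (mw Y (nat_lit 512) (Z a x d6)))) (Nat.mul (nat_lit 2) (Nat.add
  (Nat.add (mw Y (nat_lit 384) (Z a1 x d4)) (Nat.add (mw Y (nat_lit 512) (Z a1 x d4)) (mw Y (nat_lit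
  256) (Z a1 x d4)))) (Nat.add (mw Y (nat_lit 128) (Z a1 x d4)) (Z a1 x d4))))))) (mv Y (nat_lit 7)
  (Nat.add (Nat.add (Nat.add (mw Y (nat_lit 896) (Z a x d6)) (Nat.add (mw Y (nat_lit 512) (Z a1 x
  d4)) (mw Y (nat_lit 384) (Z a1 x d4)))) (Nat.add (mw Y (nat_lit 1024) (Z a x d6)) (mw Y (nat_lit
  512) (Z a x d6)))) (Nat.mul (nat_lit 2) (Nat.add (Nat.add (Nat.add (mw Y (nat_lit 256) (Z a3 x
  d2)) (mw Y (nat_lit 768) (Z a x d6))) (mw Y (nat_lit 384) (Z a x d6))) (mw Y (nat_lit 128) (Z a x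
  d6))))))) (mo Y d (nat_lit 0))) (mv Y (nat_lit 16389) (Nat.add (Nat.mul (nat_lit 2) (Nat.add
  (Nat.add (mw Y (nat_lit 640) (Z a x d6)) (mw Y (nat_lit 512) (Z a x d6))) (Nat.add (mw Y (nat_lit
  128) (Z a1 x d4)) (Z a1 x d4)))) (mw Y (nat_lit 384) (Z a x d6))))) (mv Y (nat_lit 16391) (Nat.mul
  (nat_lit 2) (Nat.add (Nat.add (Nat.add (mw Y (nat_lit 128) (Z a1 x d4)) (mw Y (nat_lit 384) (Z a x
  d6))) (Nat.add (mw Y (nat_lit 512) (Z a x d6)) (mw Y (nat_lit 256) (Z a x d6)))) (Nat.add (mw Y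
  (nat_lit 128) (Z a x d6)) (Z a x d6)))))) (mv Y (nat_lit 3) (Nat.add (Nat.add (Nat.add (mw Y
  (nat_lit 384) (Z a3 x d2)) (Nat.mul (nat_lit 2) (Nat.add (Nat.add (mw Y (nat_lit 128) (Z a3 x d2))
  (Z a4 x d1)) (mw Y (nat_lit 896) (Z a x d6))))) (mw Y (nat_lit 768) (Z a x d6))) (Nat.add (mw Y
  (nat_lit 1024) (Z a x d6)) (mw Y (nat_lit 512) (Z a x d6)))))) (mo Y d (nat_lit 0)))) (fold
  (Nat.add (Nat.add (fold (Nat.add (mv Y (nat_lit 32769) (Nat.add (Nat.add (Nat.add (Nat.mul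
  (nat_lit 6) (Z a2 x d3)) (Nat.mul (nat_lit 3) (Z a1 x d4))) (mw Y (nat_lit 384) (Z a x d6)))
  (Nat.mul (nat_lit 8) (mw Y (nat_lit 128) (Z a x d6))))) (mv Y (nat_lit 9) (Nat.add (Nat.add
  (Nat.add (mw Y (nat_lit 768) (Z a x d6)) (Nat.add (mw Y (nat_lit 512) (Z a1 x d4)) (mw Y (nat_lit
  256) (Z a1 x d4)))) (Nat.mul (nat_lit 2) (Nat.add (Nat.add (Nat.add (mw Y (nat_lit 896) (Z a x
  d6)) (Nat.add (mw Y (nat_lit 640) (Z a x d6)) (mw Y (nat_lit 512) (Z a x d6)))) (Z a3 x d2)) (Z a0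
  x d5)))) (Z a x d6)))) (mo Y d (nat_lit 0))) (mv Y (nat_lit 5) (Nat.add (Nat.add (Nat.add (mw Y
  (nat_lit 256) (Z a3 x d2)) (mw Y (nat_lit 1024) (Z a x d6))) (Nat.add (mw Y (nat_lit 896) (Z a x
  d6)) (Nat.add (mw Y (nat_lit 512) (Z a1 x d4)) (mw Y (nat_lit 384) (Z a1 x d4))))) (Nat.mul
  (nat_lit 2) (Nat.add (Nat.add (Nat.add (mw Y (nat_lit 768) (Z a x d6)) (mw Y (nat_lit 256) (Z a1 x
  d4))) (Nat.add (mw Y (nat_lit 640) (Z a x d6)) (mw Y (nat_lit 512) (Z a x d6)))) (mw Y (nat_lit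
  128) (Z a1 x d4))))))) (Nat.mul (nat_lit 8) (Nat.add (mw Y (nat_lit 1152) (Z a0 x d5)) (mw Y
  (nat_lit 384) (Z a x d6))))) (mo Y d (nat_lit 0)))) (fold (Nat.add (mv Y (nat_lit 1) (Nat.add
  (Nat.add (Nat.add (fold (Nat.add (Nat.mul (nat_lit 8) (mw Y (nat_lit 896) (Z a x d6))) (Nat.mul
  (nat_lit 6) (Nat.add (Nat.add (Nat.add (mw Y (nat_lit 768) (Z a2 x d3)) (mw Y (nat_lit 1152) (Z a
  x d6))) (mw Y (nat_lit 512) (Z a2 x d3))) (mw Y (nat_lit 256) (Z a2 x d3))))) (mo Y d (nat_lit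
  1))) (Z a4 x d1)) (Nat.add (mw Y (nat_lit 640) (Z a x d6)) (Z a5 x d0))) (Nat.mul (nat_lit 3)
  (Nat.add (mw Y (nat_lit 768) (Z a1 x d4)) (Nat.add (mw Y (nat_lit 512) (Z a1 x d4)) (mw Y (nat_lit
  256) (Z a1 x d4))))))) (mv Y (nat_lit 16384) (Nat.add (Nat.mul (nat_lit 6) (Nat.add (mw Y (nat_lit
  768) (Z a x d6)) (Nat.add (mw Y (nat_lit 512) (Z a x d6)) (mw Y (nat_lit 256) (Z a x d6))))) (Z a
  x d6)))) (mo Y d (nat_lit 0)))) (mv Y (nat_lit 32770) (Nat.mul (nat_lit 2) (Z a1 x d4)))) (mv Y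
  (nat_lit 32773) (Nat.mul (nat_lit 2) (mw Y (nat_lit 256) (Z a x d6))))) (mv Y (nat_lit 32775)
  (Nat.mul (nat_lit 2) (Z a x d6)))) (Nat.add (Nat.add (Nat.add (Nat.add (Nat.add (mv Y (nat_lit
  16386) (Nat.add (Nat.mul (nat_lit 2) (mw Y (nat_lit 384) (Z a1 x d4))) (mw Y (nat_lit 128) (Z a1 x
  d4)))) (mv Y (nat_lit 16390) (Nat.add (mw Y (nat_lit 256) (Z a1 x d4)) (Nat.add (mw Y (nat_lit
  512) (Z a x d6)) (mw Y (nat_lit 384) (Z a x d6)))))) (mv Y (nat_lit 32772) (Nat.add (mw Y (nat_lit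
  128) (Z a x d6)) (Z a x d6)))) (mv Y (nat_lit 16392) (Nat.add (Nat.add (mw Y (nat_lit 512) (Z a x
  d6)) (mw Y (nat_lit 256) (Z a x d6))) (Z a1 x d4)))) (mv Y (nat_lit 16387) (Nat.add (mw Y (nat_lit
  640) (Z a x d6)) (Nat.mul (nat_lit 2) (Nat.add (mw Y (nat_lit 384) (Z a x d6)) (Z a3 x d2))))))
  (mv Y (nat_lit 2) (Nat.mul (nat_lit 2) (Nat.add (mw Y (nat_lit 768) (Z a1 x d4)) (Nat.add (mw Y
  (nat_lit 512) (Z a1 x d4)) (mw Y (nat_lit 256) (Z a1 x d4)))))))) (mo Y d (nat_lit 0))) (mv Y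
  (nat_lit 2097152) (Z a x d6))) (mw Y (nat_lit 128) (Z a4 x d1))) (mv Y (nat_lit 32776) (mw Y
  (nat_lit 128) (Z a x d6)))) (mv Y (nat_lit 32771) (mw Y (nat_lit 256) (Z a x d6)))) (mv Y (nat_lit
  32774) (mw Y (nat_lit 128) (Z a x d6)))) (mw Y (nat_lit 1152) (Z a x d6))) (mv Y (nat_lit 32777)
  (Z a x d6))) (mo Y d (nat_lit 0)))

/-- compiled program -/
def w4_10r : Prog3 := fun Y Z => Bx.mk fun a x d =>
  ((w4_10mI a).1 ((w4_10mD d).1 ((w4_10e Y Z).1 a x d)))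

/-- compiled program -/
def b14_10e (Y : Lay) (Z : Tc) :
    Bx (Nat → Nat → Nat → (Nat → Nat → Nat → Nat → Nat → Nat → Nat → Nat → Nat → Nat → Nat → Nat →
    Nat → Nat → Nat → Nat → Nat → Nat → Nat → Nat → Nat → Nat → Nat → Nat → Nat → Nat → Nat → Nat →
    Nat → Nat → Nat → Nat → Nat → Nat → Nat → Nat → Nat → Nat → Nat → (Nat → Nat → Nat → Nat → Nat →
    Nat → Nat → Nat → Nat → Nat → Nat → Nat → Nat → Nat → Nat → Nat → Nat → Nat → Nat → Nat → Nat →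
    Nat))) :=
  Bx.mk fun a x d d0 d1 d2 d3 d4 d5 d6 d7 d8 d9 d10 d11 d12 d13 d14 d15 d16 d17 d18 d19 d20 d21 d22
  d23 d24 d25 d26 d27 d28 d29 d30 d31 d32 d33 d34 d35 d36 d37 d38 x0 x1 x2 x3 x4 x5 x6 x7 x8 x9 x10
  x11 x12 x13 x14 x15 x16 x17 x18 x19 x20 => (fold (Nat.add (fold (Nat.add (Nat.add (fold (Nat.add
  (Nat.add (fold (Nat.add (fold (Nat.add (fold (Nat.add (fold (Nat.add (fold (Nat.add (fold (Nat.add
  (Nat.add (Z a x20 d) (Z a x19 d0)) (mv Y (nat_lit 8) (Nat.add (Nat.add (Nat.add (Nat.add (Nat.add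
  (Nat.add (Nat.mul (nat_lit 2) (fold (Nat.add (Nat.add (Nat.add (Nat.add (Nat.add (Nat.add (Nat.add
  (Nat.add (Nat.add (Nat.add (Z a x2 d13) (Z a x2 d14)) (Z a x1 d14)) (Nat.add (Nat.add (Z a x6 d11)
  (Z a x6 d12)) (Nat.add (Z a x6 d14) (Z a x6 d15)))) (Nat.add (Z a x5 d13) (Z a x5 d16))) (Z a x
  d16)) (Nat.add (Nat.add (Z a x1 d15) (Z a x d17)) (Z a x0 d17))) (Nat.add (Z a x2 d16) (Z a x2
  d17))) (Nat.add (Nat.add (Nat.add (Z a x3 d14) (Z a x2 d15)) (Nat.add (Z a x3 d17) (Z a x2 d18)))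
  (Z a x0 d14))) (Nat.add (Nat.add (Z a x1 d17) (Z a x1 d18)) (Nat.add (Z a x d19) (Z a x d20)))) (Z
  a x0 d20)) (mo Y d (nat_lit 8)))) (Nat.add (Z a x4 d10) (Z a x5 d10))) (Z a x0 d13)) (Z a x5 d19))
  (Nat.add (Nat.add (Nat.add (Z a x3 d11) (Z a x2 d12)) (Z a x4 d18)) (Nat.add (Nat.add (Z a x4 d14)
  (Z a x4 d17)) (Nat.add (Z a x4 d20) (Z a x0 d21))))) (Nat.add (Z a x3 d20) (Z a x2 d21))) (mw Y
  (nat_lit 128) (Nat.mul (nat_lit 2) (Nat.add (Nat.add (Nat.add (Nat.add (Z a x0 d17) (Z a x d18))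
  (Nat.add (Z a x0 d23) (Z a x d24))) (Z a x0 d29)) (Z a x d30))))))) (mo Y d (nat_lit 0))) (mv Y
  (nat_lit 2) (Nat.add (Nat.add (Nat.add (Nat.add (Nat.add (Z a x16 d2) (Z a x13 d3)) (Nat.mul
  (nat_lit 2) (Nat.add (Z a x15 d3) (Z a x12 d4)))) (Nat.add (Z a x14 d4) (Z a x11 d5))) (mw Y
  (nat_lit 128) (Nat.add (Nat.add (Nat.add (Nat.add (Nat.add (Z a x5 d10) (Z a x4 d11)) (Nat.add (Z
  a x7 d9) (Z a x7 d12))) (Nat.add (Z a x6 d10) (Z a x6 d13))) (Z a x5 d13)) (Z a x4 d14)))) (mw Y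
  (nat_lit 256) (Nat.add (Nat.add (Nat.add (Nat.add (Z a x1 d16) (Z a x0 d17)) (Nat.mul (nat_lit 2)
  (Nat.add (Z a x1 d19) (Z a x0 d20)))) (Z a x1 d22)) (Z a x0 d23)))))) (mo Y d (nat_lit 0))) (mv Y
  (nat_lit 9) (Nat.add (Nat.add (Nat.add (Nat.add (Nat.add (Nat.add (Nat.add (Nat.add (fold (Nat.add
  (Nat.add (Nat.add (Nat.add (Z a x1 d13) (Z a x2 d15)) (Nat.add (Nat.add (Z a x4 d11) (Z a x d15))
  (Nat.add (Nat.add (Z a x4 d15) (Z a x4 d16)) (Z a x4 d13)))) (Nat.add (Nat.add (Nat.add (Z a x3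
  d11) (Z a x2 d12)) (Z a x4 d18)) (Nat.add (Nat.add (Z a x4 d14) (Z a x4 d17)) (Nat.add (Z a x4
  d20) (Z a x0 d21))))) (mw Y (nat_lit 128) (Nat.add (Nat.add (Nat.add (Nat.add (Z a x d19) (Z a x
  d32)) (Nat.add (Z a x d18) (Z a x d33))) (Nat.add (Z a x d17) (Z a x d34))) (Nat.mul (nat_lit 2)
  (Nat.add (Nat.add (Nat.add (Z a x d25) (Z a x d26)) (Nat.add (Z a x d23) (Z a x d28))) (Nat.add (Z
  a x d15) (Z a x d36))))))) (mo Y d (nat_lit 9))) (Nat.mul (nat_lit 2) (fold (Nat.add (Nat.add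
  (Nat.add (Nat.add (Nat.add (Nat.add (Nat.add (Nat.add (Nat.add (Nat.add (Z a x3 d10) (Z a x3 d12))
  (Z a x3 d14)) (Z a x2 d16)) (Nat.add (Nat.add (Z a x1 d16) (Z a x0 d17)) (Z a x2 d11))) (Z a x2
  d18)) (Nat.add (Z a x1 d19) (Z a x0 d20))) (Nat.add (Z a x3 d20) (Z a x2 d21))) (Nat.add (Nat.add
  (Z a x2 d13) (Z a x2 d14)) (Nat.add (Z a x3 d22) (Z a x2 d23)))) (Z a x3 d24)) (Z a x2 d25)) (mo Y
  d (nat_lit 9))))) (Z a x3 d15)) (Z a x0 d16)) (Z a x d17)) (Z a x2 d17)) (Z a x d18)) (Nat.add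
  (Nat.add (Z a x0 d18) (Z a x0 d19)) (Z a x3 d13))) (Nat.add (Nat.add (Nat.add (Nat.add (Nat.add
  (Nat.add (Nat.add (Z a x d19) (Z a x d20)) (Z a x2 d19)) (Nat.add (Nat.add (Z a x2 d20) (Z a x
  d21)) (Z a x3 d19))) (Nat.add (Nat.add (Z a x3 d21) (Z a x2 d22)) (Z a x d22))) (Z a x3 d23))
  (Nat.add (Z a x1 d22) (Z a x d24))) (Z a x2 d24))))) (mo Y d (nat_lit 0))) (mv Y (nat_lit 3)
  (Nat.add (Nat.add (Nat.add (Nat.add (fold (Nat.add (Nat.add (Nat.add (Nat.add (fold (Nat.add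
  (Nat.add (Nat.add (Nat.add (Z a x11 d6) (Z a x9 d7)) (Z a x9 d6)) (Z a x15 d4)) (Nat.mul (nat_lit
  2) (Nat.add (Nat.add (Nat.add (Nat.add (Nat.add (Nat.add (Nat.add (Nat.add (Nat.add (Nat.add (Z a
  x16 d3) (Z a x12 d4)) (Z a x16 d4)) (Z a x11 d5)) (Z a x12 d5)) (Nat.add (Nat.add (Z a x14 d5) (Z
  a x10 d5)) (Nat.add (Z a x14 d6) (Z a x10 d6)))) (Z a x7 d6)) (Z a x12 d6)) (Z a x6 d7)) (Z a x8
  d7)) (Z a x8 d8)))) (mo Y d (nat_lit 3))) (Z a x13 d4)) (Z a x9 d5)) (Z a x15 d5)) (mw Y (nat_lit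
  256) (Nat.add (Nat.add (Nat.add (Nat.add (Z a x0 d18) (Z a x0 d19)) (Nat.add (Z a x d23) (Z a x0
  d24))) (Nat.add (Nat.add (Z a x1 d20) (Z a x1 d21)) (Nat.add (Z a x d22) (Z a x0 d25)))) (Nat.mul
  (nat_lit 2) (Nat.add (Nat.add (Nat.add (Nat.add (Nat.add (Z a x1 d17) (Z a x1 d18)) (Nat.add (Z a
  x d19) (Z a x d20))) (Nat.add (Z a x0 d21) (Z a x0 d22))) (Nat.add (Z a x1 d23) (Z a x1 d24)))
  (Nat.add (Z a x d25) (Z a x d26))))))) (mo Y d (nat_lit 3))) (Z a x13 d5)) (Z a x8 d6)) (Z a x11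
  d7)) (mw Y (nat_lit 128) (Nat.add (Nat.add (Nat.add (Nat.add (Nat.add (Nat.add (Nat.add (fold
  (Nat.mul (nat_lit 2) (Nat.add (Nat.add (Nat.add (Nat.add (Z a x3 d12) (Z a x3 d13)) (Nat.add (Z a
  x2 d13) (Z a x2 d14))) (Nat.add (Nat.add (Nat.add (Z a x7 d10) (Z a x7 d11)) (Nat.add (Z a x7 d13)
  (Z a x7 d14))) (Nat.add (Nat.add (Z a x6 d11) (Z a x6 d12)) (Nat.add (Z a x6 d14) (Z a x6 d15)))))
  (Nat.add (Nat.add (Z a x3 d15) (Z a x3 d16)) (Nat.add (Z a x2 d16) (Z a x2 d17))))) (mo Y d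
  (nat_lit 7))) (Nat.add (Z a x8 d9) (Z a x8 d12))) (Z a x2 d12)) (Z a x4 d12)) (Z a x4 d14))
  (Nat.add (Nat.add (Nat.add (Z a x5 d14) (Z a x5 d15)) (Z a x5 d12)) (Z a x5 d11))) (Nat.add
  (Nat.add (Z a x1 d13) (Z a x2 d15)) (Nat.add (Nat.add (Z a x4 d11) (Z a x d15)) (Nat.add (Nat.add
  (Z a x4 d15) (Z a x4 d16)) (Z a x4 d13))))) (Nat.add (Z a x1 d16) (Z a x d18))))))) (mo Y d
  (nat_lit 0))) (mv Y (nat_lit 5) (Nat.add (Nat.add (Nat.add (Nat.add (Nat.add (Nat.add (Nat.add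
  (Nat.add (Nat.add (fold (Nat.add (Nat.add (Nat.add (Nat.add (Nat.add (Nat.add (Z a x4 d9) (Z a x4
  d10)) (Nat.add (Z a x10 d11) (Z a x10 d12))) (Nat.add (Nat.add (Z a x d13) (Z a x d14)) (Nat.add
  (Z a x8 d13) (Z a x8 d14)))) (Z a x11 d7)) (mw Y (nat_lit 128) (Nat.add (Nat.add (Nat.add (Nat.add
  (Nat.add (Nat.add (fold (Nat.add (Nat.add (Nat.add (Z a x1 d17) (Z a x1 d18)) (Nat.add (Z a x d19)
  (Z a x d20))) (Nat.mul (nat_lit 2) (Nat.add (Nat.add (Nat.add (Nat.add (Nat.add (Z a x4 d14) (Z a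
  x4 d17)) (Nat.add (Z a x1 d16) (Z a x d18))) (Nat.add (Nat.add (Nat.add (Z a x3 d15) (Z a x3 d16))
  (Nat.add (Z a x2 d16) (Z a x2 d17))) (Nat.add (Z a x3 d18) (Z a x2 d19)))) (Z a x1 d19)) (Nat.add
  (Nat.add (Z a x2 d20) (Z a x d21)) (Z a x3 d19))))) (mo Y d (nat_lit 9))) (Nat.add (Nat.add (Z a
  x4 d15) (Z a x4 d16)) (Z a x4 d13))) (Nat.add (Z a x1 d15) (Z a x d17))) (Z a x4 d18)) (Z a x1
  d20)) (Nat.add (Nat.add (Z a x3 d21) (Z a x2 d22)) (Z a x d22))) (Nat.add (Nat.add (Z a x3 d12) (Z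
  a x3 d13)) (Nat.add (Nat.add (Z a x2 d13) (Z a x2 d14)) (Nat.add (Z a x3 d22) (Z a x2 d23)))))))
  (mw Y (nat_lit 256) (Nat.add (Nat.add (Nat.add (Nat.add (Z a x d19) (Z a x d20)) (Nat.add (Z a x
  d25) (Z a x d26))) (Z a x d31)) (Z a x d32)))) (mo Y d (nat_lit 5))) (Nat.mul (nat_lit 2) (fold
  (Nat.add (Nat.add (Nat.add (Nat.add (Nat.add (Nat.add (Nat.add (Nat.add (Z a x7 d8) (Z a x12 d8))
  (Nat.add (Z a x12 d6) (Z a x11 d9))) (Nat.add (Z a x9 d9) (Z a x9 d10))) (Z a x7 d10)) (Z a x6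
  d11)) (Nat.add (Z a x3 d10) (Z a x3 d12))) (Nat.add (Nat.add (Nat.add (Z a x11 d6) (Z a x9 d7)) (Z
  a x9 d6)) (Nat.add (Nat.add (Z a x0 d12) (Z a x9 d12)) (Nat.add (Z a x0 d13) (Z a x9 d13))))) (Z a
  x2 d13)) (mo Y d (nat_lit 5))))) (Nat.add (Nat.add (Z a x14 d5) (Z a x10 d5)) (Nat.add (Z a x14
  d6) (Z a x10 d6)))) (Z a x6 d8)) (Z a x11 d8)) (Z a x7 d9)) (Nat.add (Nat.add (Nat.add (Z a x8 d8)
  (Z a x8 d10)) (Z a x10 d8)) (Z a x12 d7))) (Z a x6 d10)) (Nat.add (Nat.add (Z a x8 d7) (Z a x10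
  d9)) (Nat.add (Z a x2 d10) (Z a x8 d11)))) (Nat.add (Z a x3 d11) (Z a x2 d12))))) (mo Y d (nat_lit
  0))) (mv Y (nat_lit 7) (Nat.add (Nat.add (Nat.add (Nat.add (Nat.add (Nat.add (Nat.add (fold
  (Nat.add (Nat.add (Nat.add (Nat.add (Nat.add (Nat.add (Nat.add (Z a x7 d10) (Z a x7 d11)) (Nat.add
  (Z a x7 d13) (Z a x7 d14))) (Nat.add (Nat.add (Z a x6 d11) (Z a x6 d12)) (Nat.add (Z a x6 d14) (Z
  a x6 d15)))) (Nat.add (Nat.add (Z a x1 d16) (Z a x0 d17)) (Z a x2 d11))) (Nat.add (Nat.add (Z a x3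
  d11) (Z a x2 d12)) (Z a x4 d18))) (Nat.add (Nat.add (Nat.add (Z a x3 d14) (Z a x2 d15)) (Nat.add
  (Z a x3 d17) (Z a x2 d18))) (Z a x0 d14))) (mw Y (nat_lit 128) (Nat.add (Nat.add (Nat.add (Nat.add
  (Nat.add (Nat.add (Nat.add (fold (Nat.add (Nat.add (Nat.add (Z a x1 d20) (Z a x1 d21)) (Nat.add (Z
  a x d22) (Z a x0 d25))) (Nat.mul (nat_lit 2) (Nat.add (Nat.add (Nat.add (Nat.add (Nat.add (Nat.add
  (Nat.add (Nat.add (Nat.add (Z a x0 d16) (Z a x1 d17)) (Nat.add (Z a x1 d16) (Z a x d18))) (Z a x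
  d19)) (Nat.add (Z a x0 d21) (Z a x0 d22))) (Z a x0 d23)) (Z a x1 d24)) (Z a x1 d25)) (Nat.add (Z a
  x0 d20) (Z a x d27))) (Nat.add (Z a x d26) (Z a x0 d27))))) (mo Y d (nat_lit 11))) (Nat.add
  (Nat.add (Z a x1 d15) (Z a x d17)) (Z a x0 d17))) (Z a x0 d18)) (Z a x1 d19)) (Nat.add (Z a x1
  d22) (Z a x d24))) (Nat.add (Z a x d21) (Z a x0 d26))) (Z a x1 d26)) (Nat.add (Z a x d23) (Z a x
  d28))))) (mo Y d (nat_lit 7))) (Nat.mul (nat_lit 2) (fold (Nat.add (Nat.add (Nat.add (Nat.add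
  (Nat.add (Nat.add (Nat.add (Nat.add (Nat.add (Nat.add (Nat.add (Z a x4 d10) (Z a x5 d10)) (Z a x6
  d9)) (Z a x2 d10)) (Z a x3 d10)) (Nat.add (Z a x6 d10) (Z a x6 d13))) (Nat.add (Nat.add (Nat.add
  (Nat.add (Z a x5 d14) (Z a x5 d15)) (Z a x5 d12)) (Z a x5 d11)) (Z a x7 d8))) (Nat.add (Z a x5
  d13) (Z a x5 d16))) (Z a x7 d16)) (Z a x4 d17)) (Z a x6 d17)) (Nat.add (Z a x3 d18) (Z a x2 d19)))
  (mo Y d (nat_lit 7))))) (Z a x4 d9)) (Z a x5 d9)) (Nat.add (Z a x1 d11) (Z a x1 d12))) (Nat.add (Z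
  a x7 d9) (Z a x7 d12))) (Nat.add (Z a x3 d12) (Z a x3 d13))) (Nat.add (Nat.add (Nat.add (Nat.add
  (Nat.add (Nat.add (Nat.add (Z a x1 d14) (Z a x1 d15)) (Z a x1 d13)) (Z a x7 d15)) (Nat.add (Z a x3
  d15) (Z a x3 d16))) (Z a x6 d16)) (Z a x5 d17)) (Nat.add (Z a x1 d17) (Z a x1 d18)))))) (mo Y d
  (nat_lit 0))) (mv Y (nat_lit 1) (Nat.add (fold (Nat.add (Nat.add (fold (mw Y (nat_lit 256)
  (Nat.add (Nat.mul (nat_lit 8) (fold (Nat.add (Nat.add (Nat.add (Z a x3 d14) (Z a x2 d15)) (Nat.mul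
  (nat_lit 2) (Nat.add (Z a x3 d17) (Z a x2 d18)))) (Nat.add (Z a x3 d20) (Z a x2 d21))) (mo Y d
  (nat_lit 9)))) (Nat.mul (nat_lit 3) (Nat.add (Nat.add (Z a x3 d21) (Z a x2 d22)) (Nat.add (Nat.add
  (Z a x3 d12) (Z a x3 d13)) (Nat.add (Nat.add (Z a x2 d13) (Z a x2 d14)) (Nat.add (Z a x3 d22) (Z a
  x2 d23)))))))) (mo Y d (nat_lit 1))) (mw Y (nat_lit 384) (Nat.add (fold (Nat.add (Nat.mul (nat_lit
  5) (Nat.add (Nat.add (Z a x d24) (Z a x d27)) (Nat.add (Z a x d18) (Z a x d33)))) (Nat.mul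
  (nat_lit 3) (Nat.add (Nat.add (Nat.add (Z a x d17) (Z a x d34)) (Z a x d16)) (Z a x d35)))) (mo Y
  d (nat_lit 13))) (Nat.mul (nat_lit 8) (fold (Nat.add (Nat.add (Z a x d15) (Z a x d36)) (Nat.mul
  (nat_lit 3) (Nat.add (Nat.add (Nat.add (Nat.add (Nat.add (Nat.add (Z a x d13) (Z a x d14)) (Z a x
  d22)) (Nat.add (Nat.add (Z a x d25) (Z a x d26)) (Nat.add (Z a x d23) (Z a x d28)))) (Z a x d29))
  (Z a x d37)) (Z a x d38)))) (mo Y d (nat_lit 13))))))) (mw Y (nat_lit 128) (Nat.add (Nat.add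
  (Nat.add (Nat.add (Nat.add (Nat.mul (nat_lit 3) (fold (Nat.add (Nat.add (Nat.add (Nat.add (Nat.add
  (Z a x14 d5) (Z a x10 d5)) (Nat.add (Z a x14 d6) (Z a x10 d6))) (Nat.add (Z a x9 d9) (Z a x9
  d10))) (Nat.add (Z a x1 d11) (Z a x1 d12))) (Nat.add (Nat.add (Nat.add (Z a x4 d9) (Z a x4 d10))
  (Nat.add (Z a x10 d11) (Z a x10 d12))) (Nat.add (Nat.add (Z a x d13) (Z a x d14)) (Nat.add (Z a x8
  d13) (Z a x8 d14))))) (mo Y d (nat_lit 5)))) (Nat.mul (nat_lit 6) (fold (Nat.add (Nat.add (Nat.add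
  (Nat.add (Nat.add (Z a x6 d8) (Z a x6 d9)) (Nat.add (Nat.add (Z a x8 d8) (Z a x8 d10)) (Z a x10
  d8))) (Nat.add (Nat.add (Z a x8 d7) (Z a x10 d9)) (Nat.add (Z a x2 d10) (Z a x8 d11)))) (Nat.add
  (Z a x11 d7) (Z a x2 d11))) (Nat.add (Nat.add (Nat.add (Z a x11 d6) (Z a x9 d7)) (Z a x9 d6))
  (Nat.add (Nat.add (Z a x0 d12) (Z a x9 d12)) (Nat.add (Z a x0 d13) (Z a x9 d13))))) (mo Y d
  (nat_lit 5))))) (Z a x10 d7)) (Z a x10 d10)) (Nat.mul (nat_lit 2) (Nat.add (Z a x9 d8) (Z a x9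
  d11)))) (Nat.add (Z a x8 d9) (Z a x8 d12))))) (mo Y d (nat_lit 1))) (Nat.mul (nat_lit 8) (Nat.add
  (Z a x18 d1) (Z a x17 d2)))))) (mw Y (nat_lit 128) (Nat.add (Nat.mul (nat_lit 8) (fold (Nat.add
  (Nat.add (Z a x8 d6) (Z a x2 d9)) (Nat.mul (nat_lit 3) (Nat.add (Nat.add (Z a x14 d4) (Z a x11
  d5)) (Nat.add (Z a x1 d10) (Z a x0 d11))))) (mo Y d (nat_lit 4)))) (Nat.mul (nat_lit 3) (Nat.add
  (Z a x6 d7) (Z a x4 d8)))))) (mo Y d (nat_lit 0))) (mv Y (nat_lit 4) (Nat.add (Nat.add (Nat.add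
  (Nat.add (Nat.add (Nat.add (fold (Nat.add (Nat.add (Nat.mul (nat_lit 2) (fold (Nat.add (Nat.add
  (Nat.add (Nat.add (Nat.add (Nat.add (Nat.add (Nat.add (Nat.add (Nat.add (Z a x12 d5) (Z a x13 d6))
  (Nat.add (Z a x11 d6) (Z a x9 d7))) (Z a x10 d7)) (Nat.add (Z a x6 d7) (Z a x4 d8))) (Z a x12 d8))
  (Nat.add (Nat.add (Z a x11 d8) (Z a x5 d9)) (Z a x5 d8))) (Z a x8 d9)) (Z a x9 d9)) (Nat.add (Z a
  x4 d9) (Z a x4 d10))) (Nat.add (Nat.add (Z a x14 d4) (Z a x11 d5)) (Nat.add (Z a x1 d10) (Z a x0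
  d11)))) (mo Y d (nat_lit 4)))) (Nat.add (Nat.add (Nat.add (Z a x8 d8) (Z a x8 d10)) (Z a x10 d8))
  (Z a x12 d7))) (mw Y (nat_lit 256) (Nat.add (Nat.add (Nat.add (Nat.add (Nat.add (Nat.add (Nat.add
  (Z a x0 d19) (Z a x d20)) (Z a x0 d21)) (Nat.add (Z a x0 d23) (Z a x d24))) (Nat.add (Z a x d22)
  (Z a x0 d25))) (Nat.add (Z a x d26) (Z a x0 d27))) (Nat.mul (nat_lit 2) (Nat.add (Nat.add (Nat.add
  (Nat.add (Nat.add (Z a x d23) (Z a x0 d24)) (Z a x0 d22)) (Z a x d25)) (Nat.add (Z a x d21) (Z a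
  x0 d26))) (Nat.add (Z a x0 d20) (Z a x d27))))) (Z a x d28)))) (mo Y d (nat_lit 4))) (Z a x13 d5))
  (Z a x10 d6)) (Z a x13 d7)) (Z a x9 d8)) (Nat.add (Z a x12 d6) (Z a x11 d9))) (mw Y (nat_lit 128)
  (Nat.add (Nat.add (Nat.add (Nat.add (Nat.add (fold (Nat.add (Nat.add (Nat.add (Nat.add (Nat.add (Z
  a x5 d14) (Z a x5 d15)) (Z a x5 d12)) (Z a x4 d12)) (Nat.mul (nat_lit 2) (Nat.add (Nat.add
  (Nat.add (Nat.add (Z a x5 d13) (Z a x5 d16)) (Nat.add (Nat.add (Z a x4 d15) (Z a x4 d16)) (Z a x4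
  d13))) (Nat.add (Z a x4 d14) (Z a x4 d17))) (Nat.add (Nat.add (Z a x3 d14) (Z a x2 d15)) (Nat.add
  (Z a x3 d17) (Z a x2 d18)))))) (Nat.add (Nat.add (Nat.add (Z a x3 d15) (Z a x3 d16)) (Nat.add (Z a
  x2 d16) (Z a x2 d17))) (Nat.add (Z a x3 d18) (Z a x2 d19)))) (mo Y d (nat_lit 8))) (Z a x2 d14))
  (Nat.add (Z a x0 d15) (Z a x0 d16))) (Z a x5 d17)) (Z a x4 d18)) (Nat.add (Nat.add (Z a x0 d18) (Z
  a x0 d19)) (Z a x3 d13))))))) (mv Y (nat_lit 16384) (Nat.add (Nat.mul (nat_lit 8) (fold (Nat.add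
  (Nat.add (Z a x d21) (Z a x d30)) (Nat.mul (nat_lit 3) (Nat.add (Nat.add (Z a x d18) (Z a x d33))
  (Nat.add (Z a x d15) (Z a x d36))))) (mo Y d (nat_lit 13)))) (Nat.mul (nat_lit 3) (Nat.add (Z a x
  d24) (Z a x d27)))))) (mo Y d (nat_lit 0))) (mv Y (nat_lit 6) (Nat.add (Nat.add (Nat.add (Nat.add
  (Nat.add (fold (Nat.add (Nat.add (Nat.add (Nat.add (Z a x7 d10) (Z a x7 d11)) (Nat.add (Z a x7
  d13) (Z a x7 d14))) (Nat.add (Nat.add (Z a x6 d11) (Z a x6 d12)) (Nat.add (Z a x6 d14) (Z a x6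
  d15)))) (mw Y (nat_lit 128) (Nat.add (Nat.add (Nat.add (Nat.add (Nat.add (Z a x1 d17) (Z a x1
  d18)) (Nat.add (Z a x0 d18) (Z a x0 d19))) (Nat.add (Z a x1 d20) (Z a x1 d21))) (Nat.add (Z a x0
  d21) (Z a x0 d22))) (Nat.mul (nat_lit 2) (Nat.add (Nat.add (Nat.add (Nat.add (Nat.add (Z a x1 d14)
  (Z a x1 d15)) (Nat.add (Z a x0 d15) (Z a x0 d16))) (Nat.add (Z a x1 d23) (Z a x1 d24))) (Z a x0
  d24)) (Z a x0 d25)))))) (mo Y d (nat_lit 6))) (fold (Nat.add (Nat.add (Nat.add (Nat.add (Nat.add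
  (Nat.add (Z a x5 d14) (Z a x5 d15)) (Z a x5 d12)) (Z a x5 d11)) (Z a x7 d8)) (Z a x7 d7)) (Nat.mul
  (nat_lit 2) (Nat.add (Nat.add (Nat.add (Nat.add (Nat.add (Nat.add (Nat.add (Nat.add (Nat.add (Z a
  x11 d7) (Z a x2 d11)) (Z a x11 d9)) (Nat.add (Z a x9 d8) (Z a x9 d11))) (Z a x3 d11)) (Nat.add (Z
  a x8 d9) (Z a x8 d12))) (Z a x2 d13)) (Z a x d14)) (Nat.add (Z a x3 d14) (Z a x2 d15))) (Z a x
  d16)))) (mo Y d (nat_lit 6)))) (Nat.add (Z a x6 d8) (Z a x6 d9))) (Nat.add (Nat.add (Z a x11 d8)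
  (Z a x5 d9)) (Z a x5 d8))) (Z a x4 d9)) (Nat.add (Nat.add (Z a x4 d11) (Z a x d15)) (Nat.add
  (Nat.add (Z a x4 d15) (Z a x4 d16)) (Z a x4 d13)))))) (mo Y d (nat_lit 0)))

/-- compiled program -/
def b14_10r : Prog3 := fun Y Z => Bx.mk fun a x d =>
  ((b14_13mX x).1 ((b14_13mD d).1 ((b14_10e Y Z).1 a x d)))

/-- compiled program -/
def w1_10_1e (Y : Lay) (Z : Tc) :
    Bx (Nat → Nat → Nat → (Nat → Nat)) :=
  Bx.mk fun a x d d0 => (qst (Nat.add (mv Y (nat_lit 1) (Z a x d0)) (Nat.mul (nat_lit 3) (Z a x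
  d0))) (mo Y d (nat_lit 0)) (oo Y d (nat_lit 0)))

/-- compiled program -/
def w1_10_1r : Prog3 := fun Y Z => Bx.mk fun a x d =>
  ((g3cmD d).1 ((w1_10_1e Y Z).1 a x d))

/-- compiled program -/
def w1_10_2e (Y : Lay) (Z : Tc) :
    Bx (Nat → Nat → Nat → (Nat → Nat)) :=
  Bx.mk fun a x d d0 => (qst (mv Y (nat_lit 1) (Nat.add (mv Y (nat_lit 1) (Z a x d0)) (Nat.mul
  (nat_lit 6) (Z a x d0)))) (mo Y d (nat_lit 0)) (oo Y d (nat_lit 0)))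

/-- compiled program -/
def w1_10_2r : Prog3 := fun Y Z => Bx.mk fun a x d =>
  ((w1_13m2D d).1 ((w1_10_2e Y Z).1 a x d))

/-- compiled program -/
def w1_10_3e (Y : Lay) (Z : Tc) :
    Bx (Nat → Nat → Nat → (Nat → Nat)) :=
  Bx.mk fun a x d d0 => (mv Y (nat_lit 3) (Z a x d0))

/-- compiled program -/
def w1_10_3r : Prog3 := fun Y Z => Bx.mk fun a x d =>
  ((w1_13m3D d).1 ((w1_10_3e Y Z).1 a x d))

/-- compiled program -/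
def w1_10_4e (Y : Lay) (Z : Tc) :
    Bx (Nat → Nat → Nat → (Nat → Nat)) :=
  Bx.mk fun a x d d0 => (mv Y (nat_lit 4) (Z a x d0))

/-- compiled program -/
def w1_10_4r : Prog3 := fun Y Z => Bx.mk fun a x d =>
  ((w1_13m4D d).1 ((w1_10_4e Y Z).1 a x d))

/-- compiled program -/
def w1_10_5e (Y : Lay) (Z : Tc) :
    Bx (Nat → Nat → Nat → (Nat → Nat)) :=
  Bx.mk fun a x d d0 => (mv Y (nat_lit 5) (Z a x d0))

/-- compiled program -/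
def w1_10_5r : Prog3 := fun Y Z => Bx.mk fun a x d =>
  ((w1_13m5D d).1 ((w1_10_5e Y Z).1 a x d))

/-- compiled program -/
def w1_10_6e (Y : Lay) (Z : Tc) :
    Bx (Nat → Nat → Nat → (Nat → Nat)) :=
  Bx.mk fun a x d d0 => (mv Y (nat_lit 6) (Z a x d0))

/-- compiled program -/
def w1_10_6r : Prog3 := fun Y Z => Bx.mk fun a x d =>
  ((w1_13m6D d).1 ((w1_10_6e Y Z).1 a x d))

/-- compiled program -/
def w1_10_7e (Y : Lay) (Z : Tc) :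
    Bx (Nat → Nat → Nat → (Nat → Nat)) :=
  Bx.mk fun a x d d0 => (mv Y (nat_lit 7) (Z a x d0))

/-- compiled program -/
def w1_10_7r : Prog3 := fun Y Z => Bx.mk fun a x d =>
  ((w1_13m7D d).1 ((w1_10_7e Y Z).1 a x d))

/-- compiled program -/
def w1_10_8e (Y : Lay) (Z : Tc) :
    Bx (Nat → Nat → Nat → (Nat → Nat)) :=
  Bx.mk fun a x d d0 => (mv Y (nat_lit 8) (Z a x d0))

/-- compiled program -/
def w1_10_8r : Prog3 := fun Y Z => Bx.mk fun a x d =>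
  ((w1_13m8D d).1 ((w1_10_8e Y Z).1 a x d))

/-- compiled program -/
def w1_10_9e (Y : Lay) (Z : Tc) :
    Bx (Nat → Nat → Nat → (Nat → Nat)) :=
  Bx.mk fun a x d d0 => (mv Y (nat_lit 9) (Z a x d0))

/-- compiled program -/
def w1_10_9r : Prog3 := fun Y Z => Bx.mk fun a x d =>
  ((w1_13m9D d).1 ((w1_10_9e Y Z).1 a x d))

/-- compiled programs -/
def w1_10r : List Prog3 :=
  [zero3, w1_10_1r, w1_10_2r, w1_10_3r, w1_10_4r, w1_10_5r, w1_10_6r, w1_10_7r, w1_10_8r, w1_10_9r]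

end Vale.Agent.P236X
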