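import Vale.Agent.P236X.TB

/-!
# P236 / X : compiled programs with three keys (T13)
-/

set_option linter.unusedVariables false

noncomputable section

namespace Vale.Agent.P236X

/-- keys -/
def w4_13mI (c : Nat) :
    Bx ((Nat → Nat → Nat → Nat → Nat → Nat → Nat → Nat → Nat → Nat) → Nat) :=
  bx9 Nat c (nat_lit 2251799813685249) (nat_lit 6755399441055747) (nat_lit 7318349394477184)
  (nat_lit 9007199254740996) (nat_lit 13510798882111494) (nat_lit 15762598695796743) (nat_lit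
  20266198323167241) (nat_lit 21955048183431552) (nat_lit 22517998136868864)

/-- keys -/
def w4_13mD (c : Nat) :
    Bx ((Nat → Nat → Nat → Nat → Nat → Nat → Nat → Nat → Nat → (Nat → Nat → Nat → Nat → Nat → Nat →
    Nat → Nat → Nat → Nat)) → (Nat → Nat → Nat → Nat → Nat → Nat → Nat → Nat → Nat → Nat)) :=
  bs9 (Nat → Nat → Nat → Nat → Nat → Nat → Nat → Nat → Nat → Nat) c (nat_lit 1) (nat_lit 4) (nat_lit
  12) (nat_lit 16) (nat_lit 24) (nat_lit 27) (nat_lit 28) (nat_lit 36) (nat_lit 40)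

/-- compiled program -/
def w4_13e (Y : Lay) (Z : Tc) :
    Bx (Nat → Nat → Nat → (Nat → Nat → Nat → Nat → Nat → Nat → Nat → Nat → Nat → (Nat → Nat → Nat →
    Nat → Nat → Nat → Nat → Nat → Nat → Nat))) :=
  Bx.mk fun a x d d0 d1 d2 d3 d4 d5 d6 d7 d8 a0 a1 a2 a3 a4 a5 a6 a7 a8 => (fold (Nat.add (Nat.add
  (Nat.add (Nat.add (Nat.add (Nat.add (Nat.add (Nat.add (Nat.add (Nat.add (Nat.add (fold (Nat.add
  (Nat.add (Nat.add (Nat.add (Nat.add (Nat.add (Nat.add (Nat.add (Nat.add (Nat.add (fold (Nat.add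
  (Nat.add (Nat.add (Nat.add (mv Y (nat_lit 32770) (Nat.mul (nat_lit 2) (Z a1 x d6))) (mv Y (nat_lit
  49152) (Nat.mul (nat_lit 8) (Z a x d8)))) (mv Y (nat_lit 16395) (Nat.add (Nat.add (Nat.mul
  (nat_lit 2) (Nat.add (mw Y (nat_lit 256) (Z a x d8)) (Z a3 x d4))) (Z a1 x d6)) (mw Y (nat_lit
  128) (Z a x d8))))) (mv Y (nat_lit 16388) (Nat.add (Nat.add (mw Y (nat_lit 512) (Z a x d8)) (mw Y
  (nat_lit 384) (Z a x d8))) (Nat.mul (nat_lit 2) (Nat.add (mw Y (nat_lit 256) (Z a1 x d6)) (Nat.add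
  (mw Y (nat_lit 256) (Z a x d8)) (mw Y (nat_lit 128) (Z a x d8)))))))) (mv Y (nat_lit 4) (Nat.add
  (Nat.add (Nat.add (Nat.add (mw Y (nat_lit 640) (Z a1 x d6)) (mw Y (nat_lit 896) (Z a x d8)))
  (Nat.mul (nat_lit 2) (mw Y (nat_lit 384) (Z a1 x d6)))) (Nat.add (mw Y (nat_lit 640) (Z a x d8))
  (Nat.add (mw Y (nat_lit 512) (Z a x d8)) (mw Y (nat_lit 384) (Z a x d8))))) (mw Y (nat_lit 256) (Z
  a x d8))))) (mo Y d (nat_lit 0))) (fold (Nat.add (Nat.add (Nat.add (mv Y (nat_lit 16393) (Nat.add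
  (Nat.mul (nat_lit 2) (Nat.add (mw Y (nat_lit 128) (Z a1 x d6)) (mw Y (nat_lit 512) (Z a x d8))))
  (mw Y (nat_lit 384) (Z a x d8)))) (mv Y (nat_lit 16394) (Nat.add (mw Y (nat_lit 384) (Z a0 x d7))
  (Nat.mul (nat_lit 2) (Nat.add (Nat.add (Nat.add (mw Y (nat_lit 384) (Z a x d8)) (Z a1 x d6)) (mw Y
  (nat_lit 128) (Z a0 x d7))) (Z a x d8)))))) (Nat.mul (nat_lit 3) (Nat.add (Nat.add (mw Y (nat_lit
  640) (Z a x d8)) (Z a7 x d0)) (Z a8 x d)))) (mv Y (nat_lit 6) (Nat.add (Nat.add (Nat.add (mw Y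
  (nat_lit 128) (Z a4 x d3)) (mw Y (nat_lit 384) (Z a1 x d6))) (Z a4 x d3)) (Nat.mul (nat_lit 2)
  (Nat.add (Nat.add (mw Y (nat_lit 640) (Z a1 x d6)) (mw Y (nat_lit 512) (Z a1 x d6))) (mw Y
  (nat_lit 384) (Z a x d8))))))) (mo Y d (nat_lit 0)))) (fold (Nat.add (Nat.add (Nat.add (Nat.add
  (fold (Nat.add (Nat.add (mv Y (nat_lit 16385) (Nat.add (fold (Nat.add (Nat.add (Nat.mul (nat_lit
  2) (mw Y (nat_lit 512) (Z a x d8))) (Nat.mul (nat_lit 6) (Nat.add (mw Y (nat_lit 384) (Z a2 x d5))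
  (mw Y (nat_lit 128) (Z a1 x d6))))) (Nat.mul (nat_lit 8) (Nat.add (mw Y (nat_lit 768) (Z a x d8))
  (mw Y (nat_lit 256) (Z a x d8))))) (mo Y d (nat_lit 14))) (Nat.mul (nat_lit 3) (Nat.add (mw Y
  (nat_lit 384) (Z a1 x d6)) (mw Y (nat_lit 128) (Z a2 x d5)))))) (mv Y (nat_lit 16391) (Nat.mul
  (nat_lit 2) (Nat.add (Nat.add (Nat.add (mw Y (nat_lit 128) (Z a1 x d6)) (Nat.add (mw Y (nat_lit
  512) (Z a x d8)) (mw Y (nat_lit 384) (Z a x d8)))) (Nat.add (mw Y (nat_lit 256) (Z a x d8)) (mw Y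
  (nat_lit 128) (Z a x d8)))) (Z a x d8))))) (mv Y (nat_lit 7) (Nat.add (Nat.add (Nat.add (Nat.add
  (mw Y (nat_lit 512) (Z a1 x d6)) (mw Y (nat_lit 896) (Z a x d8))) (mw Y (nat_lit 384) (Z a1 x
  d6))) (Nat.add (mw Y (nat_lit 1024) (Z a x d8)) (mw Y (nat_lit 512) (Z a x d8)))) (Nat.mul
  (nat_lit 2) (Nat.add (Nat.add (Nat.add (mw Y (nat_lit 256) (Z a4 x d3)) (mw Y (nat_lit 768) (Z a x
  d8))) (mw Y (nat_lit 384) (Z a x d8))) (mw Y (nat_lit 128) (Z a x d8))))))) (mo Y d (nat_lit 0)))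
  (mv Y (nat_lit 16386) (Nat.add (Nat.mul (nat_lit 2) (mw Y (nat_lit 384) (Z a1 x d6))) (mw Y
  (nat_lit 128) (Z a1 x d6))))) (mv Y (nat_lit 16389) (Nat.add (Nat.mul (nat_lit 2) (Nat.add
  (Nat.add (mw Y (nat_lit 640) (Z a x d8)) (mw Y (nat_lit 512) (Z a x d8))) (Nat.add (mw Y (nat_lit
  128) (Z a1 x d6)) (Z a1 x d6)))) (mw Y (nat_lit 384) (Z a x d8))))) (mv Y (nat_lit 32768) (Nat.add
  (Nat.mul (nat_lit 3) (mw Y (nat_lit 384) (Z a x d8))) (Nat.mul (nat_lit 6) (mw Y (nat_lit 128) (Z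
  a x d8)))))) (mv Y (nat_lit 3) (Nat.add (Nat.add (Nat.add (mw Y (nat_lit 384) (Z a4 x d3))
  (Nat.mul (nat_lit 2) (Nat.add (Nat.add (mw Y (nat_lit 128) (Z a4 x d3)) (Z a6 x d1)) (mw Y
  (nat_lit 896) (Z a x d8))))) (mw Y (nat_lit 768) (Z a x d8))) (Nat.add (mw Y (nat_lit 1024) (Z a x
  d8)) (mw Y (nat_lit 512) (Z a x d8)))))) (mo Y d (nat_lit 0)))) (mv Y (nat_lit 32773) (Nat.mul
  (nat_lit 2) (mw Y (nat_lit 256) (Z a x d8))))) (mv Y (nat_lit 32775) (Nat.mul (nat_lit 2) (Z a x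
  d8)))) (mv Y (nat_lit 16390) (Nat.add (mw Y (nat_lit 256) (Z a1 x d6)) (Nat.add (mw Y (nat_lit
  512) (Z a x d8)) (mw Y (nat_lit 384) (Z a x d8)))))) (mv Y (nat_lit 32772) (Nat.add (mw Y (nat_lit
  128) (Z a x d8)) (Z a x d8)))) (mv Y (nat_lit 16392) (Nat.add (Nat.add (mw Y (nat_lit 512) (Z a x
  d8)) (mw Y (nat_lit 256) (Z a x d8))) (Z a1 x d6)))) (mv Y (nat_lit 16387) (Nat.add (mw Y (nat_lit
  640) (Z a x d8)) (Nat.mul (nat_lit 2) (Nat.add (mw Y (nat_lit 384) (Z a x d8)) (Z a4 x d3))))))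
  (mv Y (nat_lit 16396) (Nat.add (Nat.add (mw Y (nat_lit 256) (Z a0 x d7)) (Nat.mul (nat_lit 2)
  (Nat.add (mw Y (nat_lit 384) (Z a x d8)) (mw Y (nat_lit 256) (Z a x d8))))) (Z a x d8)))) (mv Y
  (nat_lit 2) (Nat.mul (nat_lit 2) (Nat.add (mw Y (nat_lit 768) (Z a1 x d6)) (Nat.add (mw Y (nat_lit
  512) (Z a1 x d6)) (mw Y (nat_lit 256) (Z a1 x d6))))))) (mo Y d (nat_lit 0))) (fold (Nat.add
  (Nat.add (Nat.mul (nat_lit 6) (mw Y (nat_lit 896) (Z a x d8))) (mv Y (nat_lit 8) (Nat.add (Nat.add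
  (mw Y (nat_lit 128) (Z a4 x d3)) (Nat.add (mw Y (nat_lit 640) (Z a x d8)) (mw Y (nat_lit 512) (Z a
  x d8)))) (Nat.mul (nat_lit 2) (Nat.add (Nat.add (mw Y (nat_lit 384) (Z a1 x d6)) (Nat.add (mw Y
  (nat_lit 512) (Z a1 x d6)) (mw Y (nat_lit 256) (Z a1 x d6)))) (Nat.add (mw Y (nat_lit 128) (Z a1 x
  d6)) (Z a1 x d6))))))) (mv Y (nat_lit 11) (Nat.add (Nat.add (Nat.add (mw Y (nat_lit 384) (Z a3 x
  d4)) (Z a4 x d3)) (mw Y (nat_lit 640) (Z a x d8))) (Nat.mul (nat_lit 2) (Nat.add (Nat.add (Nat.add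
  (mw Y (nat_lit 384) (Z a1 x d6)) (mw Y (nat_lit 128) (Z a3 x d4))) (Nat.add (mw Y (nat_lit 384) (Z
  a x d8)) (Z a1 x d6))) (mw Y (nat_lit 256) (Z a x d8))))))) (mo Y d (nat_lit 0)))) (fold (Nat.add
  (Nat.add (mv Y (nat_lit 32778) (Nat.add (Nat.mul (nat_lit 2) (Z a x d8)) (Z a0 x d7))) (mv Y
  (nat_lit 12) (Nat.add (Nat.add (Nat.add (Nat.add (Nat.add (mw Y (nat_lit 640) (Z a x d8)) (Z a5 x
  d2)) (mw Y (nat_lit 128) (Z a1 x d6))) (mw Y (nat_lit 384) (Z a0 x d7))) (Nat.mul (nat_lit 2)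
  (Nat.add (Nat.add (mw Y (nat_lit 640) (Z a0 x d7)) (Z a4 x d3)) (Nat.add (mw Y (nat_lit 256) (Z a1
  x d6)) (Nat.add (mw Y (nat_lit 512) (Z a x d8)) (mw Y (nat_lit 384) (Z a x d8))))))) (mw Y
  (nat_lit 128) (Z a x d8))))) (mv Y (nat_lit 9) (Nat.add (Nat.add (Nat.add (mw Y (nat_lit 768) (Z a
  x d8)) (Nat.add (mw Y (nat_lit 512) (Z a1 x d6)) (mw Y (nat_lit 256) (Z a1 x d6)))) (Nat.mul
  (nat_lit 2) (Nat.add (Nat.add (Nat.add (mw Y (nat_lit 896) (Z a x d8)) (Z a4 x d3)) (Nat.add (mw Y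
  (nat_lit 640) (Z a x d8)) (mw Y (nat_lit 512) (Z a x d8)))) (Z a0 x d7)))) (Z a x d8)))) (mo Y d
  (nat_lit 0)))) (fold (Nat.add (Nat.add (fold (Nat.add (mv Y (nat_lit 32769) (Nat.add (Nat.add
  (Nat.add (Nat.mul (nat_lit 6) (Z a2 x d5)) (Nat.mul (nat_lit 3) (Z a1 x d6))) (mw Y (nat_lit 384)
  (Z a x d8))) (Nat.mul (nat_lit 8) (mw Y (nat_lit 128) (Z a x d8))))) (mv Y (nat_lit 10) (Nat.add
  (Nat.add (Nat.add (Nat.add (Nat.add (mw Y (nat_lit 768) (Z a0 x d7)) (Nat.add (mw Y (nat_lit 128)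
  (Z a4 x d3)) (mw Y (nat_lit 384) (Z a1 x d6)))) (mw Y (nat_lit 512) (Z a0 x d7))) (Nat.add (mw Y
  (nat_lit 640) (Z a x d8)) (Nat.add (mw Y (nat_lit 512) (Z a x d8)) (mw Y (nat_lit 384) (Z a x
  d8))))) (mw Y (nat_lit 256) (Z a0 x d7))) (Nat.mul (nat_lit 2) (Nat.add (Nat.add (mw Y (nat_lit
  512) (Z a1 x d6)) (mw Y (nat_lit 896) (Z a x d8))) (mw Y (nat_lit 256) (Z a x d8))))))) (mo Y d
  (nat_lit 0))) (mv Y (nat_lit 5) (Nat.add (Nat.add (Nat.add (mw Y (nat_lit 256) (Z a4 x d3)) (mw Y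
  (nat_lit 1024) (Z a x d8))) (Nat.add (Nat.add (mw Y (nat_lit 512) (Z a1 x d6)) (mw Y (nat_lit 896)
  (Z a x d8))) (mw Y (nat_lit 384) (Z a1 x d6)))) (Nat.mul (nat_lit 2) (Nat.add (Nat.add (Nat.add
  (mw Y (nat_lit 768) (Z a x d8)) (mw Y (nat_lit 256) (Z a1 x d6))) (Nat.add (mw Y (nat_lit 640) (Z
  a x d8)) (mw Y (nat_lit 512) (Z a x d8)))) (mw Y (nat_lit 128) (Z a1 x d6))))))) (Nat.mul (nat_lit
  8) (Nat.add (mw Y (nat_lit 1152) (Z a0 x d7)) (mw Y (nat_lit 384) (Z a x d8))))) (mo Y d (nat_lit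
  0)))) (fold (Nat.add (mv Y (nat_lit 1) (Nat.add (Nat.add (Nat.add (fold (Nat.add (Nat.mul (nat_lit
  8) (mw Y (nat_lit 896) (Z a x d8))) (Nat.mul (nat_lit 6) (Nat.add (Nat.add (Nat.add (mw Y (nat_lit
  768) (Z a2 x d5)) (mw Y (nat_lit 1152) (Z a x d8))) (mw Y (nat_lit 512) (Z a2 x d5))) (mw Y
  (nat_lit 256) (Z a2 x d5))))) (mo Y d (nat_lit 1))) (Z a6 x d1)) (Nat.add (mw Y (nat_lit 640) (Z a
  x d8)) (Z a7 x d0))) (Nat.mul (nat_lit 3) (Nat.add (mw Y (nat_lit 768) (Z a1 x d6)) (Nat.add (mw Y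
  (nat_lit 512) (Z a1 x d6)) (mw Y (nat_lit 256) (Z a1 x d6))))))) (mv Y (nat_lit 16384) (Nat.add
  (Nat.mul (nat_lit 6) (Nat.add (mw Y (nat_lit 768) (Z a x d8)) (Nat.add (mw Y (nat_lit 512) (Z a x
  d8)) (mw Y (nat_lit 256) (Z a x d8))))) (Z a x d8)))) (mo Y d (nat_lit 0)))) (mv Y (nat_lit
  2097152) (Z a x d8))) (mw Y (nat_lit 128) (Z a6 x d1))) (mv Y (nat_lit 32776) (mw Y (nat_lit 128)
  (Z a x d8)))) (mv Y (nat_lit 32771) (mw Y (nat_lit 256) (Z a x d8)))) (mv Y (nat_lit 32774) (mw Y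
  (nat_lit 128) (Z a x d8)))) (mw Y (nat_lit 1152) (Z a x d8))) (mv Y (nat_lit 32777) (Z a x d8)))
  (mo Y d (nat_lit 0)))

/-- compiled program -/
def w4_13r : Prog3 := fun Y Z => Bx.mk fun a x d =>
  ((w4_13mI a).1 ((w4_13mD d).1 ((w4_13e Y Z).1 a x d)))

/-- keys -/
def b14_13mX (c : Nat) :
    Bx ((Nat → Nat → Nat → Nat → Nat → Nat → Nat → Nat → Nat → Nat → Nat → Nat → Nat → Nat → Nat →
    Nat → Nat → Nat → Nat → Nat → Nat → Nat) → Nat) :=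
  bx21 Nat c (nat_lit 2251800082120704) (nat_lit 4503600164241408) (nat_lit 6755400246362112)
  (nat_lit 7318383754215424) (nat_lit 9007200328482816) (nat_lit 9570183836336128) (nat_lit
  11259000410603520) (nat_lit 11821983918456832) (nat_lit 13510800492724224) (nat_lit
  14073784000577536) (nat_lit 14636767508430848) (nat_lit 15762600574844928) (nat_lit
  16325584082698240) (nat_lit 16888567590551552) (nat_lit 18014400656965632) (nat_lit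
  18577384164818944) (nat_lit 19140367672672256) (nat_lit 20829184246939648) (nat_lit
  21392167754792960) (nat_lit 21955151262646272) (nat_lit 22522396183363584)

/-- keys -/
def b14_13mD (c : Nat) :
    Bx ((Nat → Nat → Nat → Nat → Nat → Nat → Nat → Nat → Nat → Nat → Nat → Nat → Nat → Nat → Nat →
    Nat → Nat → Nat → Nat → Nat → Nat → Nat → Nat → Nat → Nat → Nat → Nat → Nat → Nat → Nat → Nat →
    Nat → Nat → Nat → Nat → Nat → Nat → Nat → Nat → (Nat → Nat → Nat → Nat → Nat → Nat → Nat → Nat →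
    Nat → Nat → Nat → Nat → Nat → Nat → Nat → Nat → Nat → Nat → Nat → Nat → Nat → Nat)) → (Nat → Nat
    → Nat → Nat → Nat → Nat → Nat → Nat → Nat → Nat → Nat → Nat → Nat → Nat → Nat → Nat → Nat → Nat
    → Nat → Nat → Nat → Nat)) :=
  bs39 (Nat → Nat → Nat → Nat → Nat → Nat → Nat → Nat → Nat → Nat → Nat → Nat → Nat → Nat → Nat →
  Nat → Nat → Nat → Nat → Nat → Nat → Nat) c (nat_lit 1) (nat_lit 2) (nat_lit 3) (nat_lit 4)
  (nat_lit 5) (nat_lit 6) (nat_lit 7) (nat_lit 8) (nat_lit 9) (nat_lit 10) (nat_lit 11) (nat_lit 12)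
  (nat_lit 13) (nat_lit 14) (nat_lit 15) (nat_lit 16) (nat_lit 17) (nat_lit 18) (nat_lit 19)
  (nat_lit 20) (nat_lit 21) (nat_lit 22) (nat_lit 23) (nat_lit 24) (nat_lit 25) (nat_lit 26)
  (nat_lit 27) (nat_lit 28) (nat_lit 29) (nat_lit 30) (nat_lit 31) (nat_lit 32) (nat_lit 33)
  (nat_lit 34) (nat_lit 35) (nat_lit 36) (nat_lit 37) (nat_lit 38) (nat_lit 39)

/-- compiled program -/
def b14_13e (Y : Lay) (Z : Tc) :
    Bx (Nat → Nat → Nat → (Nat → Nat → Nat → Nat → Nat → Nat → Nat → Nat → Nat → Nat → Nat → Nat →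
    Nat → Nat → Nat → Nat → Nat → Nat → Nat → Nat → Nat → Nat → Nat → Nat → Nat → Nat → Nat → Nat →
    Nat → Nat → Nat → Nat → Nat → Nat → Nat → Nat → Nat → Nat → Nat → (Nat → Nat → Nat → Nat → Nat →
    Nat → Nat → Nat → Nat → Nat → Nat → Nat → Nat → Nat → Nat → Nat → Nat → Nat → Nat → Nat → Nat →
    Nat))) :=
  Bx.mk fun a x d d0 d1 d2 d3 d4 d5 d6 d7 d8 d9 d10 d11 d12 d13 d14 d15 d16 d17 d18 d19 d20 d21 d22
  d23 d24 d25 d26 d27 d28 d29 d30 d31 d32 d33 d34 d35 d36 d37 d38 x0 x1 x2 x3 x4 x5 x6 x7 x8 x9 x10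
  x11 x12 x13 x14 x15 x16 x17 x18 x19 x20 => (fold (Nat.add (Nat.add (Nat.add (fold (Nat.add
  (Nat.add (fold (Nat.add (mw Y (nat_lit 128) (Nat.add (Nat.mul (nat_lit 8) (fold (Nat.add (Nat.add
  (Z a x8 d6) (Z a x2 d9)) (Nat.mul (nat_lit 3) (Nat.add (Nat.add (Z a x14 d4) (Z a x11 d5))
  (Nat.add (Z a x1 d10) (Z a x0 d11))))) (mo Y d (nat_lit 4)))) (Nat.mul (nat_lit 3) (Nat.add (Z a
  x6 d7) (Z a x4 d8))))) (mv Y (nat_lit 11) (Nat.add (Nat.add (Nat.add (Nat.add (Nat.add (Nat.mul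
  (nat_lit 2) (fold (Nat.add (Nat.add (Nat.add (Nat.add (Nat.add (Nat.add (Nat.add (Nat.add (Z a x
  d15) (Z a x d18)) (Z a x1 d13)) (Z a x1 d19)) (Nat.add (Nat.add (Nat.add (Nat.add (Z a x1 d17) (Z
  a x0 d22)) (Z a x1 d24)) (Nat.add (Z a x0 d16) (Z a x1 d25))) (Nat.add (Nat.add (Z a x0 d21) (Z a
  x d26)) (Z a x d19)))) (Nat.add (Z a x d24) (Z a x d27))) (Nat.add (Nat.add (Z a x1 d16) (Z a x1
  d22)) (Z a x0 d27))) (Z a x1 d28)) (Nat.add (Z a x d21) (Z a x d30))) (mo Y d (nat_lit 11))))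
  (Nat.add (Nat.add (Z a x0 d14) (Z a x1 d15)) (Z a x0 d20))) (Nat.add (Nat.add (Nat.add (Z a x0
  d18) (Z a x1 d21)) (Z a x1 d20)) (Nat.add (Z a x d22) (Z a x d23)))) (Z a x0 d26)) (Nat.add
  (Nat.add (Z a x d17) (Z a x1 d26)) (Nat.add (Z a x0 d25) (Z a x d28)))) (Nat.add (Nat.add (Z a x0
  d17) (Z a x0 d23)) (Z a x0 d29))))) (mo Y d (nat_lit 0))) (mv Y (nat_lit 1) (Nat.add (fold
  (Nat.add (Nat.add (fold (mw Y (nat_lit 256) (Nat.add (Nat.mul (nat_lit 8) (fold (Nat.add (Nat.add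
  (Nat.add (Z a x3 d14) (Z a x2 d15)) (Nat.mul (nat_lit 2) (Nat.add (Z a x3 d17) (Z a x2 d18))))
  (Nat.add (Z a x3 d20) (Z a x2 d21))) (mo Y d (nat_lit 9)))) (Nat.mul (nat_lit 3) (Nat.add (Nat.add
  (Nat.add (Z a x3 d12) (Z a x3 d13)) (Nat.add (Z a x3 d21) (Z a x2 d22))) (Nat.add (Nat.add
  (Nat.add (Z a x2 d13) (Z a x2 d14)) (Z a x2 d23)) (Z a x3 d22)))))) (mo Y d (nat_lit 1))) (mw Y
  (nat_lit 384) (Nat.add (fold (Nat.add (Nat.mul (nat_lit 5) (Nat.add (Nat.add (Z a x d24) (Z a x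
  d27)) (Nat.add (Z a x d18) (Z a x d33)))) (Nat.mul (nat_lit 3) (Nat.add (Nat.add (Nat.add (Z a x
  d16) (Z a x d17)) (Z a x d34)) (Z a x d35)))) (mo Y d (nat_lit 13))) (Nat.mul (nat_lit 8) (fold
  (Nat.add (Nat.add (Z a x d15) (Z a x d36)) (Nat.mul (nat_lit 3) (Nat.add (Nat.add (Nat.add
  (Nat.add (Nat.add (Nat.add (Z a x d13) (Z a x d14)) (Nat.add (Z a x d22) (Z a x d23))) (Nat.add
  (Nat.add (Z a x d25) (Z a x d26)) (Z a x d28))) (Z a x d29)) (Z a x d37)) (Z a x d38)))) (mo Y d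
  (nat_lit 13))))))) (mw Y (nat_lit 128) (Nat.add (Nat.add (Nat.add (Nat.add (Nat.add (Nat.mul
  (nat_lit 3) (fold (Nat.add (Nat.add (Nat.add (Nat.add (Nat.add (Z a x14 d5) (Z a x10 d5)) (Nat.add
  (Z a x14 d6) (Z a x10 d6))) (Nat.add (Z a x9 d9) (Z a x9 d10))) (Nat.add (Z a x1 d11) (Z a x1
  d12))) (Nat.add (Nat.add (Nat.add (Z a x4 d9) (Z a x4 d10)) (Nat.add (Z a x10 d11) (Z a x10 d12)))
  (Nat.add (Nat.add (Z a x d13) (Z a x d14)) (Nat.add (Z a x8 d13) (Z a x8 d14))))) (mo Y d (nat_lit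
  5)))) (Nat.mul (nat_lit 6) (fold (Nat.add (Nat.add (Nat.add (Nat.add (Nat.add (Z a x6 d8) (Z a x6
  d9)) (Nat.add (Nat.add (Z a x8 d8) (Z a x8 d10)) (Z a x10 d8))) (Nat.add (Nat.add (Z a x8 d7) (Z a
  x10 d9)) (Nat.add (Z a x2 d10) (Z a x8 d11)))) (Nat.add (Z a x11 d7) (Z a x2 d11))) (Nat.add
  (Nat.add (Nat.add (Z a x11 d6) (Z a x9 d7)) (Z a x9 d6)) (Nat.add (Nat.add (Z a x0 d12) (Z a x9
  d12)) (Nat.add (Z a x0 d13) (Z a x9 d13))))) (mo Y d (nat_lit 5))))) (Z a x10 d7)) (Z a x10 d10))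
  (Nat.mul (nat_lit 2) (Nat.add (Z a x9 d8) (Z a x9 d11)))) (Nat.add (Z a x8 d9) (Z a x8 d12)))))
  (mo Y d (nat_lit 1))) (Nat.mul (nat_lit 8) (Nat.add (Z a x18 d1) (Z a x17 d2)))))) (mv Y (nat_lit
  16384) (Nat.add (Nat.mul (nat_lit 8) (fold (Nat.add (Nat.add (Z a x d21) (Z a x d30)) (Nat.mul
  (nat_lit 3) (Nat.add (Nat.add (Nat.add (Z a x d15) (Z a x d18)) (Z a x d33)) (Z a x d36)))) (mo Y
  d (nat_lit 13)))) (Nat.mul (nat_lit 3) (Nat.add (Z a x d24) (Z a x d27)))))) (mo Y d (nat_lit 0)))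
  (fold (Nat.add (fold (Nat.add (fold (Nat.add (fold (Nat.add (fold (Nat.add (fold (Nat.add (fold
  (Nat.add (fold (Nat.add (Nat.add (Z a x20 d) (Z a x19 d0)) (mv Y (nat_lit 12) (Nat.add (Nat.add
  (Nat.add (Nat.add (Nat.add (Nat.add (Nat.add (Nat.add (Z a x0 d15) (Z a x0 d16)) (Nat.add (Nat.add
  (Z a x d16) (Z a x d17)) (Z a x0 d25))) (Nat.add (Nat.add (Z a x0 d21) (Z a x d26)) (Z a x d22)))
  (Nat.add (Nat.add (Z a x d21) (Z a x0 d26)) (Nat.add (Z a x0 d20) (Z a x d27)))) (Nat.mul (nat_lit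
  2) (Nat.add (Nat.add (Nat.add (Z a x0 d19) (Z a x d24)) (Nat.add (Nat.add (Z a x0 d23) (Z a x0
  d27)) (Z a x d20))) (Z a x d28)))) (Z a x0 d30)) (Z a x0 d31)) (Nat.add (Z a x d31) (Z a x
  d32))))) (mo Y d (nat_lit 0))) (mv Y (nat_lit 8) (Nat.add (Nat.add (Nat.add (Nat.add (Nat.add
  (Nat.add (Nat.mul (nat_lit 2) (fold (Nat.add (Nat.add (Nat.add (Nat.add (Nat.add (Nat.add (Nat.add
  (Nat.add (Nat.add (Z a x2 d13) (Z a x2 d14)) (Nat.add (Nat.add (Z a x6 d11) (Z a x6 d12)) (Nat.add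
  (Z a x6 d14) (Z a x6 d15)))) (Nat.add (Z a x d16) (Z a x d17))) (Nat.add (Z a x2 d16) (Z a x2
  d17))) (Z a x0 d17)) (Nat.add (Nat.add (Z a x5 d13) (Z a x5 d16)) (Nat.add (Nat.add (Z a x3 d14)
  (Z a x2 d15)) (Nat.add (Z a x3 d17) (Z a x2 d18))))) (Nat.add (Nat.add (Z a x1 d17) (Z a x1 d18))
  (Z a x1 d14))) (Nat.add (Z a x d19) (Z a x d20))) (Nat.add (Nat.add (Z a x0 d14) (Z a x1 d15)) (Z
  a x0 d20))) (mo Y d (nat_lit 8)))) (Nat.add (Z a x4 d10) (Z a x5 d10))) (Z a x0 d13)) (Z a x5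
  d19)) (Nat.add (Nat.add (Nat.add (Z a x3 d11) (Z a x2 d12)) (Z a x4 d18)) (Nat.add (Nat.add (Z a
  x4 d14) (Z a x4 d17)) (Nat.add (Z a x4 d20) (Z a x0 d21))))) (Nat.add (Z a x3 d20) (Z a x2 d21)))
  (mw Y (nat_lit 128) (Nat.mul (nat_lit 2) (Nat.add (Nat.add (Nat.add (Z a x d18) (Z a x d24))
  (Nat.add (Nat.add (Z a x0 d17) (Z a x0 d23)) (Z a x0 d29))) (Z a x d30))))))) (mo Y d (nat_lit
  0))) (mv Y (nat_lit 2) (Nat.add (Nat.add (Nat.add (Nat.add (Nat.add (Z a x16 d2) (Z a x13 d3))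
  (Nat.mul (nat_lit 2) (Nat.add (Z a x15 d3) (Z a x12 d4)))) (Nat.add (Z a x14 d4) (Z a x11 d5)))
  (mw Y (nat_lit 128) (Nat.add (Nat.add (Nat.add (Nat.add (Nat.add (Z a x5 d10) (Z a x4 d11))
  (Nat.add (Z a x7 d9) (Z a x7 d12))) (Nat.add (Z a x6 d10) (Z a x6 d13))) (Z a x5 d13)) (Z a x4
  d14)))) (mw Y (nat_lit 256) (Nat.add (Nat.add (Nat.mul (nat_lit 2) (Nat.add (Z a x1 d19) (Z a x0
  d20))) (Nat.add (Z a x1 d16) (Z a x1 d22))) (Nat.add (Z a x0 d17) (Z a x0 d23))))))) (mo Y d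
  (nat_lit 0))) (mv Y (nat_lit 9) (Nat.add (Nat.add (Nat.add (Nat.add (Nat.add (Nat.add (Nat.add
  (fold (Nat.add (Nat.add (Nat.add (Nat.mul (nat_lit 2) (fold (Nat.add (Nat.add (Nat.add (Nat.add
  (Nat.add (Nat.add (Nat.add (Nat.add (Nat.add (Nat.add (Z a x3 d10) (Z a x3 d12)) (Z a x3 d14)) (Z
  a x2 d16)) (Nat.add (Nat.add (Z a x1 d16) (Z a x0 d17)) (Z a x2 d11))) (Z a x2 d18)) (Nat.add (Z a
  x1 d19) (Z a x0 d20))) (Nat.add (Z a x3 d20) (Z a x2 d21))) (Nat.add (Nat.add (Nat.add (Z a x2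
  d13) (Z a x2 d14)) (Z a x2 d23)) (Z a x3 d22))) (Z a x3 d24)) (Z a x2 d25)) (mo Y d (nat_lit 9))))
  (Nat.add (Nat.add (Nat.add (Nat.add (Z a x4 d15) (Z a x4 d16)) (Z a x4 d13)) (Z a x4 d11))
  (Nat.add (Nat.add (Nat.add (Z a x d15) (Z a x d18)) (Z a x1 d13)) (Z a x2 d15)))) (Nat.add
  (Nat.add (Z a x d19) (Z a x d20)) (Nat.add (Z a x d17) (Z a x d22)))) (mw Y (nat_lit 128) (Nat.add
  (Nat.add (Nat.add (Nat.add (Nat.add (Z a x d17) (Z a x d19)) (Z a x d32)) (Nat.add (Z a x d18) (Z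
  a x d33))) (Z a x d34)) (Nat.mul (nat_lit 2) (Nat.add (Nat.add (Nat.add (Nat.add (Z a x d25) (Z a
  x d26)) (Z a x d28)) (Z a x d23)) (Nat.add (Z a x d15) (Z a x d36))))))) (mo Y d (nat_lit 9))) (Z
  a x3 d15)) (Z a x0 d16)) (Z a x2 d17)) (Nat.add (Z a x3 d13) (Z a x0 d18))) (Z a x2 d19)) (Nat.add
  (Nat.add (Nat.add (Z a x3 d11) (Z a x2 d12)) (Z a x4 d18)) (Nat.add (Nat.add (Z a x4 d14) (Z a x4
  d17)) (Nat.add (Z a x4 d20) (Z a x0 d21))))) (Nat.add (Nat.add (Nat.add (Nat.add (Nat.add (Nat.add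
  (Nat.add (Z a x2 d20) (Z a x d21)) (Z a x3 d19)) (Nat.add (Z a x3 d21) (Z a x2 d22))) (Z a x1
  d22)) (Z a x3 d23)) (Nat.add (Z a x0 d19) (Z a x d24))) (Z a x2 d24))))) (mo Y d (nat_lit 0))) (mv
  Y (nat_lit 3) (Nat.add (Nat.add (Nat.add (Nat.add (fold (Nat.add (Nat.add (Nat.add (Nat.add (fold
  (Nat.add (Nat.add (Nat.add (Nat.add (Z a x11 d6) (Z a x9 d7)) (Z a x9 d6)) (Z a x15 d4)) (Nat.mul
  (nat_lit 2) (Nat.add (Nat.add (Nat.add (Nat.add (Nat.add (Nat.add (Nat.add (Nat.add (Nat.add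
  (Nat.add (Z a x16 d3) (Z a x12 d4)) (Z a x16 d4)) (Z a x11 d5)) (Z a x12 d5)) (Nat.add (Nat.add (Z
  a x14 d5) (Z a x10 d5)) (Nat.add (Z a x14 d6) (Z a x10 d6)))) (Z a x7 d6)) (Z a x12 d6)) (Z a x6
  d7)) (Z a x8 d7)) (Z a x8 d8)))) (mo Y d (nat_lit 3))) (Z a x13 d4)) (Z a x9 d5)) (Z a x15 d5))
  (mw Y (nat_lit 256) (Nat.add (Nat.add (Nat.add (Nat.add (Nat.add (Nat.add (Z a x0 d18) (Z a x1
  d21)) (Z a x1 d20)) (Nat.add (Z a x d22) (Z a x d23))) (Z a x0 d19)) (Nat.add (Z a x0 d24) (Z a x0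
  d25))) (Nat.mul (nat_lit 2) (Nat.add (Nat.add (Nat.add (Nat.add (Z a x1 d18) (Z a x0 d21))
  (Nat.add (Nat.add (Z a x d19) (Z a x d20)) (Z a x1 d23))) (Nat.add (Nat.add (Z a x1 d17) (Z a x0
  d22)) (Z a x1 d24))) (Nat.add (Z a x d25) (Z a x d26))))))) (mo Y d (nat_lit 3))) (Z a x13 d5)) (Z
  a x8 d6)) (Z a x11 d7)) (mw Y (nat_lit 128) (Nat.add (Nat.add (Nat.add (Nat.add (Nat.add (Nat.add
  (Nat.add (fold (Nat.mul (nat_lit 2) (Nat.add (Nat.add (Nat.add (Nat.add (Z a x3 d12) (Z a x3 d13))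
  (Nat.add (Z a x2 d13) (Z a x2 d14))) (Nat.add (Nat.add (Nat.add (Z a x7 d10) (Z a x7 d11))
  (Nat.add (Z a x7 d13) (Z a x7 d14))) (Nat.add (Nat.add (Z a x6 d11) (Z a x6 d12)) (Nat.add (Z a x6
  d14) (Z a x6 d15))))) (Nat.add (Nat.add (Z a x3 d15) (Z a x3 d16)) (Nat.add (Z a x2 d16) (Z a x2
  d17))))) (mo Y d (nat_lit 7))) (Nat.add (Z a x8 d9) (Z a x8 d12))) (Z a x2 d12)) (Z a x4 d12)) (Z
  a x4 d14)) (Nat.add (Nat.add (Nat.add (Z a x5 d14) (Z a x5 d15)) (Z a x5 d12)) (Z a x5 d11))) (Z a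
  x1 d16)) (Nat.add (Nat.add (Nat.add (Nat.add (Z a x4 d15) (Z a x4 d16)) (Z a x4 d13)) (Z a x4
  d11)) (Nat.add (Nat.add (Nat.add (Z a x d15) (Z a x d18)) (Z a x1 d13)) (Z a x2 d15)))))))) (mo Y
  d (nat_lit 0))) (mv Y (nat_lit 10) (Nat.add (Nat.add (Nat.add (Nat.add (Nat.add (Nat.add (Nat.add
  (Nat.add (Nat.add (Nat.add (Nat.add (Nat.mul (nat_lit 2) (fold (Nat.add (Nat.add (Nat.add (Nat.add
  (Nat.add (Nat.add (Nat.add (Nat.add (Nat.add (Nat.add (Nat.add (Nat.add (Z a x0 d14) (Z a x1 d15))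
  (Z a x1 d13)) (Nat.add (Z a x2 d16) (Z a x2 d17))) (Z a x2 d19)) (Z a x2 d20)) (Nat.add (Z a x0
  d18) (Z a x1 d21))) (Nat.add (Z a x1 d17) (Z a x0 d22))) (Nat.add (Z a x d22) (Z a x d23)))
  (Nat.add (Nat.add (Z a x d19) (Z a x d20)) (Z a x1 d23))) (Z a x0 d24)) (Nat.add (Z a x0 d16) (Z a
  x1 d25))) (Z a x0 d26)) (mo Y d (nat_lit 10)))) (Z a x1 d12)) (Z a x0 d13)) (Z a x0 d15)) (Z a x2
  d22)) (Nat.add (Z a x0 d17) (Z a x0 d23))) (Nat.add (Nat.add (Z a x2 d13) (Z a x2 d14)) (Z a x2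
  d23))) (Nat.add (Z a x1 d14) (Z a x1 d24))) (Nat.add (Nat.add (Z a x d16) (Z a x d17)) (Z a x0
  d25))) (Nat.add (Z a x d25) (Z a x d26))) (Z a x1 d26)) (Nat.add (Nat.add (Z a x1 d16) (Z a x1
  d22)) (Z a x0 d27))))) (mo Y d (nat_lit 0))) (mv Y (nat_lit 5) (Nat.add (Nat.add (Nat.add (Nat.add
  (Nat.add (Nat.add (Nat.add (Nat.add (Nat.add (fold (Nat.add (Nat.add (Nat.add (Nat.add (Nat.add
  (Nat.add (Z a x4 d9) (Z a x4 d10)) (Nat.add (Z a x10 d11) (Z a x10 d12))) (Nat.add (Nat.add (Z a x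
  d13) (Z a x d14)) (Nat.add (Z a x8 d13) (Z a x8 d14)))) (Z a x11 d7)) (mw Y (nat_lit 128) (Nat.add
  (Nat.add (Nat.add (Nat.add (Nat.add (Nat.add (fold (Nat.add (Nat.mul (nat_lit 2) (Nat.add (Nat.add
  (Nat.add (Nat.add (Nat.add (Z a x4 d14) (Z a x4 d17)) (Nat.add (Z a x1 d16) (Z a x d18))) (Nat.add
  (Nat.add (Nat.add (Z a x3 d15) (Z a x3 d16)) (Nat.add (Z a x2 d16) (Z a x2 d17))) (Nat.add (Z a x3
  d18) (Z a x2 d19)))) (Z a x1 d19)) (Nat.add (Nat.add (Z a x2 d20) (Z a x d21)) (Z a x3 d19))))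
  (Nat.add (Nat.add (Z a x d19) (Z a x d20)) (Nat.add (Z a x d17) (Z a x d22)))) (mo Y d (nat_lit
  9))) (Z a x1 d15)) (Nat.add (Nat.add (Z a x4 d15) (Z a x4 d16)) (Z a x4 d13))) (Nat.add (Z a x1
  d17) (Z a x1 d18))) (Z a x4 d18)) (Z a x1 d20)) (Nat.add (Nat.add (Nat.add (Z a x3 d12) (Z a x3
  d13)) (Nat.add (Z a x3 d21) (Z a x2 d22))) (Nat.add (Nat.add (Nat.add (Z a x2 d13) (Z a x2 d14))
  (Z a x2 d23)) (Z a x3 d22)))))) (mw Y (nat_lit 256) (Nat.add (Nat.add (Nat.add (Z a x d19) (Z a x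
  d20)) (Nat.add (Z a x d25) (Z a x d26))) (Nat.add (Z a x d31) (Z a x d32))))) (mo Y d (nat_lit
  5))) (Nat.mul (nat_lit 2) (fold (Nat.add (Nat.add (Nat.add (Nat.add (Nat.add (Nat.add (Nat.add
  (Nat.add (Z a x7 d8) (Z a x12 d8)) (Nat.add (Z a x12 d6) (Z a x11 d9))) (Nat.add (Z a x9 d9) (Z a
  x9 d10))) (Z a x7 d10)) (Z a x6 d11)) (Nat.add (Z a x3 d10) (Z a x3 d12))) (Nat.add (Nat.add
  (Nat.add (Z a x11 d6) (Z a x9 d7)) (Z a x9 d6)) (Nat.add (Nat.add (Z a x0 d12) (Z a x9 d12))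
  (Nat.add (Z a x0 d13) (Z a x9 d13))))) (Z a x2 d13)) (mo Y d (nat_lit 5))))) (Nat.add (Nat.add (Z
  a x14 d5) (Z a x10 d5)) (Nat.add (Z a x14 d6) (Z a x10 d6)))) (Z a x6 d8)) (Z a x11 d8)) (Z a x7
  d9)) (Nat.add (Nat.add (Nat.add (Z a x8 d8) (Z a x8 d10)) (Z a x10 d8)) (Z a x12 d7))) (Z a x6
  d10)) (Nat.add (Nat.add (Z a x8 d7) (Z a x10 d9)) (Nat.add (Z a x2 d10) (Z a x8 d11)))) (Nat.add
  (Z a x3 d11) (Z a x2 d12))))) (mo Y d (nat_lit 0))) (mv Y (nat_lit 7) (Nat.add (Nat.add (Nat.add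
  (Nat.add (Nat.add (Nat.add (Nat.add (Nat.add (Nat.add (Nat.add (Nat.add (fold (Nat.add (Nat.add
  (Nat.add (Nat.add (Nat.add (Nat.add (Nat.add (Nat.add (Z a x7 d10) (Z a x7 d11)) (Nat.add (Z a x7
  d13) (Z a x7 d14))) (Nat.add (Nat.add (Z a x6 d11) (Z a x6 d12)) (Nat.add (Z a x6 d14) (Z a x6
  d15)))) (Z a x4 d9)) (Nat.add (Nat.add (Z a x0 d14) (Z a x1 d15)) (Z a x1 d13))) (Nat.add (Nat.add
  (Z a x1 d16) (Z a x0 d17)) (Z a x2 d11))) (Nat.add (Nat.add (Z a x3 d14) (Z a x2 d15)) (Nat.add (Z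
  a x3 d17) (Z a x2 d18)))) (mw Y (nat_lit 128) (Nat.add (Nat.add (Nat.add (Nat.add (Nat.add
  (Nat.add (Nat.add (fold (Nat.add (Nat.mul (nat_lit 2) (Nat.add (Nat.add (Nat.add (Nat.add (Z a x1
  d16) (Z a x d18)) (Nat.add (Nat.add (Nat.add (Nat.add (Z a x1 d17) (Z a x0 d22)) (Z a x1 d24))
  (Nat.add (Z a x0 d16) (Z a x1 d25))) (Nat.add (Nat.add (Z a x0 d21) (Z a x d26)) (Z a x d19))))
  (Nat.add (Z a x0 d20) (Z a x d27))) (Nat.add (Z a x0 d23) (Z a x0 d27)))) (Nat.add (Nat.add (Z a x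
  d17) (Z a x1 d26)) (Nat.add (Z a x0 d25) (Z a x d28)))) (mo Y d (nat_lit 11))) (Z a x1 d15)) (Z a
  x0 d17)) (Z a x1 d19)) (Z a x1 d22)) (Nat.add (Nat.add (Nat.add (Z a x0 d18) (Z a x1 d21)) (Z a x1
  d20)) (Nat.add (Z a x d22) (Z a x d23)))) (Z a x d24)) (Nat.add (Z a x d21) (Z a x0 d26))))) (mo Y
  d (nat_lit 7))) (Nat.mul (nat_lit 2) (fold (Nat.add (Nat.add (Nat.add (Nat.add (Nat.add (Nat.add
  (Nat.add (Nat.add (Nat.add (Nat.add (Nat.add (Z a x4 d10) (Z a x5 d10)) (Z a x6 d9)) (Z a x2 d10))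
  (Z a x3 d10)) (Nat.add (Z a x6 d10) (Z a x6 d13))) (Nat.add (Nat.add (Nat.add (Nat.add (Z a x5
  d14) (Z a x5 d15)) (Z a x5 d12)) (Z a x5 d11)) (Z a x7 d8))) (Nat.add (Z a x5 d13) (Z a x5 d16)))
  (Z a x7 d16)) (Z a x4 d17)) (Z a x6 d17)) (Nat.add (Z a x3 d18) (Z a x2 d19))) (mo Y d (nat_lit
  7))))) (Z a x5 d9)) (Nat.add (Z a x1 d11) (Z a x1 d12))) (Nat.add (Z a x7 d9) (Z a x7 d12)))
  (Nat.add (Z a x3 d12) (Z a x3 d13))) (Z a x7 d15)) (Nat.add (Z a x3 d15) (Z a x3 d16))) (Z a x6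
  d16)) (Z a x5 d17)) (Nat.add (Nat.add (Z a x3 d11) (Z a x2 d12)) (Z a x4 d18))) (Nat.add (Nat.add
  (Z a x1 d17) (Z a x1 d18)) (Z a x1 d14))))) (mo Y d (nat_lit 0)))) (mv Y (nat_lit 6) (Nat.add
  (Nat.add (Nat.add (Nat.add (Nat.add (Nat.add (fold (Nat.add (Nat.add (Nat.add (Nat.add (Z a x7
  d10) (Z a x7 d11)) (Nat.add (Z a x7 d13) (Z a x7 d14))) (Nat.add (Nat.add (Z a x6 d11) (Z a x6
  d12)) (Nat.add (Z a x6 d14) (Z a x6 d15)))) (mw Y (nat_lit 128) (Nat.add (Nat.add (Nat.add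
  (Nat.add (Nat.add (Z a x1 d18) (Z a x0 d21)) (Z a x0 d19)) (Nat.add (Nat.add (Z a x0 d18) (Z a x1
  d21)) (Z a x1 d20))) (Nat.add (Z a x1 d17) (Z a x0 d22))) (Nat.mul (nat_lit 2) (Nat.add (Nat.add
  (Nat.add (Nat.add (Nat.add (Z a x0 d15) (Z a x0 d16)) (Z a x1 d15)) (Z a x1 d23)) (Nat.add (Z a x1
  d14) (Z a x1 d24))) (Nat.add (Z a x0 d24) (Z a x0 d25))))))) (mo Y d (nat_lit 6))) (fold (Nat.add
  (Nat.add (Nat.add (Nat.add (Nat.add (Nat.add (Z a x5 d14) (Z a x5 d15)) (Z a x5 d12)) (Z a x5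
  d11)) (Z a x7 d8)) (Z a x7 d7)) (Nat.mul (nat_lit 2) (Nat.add (Nat.add (Nat.add (Nat.add (Nat.add
  (Nat.add (Nat.add (Nat.add (Nat.add (Z a x11 d7) (Z a x2 d11)) (Z a x11 d9)) (Nat.add (Z a x9 d8)
  (Z a x9 d11))) (Z a x3 d11)) (Nat.add (Z a x8 d9) (Z a x8 d12))) (Z a x2 d13)) (Z a x d14))
  (Nat.add (Z a x3 d14) (Z a x2 d15))) (Z a x d16)))) (mo Y d (nat_lit 6)))) (Nat.add (Z a x6 d8) (Z
  a x6 d9))) (Nat.add (Nat.add (Z a x11 d8) (Z a x5 d9)) (Z a x5 d8))) (Z a x4 d9)) (Z a x d15))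
  (Nat.add (Nat.add (Nat.add (Z a x4 d15) (Z a x4 d16)) (Z a x4 d13)) (Z a x4 d11))))) (mv Y
  (nat_lit 4) (Nat.add (Nat.add (Nat.add (Nat.add (Nat.add (Nat.add (fold (Nat.add (Nat.add (Nat.mul
  (nat_lit 2) (fold (Nat.add (Nat.add (Nat.add (Nat.add (Nat.add (Nat.add (Nat.add (Nat.add (Nat.add
  (Nat.add (Z a x12 d5) (Z a x13 d6)) (Nat.add (Z a x11 d6) (Z a x9 d7))) (Z a x10 d7)) (Nat.add (Z
  a x6 d7) (Z a x4 d8))) (Z a x12 d8)) (Nat.add (Nat.add (Z a x11 d8) (Z a x5 d9)) (Z a x5 d8))) (Z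
  a x8 d9)) (Z a x9 d9)) (Nat.add (Z a x4 d9) (Z a x4 d10))) (Nat.add (Nat.add (Z a x14 d4) (Z a x11
  d5)) (Nat.add (Z a x1 d10) (Z a x0 d11)))) (mo Y d (nat_lit 4)))) (Nat.add (Nat.add (Nat.add (Z a
  x8 d8) (Z a x8 d10)) (Z a x10 d8)) (Z a x12 d7))) (mw Y (nat_lit 256) (Nat.add (Nat.add (Nat.add
  (Nat.add (Nat.add (Z a x0 d21) (Z a x d26)) (Z a x d22)) (Nat.add (Nat.add (Z a x0 d19) (Z a x
  d24)) (Nat.add (Nat.add (Z a x0 d23) (Z a x0 d27)) (Z a x d20)))) (Nat.mul (nat_lit 2) (Nat.add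
  (Nat.add (Nat.add (Nat.add (Z a x0 d22) (Z a x d23)) (Z a x0 d24)) (Z a x d25)) (Nat.add (Nat.add
  (Z a x d21) (Z a x0 d26)) (Nat.add (Z a x0 d20) (Z a x d27)))))) (Nat.add (Z a x0 d25) (Z a x
  d28))))) (mo Y d (nat_lit 4))) (Z a x13 d5)) (Z a x10 d6)) (Z a x13 d7)) (Z a x9 d8)) (Nat.add (Z
  a x12 d6) (Z a x11 d9))) (mw Y (nat_lit 128) (Nat.add (Nat.add (Nat.add (Nat.add (Nat.add (Nat.add
  (fold (Nat.add (Nat.add (Nat.add (Nat.add (Nat.add (Z a x5 d14) (Z a x5 d15)) (Z a x5 d12)) (Z a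
  x4 d12)) (Nat.mul (nat_lit 2) (Nat.add (Nat.add (Nat.add (Nat.add (Z a x4 d15) (Z a x4 d16)) (Z a
  x4 d13)) (Nat.add (Z a x4 d14) (Z a x4 d17))) (Nat.add (Nat.add (Z a x5 d13) (Z a x5 d16))
  (Nat.add (Nat.add (Z a x3 d14) (Z a x2 d15)) (Nat.add (Z a x3 d17) (Z a x2 d18))))))) (Nat.add
  (Nat.add (Nat.add (Z a x3 d15) (Z a x3 d16)) (Nat.add (Z a x2 d16) (Z a x2 d17))) (Nat.add (Z a x3
  d18) (Z a x2 d19)))) (mo Y d (nat_lit 8))) (Z a x2 d14)) (Nat.add (Z a x0 d15) (Z a x0 d16))) (Z a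
  x5 d17)) (Nat.add (Z a x3 d13) (Z a x0 d18))) (Z a x4 d18)) (Z a x0 d19)))))) (mo Y d (nat_lit
  0)))

/-- compiled program -/
def b14_13r : Prog3 := fun Y Z => Bx.mk fun a x d =>
  ((b14_13mX x).1 ((b14_13mD d).1 ((b14_13e Y Z).1 a x d)))

/-- compiled program -/
def w1_13_1e (Y : Lay) (Z : Tc) :
    Bx (Nat → Nat → Nat → (Nat → Nat)) :=
  Bx.mk fun a x d d0 => (qst (Nat.add (mv Y (nat_lit 1) (Z a x d0)) (Nat.mul (nat_lit 3) (Z a x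
  d0))) (mo Y d (nat_lit 0)) (oo Y d (nat_lit 0)))

/-- compiled program -/
def w1_13_1r : Prog3 := fun Y Z => Bx.mk fun a x d =>
  ((g3cmD d).1 ((w1_13_1e Y Z).1 a x d))

/-- keys -/
def w1_13m2D (c : Nat) :
    Bx ((Nat → Nat) → Nat) :=
  bs1 Nat c (nat_lit 2)

/-- compiled program -/
def w1_13_2e (Y : Lay) (Z : Tc) :
    Bx (Nat → Nat → Nat → (Nat → Nat)) :=
  Bx.mk fun a x d d0 => (qst (mv Y (nat_lit 1) (Nat.add (mv Y (nat_lit 1) (Z a x d0)) (Nat.mul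
  (nat_lit 6) (Z a x d0)))) (mo Y d (nat_lit 0)) (oo Y d (nat_lit 0)))

/-- compiled program -/
def w1_13_2r : Prog3 := fun Y Z => Bx.mk fun a x d =>
  ((w1_13m2D d).1 ((w1_13_2e Y Z).1 a x d))

/-- keys -/
def w1_13m3D (c : Nat) :
    Bx ((Nat → Nat) → Nat) :=
  bs1 Nat c (nat_lit 3)

/-- compiled program -/
def w1_13_3e (Y : Lay) (Z : Tc) :
    Bx (Nat → Nat → Nat → (Nat → Nat)) :=
  Bx.mk fun a x d d0 => (mv Y (nat_lit 3) (Z a x d0))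

/-- compiled program -/
def w1_13_3r : Prog3 := fun Y Z => Bx.mk fun a x d =>
  ((w1_13m3D d).1 ((w1_13_3e Y Z).1 a x d))

/-- keys -/
def w1_13m4D (c : Nat) :
    Bx ((Nat → Nat) → Nat) :=
  bs1 Nat c (nat_lit 4)

/-- compiled program -/
def w1_13_4e (Y : Lay) (Z : Tc) :
    Bx (Nat → Nat → Nat → (Nat → Nat)) :=
  Bx.mk fun a x d d0 => (mv Y (nat_lit 4) (Z a x d0))

/-- compiled program -/
def w1_13_4r : Prog3 := fun Y Z => Bx.mk fun a x d =>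
  ((w1_13m4D d).1 ((w1_13_4e Y Z).1 a x d))

/-- keys -/
def w1_13m5D (c : Nat) :
    Bx ((Nat → Nat) → Nat) :=
  bs1 Nat c (nat_lit 5)

/-- compiled program -/
def w1_13_5e (Y : Lay) (Z : Tc) :
    Bx (Nat → Nat → Nat → (Nat → Nat)) :=
  Bx.mk fun a x d d0 => (mv Y (nat_lit 5) (Z a x d0))

/-- compiled program -/
def w1_13_5r : Prog3 := fun Y Z => Bx.mk fun a x d =>
  ((w1_13m5D d).1 ((w1_13_5e Y Z).1 a x d))

/-- keys -/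
def w1_13m6D (c : Nat) :
    Bx ((Nat → Nat) → Nat) :=
  bs1 Nat c (nat_lit 6)

/-- compiled program -/
def w1_13_6e (Y : Lay) (Z : Tc) :
    Bx (Nat → Nat → Nat → (Nat → Nat)) :=
  Bx.mk fun a x d d0 => (mv Y (nat_lit 6) (Z a x d0))

/-- compiled program -/
def w1_13_6r : Prog3 := fun Y Z => Bx.mk fun a x d =>
  ((w1_13m6D d).1 ((w1_13_6e Y Z).1 a x d))

/-- keys -/
def w1_13m7D (c : Nat) :
    Bx ((Nat → Nat) → Nat) :=
  bs1 Nat c (nat_lit 7)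

/-- compiled program -/
def w1_13_7e (Y : Lay) (Z : Tc) :
    Bx (Nat → Nat → Nat → (Nat → Nat)) :=
  Bx.mk fun a x d d0 => (mv Y (nat_lit 7) (Z a x d0))

/-- compiled program -/
def w1_13_7r : Prog3 := fun Y Z => Bx.mk fun a x d =>
  ((w1_13m7D d).1 ((w1_13_7e Y Z).1 a x d))

/-- keys -/
def w1_13m8D (c : Nat) :
    Bx ((Nat → Nat) → Nat) :=
  bs1 Nat c (nat_lit 8)

/-- compiled program -/
def w1_13_8e (Y : Lay) (Z : Tc) :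
    Bx (Nat → Nat → Nat → (Nat → Nat)) :=
  Bx.mk fun a x d d0 => (mv Y (nat_lit 8) (Z a x d0))

/-- compiled program -/
def w1_13_8r : Prog3 := fun Y Z => Bx.mk fun a x d =>
  ((w1_13m8D d).1 ((w1_13_8e Y Z).1 a x d))

/-- keys -/
def w1_13m9D (c : Nat) :
    Bx ((Nat → Nat) → Nat) :=
  bs1 Nat c (nat_lit 9)

/-- compiled program -/
def w1_13_9e (Y : Lay) (Z : Tc) :
    Bx (Nat → Nat → Nat → (Nat → Nat)) :=
  Bx.mk fun a x d d0 => (mv Y (nat_lit 9) (Z a x d0))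

/-- compiled program -/
def w1_13_9r : Prog3 := fun Y Z => Bx.mk fun a x d =>
  ((w1_13m9D d).1 ((w1_13_9e Y Z).1 a x d))

/-- keys -/
def w1_13m10D (c : Nat) :
    Bx ((Nat → Nat) → Nat) :=
  bs1 Nat c (nat_lit 10)

/-- compiled program -/
def w1_13_10e (Y : Lay) (Z : Tc) :
    Bx (Nat → Nat → Nat → (Nat → Nat)) :=
  Bx.mk fun a x d d0 => (mv Y (nat_lit 10) (Z a x d0))

/-- compiled program -/
def w1_13_10r : Prog3 := fun Y Z => Bx.mk fun a x d =>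
  ((w1_13m10D d).1 ((w1_13_10e Y Z).1 a x d))

/-- keys -/
def w1_13m11D (c : Nat) :
    Bx ((Nat → Nat) → Nat) :=
  bs1 Nat c (nat_lit 11)

/-- compiled program -/
def w1_13_11e (Y : Lay) (Z : Tc) :
    Bx (Nat → Nat → Nat → (Nat → Nat)) :=
  Bx.mk fun a x d d0 => (mv Y (nat_lit 11) (Z a x d0))

/-- compiled program -/
def w1_13_11r : Prog3 := fun Y Z => Bx.mk fun a x d =>
  ((w1_13m11D d).1 ((w1_13_11e Y Z).1 a x d))

/-- keys -/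
def w1_13m12D (c : Nat) :
    Bx ((Nat → Nat) → Nat) :=
  bs1 Nat c (nat_lit 12)

/-- compiled program -/
def w1_13_12e (Y : Lay) (Z : Tc) :
    Bx (Nat → Nat → Nat → (Nat → Nat)) :=
  Bx.mk fun a x d d0 => (mv Y (nat_lit 12) (Z a x d0))

/-- compiled program -/
def w1_13_12r : Prog3 := fun Y Z => Bx.mk fun a x d =>
  ((w1_13m12D d).1 ((w1_13_12e Y Z).1 a x d))

/-- compiled programs -/
def w1_13r : List Prog3 :=
  [zero3, w1_13_1r, w1_13_2r, w1_13_3r, w1_13_4r, w1_13_5r, w1_13_6r, w1_13_7r, w1_13_8r, w1_13_9r,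
  w1_13_10r, w1_13_11r, w1_13_12r]

end Vale.Agent.P236X
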