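import Vale.Agent.P236X.T5

/-!
# P236 / X : compiled programs with three keys (T4)
-/

set_option linter.unusedVariables false

noncomputable section

namespace Vale.Agent.P236X

/-- compiled program -/
def w4_4e (Y : Lay) (Z : Tc) :
    Bx (Nat → Nat → Nat → (Nat → Nat → Nat → Nat → Nat → Nat → Nat → (Nat → Nat → Nat → Nat → Nat →
    Nat → Nat → Nat))) :=
  Bx.mk fun a x d d0 d1 d2 d3 d4 d5 d6 a0 a1 a2 a3 a4 a5 a6 => (fold (Nat.add (Nat.add (Nat.add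
  (Nat.add (Nat.add (Nat.add (Nat.add (Nat.add (Nat.add (fold (Nat.add (Nat.add (Nat.add (mv Y
  (nat_lit 49152) (Nat.mul (nat_lit 8) (Z a x d6))) (mv Y (nat_lit 32768) (Nat.add (Nat.mul (nat_lit
  3) (mw Y (nat_lit 384) (Z a x d6))) (Nat.mul (nat_lit 6) (mw Y (nat_lit 128) (Z a x d6))))))
  (Nat.mul (nat_lit 6) (mw Y (nat_lit 896) (Z a x d6)))) (Nat.mul (nat_lit 3) (Nat.add (Nat.add (mw
  Y (nat_lit 640) (Z a x d6)) (Z a5 x d0)) (Z a6 x d)))) (mo Y d (nat_lit 0))) (fold (Nat.add (mv Y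
  (nat_lit 1) (Nat.add (Nat.add (fold (Nat.add (Nat.add (Nat.add (Nat.add (mw Y (nat_lit 768)
  (Nat.mul (nat_lit 3) (Nat.add (Nat.mul (nat_lit 2) (Z a2 x d3)) (Z a1 x d4)))) (Z a4 x d1)) (mw Y
  (nat_lit 512) (Nat.mul (nat_lit 3) (Nat.add (Nat.mul (nat_lit 2) (Z a2 x d3)) (Z a1 x d4)))))
  (Nat.add (mw Y (nat_lit 640) (Z a x d6)) (Z a5 x d0))) (mw Y (nat_lit 256) (Nat.mul (nat_lit 3)
  (Nat.add (Nat.mul (nat_lit 2) (Z a2 x d3)) (Z a1 x d4))))) (mo Y d (nat_lit 1))) (Nat.mul (nat_lit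
  6) (mw Y (nat_lit 1152) (Z a x d6)))) (Nat.mul (nat_lit 8) (mw Y (nat_lit 896) (Z a x d6))))) (mv
  Y (nat_lit 16385) (Nat.add (fold (Nat.add (Nat.add (mw Y (nat_lit 384) (Nat.mul (nat_lit 3)
  (Nat.add (Nat.mul (nat_lit 2) (Z a2 x d3)) (Z a1 x d4)))) (Nat.mul (nat_lit 2) (mw Y (nat_lit 512)
  (Z a x d6)))) (mw Y (nat_lit 128) (Nat.mul (nat_lit 6) (Nat.add (Nat.mul (nat_lit 2) (Z a2 x d3))
  (Z a1 x d4))))) (mo Y d (nat_lit 14))) (Nat.mul (nat_lit 8) (Nat.add (mw Y (nat_lit 768) (Z a x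
  d6)) (mw Y (nat_lit 256) (Z a x d6))))))) (mo Y d (nat_lit 0)))) (fold (Nat.add (Nat.add (mw Y
  (nat_lit 1152) (Nat.add (Nat.mul (nat_lit 8) (Z a0 x d5)) (Z a x d6))) (mv Y (nat_lit 32769)
  (Nat.add (Nat.add (Nat.mul (nat_lit 3) (Nat.add (Nat.mul (nat_lit 2) (Z a2 x d3)) (Z a1 x d4)))
  (mw Y (nat_lit 384) (Z a x d6))) (Nat.mul (nat_lit 8) (mw Y (nat_lit 128) (Z a x d6)))))) (mv Y
  (nat_lit 16387) (Nat.add (mw Y (nat_lit 640) (Z a x d6)) (Nat.mul (nat_lit 2) (Nat.add (mw Y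
  (nat_lit 384) (Z a x d6)) (Z a3 x d2)))))) (mo Y d (nat_lit 0)))) (fold (Nat.add (Nat.add (mv Y
  (nat_lit 16386) (Nat.add (Nat.mul (nat_lit 2) (mw Y (nat_lit 384) (Z a1 x d4))) (mw Y (nat_lit
  128) (Z a1 x d4)))) (mv Y (nat_lit 3) (Nat.add (Nat.add (Nat.add (Nat.add (mw Y (nat_lit 384) (Z
  a3 x d2)) (mw Y (nat_lit 1024) (Z a x d6))) (Nat.mul (nat_lit 2) (Nat.add (Nat.add (mw Y (nat_lit
  128) (Z a3 x d2)) (Z a4 x d1)) (mw Y (nat_lit 896) (Z a x d6))))) (mw Y (nat_lit 768) (Z a x d6)))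
  (mw Y (nat_lit 512) (Z a x d6))))) (mv Y (nat_lit 16384) (Nat.add (Nat.mul (nat_lit 6) (Nat.add
  (mw Y (nat_lit 512) (Z a x d6)) (Nat.add (mw Y (nat_lit 768) (Z a x d6)) (mw Y (nat_lit 256) (Z a
  x d6))))) (Z a x d6)))) (mo Y d (nat_lit 0)))) (mv Y (nat_lit 32770) (Nat.mul (nat_lit 2) (Z a1 x
  d4)))) (mv Y (nat_lit 2097152) (Z a x d6))) (mw Y (nat_lit 128) (Z a4 x d1))) (mv Y (nat_lit
  32771) (mw Y (nat_lit 256) (Z a x d6)))) (mv Y (nat_lit 2) (Nat.mul (nat_lit 2) (Nat.add (Nat.add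
  (mw Y (nat_lit 768) (Z a1 x d4)) (mw Y (nat_lit 512) (Z a1 x d4))) (mw Y (nat_lit 256) (Z a1 x
  d4)))))) (Nat.mul (nat_lit 8) (mw Y (nat_lit 384) (Z a x d6)))) (mo Y d (nat_lit 0)))

/-- compiled program -/
def w4_4r : Prog3 := fun Y Z => Bx.mk fun a x d =>
  ((w4_10mI a).1 ((w4_10mD d).1 ((w4_4e Y Z).1 a x d)))

/-- compiled program -/
def b14_4e (Y : Lay) (Z : Tc) :
    Bx (Nat → Nat → Nat → (Nat → Nat → Nat → Nat → Nat → Nat → Nat → Nat → Nat → Nat → Nat → Nat →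
    Nat → Nat → Nat → Nat → Nat → Nat → Nat → Nat → Nat → Nat → Nat → Nat → Nat → Nat → Nat → Nat →
    Nat → Nat → Nat → Nat → Nat → Nat → Nat → Nat → Nat → (Nat → Nat → Nat → Nat → Nat → Nat → Nat →
    Nat → Nat → Nat → Nat → Nat → Nat → Nat → Nat → Nat → Nat → Nat → Nat → Nat → Nat → Nat))) :=
  Bx.mk fun a x d d0 d1 d2 d3 d4 d5 d6 d7 d8 d9 d10 d11 d12 d13 d14 d15 d16 d17 d18 d19 d20 d21 d22
  d23 d24 d25 d26 d27 d28 d29 d30 d31 d32 d33 d34 d35 d36 x0 x1 x2 x3 x4 x5 x6 x7 x8 x9 x10 x11 x12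
  x13 x14 x15 x16 x17 x18 x19 x20 => (fold (Nat.add (fold (Nat.add (Nat.add (fold (Nat.add (fold
  (Nat.add (Nat.add (Z a x20 d) (Z a x19 d0)) (mv Y (nat_lit 2) (Nat.add (Nat.add (Nat.add (Nat.add
  (Nat.add (Z a x16 d2) (Z a x13 d3)) (Nat.mul (nat_lit 2) (Nat.add (Z a x15 d3) (Z a x12 d4))))
  (Nat.add (Z a x14 d4) (Z a x11 d5))) (mw Y (nat_lit 128) (Nat.add (Nat.add (Nat.add (Nat.add
  (Nat.add (Nat.add (Z a x7 d9) (Z a x6 d10)) (Z a x5 d10)) (Z a x7 d12)) (Z a x6 d13)) (Z a x5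
  d13)) (Nat.add (Z a x4 d11) (Z a x4 d14))))) (mw Y (nat_lit 256) (Nat.add (Nat.add (Nat.add
  (Nat.add (Z a x1 d16) (Z a x0 d17)) (Nat.mul (nat_lit 2) (Nat.add (Z a x1 d19) (Z a x0 d20)))) (Z
  a x1 d22)) (Z a x0 d23)))))) (mo Y d (nat_lit 0))) (mv Y (nat_lit 3) (Nat.add (Nat.add (Nat.add
  (Nat.add (fold (Nat.add (Nat.add (Nat.add (Nat.add (fold (Nat.add (Nat.add (Nat.add (Z a x11 d6)
  (Z a x9 d6)) (Nat.add (Z a x11 d7) (Z a x9 d7))) (Nat.mul (nat_lit 2) (Nat.add (Nat.add (Nat.add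
  (Nat.add (Nat.add (Nat.add (Nat.add (Nat.add (Nat.add (Z a x16 d3) (Z a x12 d4)) (Z a x16 d4)) (Z
  a x11 d5)) (Z a x12 d5)) (Nat.add (Nat.add (Z a x14 d5) (Z a x10 d5)) (Nat.add (Z a x14 d6) (Z a
  x10 d6)))) (Z a x7 d6)) (Z a x12 d6)) (Z a x6 d7)) (Nat.add (Z a x8 d7) (Z a x8 d8))))) (mo Y d
  (nat_lit 3))) (Z a x15 d4)) (Z a x13 d4)) (Z a x9 d5)) (mw Y (nat_lit 256) (Nat.add (Nat.add
  (Nat.add (Nat.add (Nat.add (Nat.add (Nat.add (Z a x0 d18) (Z a x0 d19)) (Z a x1 d20)) (Z a x1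
  d21)) (Nat.add (Z a x d22) (Z a x d23))) (Z a x0 d24)) (Z a x0 d25)) (Nat.mul (nat_lit 2) (Nat.add
  (Nat.add (Nat.add (Nat.add (Nat.add (Nat.add (Nat.add (Nat.add (Z a x1 d17) (Z a x1 d18)) (Z a x
  d19)) (Z a x d20)) (Z a x0 d21)) (Z a x0 d22)) (Z a x1 d23)) (Z a x1 d24)) (Nat.add (Z a x d25) (Z
  a x d26))))))) (mo Y d (nat_lit 3))) (Z a x15 d5)) (Z a x13 d5)) (Z a x8 d6)) (mw Y (nat_lit 128)
  (Nat.add (Nat.add (Nat.add (Nat.add (Nat.add (Nat.add (Nat.add (Nat.add (Nat.add (fold (Nat.mul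
  (nat_lit 2) (Nat.add (Nat.add (Nat.add (Nat.add (Nat.add (Nat.add (Nat.add (Z a x7 d10) (Z a x6
  d11)) (Z a x7 d11)) (Z a x6 d12)) (Z a x7 d13)) (Nat.add (Nat.add (Z a x3 d12) (Z a x3 d13))
  (Nat.add (Z a x2 d13) (Z a x2 d14)))) (Z a x6 d14)) (Nat.add (Nat.add (Nat.add (Nat.add (Nat.add
  (Z a x7 d14) (Z a x6 d15)) (Z a x3 d15)) (Z a x2 d16)) (Z a x3 d16)) (Z a x2 d17)))) (mo Y d
  (nat_lit 7))) (Z a x5 d11)) (Nat.add (Z a x8 d9) (Z a x8 d12))) (Z a x2 d12)) (Z a x4 d12)) (Z a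
  x5 d12)) (Z a x1 d13)) (Z a x4 d13)) (Nat.add (Z a x4 d11) (Z a x4 d14))) (Nat.add (Nat.add
  (Nat.add (Nat.add (Nat.add (Nat.add (Nat.add (Z a x5 d14) (Z a x d15)) (Z a x2 d15)) (Z a x4 d15))
  (Z a x5 d15)) (Z a x1 d16)) (Z a x4 d16)) (Z a x d18))))))) (mo Y d (nat_lit 0))) (mv Y (nat_lit
  1) (Nat.add (fold (Nat.add (Nat.add (fold (mw Y (nat_lit 256) (Nat.add (Nat.mul (nat_lit 8) (fold
  (Nat.add (Nat.add (Nat.add (Nat.add (Z a x3 d14) (Z a x2 d15)) (Nat.mul (nat_lit 2) (Nat.add (Z a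
  x3 d17) (Z a x2 d18)))) (Z a x3 d20)) (Z a x2 d21)) (mo Y d (nat_lit 9)))) (Nat.mul (nat_lit 3)
  (Nat.add (Nat.add (Nat.add (Nat.add (Nat.add (Nat.add (Z a x3 d12) (Z a x3 d13)) (Nat.add (Z a x2
  d13) (Z a x2 d14))) (Z a x3 d21)) (Z a x2 d22)) (Z a x3 d22)) (Z a x2 d23))))) (mo Y d (nat_lit
  1))) (mw Y (nat_lit 384) (Nat.add (fold (Nat.add (Nat.mul (nat_lit 5) (Nat.add (Nat.add (Z a x
  d24) (Z a x d27)) (Nat.add (Z a x d18) (Z a x d31)))) (Nat.mul (nat_lit 3) (Nat.add (Nat.add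
  (Nat.add (Z a x d16) (Z a x d17)) (Z a x d32)) (Z a x d33)))) (mo Y d (nat_lit 13))) (Nat.mul
  (nat_lit 8) (fold (Nat.add (Nat.add (Z a x d15) (Z a x d34)) (Nat.mul (nat_lit 3) (Nat.add
  (Nat.add (Nat.add (Nat.add (Nat.add (Nat.add (Nat.add (Z a x d13) (Z a x d14)) (Nat.add (Z a x
  d22) (Z a x d23))) (Nat.add (Z a x d25) (Z a x d26))) (Z a x d28)) (Z a x d29)) (Z a x d35)) (Z a
  x d36)))) (mo Y d (nat_lit 13))))))) (mw Y (nat_lit 128) (Nat.add (Nat.add (Nat.add (Nat.add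
  (Nat.add (Nat.mul (nat_lit 3) (fold (Nat.add (Nat.add (Nat.add (Nat.add (Nat.add (Nat.add (Nat.add
  (Nat.add (Nat.add (Nat.add (Nat.add (Nat.add (Nat.add (Z a x14 d5) (Z a x10 d5)) (Nat.add (Z a x14
  d6) (Z a x10 d6))) (Z a x4 d9)) (Z a x9 d9)) (Z a x4 d10)) (Z a x9 d10)) (Z a x1 d11)) (Z a x10
  d11)) (Z a x1 d12)) (Z a x10 d12)) (Z a x8 d13)) (Nat.add (Z a x d13) (Z a x d14))) (Z a x8 d14))
  (mo Y d (nat_lit 5)))) (Nat.mul (nat_lit 6) (fold (Nat.add (Nat.add (Nat.add (Nat.add (Nat.add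
  (Nat.add (Nat.add (Nat.add (Nat.add (Z a x11 d6) (Z a x9 d6)) (Nat.add (Z a x11 d7) (Z a x9 d7)))
  (Nat.add (Z a x8 d7) (Z a x8 d8))) (Z a x6 d8)) (Z a x10 d8)) (Z a x6 d9)) (Z a x10 d9)) (Z a x2
  d10)) (Nat.add (Nat.add (Nat.add (Nat.add (Nat.add (Nat.add (Z a x8 d10) (Z a x2 d11)) (Z a x8
  d11)) (Z a x0 d12)) (Z a x9 d12)) (Z a x0 d13)) (Z a x9 d13))) (mo Y d (nat_lit 5))))) (Z a x10
  d7)) (Z a x10 d10)) (Nat.mul (nat_lit 2) (Nat.add (Z a x9 d8) (Z a x9 d11)))) (Nat.add (Z a x8 d9)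
  (Z a x8 d12))))) (mo Y d (nat_lit 1))) (Nat.mul (nat_lit 8) (Nat.add (Z a x18 d1) (Z a x17
  d2)))))) (mw Y (nat_lit 128) (Nat.add (Nat.mul (nat_lit 8) (fold (Nat.add (Nat.add (Z a x8 d6) (Z
  a x2 d9)) (Nat.mul (nat_lit 3) (Nat.add (Nat.add (Nat.add (Z a x14 d4) (Z a x11 d5)) (Z a x1 d10))
  (Z a x0 d11)))) (mo Y d (nat_lit 4)))) (Nat.mul (nat_lit 3) (Nat.add (Z a x6 d7) (Z a x4 d8))))))
  (mo Y d (nat_lit 0))) (mv Y (nat_lit 16384) (Nat.add (Nat.mul (nat_lit 8) (fold (Nat.add (Nat.add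
  (Z a x d21) (Z a x d30)) (Nat.mul (nat_lit 3) (Nat.add (Nat.add (Z a x d18) (Z a x d31)) (Nat.add
  (Z a x d15) (Z a x d34))))) (mo Y d (nat_lit 13)))) (Nat.mul (nat_lit 3) (Nat.add (Z a x d24) (Z a
  x d27)))))) (mo Y d (nat_lit 0)))

/-- compiled program -/
def b14_4r : Prog3 := fun Y Z => Bx.mk fun a x d =>
  ((b14_13mX x).1 ((b14_5mD d).1 ((b14_4e Y Z).1 a x d)))

/-- compiled program -/
def w1_4_1e (Y : Lay) (Z : Tc) :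
    Bx (Nat → Nat → Nat → (Nat → Nat)) :=
  Bx.mk fun a x d d0 => (qst (Nat.add (mv Y (nat_lit 1) (Z a x d0)) (Nat.mul (nat_lit 3) (Z a x
  d0))) (mo Y d (nat_lit 0)) (oo Y d (nat_lit 0)))

/-- compiled program -/
def w1_4_1r : Prog3 := fun Y Z => Bx.mk fun a x d =>
  ((g3cmD d).1 ((w1_4_1e Y Z).1 a x d))

/-- compiled program -/
def w1_4_2e (Y : Lay) (Z : Tc) :
    Bx (Nat → Nat → Nat → (Nat → Nat)) :=
  Bx.mk fun a x d d0 => (qst (mv Y (nat_lit 1) (Nat.add (mv Y (nat_lit 1) (Z a x d0)) (Nat.mul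
  (nat_lit 6) (Z a x d0)))) (mo Y d (nat_lit 0)) (oo Y d (nat_lit 0)))

/-- compiled program -/
def w1_4_2r : Prog3 := fun Y Z => Bx.mk fun a x d =>
  ((w1_13m2D d).1 ((w1_4_2e Y Z).1 a x d))

/-- compiled program -/
def w1_4_3e (Y : Lay) (Z : Tc) :
    Bx (Nat → Nat → Nat → (Nat → Nat)) :=
  Bx.mk fun a x d d0 => (mv Y (nat_lit 3) (Z a x d0))

/-- compiled program -/
def w1_4_3r : Prog3 := fun Y Z => Bx.mk fun a x d =>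
  ((w1_13m3D d).1 ((w1_4_3e Y Z).1 a x d))

/-- compiled programs -/
def w1_4r : List Prog3 :=
  [zero3, w1_4_1r, w1_4_2r, w1_4_3r]

end Vale.Agent.P236X
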