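import Vale.Agent.P236X.Bsn

/-!
# P236 / X : compiled programs with three keys (TA)
-/

set_option linter.unusedVariables false

noncomputable section

namespace Vale.Agent.P236X

/-- keys -/
def b11m4D (c : Nat) :
    Bx ((Nat → Nat → Nat → Nat → Nat) → Nat) :=
  bs4 Nat c (nat_lit 1) (nat_lit 2) (nat_lit 3) (nat_lit 4)

/-- compiled program -/
def b11_1e (Y : Lay) (Z : Tc) :
    Bx (Nat → Nat → Nat → (Nat → Nat → Nat → Nat → Nat)) :=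
  Bx.mk fun a x d d0 d1 d2 d3 => (fold (Nat.add (Z a x d) (Z a x d0)) (mo Y d (nat_lit 0)))

/-- compiled program -/
def b11_1r : Prog3 := fun Y Z => Bx.mk fun a x d =>
  ((b11m4D d).1 ((b11_1e Y Z).1 a x d))

/-- compiled program -/
def b11_2e (Y : Lay) (Z : Tc) :
    Bx (Nat → Nat → Nat → (Nat → Nat → Nat → Nat → Nat)) :=
  Bx.mk fun a x d d0 d1 d2 d3 => (fold (Nat.add (Nat.add (Nat.mul (nat_lit 2) (Z a x d0)) (Z a x d))
  (Z a x d1)) (mo Y d (nat_lit 0)))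

/-- compiled program -/
def b11_2r : Prog3 := fun Y Z => Bx.mk fun a x d =>
  ((b11m4D d).1 ((b11_2e Y Z).1 a x d))

/-- compiled program -/
def b11_3e (Y : Lay) (Z : Tc) :
    Bx (Nat → Nat → Nat → (Nat → Nat → Nat → Nat → Nat)) :=
  Bx.mk fun a x d d0 d1 d2 d3 => (fold (Nat.add (Nat.add (Nat.mul (nat_lit 3) (Nat.add (Z a x d0) (Z
  a x d1))) (Z a x d)) (Z a x d2)) (mo Y d (nat_lit 0)))

/-- compiled program -/
def b11_3r : Prog3 := fun Y Z => Bx.mk fun a x d =>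
  ((b11m4D d).1 ((b11_3e Y Z).1 a x d))

/-- compiled program -/
def b11_4e (Y : Lay) (Z : Tc) :
    Bx (Nat → Nat → Nat → (Nat → Nat → Nat → Nat → Nat)) :=
  Bx.mk fun a x d d0 d1 d2 d3 => (fold (Nat.add (Nat.add (Nat.add (Nat.mul (nat_lit 6) (Z a x d1))
  (Z a x d)) (Nat.mul (nat_lit 4) (Nat.add (Z a x d0) (Z a x d2)))) (Z a x d3)) (mo Y d (nat_lit
  0)))

/-- compiled program -/
def b11_4r : Prog3 := fun Y Z => Bx.mk fun a x d =>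
  ((b11m4D d).1 ((b11_4e Y Z).1 a x d))

/-- keys -/
def b11m8D (c : Nat) :
    Bx ((Nat → Nat → Nat → Nat → Nat → Nat → Nat → Nat → Nat) → Nat) :=
  bs8 Nat c (nat_lit 1) (nat_lit 2) (nat_lit 3) (nat_lit 4) (nat_lit 5) (nat_lit 6) (nat_lit 7)
  (nat_lit 8)

/-- compiled program -/
def b11_5e (Y : Lay) (Z : Tc) :
    Bx (Nat → Nat → Nat → (Nat → Nat → Nat → Nat → Nat → Nat → Nat → Nat → Nat)) :=
  Bx.mk fun a x d d0 d1 d2 d3 d4 d5 d6 d7 => (fold (Nat.add (Nat.add (Nat.add (Nat.add (Z a x d) (Z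
  a x d1)) (Z a x d2)) (Nat.mul (nat_lit 5) (Nat.add (Z a x d0) (Z a x d3)))) (Z a x d4)) (mo Y d
  (nat_lit 0)))

/-- compiled program -/
def b11_5r : Prog3 := fun Y Z => Bx.mk fun a x d =>
  ((b11m8D d).1 ((b11_5e Y Z).1 a x d))

/-- compiled program -/
def b11_6e (Y : Lay) (Z : Tc) :
    Bx (Nat → Nat → Nat → (Nat → Nat → Nat → Nat → Nat → Nat → Nat → Nat → Nat)) :=
  Bx.mk fun a x d d0 d1 d2 d3 d4 d5 d6 d7 => (fold (Nat.add (Nat.add (Nat.add (Nat.mul (nat_lit 2)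
  (Z a x d2)) (Z a x d)) (Nat.mul (nat_lit 6) (Nat.add (Nat.add (Nat.add (Z a x d0) (Z a x d1)) (Z a
  x d3)) (Z a x d4)))) (Z a x d5)) (mo Y d (nat_lit 0)))

/-- compiled program -/
def b11_6r : Prog3 := fun Y Z => Bx.mk fun a x d =>
  ((b11m8D d).1 ((b11_6e Y Z).1 a x d))

/-- compiled program -/
def b11_7e (Y : Lay) (Z : Tc) :
    Bx (Nat → Nat → Nat → (Nat → Nat → Nat → Nat → Nat → Nat → Nat → Nat → Nat)) :=
  Bx.mk fun a x d d0 d1 d2 d3 d4 d5 d6 d7 => (fold (Nat.add (fold (Nat.add (Nat.add (Nat.add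
  (Nat.mul (nat_lit 8) (Nat.add (Z a x d2) (Z a x d3))) (Z a x d)) (Nat.mul (nat_lit 7) (Nat.add (Z
  a x d0) (Z a x d5)))) (Z a x d6)) (mo Y d (nat_lit 0))) (Nat.mul (nat_lit 3) (Nat.add (Z a x d1)
  (Z a x d4)))) (mo Y d (nat_lit 0)))

/-- compiled program -/
def b11_7r : Prog3 := fun Y Z => Bx.mk fun a x d =>
  ((b11m8D d).1 ((b11_7e Y Z).1 a x d))

/-- compiled program -/
def b11_8e (Y : Lay) (Z : Tc) :
    Bx (Nat → Nat → Nat → (Nat → Nat → Nat → Nat → Nat → Nat → Nat → Nat → Nat)) :=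
  Bx.mk fun a x d d0 d1 d2 d3 d4 d5 d6 d7 => (fold (Nat.add (Nat.add (Nat.add (Nat.add (Nat.add
  (Nat.add (Z a x d) (Z a x d1)) (Nat.mul (nat_lit 7) (Z a x d3))) (Nat.mul (nat_lit 2) (Nat.add (Z
  a x d2) (Z a x d4)))) (Z a x d5)) (Nat.mul (nat_lit 8) (Nat.add (Z a x d0) (Z a x d6)))) (Z a x
  d7)) (mo Y d (nat_lit 0)))

/-- compiled program -/
def b11_8r : Prog3 := fun Y Z => Bx.mk fun a x d =>
  ((b11m8D d).1 ((b11_8e Y Z).1 a x d))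

/-- keys -/
def b11m16D (c : Nat) :
    Bx ((Nat → Nat → Nat → Nat → Nat → Nat → Nat → Nat → Nat → Nat → Nat → Nat → Nat → Nat → Nat →
    Nat → Nat) → Nat) :=
  bs16 Nat c (nat_lit 1) (nat_lit 2) (nat_lit 3) (nat_lit 4) (nat_lit 5) (nat_lit 6) (nat_lit 7)
  (nat_lit 8) (nat_lit 9) (nat_lit 10) (nat_lit 11) (nat_lit 12) (nat_lit 13) (nat_lit 14) (nat_lit
  15) (nat_lit 16)

/-- compiled program -/
def b11_9e (Y : Lay) (Z : Tc) :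
    Bx (Nat → Nat → Nat → (Nat → Nat → Nat → Nat → Nat → Nat → Nat → Nat → Nat → Nat → Nat → Nat →
    Nat → Nat → Nat → Nat → Nat)) :=
  Bx.mk fun a x d d0 d1 d2 d3 d4 d5 d6 d7 d8 d9 d10 d11 d12 d13 d14 d15 => (fold (Nat.add (Nat.add
  (Nat.mul (nat_lit 3) (Nat.add (Z a x d2) (Z a x d5))) (Z a x d)) (Z a x d8)) (mo Y d (nat_lit 0)))

/-- compiled program -/
def b11_9r : Prog3 := fun Y Z => Bx.mk fun a x d =>
  ((b11m16D d).1 ((b11_9e Y Z).1 a x d))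

/-- compiled program -/
def b11_10e (Y : Lay) (Z : Tc) :
    Bx (Nat → Nat → Nat → (Nat → Nat → Nat → Nat → Nat → Nat → Nat → Nat → Nat → Nat → Nat → Nat →
    Nat → Nat → Nat → Nat → Nat)) :=
  Bx.mk fun a x d d0 d1 d2 d3 d4 d5 d6 d7 d8 d9 d10 d11 d12 d13 d14 d15 => (fold (Nat.add (Nat.add
  (Nat.add (Nat.add (Z a x d) (Z a x d0)) (Nat.mul (nat_lit 3) (Nat.add (Nat.add (Nat.add (Z a x d2)
  (Z a x d3)) (Z a x d5)) (Z a x d6)))) (Z a x d8)) (Z a x d9)) (mo Y d (nat_lit 0)))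

/-- compiled program -/
def b11_10r : Prog3 := fun Y Z => Bx.mk fun a x d =>
  ((b11m16D d).1 ((b11_10e Y Z).1 a x d))

/-- compiled program -/
def b11_11e (Y : Lay) (Z : Tc) :
    Bx (Nat → Nat → Nat → (Nat → Nat → Nat → Nat → Nat → Nat → Nat → Nat → Nat → Nat → Nat → Nat →
    Nat → Nat → Nat → Nat → Nat)) :=
  Bx.mk fun a x d d0 d1 d2 d3 d4 d5 d6 d7 d8 d9 d10 d11 d12 d13 d14 d15 => (fold (Nat.add (Nat.add
  (Nat.add (Nat.add (Nat.add (Nat.add (Z a x d) (Z a x d1)) (Nat.mul (nat_lit 6) (Nat.add (Z a x d3)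
  (Z a x d6)))) (Nat.mul (nat_lit 3) (Nat.add (Nat.add (Nat.add (Z a x d2) (Z a x d4)) (Z a x d5))
  (Z a x d7)))) (Z a x d8)) (Nat.mul (nat_lit 2) (Nat.add (Z a x d0) (Z a x d9)))) (Z a x d10)) (mo
  Y d (nat_lit 0)))

/-- compiled program -/
def b11_11r : Prog3 := fun Y Z => Bx.mk fun a x d =>
  ((b11m16D d).1 ((b11_11e Y Z).1 a x d))

/-- compiled program -/
def b11_12e (Y : Lay) (Z : Tc) :
    Bx (Nat → Nat → Nat → (Nat → Nat → Nat → Nat → Nat → Nat → Nat → Nat → Nat → Nat → Nat → Nat →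
    Nat → Nat → Nat → Nat → Nat)) :=
  Bx.mk fun a x d d0 d1 d2 d3 d4 d5 d6 d7 d8 d9 d10 d11 d12 d13 d14 d15 => (fold (Nat.add (Nat.add
  (Nat.add (Nat.add (Nat.mul (nat_lit 6) (Z a x d5)) (Z a x d)) (Nat.mul (nat_lit 4) (Nat.add (Z a x
  d2) (Z a x d8)))) (Nat.mul (nat_lit 3) (Nat.add (Nat.add (Nat.add (Z a x d0) (Z a x d1)) (Z a x
  d9)) (Z a x d10)))) (Z a x d11)) (mo Y d (nat_lit 0)))

/-- compiled program -/
def b11_12r : Prog3 := fun Y Z => Bx.mk fun a x d =>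
  ((b11m16D d).1 ((b11_12e Y Z).1 a x d))

/-- compiled program -/
def b11_13e (Y : Lay) (Z : Tc) :
    Bx (Nat → Nat → Nat → (Nat → Nat → Nat → Nat → Nat → Nat → Nat → Nat → Nat → Nat → Nat → Nat →
    Nat → Nat → Nat → Nat → Nat)) :=
  Bx.mk fun a x d d0 d1 d2 d3 d4 d5 d6 d7 d8 d9 d10 d11 d12 d13 d14 d15 => (fold (Nat.add (Nat.add
  (fold (Nat.add (Nat.add (Nat.mul (nat_lit 6) (Nat.add (Nat.add (Nat.add (Z a x d1) (Z a x d5)) (Z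
  a x d6)) (Z a x d10))) (Z a x d)) (Z a x d12)) (mo Y d (nat_lit 0))) (Nat.mul (nat_lit 7) (Nat.add
  (Z a x d2) (Z a x d9)))) (Nat.mul (nat_lit 4) (Nat.add (Nat.add (Nat.add (Z a x d0) (Z a x d3)) (Z
  a x d8)) (Z a x d11)))) (mo Y d (nat_lit 0)))

/-- compiled program -/
def b11_13r : Prog3 := fun Y Z => Bx.mk fun a x d =>
  ((b11m16D d).1 ((b11_13e Y Z).1 a x d))

/-- compiled program -/
def b11_14e (Y : Lay) (Z : Tc) :
    Bx (Nat → Nat → Nat → (Nat → Nat → Nat → Nat → Nat → Nat → Nat → Nat → Nat → Nat → Nat → Nat →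
    Nat → Nat → Nat → Nat → Nat)) :=
  Bx.mk fun a x d d0 d1 d2 d3 d4 d5 d6 d7 d8 d9 d10 d11 d12 d13 d14 d15 => (fold (Nat.add (Nat.add
  (Nat.add (Nat.add (Nat.add (Nat.add (fold (Nat.add (Nat.add (Nat.mul (nat_lit 6) (Nat.add (Z a x
  d5) (Z a x d7))) (Nat.mul (nat_lit 2) (Nat.add (Z a x d3) (Z a x d9)))) (Nat.mul (nat_lit 4)
  (Nat.add (Nat.add (Nat.add (Z a x d2) (Z a x d4)) (Z a x d8)) (Z a x d10)))) (mo Y d (nat_lit 0)))
  (Z a x d)) (Z a x d1)) (Nat.mul (nat_lit 3) (Z a x d6))) (Z a x d11)) (Nat.mul (nat_lit 5)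
  (Nat.add (Z a x d0) (Z a x d12)))) (Z a x d13)) (mo Y d (nat_lit 0)))

/-- compiled program -/
def b11_14r : Prog3 := fun Y Z => Bx.mk fun a x d =>
  ((b11m16D d).1 ((b11_14e Y Z).1 a x d))

/-- compiled program -/
def b11_15e (Y : Lay) (Z : Tc) :
    Bx (Nat → Nat → Nat → (Nat → Nat → Nat → Nat → Nat → Nat → Nat → Nat → Nat → Nat → Nat → Nat →
    Nat → Nat → Nat → Nat → Nat)) :=
  Bx.mk fun a x d d0 d1 d2 d3 d4 d5 d6 d7 d8 d9 d10 d11 d12 d13 d14 d15 => (fold (Nat.add (Nat.add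
  (Nat.add (Nat.add (Nat.mul (nat_lit 8) (fold (Nat.add (Nat.mul (nat_lit 4) (Nat.add (Z a x d2) (Z
  a x d11))) (Nat.mul (nat_lit 3) (Nat.add (Nat.add (Nat.add (Nat.add (Nat.add (Nat.add (Nat.add (Z
  a x d0) (Z a x d1)) (Z a x d3)) (Z a x d4)) (Z a x d9)) (Z a x d10)) (Z a x d12)) (Z a x d13))))
  (mo Y d (nat_lit 0)))) (Z a x d)) (Z a x d5)) (Z a x d8)) (Z a x d14)) (mo Y d (nat_lit 0)))

/-- compiled program -/
def b11_15r : Prog3 := fun Y Z => Bx.mk fun a x d =>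
  ((b11m16D d).1 ((b11_15e Y Z).1 a x d))

/-- compiled program -/
def b11_16e (Y : Lay) (Z : Tc) :
    Bx (Nat → Nat → Nat → (Nat → Nat → Nat → Nat → Nat → Nat → Nat → Nat → Nat → Nat → Nat → Nat →
    Nat → Nat → Nat → Nat → Nat)) :=
  Bx.mk fun a x d d0 d1 d2 d3 d4 d5 d6 d7 d8 d9 d10 d11 d12 d13 d14 d15 => (fold (Nat.add (Nat.add
  (fold (Nat.add (Nat.add (Nat.add (Nat.add (Z a x d) (Z a x d6)) (Z a x d8)) (Nat.mul (nat_lit 7)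
  (Nat.add (Nat.add (Nat.add (Z a x d0) (Z a x d5)) (Z a x d9)) (Z a x d14)))) (Z a x d15)) (mo Y d
  (nat_lit 0))) (Nat.mul (nat_lit 2) (Nat.add (Nat.add (Nat.add (Z a x d2) (Z a x d3)) (Z a x d11))
  (Z a x d12)))) (Nat.mul (nat_lit 3) (Nat.add (Nat.add (Nat.add (Z a x d1) (Z a x d4)) (Z a x d10))
  (Z a x d13)))) (mo Y d (nat_lit 0)))

/-- compiled program -/
def b11_16r : Prog3 := fun Y Z => Bx.mk fun a x d =>
  ((b11m16D d).1 ((b11_16e Y Z).1 a x d))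

/-- keys -/
def b11m24D (c : Nat) :
    Bx ((Nat → Nat → Nat → Nat → Nat → Nat → Nat → Nat → Nat → Nat → Nat → Nat → Nat → Nat → Nat →
    Nat → Nat → Nat → Nat → Nat → Nat → Nat → Nat → Nat → Nat) → Nat) :=
  bs24 Nat c (nat_lit 1) (nat_lit 2) (nat_lit 3) (nat_lit 4) (nat_lit 5) (nat_lit 6) (nat_lit 7)
  (nat_lit 8) (nat_lit 9) (nat_lit 10) (nat_lit 11) (nat_lit 12) (nat_lit 13) (nat_lit 14) (nat_lit
  15) (nat_lit 16) (nat_lit 17) (nat_lit 18) (nat_lit 19) (nat_lit 20) (nat_lit 21) (nat_lit 22)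
  (nat_lit 23) (nat_lit 24)

/-- compiled program -/
def b11_17e (Y : Lay) (Z : Tc) :
    Bx (Nat → Nat → Nat → (Nat → Nat → Nat → Nat → Nat → Nat → Nat → Nat → Nat → Nat → Nat → Nat →
    Nat → Nat → Nat → Nat → Nat → Nat → Nat → Nat → Nat → Nat → Nat → Nat → Nat)) :=
  Bx.mk fun a x d d0 d1 d2 d3 d4 d5 d6 d7 d8 d9 d10 d11 d12 d13 d14 d15 d16 d17 d18 d19 d20 d21 d22
  d23 => (fold (Nat.add (Nat.add (Nat.add (Nat.add (Nat.add (Nat.add (Nat.add (Nat.add (Nat.add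
  (Nat.mul (nat_lit 8) (fold (Nat.add (Nat.add (Nat.add (Nat.add (Z a x d0) (Z a x d6)) (Z a x d9))
  (Nat.mul (nat_lit 4) (Nat.add (Nat.add (Nat.add (Z a x d2) (Z a x d4)) (Z a x d11)) (Z a x d13))))
  (Z a x d15)) (mo Y d (nat_lit 0)))) (Z a x d)) (Z a x d1)) (Z a x d5)) (Z a x d7)) (Z a x d8)) (Z
  a x d10)) (Nat.mul (nat_lit 4) (Nat.add (Z a x d3) (Z a x d12)))) (Z a x d14)) (Z a x d16)) (mo Y
  d (nat_lit 0)))

/-- compiled program -/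
def b11_17r : Prog3 := fun Y Z => Bx.mk fun a x d =>
  ((b11m24D d).1 ((b11_17e Y Z).1 a x d))

/-- compiled program -/
def b11_18e (Y : Lay) (Z : Tc) :
    Bx (Nat → Nat → Nat → (Nat → Nat → Nat → Nat → Nat → Nat → Nat → Nat → Nat → Nat → Nat → Nat →
    Nat → Nat → Nat → Nat → Nat → Nat → Nat → Nat → Nat → Nat → Nat → Nat → Nat)) :=
  Bx.mk fun a x d d0 d1 d2 d3 d4 d5 d6 d7 d8 d9 d10 d11 d12 d13 d14 d15 d16 d17 d18 d19 d20 d21 d22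
  d23 => (fold (Nat.add (Nat.add (Nat.add (Nat.mul (nat_lit 2) (Z a x d8)) (Z a x d)) (Nat.mul
  (nat_lit 6) (Nat.add (Nat.add (Nat.add (Z a x d2) (Z a x d5)) (Z a x d11)) (Z a x d14)))) (Z a x
  d17)) (mo Y d (nat_lit 0)))

/-- compiled program -/
def b11_18r : Prog3 := fun Y Z => Bx.mk fun a x d =>
  ((b11m24D d).1 ((b11_18e Y Z).1 a x d))

/-- compiled program -/
def b11_19e (Y : Lay) (Z : Tc) :
    Bx (Nat → Nat → Nat → (Nat → Nat → Nat → Nat → Nat → Nat → Nat → Nat → Nat → Nat → Nat → Nat →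
    Nat → Nat → Nat → Nat → Nat → Nat → Nat → Nat → Nat → Nat → Nat → Nat → Nat)) :=
  Bx.mk fun a x d d0 d1 d2 d3 d4 d5 d6 d7 d8 d9 d10 d11 d12 d13 d14 d15 d16 d17 d18 d19 d20 d21 d22
  d23 => (fold (Nat.add (Nat.add (Nat.add (Nat.add (Nat.add (Nat.mul (nat_lit 6) (fold (Nat.add
  (Nat.add (Nat.add (Nat.add (Nat.add (Nat.add (Nat.add (Z a x d2) (Z a x d3)) (Z a x d5)) (Z a x
  d6)) (Z a x d11)) (Z a x d12)) (Z a x d14)) (Z a x d15)) (mo Y d (nat_lit 0)))) (Z a x d)) (Z a x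
  d0)) (Nat.mul (nat_lit 2) (Nat.add (Z a x d8) (Z a x d9)))) (Z a x d17)) (Z a x d18)) (mo Y d
  (nat_lit 0)))

/-- compiled program -/
def b11_19r : Prog3 := fun Y Z => Bx.mk fun a x d =>
  ((b11m24D d).1 ((b11_19e Y Z).1 a x d))

/-- compiled program -/
def b11_20e (Y : Lay) (Z : Tc) :
    Bx (Nat → Nat → Nat → (Nat → Nat → Nat → Nat → Nat → Nat → Nat → Nat → Nat → Nat → Nat → Nat →
    Nat → Nat → Nat → Nat → Nat → Nat → Nat → Nat → Nat → Nat → Nat → Nat → Nat)) :=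
  Bx.mk fun a x d d0 d1 d2 d3 d4 d5 d6 d7 d8 d9 d10 d11 d12 d13 d14 d15 d16 d17 d18 d19 d20 d21 d22
  d23 => (fold (Nat.add (Nat.add (fold (Nat.add (Nat.add (Nat.add (Nat.add (Nat.add (Nat.mul
  (nat_lit 6) (fold (Nat.add (Nat.add (Nat.add (Nat.add (Nat.add (Nat.add (Nat.add (Z a x d2) (Z a x
  d4)) (Z a x d5)) (Z a x d7)) (Z a x d11)) (Z a x d13)) (Z a x d14)) (Z a x d16)) (mo Y d (nat_lit
  0)))) (Z a x d)) (Z a x d1)) (Nat.mul (nat_lit 4) (Z a x d9))) (Nat.mul (nat_lit 3) (Nat.add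
  (Nat.add (Nat.add (Z a x d3) (Z a x d6)) (Z a x d12)) (Z a x d15)))) (Nat.mul (nat_lit 2) (Nat.add
  (Nat.add (Nat.add (Z a x d0) (Z a x d8)) (Z a x d10)) (Z a x d18)))) (mo Y d (nat_lit 0))) (Z a x
  d17)) (Z a x d19)) (mo Y d (nat_lit 0)))

/-- compiled program -/
def b11_20r : Prog3 := fun Y Z => Bx.mk fun a x d =>
  ((b11m24D d).1 ((b11_20e Y Z).1 a x d))

/-- compiled program -/
def b11_21e (Y : Lay) (Z : Tc) :
    Bx (Nat → Nat → Nat → (Nat → Nat → Nat → Nat → Nat → Nat → Nat → Nat → Nat → Nat → Nat → Nat →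
    Nat → Nat → Nat → Nat → Nat → Nat → Nat → Nat → Nat → Nat → Nat → Nat → Nat)) :=
  Bx.mk fun a x d d0 d1 d2 d3 d4 d5 d6 d7 d8 d9 d10 d11 d12 d13 d14 d15 d16 d17 d18 d19 d20 d21 d22
  d23 => (fold (Nat.add (Nat.add (Nat.add (Nat.mul (nat_lit 8) (fold (Nat.add (Nat.add (Nat.add
  (Nat.mul (nat_lit 3) (Nat.add (Z a x d9) (Z a x d10))) (Z a x d8)) (Z a x d11)) (Nat.mul (nat_lit
  2) (Nat.add (Z a x d2) (Z a x d17)))) (mo Y d (nat_lit 0)))) (Z a x d)) (Nat.mul (nat_lit 3)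
  (Nat.add (Nat.add (Nat.add (Nat.add (Nat.add (Z a x d0) (Z a x d1)) (Z a x d5)) (Z a x d14)) (Z a
  x d18)) (Z a x d19)))) (Z a x d20)) (mo Y d (nat_lit 0)))

/-- compiled program -/
def b11_21r : Prog3 := fun Y Z => Bx.mk fun a x d =>
  ((b11m24D d).1 ((b11_21e Y Z).1 a x d))

/-- compiled program -/
def b11_22e (Y : Lay) (Z : Tc) :
    Bx (Nat → Nat → Nat → (Nat → Nat → Nat → Nat → Nat → Nat → Nat → Nat → Nat → Nat → Nat → Nat →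
    Nat → Nat → Nat → Nat → Nat → Nat → Nat → Nat → Nat → Nat → Nat → Nat → Nat)) :=
  Bx.mk fun a x d d0 d1 d2 d3 d4 d5 d6 d7 d8 d9 d10 d11 d12 d13 d14 d15 d16 d17 d18 d19 d20 d21 d22
  d23 => (fold (Nat.add (Nat.add (Nat.add (fold (Nat.add (Nat.add (Nat.add (Nat.mul (nat_lit 8)
  (fold (Nat.add (Nat.add (Nat.add (Nat.add (Nat.mul (nat_lit 4) (Nat.add (Z a x d9) (Z a x d11)))
  (Z a x d8)) (Z a x d12)) (Nat.mul (nat_lit 2) (Nat.add (Z a x d3) (Z a x d17)))) (Nat.mul (nat_lit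
  3) (Nat.add (Z a x d1) (Z a x d19)))) (mo Y d (nat_lit 0)))) (Z a x d)) (Nat.mul (nat_lit 3)
  (Nat.add (Nat.add (Nat.add (Nat.add (Z a x d5) (Z a x d6)) (Z a x d10)) (Z a x d14)) (Z a x
  d15)))) (Nat.mul (nat_lit 4) (Nat.add (Z a x d0) (Z a x d20)))) (mo Y d (nat_lit 0))) (Z a x d2))
  (Z a x d18)) (Z a x d21)) (mo Y d (nat_lit 0)))

/-- compiled program -/
def b11_22r : Prog3 := fun Y Z => Bx.mk fun a x d =>
  ((b11m24D d).1 ((b11_22e Y Z).1 a x d))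

/-- compiled program -/
def b11_23e (Y : Lay) (Z : Tc) :
    Bx (Nat → Nat → Nat → (Nat → Nat → Nat → Nat → Nat → Nat → Nat → Nat → Nat → Nat → Nat → Nat →
    Nat → Nat → Nat → Nat → Nat → Nat → Nat → Nat → Nat → Nat → Nat → Nat → Nat)) :=
  Bx.mk fun a x d d0 d1 d2 d3 d4 d5 d6 d7 d8 d9 d10 d11 d12 d13 d14 d15 d16 d17 d18 d19 d20 d21 d22
  d23 => (fold (Nat.add (Nat.add (Nat.add (Nat.add (Nat.add (Nat.add (Nat.mul (nat_lit 8) (fold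
  (Nat.add (Nat.add (Nat.add (Nat.add (Nat.add (Nat.add (Nat.add (Nat.add (Z a x d3) (Z a x d8)) (Z
  a x d10)) (Z a x d11)) (Z a x d13)) (Nat.mul (nat_lit 3) (Nat.add (Z a x d6) (Z a x d15)))) (Z a x
  d18)) (Nat.mul (nat_lit 2) (Nat.add (Nat.add (Nat.add (Z a x d2) (Z a x d4)) (Z a x d17)) (Z a x
  d19)))) (Nat.mul (nat_lit 4) (Nat.add (Z a x d0) (Z a x d21)))) (mo Y d (nat_lit 0)))) (Z a x d))
  (Z a x d1)) (Nat.mul (nat_lit 4) (Nat.add (Z a x d9) (Z a x d12)))) (Nat.mul (nat_lit 3) (Nat.add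
  (Nat.add (Nat.add (Z a x d5) (Z a x d7)) (Z a x d14)) (Z a x d16)))) (Z a x d20)) (Z a x d22)) (mo
  Y d (nat_lit 0)))

/-- compiled program -/
def b11_23r : Prog3 := fun Y Z => Bx.mk fun a x d =>
  ((b11m24D d).1 ((b11_23e Y Z).1 a x d))

/-- compiled program -/
def b11_24e (Y : Lay) (Z : Tc) :
    Bx (Nat → Nat → Nat → (Nat → Nat → Nat → Nat → Nat → Nat → Nat → Nat → Nat → Nat → Nat → Nat →
    Nat → Nat → Nat → Nat → Nat → Nat → Nat → Nat → Nat → Nat → Nat → Nat → Nat)) :=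
  Bx.mk fun a x d d0 d1 d2 d3 d4 d5 d6 d7 d8 d9 d10 d11 d12 d13 d14 d15 d16 d17 d18 d19 d20 d21 d22
  d23 => (fold (Nat.add (Nat.add (Nat.add (Nat.add (Nat.add (Nat.add (Nat.mul (nat_lit 8) (fold
  (Nat.add (Nat.add (Nat.add (Nat.mul (nat_lit 2) (Z a x d11)) (Z a x d2)) (Z a x d20)) (Nat.mul
  (nat_lit 3) (Nat.add (Nat.add (Nat.add (Nat.add (Nat.add (Nat.add (Nat.add (Z a x d0) (Z a x d1))
  (Z a x d3)) (Z a x d4)) (Z a x d18)) (Z a x d19)) (Z a x d21)) (Z a x d22)))) (mo Y d (nat_lit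
  0)))) (Z a x d)) (Z a x d5)) (Nat.mul (nat_lit 3) (Nat.add (Nat.add (Nat.add (Z a x d9) (Z a x
  d10)) (Z a x d12)) (Z a x d13)))) (Nat.mul (nat_lit 2) (Nat.add (Z a x d8) (Z a x d14)))) (Z a x
  d17)) (Z a x d23)) (mo Y d (nat_lit 0)))

/-- compiled program -/
def b11_24r : Prog3 := fun Y Z => Bx.mk fun a x d =>
  ((b11m24D d).1 ((b11_24e Y Z).1 a x d))

/-- keys -/
def b11m32D (c : Nat) :
    Bx ((Nat → Nat → Nat → Nat → Nat → Nat → Nat → Nat → Nat → Nat → Nat → Nat → Nat → Nat → Nat →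
    Nat → Nat → Nat → Nat → Nat → Nat → Nat → Nat → Nat → Nat → Nat → Nat → Nat → Nat → Nat → Nat →
    Nat → Nat) → Nat) :=
  bs32 Nat c (nat_lit 1) (nat_lit 2) (nat_lit 3) (nat_lit 4) (nat_lit 5) (nat_lit 6) (nat_lit 7)
  (nat_lit 8) (nat_lit 9) (nat_lit 10) (nat_lit 11) (nat_lit 12) (nat_lit 13) (nat_lit 14) (nat_lit
  15) (nat_lit 16) (nat_lit 17) (nat_lit 18) (nat_lit 19) (nat_lit 20) (nat_lit 21) (nat_lit 22)
  (nat_lit 23) (nat_lit 24) (nat_lit 25) (nat_lit 26) (nat_lit 27) (nat_lit 28) (nat_lit 29)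
  (nat_lit 30) (nat_lit 31) (nat_lit 32)

/-- compiled program -/
def b11_25e (Y : Lay) (Z : Tc) :
    Bx (Nat → Nat → Nat → (Nat → Nat → Nat → Nat → Nat → Nat → Nat → Nat → Nat → Nat → Nat → Nat →
    Nat → Nat → Nat → Nat → Nat → Nat → Nat → Nat → Nat → Nat → Nat → Nat → Nat → Nat → Nat → Nat →
    Nat → Nat → Nat → Nat → Nat)) :=
  Bx.mk fun a x d d0 d1 d2 d3 d4 d5 d6 d7 d8 d9 d10 d11 d12 d13 d14 d15 d16 d17 d18 d19 d20 d21 d22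
  d23 d24 d25 d26 d27 d28 d29 d30 d31 => (fold (Nat.add (Nat.add (Nat.add (Nat.add (Nat.add (Nat.add
  (Nat.add (fold (Nat.add (Nat.add (Nat.mul (nat_lit 8) (fold (Nat.add (Nat.mul (nat_lit 4) (Nat.add
  (Nat.add (Nat.add (Nat.add (Nat.add (Z a x d2) (Z a x d3)) (Z a x d9)) (Z a x d14)) (Z a x d20))
  (Z a x d21))) (Nat.mul (nat_lit 2) (Nat.add (Nat.add (Nat.add (Z a x d0) (Z a x d5)) (Z a x d18))
  (Z a x d23)))) (mo Y d (nat_lit 0)))) (Nat.mul (nat_lit 6) (Nat.add (Z a x d10) (Z a x d13))))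
  (Nat.mul (nat_lit 3) (Nat.add (Nat.add (Nat.add (Z a x d1) (Z a x d4)) (Z a x d19)) (Z a x d22))))
  (mo Y d (nat_lit 0))) (Z a x d)) (Z a x d6)) (Z a x d11)) (Z a x d12)) (Nat.mul (nat_lit 2)
  (Nat.add (Z a x d8) (Z a x d15)))) (Z a x d17)) (Z a x d24)) (mo Y d (nat_lit 0)))

/-- compiled program -/
def b11_25r : Prog3 := fun Y Z => Bx.mk fun a x d =>
  ((b11m32D d).1 ((b11_25e Y Z).1 a x d))

/-- compiled program -/
def b11_26e (Y : Lay) (Z : Tc) :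
    Bx (Nat → Nat → Nat → (Nat → Nat → Nat → Nat → Nat → Nat → Nat → Nat → Nat → Nat → Nat → Nat →
    Nat → Nat → Nat → Nat → Nat → Nat → Nat → Nat → Nat → Nat → Nat → Nat → Nat → Nat → Nat → Nat →
    Nat → Nat → Nat → Nat → Nat)) :=
  Bx.mk fun a x d d0 d1 d2 d3 d4 d5 d6 d7 d8 d9 d10 d11 d12 d13 d14 d15 d16 d17 d18 d19 d20 d21 d22
  d23 d24 d25 d26 d27 d28 d29 d30 d31 => (fold (Nat.add (Nat.add (Nat.add (Nat.add (Nat.add (Nat.add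
  (Nat.add (Nat.add (Nat.add (Nat.add (Nat.add (Nat.mul (nat_lit 8) (fold (Nat.add (Nat.add (Nat.add
  (Nat.add (Nat.add (Nat.add (Nat.add (Nat.add (Z a x d0) (Z a x d2)) (Z a x d4)) (Z a x d6))
  (Nat.mul (nat_lit 2) (Nat.add (Nat.add (Nat.add (Z a x d9) (Z a x d11)) (Z a x d13)) (Z a x
  d15)))) (Z a x d18)) (Z a x d20)) (Z a x d22)) (Z a x d24)) (mo Y d (nat_lit 0)))) (Z a x d)) (Z a
  x d1)) (Z a x d3)) (Z a x d5)) (Z a x d7)) (Nat.mul (nat_lit 2) (Nat.add (Nat.add (Nat.add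
  (Nat.add (Z a x d8) (Z a x d10)) (Z a x d12)) (Z a x d14)) (Z a x d16)))) (Z a x d17)) (Z a x
  d19)) (Z a x d21)) (Z a x d23)) (Z a x d25)) (mo Y d (nat_lit 0)))

/-- compiled program -/
def b11_26r : Prog3 := fun Y Z => Bx.mk fun a x d =>
  ((b11m32D d).1 ((b11_26e Y Z).1 a x d))

/-- compiled program -/
def b11_27e (Y : Lay) (Z : Tc) :
    Bx (Nat → Nat → Nat → (Nat → Nat → Nat → Nat → Nat → Nat → Nat → Nat → Nat → Nat → Nat → Nat →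
    Nat → Nat → Nat → Nat → Nat → Nat → Nat → Nat → Nat → Nat → Nat → Nat → Nat → Nat → Nat → Nat →
    Nat → Nat → Nat → Nat → Nat)) :=
  Bx.mk fun a x d d0 d1 d2 d3 d4 d5 d6 d7 d8 d9 d10 d11 d12 d13 d14 d15 d16 d17 d18 d19 d20 d21 d22
  d23 d24 d25 d26 d27 d28 d29 d30 d31 => (fold (Nat.add (Nat.add (Nat.mul (nat_lit 3) (Nat.add (Z a
  x d8) (Z a x d17))) (Z a x d)) (Z a x d26)) (mo Y d (nat_lit 0)))

/-- compiled program -/
def b11_27r : Prog3 := fun Y Z => Bx.mk fun a x d =>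
  ((b11m32D d).1 ((b11_27e Y Z).1 a x d))

/-- compiled program -/
def b11_28e (Y : Lay) (Z : Tc) :
    Bx (Nat → Nat → Nat → (Nat → Nat → Nat → Nat → Nat → Nat → Nat → Nat → Nat → Nat → Nat → Nat →
    Nat → Nat → Nat → Nat → Nat → Nat → Nat → Nat → Nat → Nat → Nat → Nat → Nat → Nat → Nat → Nat →
    Nat → Nat → Nat → Nat → Nat)) :=
  Bx.mk fun a x d d0 d1 d2 d3 d4 d5 d6 d7 d8 d9 d10 d11 d12 d13 d14 d15 d16 d17 d18 d19 d20 d21 d22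
  d23 d24 d25 d26 d27 d28 d29 d30 d31 => (fold (Nat.add (Nat.add (Nat.add (Nat.add (Z a x d) (Z a x
  d0)) (Nat.mul (nat_lit 3) (Nat.add (Nat.add (Nat.add (Z a x d8) (Z a x d9)) (Z a x d17)) (Z a x
  d18)))) (Z a x d26)) (Z a x d27)) (mo Y d (nat_lit 0)))

/-- compiled program -/
def b11_28r : Prog3 := fun Y Z => Bx.mk fun a x d =>
  ((b11m32D d).1 ((b11_28e Y Z).1 a x d))

/-- compiled program -/
def b11_29e (Y : Lay) (Z : Tc) :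
    Bx (Nat → Nat → Nat → (Nat → Nat → Nat → Nat → Nat → Nat → Nat → Nat → Nat → Nat → Nat → Nat →
    Nat → Nat → Nat → Nat → Nat → Nat → Nat → Nat → Nat → Nat → Nat → Nat → Nat → Nat → Nat → Nat →
    Nat → Nat → Nat → Nat → Nat)) :=
  Bx.mk fun a x d d0 d1 d2 d3 d4 d5 d6 d7 d8 d9 d10 d11 d12 d13 d14 d15 d16 d17 d18 d19 d20 d21 d22
  d23 d24 d25 d26 d27 d28 d29 d30 d31 => (fold (Nat.add (Nat.add (Nat.add (Nat.add (Nat.add (Nat.add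
  (Z a x d) (Z a x d1)) (Nat.mul (nat_lit 6) (Nat.add (Z a x d9) (Z a x d18)))) (Nat.mul (nat_lit 3)
  (Nat.add (Nat.add (Nat.add (Z a x d8) (Z a x d10)) (Z a x d17)) (Z a x d19)))) (Z a x d26))
  (Nat.mul (nat_lit 2) (Nat.add (Z a x d0) (Z a x d27)))) (Z a x d28)) (mo Y d (nat_lit 0)))

/-- compiled program -/
def b11_29r : Prog3 := fun Y Z => Bx.mk fun a x d =>
  ((b11m32D d).1 ((b11_29e Y Z).1 a x d))

/-- compiled program -/
def b11_30e (Y : Lay) (Z : Tc) :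
    Bx (Nat → Nat → Nat → (Nat → Nat → Nat → Nat → Nat → Nat → Nat → Nat → Nat → Nat → Nat → Nat →
    Nat → Nat → Nat → Nat → Nat → Nat → Nat → Nat → Nat → Nat → Nat → Nat → Nat → Nat → Nat → Nat →
    Nat → Nat → Nat → Nat → Nat)) :=
  Bx.mk fun a x d d0 d1 d2 d3 d4 d5 d6 d7 d8 d9 d10 d11 d12 d13 d14 d15 d16 d17 d18 d19 d20 d21 d22
  d23 d24 d25 d26 d27 d28 d29 d30 d31 => (fold (Nat.add (Nat.add (Nat.add (Nat.add (Z a x d) (Z a x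
  d2)) (Z a x d26)) (Nat.mul (nat_lit 3) (Nat.add (Nat.add (Nat.add (Nat.add (Nat.add (Nat.add
  (Nat.add (Z a x d0) (Z a x d1)) (Z a x d8)) (Z a x d11)) (Z a x d17)) (Z a x d20)) (Z a x d27)) (Z
  a x d28)))) (Z a x d29)) (mo Y d (nat_lit 0)))

/-- compiled program -/
def b11_30r : Prog3 := fun Y Z => Bx.mk fun a x d =>
  ((b11m32D d).1 ((b11_30e Y Z).1 a x d))

/-- compiled program -/
def b11_31e (Y : Lay) (Z : Tc) :
    Bx (Nat → Nat → Nat → (Nat → Nat → Nat → Nat → Nat → Nat → Nat → Nat → Nat → Nat → Nat → Nat →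
    Nat → Nat → Nat → Nat → Nat → Nat → Nat → Nat → Nat → Nat → Nat → Nat → Nat → Nat → Nat → Nat →
    Nat → Nat → Nat → Nat → Nat)) :=
  Bx.mk fun a x d d0 d1 d2 d3 d4 d5 d6 d7 d8 d9 d10 d11 d12 d13 d14 d15 d16 d17 d18 d19 d20 d21 d22
  d23 d24 d25 d26 d27 d28 d29 d30 d31 => (fold (Nat.add (Nat.add (fold (Nat.add (Nat.add (Nat.add
  (Nat.add (Z a x d) (Z a x d3)) (Nat.mul (nat_lit 3) (Nat.add (Nat.add (Nat.add (Nat.add (Nat.add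
  (Nat.add (Nat.add (Z a x d8) (Z a x d9)) (Z a x d11)) (Z a x d12)) (Z a x d17)) (Z a x d18)) (Z a
  x d20)) (Z a x d21)))) (Z a x d26)) (Z a x d30)) (mo Y d (nat_lit 0))) (Nat.mul (nat_lit 6)
  (Nat.add (Z a x d1) (Z a x d28)))) (Nat.mul (nat_lit 4) (Nat.add (Nat.add (Nat.add (Z a x d0) (Z a
  x d2)) (Z a x d27)) (Z a x d29)))) (mo Y d (nat_lit 0)))

/-- compiled program -/
def b11_31r : Prog3 := fun Y Z => Bx.mk fun a x d =>
  ((b11m32D d).1 ((b11_31e Y Z).1 a x d))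

/-- compiled program -/
def b11_32e (Y : Lay) (Z : Tc) :
    Bx (Nat → Nat → Nat → (Nat → Nat → Nat → Nat → Nat → Nat → Nat → Nat → Nat → Nat → Nat → Nat →
    Nat → Nat → Nat → Nat → Nat → Nat → Nat → Nat → Nat → Nat → Nat → Nat → Nat → Nat → Nat → Nat →
    Nat → Nat → Nat → Nat → Nat)) :=
  Bx.mk fun a x d d0 d1 d2 d3 d4 d5 d6 d7 d8 d9 d10 d11 d12 d13 d14 d15 d16 d17 d18 d19 d20 d21 d22
  d23 d24 d25 d26 d27 d28 d29 d30 d31 => (fold (Nat.add (fold (Nat.add (fold (Nat.add (Nat.add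
  (Nat.add (Nat.add (Nat.add (Nat.add (Nat.add (Nat.add (Z a x d) (Z a x d1)) (Z a x d2)) (Z a x
  d4)) (Nat.mul (nat_lit 6) (Nat.add (Nat.add (Nat.add (Z a x d9) (Z a x d12)) (Z a x d18)) (Z a x
  d21)))) (Z a x d26)) (Z a x d28)) (Z a x d29)) (Z a x d31)) (mo Y d (nat_lit 0))) (Nat.mul
  (nat_lit 3) (Nat.add (Nat.add (Nat.add (Nat.add (Nat.add (Nat.add (Nat.add (Z a x d8) (Z a x d10))
  (Z a x d11)) (Z a x d13)) (Z a x d17)) (Z a x d19)) (Z a x d20)) (Z a x d22)))) (mo Y d (nat_lit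
  0))) (Nat.mul (nat_lit 5) (Nat.add (Nat.add (Nat.add (Z a x d0) (Z a x d3)) (Z a x d27)) (Z a x
  d30)))) (mo Y d (nat_lit 0)))

/-- compiled program -/
def b11_32r : Prog3 := fun Y Z => Bx.mk fun a x d =>
  ((b11m32D d).1 ((b11_32e Y Z).1 a x d))

/-- keys -/
def b11m48D (c : Nat) :
    Bx ((Nat → Nat → Nat → Nat → Nat → Nat → Nat → Nat → Nat → Nat → Nat → Nat → Nat → Nat → Nat →
    Nat → Nat → Nat → Nat → Nat → Nat → Nat → Nat → Nat → Nat → Nat → Nat → Nat → Nat → Nat → Nat →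
    Nat → Nat → Nat → Nat → Nat → Nat → Nat → Nat → Nat → Nat → Nat → Nat → Nat → Nat → Nat → Nat →
    Nat → Nat) → Nat) :=
  bs48 Nat c (nat_lit 1) (nat_lit 2) (nat_lit 3) (nat_lit 4) (nat_lit 5) (nat_lit 6) (nat_lit 7)
  (nat_lit 8) (nat_lit 9) (nat_lit 10) (nat_lit 11) (nat_lit 12) (nat_lit 13) (nat_lit 14) (nat_lit
  15) (nat_lit 16) (nat_lit 17) (nat_lit 18) (nat_lit 19) (nat_lit 20) (nat_lit 21) (nat_lit 22)
  (nat_lit 23) (nat_lit 24) (nat_lit 25) (nat_lit 26) (nat_lit 27) (nat_lit 28) (nat_lit 29)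
  (nat_lit 30) (nat_lit 31) (nat_lit 32) (nat_lit 33) (nat_lit 34) (nat_lit 35) (nat_lit 36)
  (nat_lit 37) (nat_lit 38) (nat_lit 39) (nat_lit 40) (nat_lit 41) (nat_lit 42) (nat_lit 43)
  (nat_lit 44) (nat_lit 45) (nat_lit 46) (nat_lit 47) (nat_lit 48)

/-- compiled program -/
def b11_33e (Y : Lay) (Z : Tc) :
    Bx (Nat → Nat → Nat → (Nat → Nat → Nat → Nat → Nat → Nat → Nat → Nat → Nat → Nat → Nat → Nat →
    Nat → Nat → Nat → Nat → Nat → Nat → Nat → Nat → Nat → Nat → Nat → Nat → Nat → Nat → Nat → Nat →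
    Nat → Nat → Nat → Nat → Nat → Nat → Nat → Nat → Nat → Nat → Nat → Nat → Nat → Nat → Nat → Nat →
    Nat → Nat → Nat → Nat → Nat)) :=
  Bx.mk fun a x d d0 d1 d2 d3 d4 d5 d6 d7 d8 d9 d10 d11 d12 d13 d14 d15 d16 d17 d18 d19 d20 d21 d22
  d23 d24 d25 d26 d27 d28 d29 d30 d31 d32 d33 d34 d35 d36 d37 d38 d39 d40 d41 d42 d43 d44 d45 d46
  d47 => (fold (Nat.add (Nat.add (Nat.add (Nat.add (Nat.add (Nat.add (Nat.mul (nat_lit 6) (fold
  (Nat.add (Nat.add (Nat.add (Nat.add (Nat.add (Nat.add (Nat.add (Nat.add (Nat.add (Z a x d0) (Z a x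
  d1)) (Z a x d3)) (Z a x d4)) (Z a x d11)) (Z a x d20)) (Z a x d27)) (Z a x d28)) (Z a x d30)) (Z a
  x d31)) (mo Y d (nat_lit 0)))) (Z a x d)) (Z a x d5)) (Nat.mul (nat_lit 3) (Nat.add (Nat.add
  (Nat.add (Z a x d8) (Z a x d14)) (Z a x d17)) (Z a x d23)))) (Z a x d26)) (Nat.mul (nat_lit 2)
  (Nat.add (Z a x d2) (Z a x d29)))) (Z a x d32)) (mo Y d (nat_lit 0)))

/-- compiled program -/
def b11_33r : Prog3 := fun Y Z => Bx.mk fun a x d =>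
  ((b11m48D d).1 ((b11_33e Y Z).1 a x d))

/-- compiled program -/
def b11_34e (Y : Lay) (Z : Tc) :
    Bx (Nat → Nat → Nat → (Nat → Nat → Nat → Nat → Nat → Nat → Nat → Nat → Nat → Nat → Nat → Nat →
    Nat → Nat → Nat → Nat → Nat → Nat → Nat → Nat → Nat → Nat → Nat → Nat → Nat → Nat → Nat → Nat →
    Nat → Nat → Nat → Nat → Nat → Nat → Nat → Nat → Nat → Nat → Nat → Nat → Nat → Nat → Nat → Nat →
    Nat → Nat → Nat → Nat → Nat)) :=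
  Bx.mk fun a x d d0 d1 d2 d3 d4 d5 d6 d7 d8 d9 d10 d11 d12 d13 d14 d15 d16 d17 d18 d19 d20 d21 d22
  d23 d24 d25 d26 d27 d28 d29 d30 d31 d32 d33 d34 d35 d36 d37 d38 d39 d40 d41 d42 d43 d44 d45 d46
  d47 => (fold (Nat.add (Nat.add (Nat.add (Nat.add (Nat.add (Nat.mul (nat_lit 3) (fold (Nat.add
  (Nat.add (Nat.add (Nat.add (Nat.add (Nat.add (Nat.add (Nat.add (Nat.add (Nat.add (Nat.add (Z a x
  d1) (Z a x d4)) (Z a x d8)) (Z a x d9)) (Z a x d14)) (Z a x d15)) (Z a x d17)) (Z a x d18)) (Z a x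
  d23)) (Z a x d24)) (Z a x d28)) (Z a x d31)) (mo Y d (nat_lit 0)))) (Nat.mul (nat_lit 8) (fold
  (Nat.add (Nat.add (Nat.add (Nat.add (Nat.add (Z a x d2) (Z a x d3)) (Nat.mul (nat_lit 3) (Nat.add
  (Nat.add (Nat.add (Z a x d11) (Z a x d12)) (Z a x d20)) (Z a x d21)))) (Z a x d29)) (Z a x d30))
  (Nat.mul (nat_lit 2) (Nat.add (Nat.add (Nat.add (Z a x d0) (Z a x d5)) (Z a x d27)) (Z a x d32))))
  (mo Y d (nat_lit 0))))) (Z a x d)) (Z a x d6)) (Z a x d26)) (Z a x d33)) (mo Y d (nat_lit 0)))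

/-- compiled program -/
def b11_34r : Prog3 := fun Y Z => Bx.mk fun a x d =>
  ((b11m48D d).1 ((b11_34e Y Z).1 a x d))

/-- compiled program -/
def b11_35e (Y : Lay) (Z : Tc) :
    Bx (Nat → Nat → Nat → (Nat → Nat → Nat → Nat → Nat → Nat → Nat → Nat → Nat → Nat → Nat → Nat →
    Nat → Nat → Nat → Nat → Nat → Nat → Nat → Nat → Nat → Nat → Nat → Nat → Nat → Nat → Nat → Nat →
    Nat → Nat → Nat → Nat → Nat → Nat → Nat → Nat → Nat → Nat → Nat → Nat → Nat → Nat → Nat → Nat →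
    Nat → Nat → Nat → Nat → Nat)) :=
  Bx.mk fun a x d d0 d1 d2 d3 d4 d5 d6 d7 d8 d9 d10 d11 d12 d13 d14 d15 d16 d17 d18 d19 d20 d21 d22
  d23 d24 d25 d26 d27 d28 d29 d30 d31 d32 d33 d34 d35 d36 d37 d38 d39 d40 d41 d42 d43 d44 d45 d46
  d47 => (fold (Nat.add (Nat.add (Nat.add (Nat.add (Nat.add (Nat.add (Nat.add (Nat.add (fold
  (Nat.add (Nat.add (Z a x d) (Z a x d1)) (Nat.mul (nat_lit 3) (Nat.add (Nat.add (Nat.add (Nat.add
  (Nat.add (Nat.add (Nat.add (Nat.add (Nat.add (Z a x d8) (Z a x d10)) (Z a x d12)) (Z a x d14)) (Z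
  a x d16)) (Z a x d17)) (Z a x d19)) (Z a x d21)) (Z a x d23)) (Z a x d25)))) (mo Y d (nat_lit 0)))
  (Nat.mul (nat_lit 8) (fold (Nat.add (Nat.add (Nat.add (Nat.add (Nat.add (Z a x d0) (Z a x d6))
  (Nat.mul (nat_lit 3) (Nat.add (Nat.add (Nat.add (Nat.add (Nat.add (Nat.add (Nat.add (Z a x d9) (Z
  a x d11)) (Z a x d13)) (Z a x d15)) (Z a x d18)) (Z a x d20)) (Z a x d22)) (Z a x d24)))) (Z a x
  d27)) (Nat.mul (nat_lit 2) (Nat.add (Z a x d3) (Z a x d30)))) (Z a x d33)) (mo Y d (nat_lit 0)))))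
  (Z a x d5)) (Z a x d7)) (Z a x d26)) (Z a x d28)) (Nat.mul (nat_lit 2) (Nat.add (Nat.add (Nat.add
  (Z a x d2) (Z a x d4)) (Z a x d29)) (Z a x d31)))) (Z a x d32)) (Z a x d34)) (mo Y d (nat_lit 0)))

/-- compiled program -/
def b11_35r : Prog3 := fun Y Z => Bx.mk fun a x d =>
  ((b11m48D d).1 ((b11_35e Y Z).1 a x d))

/-- compiled program -/
def b11_36e (Y : Lay) (Z : Tc) :
    Bx (Nat → Nat → Nat → (Nat → Nat → Nat → Nat → Nat → Nat → Nat → Nat → Nat → Nat → Nat → Nat →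
    Nat → Nat → Nat → Nat → Nat → Nat → Nat → Nat → Nat → Nat → Nat → Nat → Nat → Nat → Nat → Nat →
    Nat → Nat → Nat → Nat → Nat → Nat → Nat → Nat → Nat → Nat → Nat → Nat → Nat → Nat → Nat → Nat →
    Nat → Nat → Nat → Nat → Nat)) :=
  Bx.mk fun a x d d0 d1 d2 d3 d4 d5 d6 d7 d8 d9 d10 d11 d12 d13 d14 d15 d16 d17 d18 d19 d20 d21 d22
  d23 d24 d25 d26 d27 d28 d29 d30 d31 d32 d33 d34 d35 d36 d37 d38 d39 d40 d41 d42 d43 d44 d45 d46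
  d47 => (fold (Nat.add (Nat.add (Nat.add (Nat.add (Nat.mul (nat_lit 6) (Z a x d17)) (Z a x d))
  (Nat.mul (nat_lit 4) (Nat.add (Z a x d8) (Z a x d26)))) (Nat.mul (nat_lit 3) (Nat.add (Nat.add
  (Nat.add (Z a x d2) (Z a x d5)) (Z a x d29)) (Z a x d32)))) (Z a x d35)) (mo Y d (nat_lit 0)))

/-- compiled program -/
def b11_36r : Prog3 := fun Y Z => Bx.mk fun a x d =>
  ((b11m48D d).1 ((b11_36e Y Z).1 a x d))

/-- compiled program -/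
def b11_37e (Y : Lay) (Z : Tc) :
    Bx (Nat → Nat → Nat → (Nat → Nat → Nat → Nat → Nat → Nat → Nat → Nat → Nat → Nat → Nat → Nat →
    Nat → Nat → Nat → Nat → Nat → Nat → Nat → Nat → Nat → Nat → Nat → Nat → Nat → Nat → Nat → Nat →
    Nat → Nat → Nat → Nat → Nat → Nat → Nat → Nat → Nat → Nat → Nat → Nat → Nat → Nat → Nat → Nat →
    Nat → Nat → Nat → Nat → Nat)) :=
  Bx.mk fun a x d d0 d1 d2 d3 d4 d5 d6 d7 d8 d9 d10 d11 d12 d13 d14 d15 d16 d17 d18 d19 d20 d21 d22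
  d23 d24 d25 d26 d27 d28 d29 d30 d31 d32 d33 d34 d35 d36 d37 d38 d39 d40 d41 d42 d43 d44 d45 d46
  d47 => (fold (Nat.add (Nat.add (fold (Nat.add (Nat.add (Nat.add (Nat.add (Z a x d) (Z a x d0))
  (Nat.mul (nat_lit 3) (Nat.add (Nat.add (Nat.add (Nat.add (Nat.add (Nat.add (Nat.add (Z a x d2) (Z
  a x d3)) (Z a x d5)) (Z a x d6)) (Z a x d29)) (Z a x d30)) (Z a x d32)) (Z a x d33)))) (Z a x
  d35)) (Z a x d36)) (mo Y d (nat_lit 0))) (Nat.mul (nat_lit 6) (Nat.add (Z a x d17) (Z a x d18))))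
  (Nat.mul (nat_lit 4) (Nat.add (Nat.add (Nat.add (Z a x d8) (Z a x d9)) (Z a x d26)) (Z a x d27))))
  (mo Y d (nat_lit 0)))

/-- compiled program -/
def b11_37r : Prog3 := fun Y Z => Bx.mk fun a x d =>
  ((b11m48D d).1 ((b11_37e Y Z).1 a x d))

/-- compiled program -/
def b11_38e (Y : Lay) (Z : Tc) :
    Bx (Nat → Nat → Nat → (Nat → Nat → Nat → Nat → Nat → Nat → Nat → Nat → Nat → Nat → Nat → Nat →
    Nat → Nat → Nat → Nat → Nat → Nat → Nat → Nat → Nat → Nat → Nat → Nat → Nat → Nat → Nat → Nat →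
    Nat → Nat → Nat → Nat → Nat → Nat → Nat → Nat → Nat → Nat → Nat → Nat → Nat → Nat → Nat → Nat →
    Nat → Nat → Nat → Nat → Nat)) :=
  Bx.mk fun a x d d0 d1 d2 d3 d4 d5 d6 d7 d8 d9 d10 d11 d12 d13 d14 d15 d16 d17 d18 d19 d20 d21 d22
  d23 d24 d25 d26 d27 d28 d29 d30 d31 d32 d33 d34 d35 d36 d37 d38 d39 d40 d41 d42 d43 d44 d45 d46
  d47 => (fold (Nat.add (Nat.add (Nat.add (Nat.add (Nat.add (fold (Nat.add (Nat.add (Nat.mul
  (nat_lit 3) (Nat.add (Nat.add (Nat.add (Nat.add (Nat.add (Nat.add (Nat.add (Nat.add (Z a x d2) (Z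
  a x d4)) (Z a x d5)) (Z a x d7)) (Z a x d18)) (Z a x d29)) (Z a x d31)) (Z a x d32)) (Z a x d34)))
  (Z a x d)) (Nat.mul (nat_lit 2) (Nat.add (Z a x d0) (Z a x d36)))) (mo Y d (nat_lit 0))) (Nat.mul
  (nat_lit 8) (fold (Nat.add (Nat.add (Z a x d9) (Z a x d27)) (Nat.mul (nat_lit 3) (Nat.add (Nat.add
  (Nat.add (Nat.add (Nat.add (Z a x d3) (Z a x d6)) (Z a x d17)) (Z a x d19)) (Z a x d30)) (Z a x
  d33)))) (mo Y d (nat_lit 0))))) (Z a x d1)) (Nat.mul (nat_lit 4) (Nat.add (Nat.add (Nat.add (Z a x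
  d8) (Z a x d10)) (Z a x d26)) (Z a x d28)))) (Z a x d35)) (Z a x d37)) (mo Y d (nat_lit 0)))

/-- compiled program -/
def b11_38r : Prog3 := fun Y Z => Bx.mk fun a x d =>
  ((b11m48D d).1 ((b11_38e Y Z).1 a x d))

/-- compiled program -/
def b11_39e (Y : Lay) (Z : Tc) :
    Bx (Nat → Nat → Nat → (Nat → Nat → Nat → Nat → Nat → Nat → Nat → Nat → Nat → Nat → Nat → Nat →
    Nat → Nat → Nat → Nat → Nat → Nat → Nat → Nat → Nat → Nat → Nat → Nat → Nat → Nat → Nat → Nat →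
    Nat → Nat → Nat → Nat → Nat → Nat → Nat → Nat → Nat → Nat → Nat → Nat → Nat → Nat → Nat → Nat →
    Nat → Nat → Nat → Nat → Nat)) :=
  Bx.mk fun a x d d0 d1 d2 d3 d4 d5 d6 d7 d8 d9 d10 d11 d12 d13 d14 d15 d16 d17 d18 d19 d20 d21 d22
  d23 d24 d25 d26 d27 d28 d29 d30 d31 d32 d33 d34 d35 d36 d37 d38 d39 d40 d41 d42 d43 d44 d45 d46
  d47 => (fold (Nat.add (Nat.add (fold (Nat.add (fold (Nat.add (Nat.add (Nat.mul (nat_lit 6)
  (Nat.add (Nat.add (Nat.add (Z a x d5) (Z a x d17)) (Z a x d20)) (Z a x d32))) (Z a x d)) (Z a x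
  d38)) (mo Y d (nat_lit 0))) (Nat.mul (nat_lit 3) (Nat.add (Nat.add (Nat.add (Nat.add (Nat.add
  (Nat.add (Nat.add (Z a x d0) (Z a x d1)) (Z a x d9)) (Z a x d10)) (Z a x d27)) (Z a x d28)) (Z a x
  d36)) (Z a x d37)))) (mo Y d (nat_lit 0))) (Nat.mul (nat_lit 7) (Nat.add (Z a x d8) (Z a x d29))))
  (Nat.mul (nat_lit 4) (Nat.add (Nat.add (Nat.add (Z a x d2) (Z a x d11)) (Z a x d26)) (Z a x
  d35)))) (mo Y d (nat_lit 0)))

/-- compiled program -/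
def b11_39r : Prog3 := fun Y Z => Bx.mk fun a x d =>
  ((b11m48D d).1 ((b11_39e Y Z).1 a x d))

/-- compiled program -/
def b11_40e (Y : Lay) (Z : Tc) :
    Bx (Nat → Nat → Nat → (Nat → Nat → Nat → Nat → Nat → Nat → Nat → Nat → Nat → Nat → Nat → Nat →
    Nat → Nat → Nat → Nat → Nat → Nat → Nat → Nat → Nat → Nat → Nat → Nat → Nat → Nat → Nat → Nat →
    Nat → Nat → Nat → Nat → Nat → Nat → Nat → Nat → Nat → Nat → Nat → Nat → Nat → Nat → Nat → Nat →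
    Nat → Nat → Nat → Nat → Nat)) :=
  Bx.mk fun a x d d0 d1 d2 d3 d4 d5 d6 d7 d8 d9 d10 d11 d12 d13 d14 d15 d16 d17 d18 d19 d20 d21 d22
  d23 d24 d25 d26 d27 d28 d29 d30 d31 d32 d33 d34 d35 d36 d37 d38 d39 d40 d41 d42 d43 d44 d45 d46
  d47 => (fold (Nat.add (Nat.add (Nat.add (Nat.add (fold (Nat.add (Nat.add (Nat.mul (nat_lit 7)
  (fold (Nat.add (Nat.add (Nat.add (Nat.add (Nat.add (Z a x d2) (Z a x d8)) (Z a x d11)) (Z a x
  d27)) (Z a x d30)) (Z a x d36)) (mo Y d (nat_lit 0)))) (Z a x d)) (Nat.mul (nat_lit 4) (Nat.add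
  (Nat.add (Nat.add (Nat.add (Nat.add (Z a x d0) (Z a x d3)) (Z a x d12)) (Z a x d26)) (Z a x d35))
  (Z a x d38)))) (mo Y d (nat_lit 0))) (Nat.mul (nat_lit 6) (fold (Nat.add (Nat.add (Nat.add
  (Nat.add (Nat.add (Nat.add (Nat.add (Nat.add (Nat.add (Nat.add (Nat.add (Z a x d1) (Z a x d5)) (Z
  a x d6)) (Z a x d10)) (Z a x d17)) (Z a x d18)) (Z a x d20)) (Z a x d21)) (Z a x d28)) (Z a x
  d32)) (Z a x d33)) (Z a x d37)) (mo Y d (nat_lit 0))))) (Z a x d9)) (Z a x d29)) (Z a x d39)) (mo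
  Y d (nat_lit 0)))

/-- compiled program -/
def b11_40r : Prog3 := fun Y Z => Bx.mk fun a x d =>
  ((b11m48D d).1 ((b11_40e Y Z).1 a x d))

/-- compiled program -/
def b11_41e (Y : Lay) (Z : Tc) :
    Bx (Nat → Nat → Nat → (Nat → Nat → Nat → Nat → Nat → Nat → Nat → Nat → Nat → Nat → Nat → Nat →
    Nat → Nat → Nat → Nat → Nat → Nat → Nat → Nat → Nat → Nat → Nat → Nat → Nat → Nat → Nat → Nat →
    Nat → Nat → Nat → Nat → Nat → Nat → Nat → Nat → Nat → Nat → Nat → Nat → Nat → Nat → Nat → Nat →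
    Nat → Nat → Nat → Nat → Nat)) :=
  Bx.mk fun a x d d0 d1 d2 d3 d4 d5 d6 d7 d8 d9 d10 d11 d12 d13 d14 d15 d16 d17 d18 d19 d20 d21 d22
  d23 d24 d25 d26 d27 d28 d29 d30 d31 d32 d33 d34 d35 d36 d37 d38 d39 d40 d41 d42 d43 d44 d45 d46
  d47 => (fold (Nat.add (Nat.add (Nat.add (Nat.add (Nat.add (Nat.add (Nat.add (fold (Nat.add
  (Nat.mul (nat_lit 8) (Nat.add (Nat.add (fold (Nat.add (Nat.mul (nat_lit 2) (Nat.add (Nat.add
  (Nat.add (Z a x d8) (Z a x d10)) (Z a x d29)) (Z a x d31))) (Nat.mul (nat_lit 3) (Nat.add (Nat.add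
  (Nat.add (Nat.add (Nat.add (Nat.add (Nat.add (Z a x d5) (Z a x d7)) (Z a x d17)) (Z a x d19)) (Z a
  x d20)) (Z a x d22)) (Z a x d32)) (Z a x d34)))) (mo Y d (nat_lit 0))) (Z a x d9)) (Z a x d30)))
  (Nat.mul (nat_lit 2) (Nat.add (Nat.add (Nat.add (Z a x d3) (Z a x d12)) (Z a x d27)) (Z a x
  d36)))) (mo Y d (nat_lit 0))) (fold (Nat.mul (nat_lit 4) (Nat.add (Nat.add (Nat.add (Nat.add
  (Nat.add (Nat.add (Nat.add (Z a x d2) (Z a x d4)) (Z a x d11)) (Z a x d13)) (Z a x d26)) (Z a x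
  d28)) (Z a x d35)) (Z a x d37))) (mo Y d (nat_lit 0)))) (Z a x d)) (Z a x d1)) (Nat.mul (nat_lit
  3) (Nat.add (Nat.add (Nat.add (Z a x d6) (Z a x d18)) (Z a x d21)) (Z a x d33)))) (Z a x d38))
  (Nat.mul (nat_lit 5) (Nat.add (Z a x d0) (Z a x d39)))) (Z a x d40)) (mo Y d (nat_lit 0)))

/-- compiled program -/
def b11_41r : Prog3 := fun Y Z => Bx.mk fun a x d =>
  ((b11m48D d).1 ((b11_41e Y Z).1 a x d))

/-- compiled program -/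
def b11_42e (Y : Lay) (Z : Tc) :
    Bx (Nat → Nat → Nat → (Nat → Nat → Nat → Nat → Nat → Nat → Nat → Nat → Nat → Nat → Nat → Nat →
    Nat → Nat → Nat → Nat → Nat → Nat → Nat → Nat → Nat → Nat → Nat → Nat → Nat → Nat → Nat → Nat →
    Nat → Nat → Nat → Nat → Nat → Nat → Nat → Nat → Nat → Nat → Nat → Nat → Nat → Nat → Nat → Nat →
    Nat → Nat → Nat → Nat → Nat)) :=
  Bx.mk fun a x d d0 d1 d2 d3 d4 d5 d6 d7 d8 d9 d10 d11 d12 d13 d14 d15 d16 d17 d18 d19 d20 d21 d22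
  d23 d24 d25 d26 d27 d28 d29 d30 d31 d32 d33 d34 d35 d36 d37 d38 d39 d40 d41 d42 d43 d44 d45 d46
  d47 => (fold (Nat.add (Nat.add (Nat.add (Nat.add (Nat.add (Nat.add (fold (Nat.add (Nat.add
  (Nat.mul (nat_lit 6) (fold (Nat.add (Nat.add (Nat.add (Nat.add (Nat.add (Nat.add (Nat.add (Nat.add
  (Nat.add (Z a x d0) (Z a x d1)) (Z a x d3)) (Z a x d4)) (Z a x d9)) (Z a x d10)) (Z a x d12)) (Z a
  x d13)) (Z a x d17)) (Nat.add (Nat.add (Nat.add (Nat.add (Nat.add (Nat.add (Nat.add (Nat.add (Z a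
  x d23) (Z a x d27)) (Z a x d28)) (Z a x d30)) (Z a x d31)) (Z a x d36)) (Z a x d37)) (Z a x d39))
  (Z a x d40))) (mo Y d (nat_lit 0)))) (Nat.mul (nat_lit 4) (Nat.add (Nat.add (Nat.add (Z a x d8) (Z
  a x d14)) (Z a x d26)) (Z a x d32)))) (Nat.mul (nat_lit 5) (Nat.add (Z a x d2) (Z a x d38)))) (mo
  Y d (nat_lit 0))) (Z a x d)) (Z a x d5)) (Nat.mul (nat_lit 3) (Z a x d20))) (Nat.mul (nat_lit 2)
  (Nat.add (Z a x d11) (Z a x d29)))) (Z a x d35)) (Z a x d41)) (mo Y d (nat_lit 0)))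

/-- compiled program -/
def b11_42r : Prog3 := fun Y Z => Bx.mk fun a x d =>
  ((b11m48D d).1 ((b11_42e Y Z).1 a x d))

/-- compiled program -/
def b11_43e (Y : Lay) (Z : Tc) :
    Bx (Nat → Nat → Nat → (Nat → Nat → Nat → Nat → Nat → Nat → Nat → Nat → Nat → Nat → Nat → Nat →
    Nat → Nat → Nat → Nat → Nat → Nat → Nat → Nat → Nat → Nat → Nat → Nat → Nat → Nat → Nat → Nat →
    Nat → Nat → Nat → Nat → Nat → Nat → Nat → Nat → Nat → Nat → Nat → Nat → Nat → Nat → Nat → Nat →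
    Nat → Nat → Nat → Nat → Nat)) :=
  Bx.mk fun a x d d0 d1 d2 d3 d4 d5 d6 d7 d8 d9 d10 d11 d12 d13 d14 d15 d16 d17 d18 d19 d20 d21 d22
  d23 d24 d25 d26 d27 d28 d29 d30 d31 d32 d33 d34 d35 d36 d37 d38 d39 d40 d41 d42 d43 d44 d45 d46
  d47 => (fold (Nat.add (Nat.add (Nat.add (Nat.add (Nat.add (Nat.add (Nat.add (fold (Nat.add
  (Nat.add (Nat.mul (nat_lit 8) (fold (Nat.add (Nat.add (Nat.add (Nat.add (Nat.add (Z a x d11) (Z a
  x d12)) (Nat.mul (nat_lit 3) (Nat.add (Nat.add (Nat.add (Z a x d17) (Z a x d18)) (Z a x d23)) (Z a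
  x d24)))) (Z a x d29)) (Z a x d30)) (Nat.mul (nat_lit 2) (Nat.add (Nat.add (Nat.add (Z a x d0) (Z
  a x d5)) (Z a x d36)) (Z a x d41)))) (mo Y d (nat_lit 0)))) (Nat.mul (nat_lit 4) (Nat.add (Nat.add
  (Nat.add (Z a x d8) (Z a x d15)) (Z a x d26)) (Z a x d33)))) (Nat.mul (nat_lit 2) (Nat.add
  (Nat.add (Nat.add (Z a x d2) (Z a x d3)) (Z a x d38)) (Z a x d39)))) (mo Y d (nat_lit 0))) (fold
  (Nat.add (Nat.add (Z a x d) (Z a x d6)) (Nat.mul (nat_lit 3) (Nat.add (Nat.add (Nat.add (Nat.add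
  (Nat.add (Nat.add (Nat.add (Nat.add (Nat.add (Z a x d1) (Z a x d4)) (Z a x d10)) (Z a x d13)) (Z a
  x d20)) (Z a x d21)) (Z a x d28)) (Z a x d31)) (Z a x d37)) (Z a x d40)))) (mo Y d (nat_lit 0))))
  (Z a x d9)) (Z a x d14)) (Z a x d27)) (Z a x d32)) (Z a x d35)) (Z a x d42)) (mo Y d (nat_lit 0)))

/-- compiled program -/
def b11_43r : Prog3 := fun Y Z => Bx.mk fun a x d =>
  ((b11m48D d).1 ((b11_43e Y Z).1 a x d))

/-- compiled program -/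
def b11_44e (Y : Lay) (Z : Tc) :
    Bx (Nat → Nat → Nat → (Nat → Nat → Nat → Nat → Nat → Nat → Nat → Nat → Nat → Nat → Nat → Nat →
    Nat → Nat → Nat → Nat → Nat → Nat → Nat → Nat → Nat → Nat → Nat → Nat → Nat → Nat → Nat → Nat →
    Nat → Nat → Nat → Nat → Nat → Nat → Nat → Nat → Nat → Nat → Nat → Nat → Nat → Nat → Nat → Nat →
    Nat → Nat → Nat → Nat → Nat)) :=
  Bx.mk fun a x d d0 d1 d2 d3 d4 d5 d6 d7 d8 d9 d10 d11 d12 d13 d14 d15 d16 d17 d18 d19 d20 d21 d22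
  d23 d24 d25 d26 d27 d28 d29 d30 d31 d32 d33 d34 d35 d36 d37 d38 d39 d40 d41 d42 d43 d44 d45 d46
  d47 => (fold (Nat.add (Nat.add (Nat.add (Nat.add (Nat.add (Nat.add (Nat.add (Nat.add (fold
  (Nat.add (Nat.add (Nat.add (Nat.mul (nat_lit 4) (fold (Nat.add (Nat.add (Nat.add (Nat.add (Nat.add
  (Nat.add (Nat.add (Nat.add (Nat.add (Z a x d3) (Z a x d8)) (Z a x d10)) (Z a x d14)) (Z a x d16))
  (Z a x d26)) (Z a x d28)) (Z a x d32)) (Z a x d34)) (Z a x d39)) (mo Y d (nat_lit 0)))) (Nat.mul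
  (nat_lit 8) (fold (Nat.add (Nat.add (Nat.add (Nat.add (Nat.add (Nat.add (fold (Nat.mul (nat_lit 4)
  (Nat.add (Nat.add (Nat.add (Nat.add (Nat.add (Nat.add (Nat.add (Z a x d2) (Z a x d4)) (Z a x d9))
  (Z a x d15)) (Z a x d27)) (Z a x d33)) (Z a x d38)) (Z a x d40))) (mo Y d (nat_lit 0))) (Z a x
  d0)) (Z a x d6)) (Nat.mul (nat_lit 3) (Nat.add (Nat.add (Nat.add (Nat.add (Z a x d17) (Z a x d19))
  (Z a x d21)) (Z a x d23)) (Z a x d25)))) (Nat.mul (nat_lit 2) (Nat.add (Z a x d12) (Z a x d30))))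
  (Z a x d36)) (Z a x d42)) (mo Y d (nat_lit 0))))) (Nat.mul (nat_lit 3) (Nat.add (Nat.add (Nat.add
  (Z a x d18) (Z a x d20)) (Z a x d22)) (Z a x d24)))) (Nat.mul (nat_lit 2) (Nat.add (Nat.add
  (Nat.add (Z a x d11) (Z a x d13)) (Z a x d29)) (Z a x d31)))) (mo Y d (nat_lit 0))) (Z a x d)) (Z
  a x d1)) (Z a x d5)) (Z a x d7)) (Z a x d35)) (Z a x d37)) (Z a x d41)) (Z a x d43)) (mo Y d
  (nat_lit 0)))

/-- compiled program -/
def b11_44r : Prog3 := fun Y Z => Bx.mk fun a x d =>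
  ((b11m48D d).1 ((b11_44e Y Z).1 a x d))

/-- compiled program -/
def b11_45e (Y : Lay) (Z : Tc) :
    Bx (Nat → Nat → Nat → (Nat → Nat → Nat → Nat → Nat → Nat → Nat → Nat → Nat → Nat → Nat → Nat →
    Nat → Nat → Nat → Nat → Nat → Nat → Nat → Nat → Nat → Nat → Nat → Nat → Nat → Nat → Nat → Nat →
    Nat → Nat → Nat → Nat → Nat → Nat → Nat → Nat → Nat → Nat → Nat → Nat → Nat → Nat → Nat → Nat →
    Nat → Nat → Nat → Nat → Nat)) :=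
  Bx.mk fun a x d d0 d1 d2 d3 d4 d5 d6 d7 d8 d9 d10 d11 d12 d13 d14 d15 d16 d17 d18 d19 d20 d21 d22
  d23 d24 d25 d26 d27 d28 d29 d30 d31 d32 d33 d34 d35 d36 d37 d38 d39 d40 d41 d42 d43 d44 d45 d46
  d47 => (fold (Nat.add (Nat.add (Nat.add (Nat.add (Nat.mul (nat_lit 8) (fold (Nat.add (Nat.mul
  (nat_lit 4) (Nat.add (Z a x d8) (Z a x d35))) (Nat.mul (nat_lit 3) (Nat.add (Nat.add (Nat.add
  (Nat.add (Nat.add (Nat.add (Nat.add (Z a x d2) (Z a x d5)) (Z a x d11)) (Z a x d14)) (Z a x d29))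
  (Z a x d32)) (Z a x d38)) (Z a x d41)))) (mo Y d (nat_lit 0)))) (Z a x d)) (Z a x d17)) (Z a x
  d26)) (Z a x d44)) (mo Y d (nat_lit 0)))

/-- compiled program -/
def b11_45r : Prog3 := fun Y Z => Bx.mk fun a x d =>
  ((b11m48D d).1 ((b11_45e Y Z).1 a x d))

/-- compiled program -/
def b11_46e (Y : Lay) (Z : Tc) :
    Bx (Nat → Nat → Nat → (Nat → Nat → Nat → Nat → Nat → Nat → Nat → Nat → Nat → Nat → Nat → Nat →
    Nat → Nat → Nat → Nat → Nat → Nat → Nat → Nat → Nat → Nat → Nat → Nat → Nat → Nat → Nat → Nat →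
    Nat → Nat → Nat → Nat → Nat → Nat → Nat → Nat → Nat → Nat → Nat → Nat → Nat → Nat → Nat → Nat →
    Nat → Nat → Nat → Nat → Nat)) :=
  Bx.mk fun a x d d0 d1 d2 d3 d4 d5 d6 d7 d8 d9 d10 d11 d12 d13 d14 d15 d16 d17 d18 d19 d20 d21 d22
  d23 d24 d25 d26 d27 d28 d29 d30 d31 d32 d33 d34 d35 d36 d37 d38 d39 d40 d41 d42 d43 d44 d45 d46
  d47 => (fold (Nat.add (Nat.add (fold (Nat.add (Nat.add (Nat.add (Nat.add (Nat.add (Nat.add
  (Nat.add (Nat.mul (nat_lit 6) (fold (Nat.add (Nat.add (Nat.add (Nat.add (Nat.add (Nat.add (Nat.add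
  (Nat.add (Z a x d2) (Z a x d3)) (Z a x d5)) (Z a x d6)) (Z a x d11)) (Z a x d12)) (Z a x d14)) (Z
  a x d15)) (Nat.add (Nat.add (Nat.add (Nat.add (Nat.add (Nat.add (Nat.add (Z a x d29) (Z a x d30))
  (Z a x d32)) (Z a x d33)) (Z a x d38)) (Z a x d39)) (Z a x d41)) (Z a x d42))) (mo Y d (nat_lit
  0)))) (Z a x d)) (Z a x d0)) (Z a x d17)) (Z a x d18)) (Z a x d26)) (Z a x d27)) (Nat.mul (nat_lit
  5) (Nat.add (Nat.add (Nat.add (Z a x d8) (Z a x d9)) (Z a x d35)) (Z a x d36)))) (mo Y d (nat_lit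
  0))) (Z a x d44)) (Z a x d45)) (mo Y d (nat_lit 0)))

/-- compiled program -/
def b11_46r : Prog3 := fun Y Z => Bx.mk fun a x d =>
  ((b11m48D d).1 ((b11_46e Y Z).1 a x d))

/-- compiled program -/
def b11_47e (Y : Lay) (Z : Tc) :
    Bx (Nat → Nat → Nat → (Nat → Nat → Nat → Nat → Nat → Nat → Nat → Nat → Nat → Nat → Nat → Nat →
    Nat → Nat → Nat → Nat → Nat → Nat → Nat → Nat → Nat → Nat → Nat → Nat → Nat → Nat → Nat → Nat →
    Nat → Nat → Nat → Nat → Nat → Nat → Nat → Nat → Nat → Nat → Nat → Nat → Nat → Nat → Nat → Nat →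
    Nat → Nat → Nat → Nat → Nat)) :=
  Bx.mk fun a x d d0 d1 d2 d3 d4 d5 d6 d7 d8 d9 d10 d11 d12 d13 d14 d15 d16 d17 d18 d19 d20 d21 d22
  d23 d24 d25 d26 d27 d28 d29 d30 d31 d32 d33 d34 d35 d36 d37 d38 d39 d40 d41 d42 d43 d44 d45 d46
  d47 => (fold (Nat.add (Nat.add (Nat.add (Nat.add (Nat.add (fold (Nat.add (Nat.add (Nat.add
  (Nat.add (Nat.add (Nat.add (Nat.add (fold (Nat.add (Nat.mul (nat_lit 3) (Nat.add (Nat.add (Nat.add
  (Nat.add (Nat.add (Nat.add (Nat.add (Z a x d3) (Z a x d6)) (Z a x d12)) (Z a x d15)) (Z a x d30))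
  (Z a x d33)) (Z a x d39)) (Z a x d42))) (Nat.mul (nat_lit 2) (Nat.add (Nat.add (Nat.add (Z a x d0)
  (Z a x d18)) (Z a x d27)) (Z a x d45)))) (mo Y d (nat_lit 0))) (Nat.mul (nat_lit 6) (fold (Nat.add
  (Nat.add (Nat.add (Nat.add (Nat.add (Nat.add (Nat.add (Nat.add (Z a x d2) (Z a x d4)) (Z a x d5))
  (Z a x d7)) (Z a x d11)) (Z a x d13)) (Z a x d14)) (Z a x d16)) (Nat.add (Nat.add (Nat.add
  (Nat.add (Nat.add (Nat.add (Nat.add (Z a x d29) (Z a x d31)) (Z a x d32)) (Z a x d34)) (Z a x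
  d38)) (Z a x d40)) (Z a x d41)) (Z a x d43))) (mo Y d (nat_lit 0))))) (Z a x d)) (Z a x d1)) (Z a
  x d9)) (Z a x d17)) (Z a x d19)) (Nat.mul (nat_lit 5) (Nat.add (Nat.add (Nat.add (Z a x d8) (Z a x
  d10)) (Z a x d35)) (Z a x d37)))) (mo Y d (nat_lit 0))) (Z a x d26)) (Z a x d28)) (Z a x d36)) (Z
  a x d44)) (Z a x d46)) (mo Y d (nat_lit 0)))

/-- compiled program -/
def b11_47r : Prog3 := fun Y Z => Bx.mk fun a x d =>
  ((b11m48D d).1 ((b11_47e Y Z).1 a x d))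

/-- compiled program -/
def b11_48e (Y : Lay) (Z : Tc) :
    Bx (Nat → Nat → Nat → (Nat → Nat → Nat → Nat → Nat → Nat → Nat → Nat → Nat → Nat → Nat → Nat →
    Nat → Nat → Nat → Nat → Nat → Nat → Nat → Nat → Nat → Nat → Nat → Nat → Nat → Nat → Nat → Nat →
    Nat → Nat → Nat → Nat → Nat → Nat → Nat → Nat → Nat → Nat → Nat → Nat → Nat → Nat → Nat → Nat →
    Nat → Nat → Nat → Nat → Nat)) :=
  Bx.mk fun a x d d0 d1 d2 d3 d4 d5 d6 d7 d8 d9 d10 d11 d12 d13 d14 d15 d16 d17 d18 d19 d20 d21 d22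
  d23 d24 d25 d26 d27 d28 d29 d30 d31 d32 d33 d34 d35 d36 d37 d38 d39 d40 d41 d42 d43 d44 d45 d46
  d47 => (fold (Nat.add (Nat.add (Nat.add (Nat.add (Nat.add (Nat.add (Nat.mul (nat_lit 3) (fold
  (Nat.add (Nat.add (Nat.add (Nat.add (Nat.add (Nat.add (Nat.add (Nat.add (Nat.add (Nat.add (Nat.add
  (Z a x d0) (Z a x d1)) (Z a x d5)) (Z a x d14)) (Z a x d18)) (Z a x d19)) (Z a x d27)) (Z a x
  d28)) (Z a x d32)) (Z a x d41)) (Z a x d45)) (Z a x d46)) (mo Y d (nat_lit 0)))) (Nat.mul (nat_lit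
  8) (fold (Nat.add (Nat.mul (nat_lit 3) (Nat.add (Nat.add (Nat.add (Z a x d9) (Z a x d10)) (Z a x
  d36)) (Z a x d37))) (Nat.mul (nat_lit 2) (Nat.add (Nat.add (Nat.add (Z a x d2) (Z a x d17)) (Z a x
  d29)) (Z a x d44)))) (mo Y d (nat_lit 0))))) (Z a x d)) (Z a x d20)) (Z a x d26)) (Nat.mul
  (nat_lit 2) (Nat.add (Nat.add (Nat.add (Z a x d8) (Z a x d11)) (Z a x d35)) (Z a x d38)))) (Z a x
  d47)) (mo Y d (nat_lit 0)))

/-- compiled program -/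
def b11_48r : Prog3 := fun Y Z => Bx.mk fun a x d =>
  ((b11m48D d).1 ((b11_48e Y Z).1 a x d))

/-- keys -/
def b11m64D (c : Nat) :
    Bx ((Nat → Nat → Nat → Nat → Nat → Nat → Nat → Nat → Nat → Nat → Nat → Nat → Nat → Nat → Nat →
    Nat → Nat → Nat → Nat → Nat → Nat → Nat → Nat → Nat → Nat → Nat → Nat → Nat → Nat → Nat → Nat →
    Nat → Nat → Nat → Nat → Nat → Nat → Nat → Nat → Nat → Nat → Nat → Nat → Nat → Nat → Nat → Nat →
    Nat → Nat → Nat → Nat → Nat → Nat → Nat → Nat → Nat → Nat → Nat → Nat → Nat → Nat → Nat → Nat →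
    Nat → Nat) → Nat) :=
  bs64 Nat c (nat_lit 1) (nat_lit 2) (nat_lit 3) (nat_lit 4) (nat_lit 5) (nat_lit 6) (nat_lit 7)
  (nat_lit 8) (nat_lit 9) (nat_lit 10) (nat_lit 11) (nat_lit 12) (nat_lit 13) (nat_lit 14) (nat_lit
  15) (nat_lit 16) (nat_lit 17) (nat_lit 18) (nat_lit 19) (nat_lit 20) (nat_lit 21) (nat_lit 22)
  (nat_lit 23) (nat_lit 24) (nat_lit 25) (nat_lit 26) (nat_lit 27) (nat_lit 28) (nat_lit 29)
  (nat_lit 30) (nat_lit 31) (nat_lit 32) (nat_lit 33) (nat_lit 34) (nat_lit 35) (nat_lit 36)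
  (nat_lit 37) (nat_lit 38) (nat_lit 39) (nat_lit 40) (nat_lit 41) (nat_lit 42) (nat_lit 43)
  (nat_lit 44) (nat_lit 45) (nat_lit 46) (nat_lit 47) (nat_lit 48) (nat_lit 49) (nat_lit 50)
  (nat_lit 51) (nat_lit 52) (nat_lit 53) (nat_lit 54) (nat_lit 55) (nat_lit 56) (nat_lit 57)
  (nat_lit 58) (nat_lit 59) (nat_lit 60) (nat_lit 61) (nat_lit 62) (nat_lit 63) (nat_lit 64)

/-- compiled program -/
def b11_49e (Y : Lay) (Z : Tc) :
    Bx (Nat → Nat → Nat → (Nat → Nat → Nat → Nat → Nat → Nat → Nat → Nat → Nat → Nat → Nat → Nat →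
    Nat → Nat → Nat → Nat → Nat → Nat → Nat → Nat → Nat → Nat → Nat → Nat → Nat → Nat → Nat → Nat →
    Nat → Nat → Nat → Nat → Nat → Nat → Nat → Nat → Nat → Nat → Nat → Nat → Nat → Nat → Nat → Nat →
    Nat → Nat → Nat → Nat → Nat → Nat → Nat → Nat → Nat → Nat → Nat → Nat → Nat → Nat → Nat → Nat →
    Nat → Nat → Nat → Nat → Nat)) :=
  Bx.mk fun a x d d0 d1 d2 d3 d4 d5 d6 d7 d8 d9 d10 d11 d12 d13 d14 d15 d16 d17 d18 d19 d20 d21 d22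
  d23 d24 d25 d26 d27 d28 d29 d30 d31 d32 d33 d34 d35 d36 d37 d38 d39 d40 d41 d42 d43 d44 d45 d46
  d47 d48 d49 d50 d51 d52 d53 d54 d55 d56 d57 d58 d59 d60 d61 d62 d63 => (fold (Nat.add (Nat.add
  (Nat.add (Nat.add (Nat.add (Nat.add (Nat.add (fold (Nat.add (Nat.add (Nat.mul (nat_lit 8) (fold
  (Nat.add (Nat.add (Nat.add (Nat.add (Nat.add (Z a x d9) (Z a x d11)) (Z a x d36)) (Z a x d38))
  (Nat.mul (nat_lit 2) (Nat.add (Nat.add (Nat.add (Z a x d3) (Z a x d17)) (Z a x d30)) (Z a x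
  d44)))) (Nat.mul (nat_lit 3) (Nat.add (Nat.add (Nat.add (Z a x d1) (Z a x d19)) (Z a x d28)) (Z a
  x d46)))) (mo Y d (nat_lit 0)))) (Nat.mul (nat_lit 2) (Nat.add (Nat.add (Nat.add (Z a x d8) (Z a x
  d12)) (Z a x d35)) (Z a x d39)))) (Nat.mul (nat_lit 4) (Nat.add (Nat.add (Nat.add (Z a x d0) (Z a
  x d20)) (Z a x d27)) (Z a x d47)))) (mo Y d (nat_lit 0))) (fold (Nat.add (Nat.add (Z a x d) (Z a x
  d2)) (Nat.mul (nat_lit 3) (Nat.add (Nat.add (Nat.add (Nat.add (Nat.add (Nat.add (Nat.add (Nat.add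
  (Nat.add (Z a x d5) (Z a x d6)) (Z a x d10)) (Z a x d14)) (Z a x d15)) (Z a x d32)) (Z a x d33))
  (Z a x d37)) (Z a x d41)) (Z a x d42)))) (mo Y d (nat_lit 0)))) (Z a x d18)) (Z a x d21)) (Z a x
  d26)) (Z a x d29)) (Z a x d45)) (Z a x d48)) (mo Y d (nat_lit 0)))

/-- compiled program -/
def b11_49r : Prog3 := fun Y Z => Bx.mk fun a x d =>
  ((b11m64D d).1 ((b11_49e Y Z).1 a x d))

/-- compiled program -/
def b11_50e (Y : Lay) (Z : Tc) :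
    Bx (Nat → Nat → Nat → (Nat → Nat → Nat → Nat → Nat → Nat → Nat → Nat → Nat → Nat → Nat → Nat →
    Nat → Nat → Nat → Nat → Nat → Nat → Nat → Nat → Nat → Nat → Nat → Nat → Nat → Nat → Nat → Nat →
    Nat → Nat → Nat → Nat → Nat → Nat → Nat → Nat → Nat → Nat → Nat → Nat → Nat → Nat → Nat → Nat →
    Nat → Nat → Nat → Nat → Nat → Nat → Nat → Nat → Nat → Nat → Nat → Nat → Nat → Nat → Nat → Nat →
    Nat → Nat → Nat → Nat → Nat)) :=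
  Bx.mk fun a x d d0 d1 d2 d3 d4 d5 d6 d7 d8 d9 d10 d11 d12 d13 d14 d15 d16 d17 d18 d19 d20 d21 d22
  d23 d24 d25 d26 d27 d28 d29 d30 d31 d32 d33 d34 d35 d36 d37 d38 d39 d40 d41 d42 d43 d44 d45 d46
  d47 d48 d49 d50 d51 d52 d53 d54 d55 d56 d57 d58 d59 d60 d61 d62 d63 => (fold (Nat.add (Nat.add
  (fold (Nat.add (Nat.add (Nat.add (Nat.add (Nat.add (Nat.add (Nat.add (fold (Nat.add (Nat.mul
  (nat_lit 8) (fold (Nat.add (Nat.add (Nat.add (Nat.add (Nat.add (Z a x d3) (Z a x d18)) (Z a x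
  d30)) (Nat.mul (nat_lit 3) (Nat.add (Nat.add (Nat.add (Z a x d6) (Z a x d15)) (Z a x d33)) (Z a x
  d42)))) (Z a x d45)) (Nat.mul (nat_lit 2) (Nat.add (Nat.add (Nat.add (Nat.add (Nat.add (Nat.add
  (Nat.add (Z a x d2) (Z a x d4)) (Z a x d17)) (Z a x d19)) (Z a x d29)) (Z a x d31)) (Z a x d44))
  (Z a x d46)))) (mo Y d (nat_lit 0)))) (Nat.mul (nat_lit 3) (Nat.add (Nat.add (Nat.add (Nat.add
  (Nat.add (Nat.add (Nat.add (Z a x d5) (Z a x d7)) (Z a x d14)) (Z a x d16)) (Z a x d32)) (Z a x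
  d34)) (Z a x d41)) (Z a x d43)))) (mo Y d (nat_lit 0))) (Z a x d)) (Z a x d1)) (Z a x d9)) (Z a x
  d12)) (Z a x d20)) (Z a x d22)) (Nat.add (Nat.add (Nat.add (Nat.add (Nat.add (Z a x d26) (Z a x
  d28)) (Z a x d36)) (Z a x d39)) (Z a x d47)) (Nat.mul (nat_lit 5) (Nat.add (Nat.add (Nat.add (Z a
  x d0) (Z a x d21)) (Z a x d27)) (Z a x d48))))) (mo Y d (nat_lit 0))) (Nat.mul (nat_lit 2)
  (Nat.add (Nat.add (Nat.add (Nat.add (Nat.add (Nat.add (Nat.add (Z a x d8) (Z a x d10)) (Z a x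
  d11)) (Z a x d13)) (Z a x d35)) (Z a x d37)) (Z a x d38)) (Z a x d40)))) (Z a x d49)) (mo Y d
  (nat_lit 0)))

/-- compiled program -/
def b11_50r : Prog3 := fun Y Z => Bx.mk fun a x d =>
  ((b11m64D d).1 ((b11_50e Y Z).1 a x d))

/-- compiled program -/
def b11_51e (Y : Lay) (Z : Tc) :
    Bx (Nat → Nat → Nat → (Nat → Nat → Nat → Nat → Nat → Nat → Nat → Nat → Nat → Nat → Nat → Nat →
    Nat → Nat → Nat → Nat → Nat → Nat → Nat → Nat → Nat → Nat → Nat → Nat → Nat → Nat → Nat → Nat →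
    Nat → Nat → Nat → Nat → Nat → Nat → Nat → Nat → Nat → Nat → Nat → Nat → Nat → Nat → Nat → Nat →
    Nat → Nat → Nat → Nat → Nat → Nat → Nat → Nat → Nat → Nat → Nat → Nat → Nat → Nat → Nat → Nat →
    Nat → Nat → Nat → Nat → Nat)) :=
  Bx.mk fun a x d d0 d1 d2 d3 d4 d5 d6 d7 d8 d9 d10 d11 d12 d13 d14 d15 d16 d17 d18 d19 d20 d21 d22
  d23 d24 d25 d26 d27 d28 d29 d30 d31 d32 d33 d34 d35 d36 d37 d38 d39 d40 d41 d42 d43 d44 d45 d46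
  d47 d48 d49 d50 d51 d52 d53 d54 d55 d56 d57 d58 d59 d60 d61 d62 d63 => (fold (Nat.add (Nat.add
  (Nat.add (Nat.add (Nat.add (Nat.add (Nat.add (Nat.add (Nat.add (fold (Nat.add (Nat.mul (nat_lit 8)
  (fold (Nat.add (Nat.add (Nat.add (Nat.add (Nat.add (Nat.mul (nat_lit 3) (fold (Nat.add (Nat.add
  (Nat.add (Nat.add (Nat.add (Nat.add (Nat.add (Nat.add (Z a x d0) (Z a x d1)) (Z a x d3)) (Z a x
  d4)) (Z a x d18)) (Z a x d19)) (Z a x d21)) (Z a x d22)) (Nat.add (Nat.add (Nat.add (Nat.add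
  (Nat.add (Nat.add (Nat.add (Z a x d27) (Z a x d28)) (Z a x d30)) (Z a x d31)) (Z a x d45)) (Z a x
  d46)) (Z a x d48)) (Z a x d49))) (mo Y d (nat_lit 0)))) (Z a x d2)) (Z a x d20)) (Z a x d29))
  (Nat.mul (nat_lit 4) (Nat.add (Nat.add (Nat.add (Z a x d8) (Z a x d14)) (Z a x d35)) (Z a x
  d41)))) (Z a x d47)) (mo Y d (nat_lit 0)))) (Nat.mul (nat_lit 3) (Nat.add (Nat.add (Nat.add
  (Nat.add (Nat.add (Nat.add (Nat.add (Z a x d9) (Z a x d10)) (Z a x d12)) (Z a x d13)) (Z a x d36))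
  (Z a x d37)) (Z a x d39)) (Z a x d40)))) (mo Y d (nat_lit 0))) (Z a x d)) (Z a x d5)) (Z a x d17))
  (Z a x d23)) (Z a x d26)) (Z a x d32)) (Nat.mul (nat_lit 4) (Nat.add (Z a x d11) (Z a x d38)))) (Z
  a x d44)) (Z a x d50)) (mo Y d (nat_lit 0)))

/-- compiled program -/
def b11_51r : Prog3 := fun Y Z => Bx.mk fun a x d =>
  ((b11m64D d).1 ((b11_51e Y Z).1 a x d))

/-- compiled program -/
def b11_52e (Y : Lay) (Z : Tc) :
    Bx (Nat → Nat → Nat → (Nat → Nat → Nat → Nat → Nat → Nat → Nat → Nat → Nat → Nat → Nat → Nat →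
    Nat → Nat → Nat → Nat → Nat → Nat → Nat → Nat → Nat → Nat → Nat → Nat → Nat → Nat → Nat → Nat →
    Nat → Nat → Nat → Nat → Nat → Nat → Nat → Nat → Nat → Nat → Nat → Nat → Nat → Nat → Nat → Nat →
    Nat → Nat → Nat → Nat → Nat → Nat → Nat → Nat → Nat → Nat → Nat → Nat → Nat → Nat → Nat → Nat →
    Nat → Nat → Nat → Nat → Nat)) :=
  Bx.mk fun a x d d0 d1 d2 d3 d4 d5 d6 d7 d8 d9 d10 d11 d12 d13 d14 d15 d16 d17 d18 d19 d20 d21 d22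
  d23 d24 d25 d26 d27 d28 d29 d30 d31 d32 d33 d34 d35 d36 d37 d38 d39 d40 d41 d42 d43 d44 d45 d46
  d47 d48 d49 d50 d51 d52 d53 d54 d55 d56 d57 d58 d59 d60 d61 d62 d63 => (fold (Nat.add (fold
  (Nat.add (Nat.add (Nat.add (Nat.add (Nat.add (Nat.add (Nat.add (Nat.add (fold (Nat.add (Nat.mul
  (nat_lit 8) (fold (Nat.add (Nat.add (Nat.add (Nat.add (Nat.add (Nat.mul (nat_lit 4) (fold (Nat.add
  (Nat.add (Nat.add (Nat.add (Nat.add (Nat.add (Nat.add (Nat.add (Nat.add (Nat.add (Nat.add (Z a x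
  d2) (Z a x d3)) (Z a x d8)) (Z a x d15)) (Z a x d20)) (Z a x d21)) (Z a x d29)) (Z a x d30)) (Z a
  x d35)) (Z a x d42)) (Z a x d47)) (Z a x d48)) (mo Y d (nat_lit 0)))) (Z a x d9)) (Z a x d14)) (Z
  a x d36)) (Z a x d41)) (Nat.mul (nat_lit 2) (Nat.add (Nat.add (Nat.add (Nat.add (Nat.add (Nat.add
  (Nat.add (Nat.add (Nat.add (Nat.add (Nat.add (Z a x d0) (Z a x d5)) (Z a x d11)) (Z a x d12)) (Z a
  x d18)) (Z a x d23)) (Z a x d27)) (Z a x d32)) (Z a x d38)) (Z a x d39)) (Z a x d45)) (Z a x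
  d50)))) (mo Y d (nat_lit 0)))) (Nat.mul (nat_lit 6) (Nat.add (Nat.add (Nat.add (Z a x d10) (Z a x
  d13)) (Z a x d37)) (Z a x d40)))) (mo Y d (nat_lit 0))) (Z a x d)) (Z a x d6)) (Z a x d17)) (Z a x
  d24)) (Z a x d26)) (Z a x d33)) (Z a x d44)) (Nat.mul (nat_lit 3) (Nat.add (Nat.add (Nat.add
  (Nat.add (Nat.add (Nat.add (Nat.add (Z a x d1) (Z a x d4)) (Z a x d19)) (Z a x d22)) (Z a x d28))
  (Z a x d31)) (Z a x d46)) (Z a x d49)))) (mo Y d (nat_lit 0))) (Z a x d51)) (mo Y d (nat_lit 0)))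

/-- compiled program -/
def b11_52r : Prog3 := fun Y Z => Bx.mk fun a x d =>
  ((b11m64D d).1 ((b11_52e Y Z).1 a x d))

/-- compiled program -/
def b11_53e (Y : Lay) (Z : Tc) :
    Bx (Nat → Nat → Nat → (Nat → Nat → Nat → Nat → Nat → Nat → Nat → Nat → Nat → Nat → Nat → Nat →
    Nat → Nat → Nat → Nat → Nat → Nat → Nat → Nat → Nat → Nat → Nat → Nat → Nat → Nat → Nat → Nat →
    Nat → Nat → Nat → Nat → Nat → Nat → Nat → Nat → Nat → Nat → Nat → Nat → Nat → Nat → Nat → Nat →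
    Nat → Nat → Nat → Nat → Nat → Nat → Nat → Nat → Nat → Nat → Nat → Nat → Nat → Nat → Nat → Nat →
    Nat → Nat → Nat → Nat → Nat)) :=
  Bx.mk fun a x d d0 d1 d2 d3 d4 d5 d6 d7 d8 d9 d10 d11 d12 d13 d14 d15 d16 d17 d18 d19 d20 d21 d22
  d23 d24 d25 d26 d27 d28 d29 d30 d31 d32 d33 d34 d35 d36 d37 d38 d39 d40 d41 d42 d43 d44 d45 d46
  d47 d48 d49 d50 d51 d52 d53 d54 d55 d56 d57 d58 d59 d60 d61 d62 d63 => (fold (Nat.add (Nat.add
  (Nat.add (Nat.add (Nat.add (Nat.add (Nat.add (Nat.add (Nat.add (Nat.add (Nat.add (fold (Nat.mul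
  (nat_lit 4) (Nat.add (Nat.add (Nat.add (Nat.add (Nat.add (Nat.add (Nat.add (Z a x d9) (Z a x d11))
  (Z a x d13)) (Z a x d15)) (Z a x d36)) (Z a x d38)) (Z a x d40)) (Z a x d42))) (mo Y d (nat_lit
  0))) (Nat.mul (nat_lit 8) (fold (Nat.add (Nat.add (Nat.add (Nat.add (Nat.add (Nat.add (Nat.add
  (Nat.add (Nat.add (Nat.mul (nat_lit 4) (fold (Nat.add (Nat.add (Nat.add (Nat.add (Nat.add (Nat.add
  (Nat.add (Nat.add (Nat.add (Z a x d8) (Z a x d10)) (Z a x d12)) (Z a x d14)) (Z a x d16)) (Z a x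
  d35)) (Z a x d37)) (Z a x d39)) (Z a x d41)) (Z a x d43)) (mo Y d (nat_lit 0)))) (Z a x d0)) (Z a
  x d2)) (Z a x d4)) (Z a x d6)) (Z a x d18)) (Z a x d20)) (Z a x d22)) (Z a x d24)) (Nat.add
  (Nat.add (Nat.add (Nat.add (Nat.add (Nat.add (Nat.add (Z a x d27) (Z a x d29)) (Z a x d31)) (Z a x
  d33)) (Z a x d45)) (Z a x d47)) (Z a x d49)) (Z a x d51))) (mo Y d (nat_lit 0))))) (Z a x d)) (Z a
  x d1)) (Z a x d3)) (Z a x d5)) (Z a x d7)) (Z a x d17)) (Z a x d19)) (Z a x d21)) (Z a x d23))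
  (Nat.add (Nat.add (Nat.add (Nat.add (Nat.add (Nat.add (Nat.add (Nat.add (Nat.add (Nat.add (Z a x
  d25) (Z a x d26)) (Z a x d28)) (Z a x d30)) (Z a x d32)) (Z a x d34)) (Z a x d44)) (Z a x d46)) (Z
  a x d48)) (Z a x d50)) (Z a x d52))) (mo Y d (nat_lit 0)))

/-- compiled program -/
def b11_53r : Prog3 := fun Y Z => Bx.mk fun a x d =>
  ((b11m64D d).1 ((b11_53e Y Z).1 a x d))

/-- compiled program -/
def b11_54e (Y : Lay) (Z : Tc) :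
    Bx (Nat → Nat → Nat → (Nat → Nat → Nat → Nat → Nat → Nat → Nat → Nat → Nat → Nat → Nat → Nat →
    Nat → Nat → Nat → Nat → Nat → Nat → Nat → Nat → Nat → Nat → Nat → Nat → Nat → Nat → Nat → Nat →
    Nat → Nat → Nat → Nat → Nat → Nat → Nat → Nat → Nat → Nat → Nat → Nat → Nat → Nat → Nat → Nat →
    Nat → Nat → Nat → Nat → Nat → Nat → Nat → Nat → Nat → Nat → Nat → Nat → Nat → Nat → Nat → Nat →
    Nat → Nat → Nat → Nat → Nat)) :=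
  Bx.mk fun a x d d0 d1 d2 d3 d4 d5 d6 d7 d8 d9 d10 d11 d12 d13 d14 d15 d16 d17 d18 d19 d20 d21 d22
  d23 d24 d25 d26 d27 d28 d29 d30 d31 d32 d33 d34 d35 d36 d37 d38 d39 d40 d41 d42 d43 d44 d45 d46
  d47 d48 d49 d50 d51 d52 d53 d54 d55 d56 d57 d58 d59 d60 d61 d62 d63 => (fold (Nat.add (Nat.add
  (Nat.add (Nat.mul (nat_lit 2) (Z a x d26)) (Z a x d)) (Nat.mul (nat_lit 6) (Nat.add (Nat.add
  (Nat.add (Z a x d8) (Z a x d17)) (Z a x d35)) (Z a x d44)))) (Z a x d53)) (mo Y d (nat_lit 0)))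

/-- compiled program -/
def b11_54r : Prog3 := fun Y Z => Bx.mk fun a x d =>
  ((b11m64D d).1 ((b11_54e Y Z).1 a x d))

/-- compiled program -/
def b11_55e (Y : Lay) (Z : Tc) :
    Bx (Nat → Nat → Nat → (Nat → Nat → Nat → Nat → Nat → Nat → Nat → Nat → Nat → Nat → Nat → Nat →
    Nat → Nat → Nat → Nat → Nat → Nat → Nat → Nat → Nat → Nat → Nat → Nat → Nat → Nat → Nat → Nat →
    Nat → Nat → Nat → Nat → Nat → Nat → Nat → Nat → Nat → Nat → Nat → Nat → Nat → Nat → Nat → Nat →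
    Nat → Nat → Nat → Nat → Nat → Nat → Nat → Nat → Nat → Nat → Nat → Nat → Nat → Nat → Nat → Nat →
    Nat → Nat → Nat → Nat → Nat)) :=
  Bx.mk fun a x d d0 d1 d2 d3 d4 d5 d6 d7 d8 d9 d10 d11 d12 d13 d14 d15 d16 d17 d18 d19 d20 d21 d22
  d23 d24 d25 d26 d27 d28 d29 d30 d31 d32 d33 d34 d35 d36 d37 d38 d39 d40 d41 d42 d43 d44 d45 d46
  d47 d48 d49 d50 d51 d52 d53 d54 d55 d56 d57 d58 d59 d60 d61 d62 d63 => (fold (Nat.add (Nat.add
  (Nat.add (Nat.add (Nat.add (Nat.mul (nat_lit 6) (fold (Nat.add (Nat.add (Nat.add (Nat.add (Nat.add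
  (Nat.add (Nat.add (Z a x d8) (Z a x d9)) (Z a x d17)) (Z a x d18)) (Z a x d35)) (Z a x d36)) (Z a
  x d44)) (Z a x d45)) (mo Y d (nat_lit 0)))) (Z a x d)) (Z a x d0)) (Nat.mul (nat_lit 2) (Nat.add
  (Z a x d26) (Z a x d27)))) (Z a x d53)) (Z a x d54)) (mo Y d (nat_lit 0)))

/-- compiled program -/
def b11_55r : Prog3 := fun Y Z => Bx.mk fun a x d =>
  ((b11m64D d).1 ((b11_55e Y Z).1 a x d))

/-- compiled program -/
def b11_56e (Y : Lay) (Z : Tc) :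
    Bx (Nat → Nat → Nat → (Nat → Nat → Nat → Nat → Nat → Nat → Nat → Nat → Nat → Nat → Nat → Nat →
    Nat → Nat → Nat → Nat → Nat → Nat → Nat → Nat → Nat → Nat → Nat → Nat → Nat → Nat → Nat → Nat →
    Nat → Nat → Nat → Nat → Nat → Nat → Nat → Nat → Nat → Nat → Nat → Nat → Nat → Nat → Nat → Nat →
    Nat → Nat → Nat → Nat → Nat → Nat → Nat → Nat → Nat → Nat → Nat → Nat → Nat → Nat → Nat → Nat →
    Nat → Nat → Nat → Nat → Nat)) :=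
  Bx.mk fun a x d d0 d1 d2 d3 d4 d5 d6 d7 d8 d9 d10 d11 d12 d13 d14 d15 d16 d17 d18 d19 d20 d21 d22
  d23 d24 d25 d26 d27 d28 d29 d30 d31 d32 d33 d34 d35 d36 d37 d38 d39 d40 d41 d42 d43 d44 d45 d46
  d47 d48 d49 d50 d51 d52 d53 d54 d55 d56 d57 d58 d59 d60 d61 d62 d63 => (fold (Nat.add (Nat.add
  (fold (Nat.add (Nat.add (Nat.add (Nat.add (Nat.add (Nat.mul (nat_lit 6) (fold (Nat.add (Nat.add
  (Nat.add (Nat.add (Nat.add (Nat.add (Nat.add (Z a x d8) (Z a x d10)) (Z a x d17)) (Z a x d19)) (Z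
  a x d35)) (Z a x d37)) (Z a x d44)) (Z a x d46)) (mo Y d (nat_lit 0)))) (Z a x d)) (Z a x d1))
  (Nat.mul (nat_lit 4) (Z a x d27))) (Nat.mul (nat_lit 3) (Nat.add (Nat.add (Nat.add (Z a x d9) (Z a
  x d18)) (Z a x d36)) (Z a x d45)))) (Nat.mul (nat_lit 2) (Nat.add (Nat.add (Nat.add (Z a x d0) (Z
  a x d26)) (Z a x d28)) (Z a x d54)))) (mo Y d (nat_lit 0))) (Z a x d53)) (Z a x d55)) (mo Y d
  (nat_lit 0)))

/-- compiled program -/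
def b11_56r : Prog3 := fun Y Z => Bx.mk fun a x d =>
  ((b11m64D d).1 ((b11_56e Y Z).1 a x d))

/-- compiled program -/
def b11_57e (Y : Lay) (Z : Tc) :
    Bx (Nat → Nat → Nat → (Nat → Nat → Nat → Nat → Nat → Nat → Nat → Nat → Nat → Nat → Nat → Nat →
    Nat → Nat → Nat → Nat → Nat → Nat → Nat → Nat → Nat → Nat → Nat → Nat → Nat → Nat → Nat → Nat →
    Nat → Nat → Nat → Nat → Nat → Nat → Nat → Nat → Nat → Nat → Nat → Nat → Nat → Nat → Nat → Nat →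
    Nat → Nat → Nat → Nat → Nat → Nat → Nat → Nat → Nat → Nat → Nat → Nat → Nat → Nat → Nat → Nat →
    Nat → Nat → Nat → Nat → Nat)) :=
  Bx.mk fun a x d d0 d1 d2 d3 d4 d5 d6 d7 d8 d9 d10 d11 d12 d13 d14 d15 d16 d17 d18 d19 d20 d21 d22
  d23 d24 d25 d26 d27 d28 d29 d30 d31 d32 d33 d34 d35 d36 d37 d38 d39 d40 d41 d42 d43 d44 d45 d46
  d47 d48 d49 d50 d51 d52 d53 d54 d55 d56 d57 d58 d59 d60 d61 d62 d63 => (fold (Nat.add (Nat.add
  (Nat.add (Nat.add (Nat.add (Nat.add (Nat.mul (nat_lit 6) (fold (Nat.add (Nat.add (Nat.add (Nat.add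
  (Nat.add (Nat.add (Nat.add (Nat.add (Nat.add (Z a x d8) (Z a x d11)) (Z a x d17)) (Z a x d20)) (Z
  a x d27)) (Z a x d28)) (Z a x d35)) (Z a x d38)) (Z a x d44)) (Z a x d47)) (mo Y d (nat_lit 0))))
  (Z a x d)) (Z a x d2)) (Nat.mul (nat_lit 2) (Nat.add (Z a x d26) (Z a x d29)))) (Z a x d53))
  (Nat.mul (nat_lit 3) (Nat.add (Nat.add (Nat.add (Z a x d0) (Z a x d1)) (Z a x d54)) (Z a x d55))))
  (Z a x d56)) (mo Y d (nat_lit 0)))

/-- compiled program -/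
def b11_57r : Prog3 := fun Y Z => Bx.mk fun a x d =>
  ((b11m64D d).1 ((b11_57e Y Z).1 a x d))

/-- compiled program -/
def b11_58e (Y : Lay) (Z : Tc) :
    Bx (Nat → Nat → Nat → (Nat → Nat → Nat → Nat → Nat → Nat → Nat → Nat → Nat → Nat → Nat → Nat →
    Nat → Nat → Nat → Nat → Nat → Nat → Nat → Nat → Nat → Nat → Nat → Nat → Nat → Nat → Nat → Nat →
    Nat → Nat → Nat → Nat → Nat → Nat → Nat → Nat → Nat → Nat → Nat → Nat → Nat → Nat → Nat → Nat →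
    Nat → Nat → Nat → Nat → Nat → Nat → Nat → Nat → Nat → Nat → Nat → Nat → Nat → Nat → Nat → Nat →
    Nat → Nat → Nat → Nat → Nat)) :=
  Bx.mk fun a x d d0 d1 d2 d3 d4 d5 d6 d7 d8 d9 d10 d11 d12 d13 d14 d15 d16 d17 d18 d19 d20 d21 d22
  d23 d24 d25 d26 d27 d28 d29 d30 d31 d32 d33 d34 d35 d36 d37 d38 d39 d40 d41 d42 d43 d44 d45 d46
  d47 d48 d49 d50 d51 d52 d53 d54 d55 d56 d57 d58 d59 d60 d61 d62 d63 => (fold (Nat.add (Nat.add
  (Nat.add (Nat.add (Nat.add (Nat.add (Nat.add (fold (Nat.add (Nat.mul (nat_lit 8) (Nat.add (Z a x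
  d27) (Z a x d29))) (Nat.mul (nat_lit 4) (Nat.add (Nat.add (Nat.add (Z a x d0) (Z a x d2)) (Z a x
  d54)) (Z a x d56)))) (mo Y d (nat_lit 0))) (Nat.mul (nat_lit 6) (fold (Nat.add (Nat.add (Nat.add
  (Nat.add (Nat.add (Nat.add (Nat.add (Nat.add (Nat.add (Z a x d1) (Z a x d8)) (Z a x d9)) (Z a x
  d11)) (Z a x d12)) (Z a x d17)) (Z a x d18)) (Z a x d20)) (Z a x d21)) (Nat.add (Nat.add (Nat.add
  (Nat.add (Nat.add (Nat.add (Nat.add (Nat.add (Z a x d35) (Z a x d36)) (Z a x d38)) (Z a x d39)) (Z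
  a x d44)) (Z a x d45)) (Z a x d47)) (Z a x d48)) (Z a x d55))) (mo Y d (nat_lit 0))))) (Z a x d))
  (Z a x d3)) (Nat.mul (nat_lit 3) (Z a x d28))) (Nat.mul (nat_lit 2) (Nat.add (Z a x d26) (Z a x
  d30)))) (Z a x d53)) (Z a x d57)) (mo Y d (nat_lit 0)))

/-- compiled program -/
def b11_58r : Prog3 := fun Y Z => Bx.mk fun a x d =>
  ((b11m64D d).1 ((b11_58e Y Z).1 a x d))

/-- compiled program -/
def b11_59e (Y : Lay) (Z : Tc) :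
    Bx (Nat → Nat → Nat → (Nat → Nat → Nat → Nat → Nat → Nat → Nat → Nat → Nat → Nat → Nat → Nat →
    Nat → Nat → Nat → Nat → Nat → Nat → Nat → Nat → Nat → Nat → Nat → Nat → Nat → Nat → Nat → Nat →
    Nat → Nat → Nat → Nat → Nat → Nat → Nat → Nat → Nat → Nat → Nat → Nat → Nat → Nat → Nat → Nat →
    Nat → Nat → Nat → Nat → Nat → Nat → Nat → Nat → Nat → Nat → Nat → Nat → Nat → Nat → Nat → Nat →
    Nat → Nat → Nat → Nat → Nat)) :=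
  Bx.mk fun a x d d0 d1 d2 d3 d4 d5 d6 d7 d8 d9 d10 d11 d12 d13 d14 d15 d16 d17 d18 d19 d20 d21 d22
  d23 d24 d25 d26 d27 d28 d29 d30 d31 d32 d33 d34 d35 d36 d37 d38 d39 d40 d41 d42 d43 d44 d45 d46
  d47 d48 d49 d50 d51 d52 d53 d54 d55 d56 d57 d58 d59 d60 d61 d62 d63 => (fold (Nat.add (Nat.add
  (Nat.add (Nat.add (Nat.add (fold (Nat.add (Nat.add (Nat.add (Nat.add (Nat.add (Nat.add (Nat.add
  (fold (Nat.add (Nat.mul (nat_lit 2) (Nat.add (Nat.add (Nat.add (Z a x d26) (Z a x d28)) (Z a x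
  d29)) (Z a x d31))) (Nat.mul (nat_lit 3) (Nat.add (Nat.add (Nat.add (Nat.add (Nat.add (Nat.add
  (Nat.add (Z a x d9) (Z a x d12)) (Z a x d18)) (Z a x d21)) (Z a x d36)) (Z a x d39)) (Z a x d45))
  (Z a x d48)))) (mo Y d (nat_lit 0))) (Nat.mul (nat_lit 6) (fold (Nat.add (Nat.add (Nat.add
  (Nat.add (Nat.add (Nat.add (Nat.add (Nat.add (Z a x d8) (Z a x d10)) (Z a x d11)) (Z a x d13)) (Z
  a x d17)) (Z a x d19)) (Z a x d20)) (Z a x d22)) (Nat.add (Nat.add (Nat.add (Nat.add (Nat.add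
  (Nat.add (Nat.add (Z a x d35) (Z a x d37)) (Z a x d38)) (Z a x d40)) (Z a x d44)) (Z a x d46)) (Z
  a x d47)) (Z a x d49))) (mo Y d (nat_lit 0))))) (Z a x d)) (Z a x d1)) (Z a x d2)) (Z a x d4)) (Z
  a x d27)) (Nat.mul (nat_lit 5) (Nat.add (Nat.add (Nat.add (Z a x d0) (Z a x d3)) (Z a x d54)) (Z a
  x d57)))) (mo Y d (nat_lit 0))) (Z a x d30)) (Z a x d53)) (Z a x d55)) (Z a x d56)) (Z a x d58))
  (mo Y d (nat_lit 0)))

/-- compiled program -/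
def b11_59r : Prog3 := fun Y Z => Bx.mk fun a x d =>
  ((b11m64D d).1 ((b11_59e Y Z).1 a x d))

/-- compiled program -/
def b11_60e (Y : Lay) (Z : Tc) :
    Bx (Nat → Nat → Nat → (Nat → Nat → Nat → Nat → Nat → Nat → Nat → Nat → Nat → Nat → Nat → Nat →
    Nat → Nat → Nat → Nat → Nat → Nat → Nat → Nat → Nat → Nat → Nat → Nat → Nat → Nat → Nat → Nat →
    Nat → Nat → Nat → Nat → Nat → Nat → Nat → Nat → Nat → Nat → Nat → Nat → Nat → Nat → Nat → Nat →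
    Nat → Nat → Nat → Nat → Nat → Nat → Nat → Nat → Nat → Nat → Nat → Nat → Nat → Nat → Nat → Nat →
    Nat → Nat → Nat → Nat → Nat)) :=
  Bx.mk fun a x d d0 d1 d2 d3 d4 d5 d6 d7 d8 d9 d10 d11 d12 d13 d14 d15 d16 d17 d18 d19 d20 d21 d22
  d23 d24 d25 d26 d27 d28 d29 d30 d31 d32 d33 d34 d35 d36 d37 d38 d39 d40 d41 d42 d43 d44 d45 d46
  d47 d48 d49 d50 d51 d52 d53 d54 d55 d56 d57 d58 d59 d60 d61 d62 d63 => (fold (Nat.add (Nat.add
  (Nat.add (Nat.add (Nat.add (Nat.add (fold (Nat.add (Nat.mul (nat_lit 3) (Nat.add (Nat.add (Nat.add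
  (Nat.add (Nat.add (Nat.add (Nat.add (Z a x d11) (Z a x d20)) (Z a x d27)) (Z a x d28)) (Z a x
  d30)) (Z a x d31)) (Z a x d38)) (Z a x d47))) (Nat.mul (nat_lit 2) (Nat.add (Nat.add (Nat.add (Z a
  x d2) (Z a x d26)) (Z a x d32)) (Z a x d56)))) (mo Y d (nat_lit 0))) (Nat.mul (nat_lit 6) (fold
  (Nat.add (Nat.add (Nat.add (Nat.add (Nat.add (Nat.add (Nat.add (Nat.add (Z a x d0) (Z a x d1)) (Z
  a x d3)) (Z a x d4)) (Z a x d8)) (Z a x d14)) (Z a x d17)) (Z a x d23)) (Nat.add (Nat.add (Nat.add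
  (Nat.add (Nat.add (Nat.add (Nat.add (Z a x d35) (Z a x d41)) (Z a x d44)) (Z a x d50)) (Z a x
  d54)) (Z a x d55)) (Z a x d57)) (Z a x d58))) (mo Y d (nat_lit 0))))) (Z a x d)) (Z a x d5))
  (Nat.mul (nat_lit 4) (Z a x d29))) (Z a x d53)) (Z a x d59)) (mo Y d (nat_lit 0)))

/-- compiled program -/
def b11_60r : Prog3 := fun Y Z => Bx.mk fun a x d =>
  ((b11m64D d).1 ((b11_60e Y Z).1 a x d))

/-- compiled program -/
def b11_61e (Y : Lay) (Z : Tc) :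
    Bx (Nat → Nat → Nat → (Nat → Nat → Nat → Nat → Nat → Nat → Nat → Nat → Nat → Nat → Nat → Nat →
    Nat → Nat → Nat → Nat → Nat → Nat → Nat → Nat → Nat → Nat → Nat → Nat → Nat → Nat → Nat → Nat →
    Nat → Nat → Nat → Nat → Nat → Nat → Nat → Nat → Nat → Nat → Nat → Nat → Nat → Nat → Nat → Nat →
    Nat → Nat → Nat → Nat → Nat → Nat → Nat → Nat → Nat → Nat → Nat → Nat → Nat → Nat → Nat → Nat →
    Nat → Nat → Nat → Nat → Nat)) :=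
  Bx.mk fun a x d d0 d1 d2 d3 d4 d5 d6 d7 d8 d9 d10 d11 d12 d13 d14 d15 d16 d17 d18 d19 d20 d21 d22
  d23 d24 d25 d26 d27 d28 d29 d30 d31 d32 d33 d34 d35 d36 d37 d38 d39 d40 d41 d42 d43 d44 d45 d46
  d47 d48 d49 d50 d51 d52 d53 d54 d55 d56 d57 d58 d59 d60 d61 d62 d63 => (fold (Nat.add (Nat.add
  (Nat.add (Nat.add (Nat.add (Nat.add (Nat.mul (nat_lit 3) (fold (Nat.add (Nat.add (Nat.add (Nat.add
  (Nat.add (Nat.add (Nat.add (Nat.add (Nat.add (Nat.add (Nat.add (Z a x d1) (Z a x d4)) (Z a x d11))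
  (Z a x d12)) (Z a x d20)) (Z a x d21)) (Z a x d38)) (Z a x d39)) (Z a x d47)) (Z a x d48)) (Z a x
  d55)) (Z a x d58)) (mo Y d (nat_lit 0)))) (Nat.mul (nat_lit 8) (fold (Nat.add (Nat.add (Nat.add
  (Nat.add (Nat.add (Nat.add (Nat.mul (nat_lit 3) (fold (Nat.add (Nat.add (Nat.add (Nat.add (Nat.add
  (Nat.add (Nat.add (Nat.add (Nat.add (Z a x d8) (Z a x d9)) (Z a x d14)) (Z a x d15)) (Z a x d17))
  (Z a x d18)) (Z a x d23)) (Z a x d24)) (Z a x d28)) (Nat.add (Nat.add (Nat.add (Nat.add (Nat.add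
  (Nat.add (Nat.add (Nat.add (Z a x d31) (Z a x d35)) (Z a x d36)) (Z a x d41)) (Z a x d42)) (Z a x
  d44)) (Z a x d45)) (Z a x d50)) (Z a x d51))) (mo Y d (nat_lit 0)))) (Z a x d2)) (Z a x d3))
  (Nat.mul (nat_lit 4) (Nat.add (Z a x d27) (Z a x d32)))) (Z a x d56)) (Z a x d57)) (Nat.mul
  (nat_lit 2) (Nat.add (Nat.add (Nat.add (Nat.add (Nat.add (Z a x d0) (Z a x d5)) (Z a x d29)) (Z a
  x d30)) (Z a x d54)) (Z a x d59)))) (mo Y d (nat_lit 0))))) (Z a x d)) (Z a x d6)) (Nat.mul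
  (nat_lit 2) (Nat.add (Z a x d26) (Z a x d33)))) (Z a x d53)) (Z a x d60)) (mo Y d (nat_lit 0)))

/-- compiled program -/
def b11_61r : Prog3 := fun Y Z => Bx.mk fun a x d =>
  ((b11m64D d).1 ((b11_61e Y Z).1 a x d))

/-- compiled program -/
def b11_62e (Y : Lay) (Z : Tc) :
    Bx (Nat → Nat → Nat → (Nat → Nat → Nat → Nat → Nat → Nat → Nat → Nat → Nat → Nat → Nat → Nat →
    Nat → Nat → Nat → Nat → Nat → Nat → Nat → Nat → Nat → Nat → Nat → Nat → Nat → Nat → Nat → Nat →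
    Nat → Nat → Nat → Nat → Nat → Nat → Nat → Nat → Nat → Nat → Nat → Nat → Nat → Nat → Nat → Nat →
    Nat → Nat → Nat → Nat → Nat → Nat → Nat → Nat → Nat → Nat → Nat → Nat → Nat → Nat → Nat → Nat →
    Nat → Nat → Nat → Nat → Nat)) :=
  Bx.mk fun a x d d0 d1 d2 d3 d4 d5 d6 d7 d8 d9 d10 d11 d12 d13 d14 d15 d16 d17 d18 d19 d20 d21 d22
  d23 d24 d25 d26 d27 d28 d29 d30 d31 d32 d33 d34 d35 d36 d37 d38 d39 d40 d41 d42 d43 d44 d45 d46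
  d47 d48 d49 d50 d51 d52 d53 d54 d55 d56 d57 d58 d59 d60 d61 d62 d63 => (fold (Nat.add (Nat.add
  (Nat.add (Nat.add (Nat.add (Nat.add (Nat.add (Nat.add (Nat.add (fold (Nat.add (Nat.add (Nat.mul
  (nat_lit 8) (fold (Nat.add (Nat.add (Nat.add (Nat.add (Nat.add (Nat.add (Nat.mul (nat_lit 3) (fold
  (Nat.add (Nat.add (Nat.add (Nat.add (Nat.add (Nat.add (Nat.add (Nat.add (Nat.add (Nat.add (Z a x
  d8) (Z a x d10)) (Z a x d12)) (Z a x d14)) (Z a x d16)) (Z a x d17)) (Z a x d19)) (Z a x d21)) (Z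
  a x d23)) (Z a x d25)) (Nat.add (Nat.add (Nat.add (Nat.add (Nat.add (Nat.add (Nat.add (Nat.add
  (Nat.add (Z a x d35) (Z a x d37)) (Z a x d39)) (Z a x d41)) (Z a x d43)) (Z a x d44)) (Z a x d46))
  (Z a x d48)) (Z a x d50)) (Z a x d52))) (mo Y d (nat_lit 0)))) (Z a x d0)) (Z a x d6)) (Nat.mul
  (nat_lit 4) (Z a x d30))) (Z a x d54)) (Nat.mul (nat_lit 2) (Nat.add (Nat.add (Nat.add (Z a x d3)
  (Z a x d27)) (Z a x d33)) (Z a x d57)))) (Z a x d60)) (mo Y d (nat_lit 0)))) (Nat.mul (nat_lit 4)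
  (Nat.add (Z a x d29) (Z a x d31)))) (Nat.mul (nat_lit 2) (Nat.add (Nat.add (Nat.add (Nat.add
  (Nat.add (Nat.add (Nat.add (Z a x d2) (Z a x d4)) (Z a x d26)) (Z a x d28)) (Z a x d32)) (Z a x
  d34)) (Z a x d56)) (Z a x d58)))) (mo Y d (nat_lit 0))) (Nat.mul (nat_lit 3) (fold (Nat.add
  (Nat.add (Nat.add (Nat.add (Nat.add (Nat.add (Nat.add (Nat.add (Z a x d9) (Z a x d11)) (Z a x
  d13)) (Z a x d15)) (Z a x d18)) (Z a x d20)) (Z a x d22)) (Z a x d24)) (Nat.add (Nat.add (Nat.add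
  (Nat.add (Nat.add (Nat.add (Nat.add (Z a x d36) (Z a x d38)) (Z a x d40)) (Z a x d42)) (Z a x
  d45)) (Z a x d47)) (Z a x d49)) (Z a x d51))) (mo Y d (nat_lit 0))))) (Z a x d)) (Z a x d1)) (Z a
  x d5)) (Z a x d7)) (Z a x d53)) (Z a x d55)) (Z a x d59)) (Z a x d61)) (mo Y d (nat_lit 0)))

/-- compiled program -/
def b11_62r : Prog3 := fun Y Z => Bx.mk fun a x d =>
  ((b11m64D d).1 ((b11_62e Y Z).1 a x d))

/-- compiled program -/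
def b11_63e (Y : Lay) (Z : Tc) :
    Bx (Nat → Nat → Nat → (Nat → Nat → Nat → Nat → Nat → Nat → Nat → Nat → Nat → Nat → Nat → Nat →
    Nat → Nat → Nat → Nat → Nat → Nat → Nat → Nat → Nat → Nat → Nat → Nat → Nat → Nat → Nat → Nat →
    Nat → Nat → Nat → Nat → Nat → Nat → Nat → Nat → Nat → Nat → Nat → Nat → Nat → Nat → Nat → Nat →
    Nat → Nat → Nat → Nat → Nat → Nat → Nat → Nat → Nat → Nat → Nat → Nat → Nat → Nat → Nat → Nat →
    Nat → Nat → Nat → Nat → Nat)) :=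
  Bx.mk fun a x d d0 d1 d2 d3 d4 d5 d6 d7 d8 d9 d10 d11 d12 d13 d14 d15 d16 d17 d18 d19 d20 d21 d22
  d23 d24 d25 d26 d27 d28 d29 d30 d31 d32 d33 d34 d35 d36 d37 d38 d39 d40 d41 d42 d43 d44 d45 d46
  d47 d48 d49 d50 d51 d52 d53 d54 d55 d56 d57 d58 d59 d60 d61 d62 d63 => (fold (Nat.add (Nat.add
  (Nat.add (Nat.mul (nat_lit 8) (fold (Nat.add (Nat.add (Nat.add (Nat.mul (nat_lit 3) (Nat.add (Z a
  x d29) (Z a x d32))) (Z a x d26)) (Z a x d35)) (Nat.mul (nat_lit 2) (Nat.add (Z a x d8) (Z a x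
  d53)))) (mo Y d (nat_lit 0)))) (Z a x d)) (Nat.mul (nat_lit 3) (Nat.add (Nat.add (Nat.add (Nat.add
  (Nat.add (Z a x d2) (Z a x d5)) (Z a x d17)) (Z a x d44)) (Z a x d56)) (Z a x d59)))) (Z a x d62))
  (mo Y d (nat_lit 0)))

/-- compiled program -/
def b11_63r : Prog3 := fun Y Z => Bx.mk fun a x d =>
  ((b11m64D d).1 ((b11_63e Y Z).1 a x d))

/-- compiled program -/
def b11_64e (Y : Lay) (Z : Tc) :
    Bx (Nat → Nat → Nat → (Nat → Nat → Nat → Nat → Nat → Nat → Nat → Nat → Nat → Nat → Nat → Nat →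
    Nat → Nat → Nat → Nat → Nat → Nat → Nat → Nat → Nat → Nat → Nat → Nat → Nat → Nat → Nat → Nat →
    Nat → Nat → Nat → Nat → Nat → Nat → Nat → Nat → Nat → Nat → Nat → Nat → Nat → Nat → Nat → Nat →
    Nat → Nat → Nat → Nat → Nat → Nat → Nat → Nat → Nat → Nat → Nat → Nat → Nat → Nat → Nat → Nat →
    Nat → Nat → Nat → Nat → Nat)) :=
  Bx.mk fun a x d d0 d1 d2 d3 d4 d5 d6 d7 d8 d9 d10 d11 d12 d13 d14 d15 d16 d17 d18 d19 d20 d21 d22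
  d23 d24 d25 d26 d27 d28 d29 d30 d31 d32 d33 d34 d35 d36 d37 d38 d39 d40 d41 d42 d43 d44 d45 d46
  d47 d48 d49 d50 d51 d52 d53 d54 d55 d56 d57 d58 d59 d60 d61 d62 d63 => (fold (Nat.add (Nat.add
  (Nat.add (Nat.add (Nat.add (Nat.mul (nat_lit 3) (fold (Nat.add (Nat.add (Nat.add (Nat.add (Nat.add
  (Nat.add (Nat.add (Nat.add (Nat.add (Nat.add (Nat.add (Z a x d2) (Z a x d3)) (Z a x d5)) (Z a x
  d6)) (Z a x d17)) (Z a x d18)) (Z a x d44)) (Z a x d45)) (Z a x d56)) (Z a x d57)) (Z a x d59)) (Z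
  a x d60)) (mo Y d (nat_lit 0)))) (Nat.mul (nat_lit 8) (fold (Nat.add (Nat.add (Nat.add (Nat.add
  (Nat.add (Z a x d26) (Z a x d27)) (Nat.mul (nat_lit 3) (Nat.add (Nat.add (Nat.add (Z a x d29) (Z a
  x d30)) (Z a x d32)) (Z a x d33)))) (Z a x d35)) (Z a x d36)) (Nat.mul (nat_lit 2) (Nat.add
  (Nat.add (Nat.add (Z a x d8) (Z a x d9)) (Z a x d53)) (Z a x d54)))) (mo Y d (nat_lit 0))))) (Z a
  x d)) (Z a x d0)) (Z a x d62)) (Z a x d63)) (mo Y d (nat_lit 0)))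

/-- compiled program -/
def b11_64r : Prog3 := fun Y Z => Bx.mk fun a x d =>
  ((b11m64D d).1 ((b11_64e Y Z).1 a x d))

/-- keys -/
def b11m96D (c : Nat) :
    Bx ((Nat → Nat → Nat → Nat → Nat → Nat → Nat → Nat → Nat → Nat → Nat → Nat → Nat → Nat → Nat →
    Nat → Nat → Nat → Nat → Nat → Nat → Nat → Nat → Nat → Nat → Nat → Nat → Nat → Nat → Nat → Nat →
    Nat → Nat → Nat → Nat → Nat → Nat → Nat → Nat → Nat → Nat → Nat → Nat → Nat → Nat → Nat → Nat →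
    Nat → Nat → Nat → Nat → Nat → Nat → Nat → Nat → Nat → Nat → Nat → Nat → Nat → Nat → Nat → Nat →
    Nat → Nat → Nat → Nat → Nat → Nat → Nat → Nat → Nat → Nat → Nat → Nat → Nat → Nat → Nat → Nat →
    Nat → Nat → Nat → Nat → Nat → Nat → Nat → Nat → Nat → Nat → Nat → Nat → Nat → Nat → Nat → Nat) →
    Nat) :=
  bs94 Nat c (nat_lit 1) (nat_lit 2) (nat_lit 3) (nat_lit 4) (nat_lit 5) (nat_lit 6) (nat_lit 7)
  (nat_lit 8) (nat_lit 9) (nat_lit 10) (nat_lit 11) (nat_lit 12) (nat_lit 13) (nat_lit 14) (nat_lit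
  15) (nat_lit 16) (nat_lit 17) (nat_lit 18) (nat_lit 19) (nat_lit 20) (nat_lit 21) (nat_lit 22)
  (nat_lit 23) (nat_lit 24) (nat_lit 25) (nat_lit 26) (nat_lit 27) (nat_lit 28) (nat_lit 29)
  (nat_lit 30) (nat_lit 31) (nat_lit 32) (nat_lit 33) (nat_lit 34) (nat_lit 35) (nat_lit 36)
  (nat_lit 37) (nat_lit 38) (nat_lit 39) (nat_lit 40) (nat_lit 41) (nat_lit 42) (nat_lit 43)
  (nat_lit 44) (nat_lit 45) (nat_lit 46) (nat_lit 47) (nat_lit 48) (nat_lit 49) (nat_lit 50)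
  (nat_lit 51) (nat_lit 52) (nat_lit 53) (nat_lit 54) (nat_lit 55) (nat_lit 56) (nat_lit 57)
  (nat_lit 58) (nat_lit 59) (nat_lit 60) (nat_lit 61) (nat_lit 62) (nat_lit 63) (nat_lit 64)
  (nat_lit 65) (nat_lit 66) (nat_lit 67) (nat_lit 68) (nat_lit 69) (nat_lit 70) (nat_lit 71)
  (nat_lit 72) (nat_lit 73) (nat_lit 74) (nat_lit 75) (nat_lit 76) (nat_lit 77) (nat_lit 78)
  (nat_lit 79) (nat_lit 80) (nat_lit 81) (nat_lit 82) (nat_lit 83) (nat_lit 84) (nat_lit 85)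
  (nat_lit 86) (nat_lit 87) (nat_lit 88) (nat_lit 89) (nat_lit 90) (nat_lit 91) (nat_lit 92)
  (nat_lit 93) (nat_lit 94)

/-- compiled program -/
def b11_65e (Y : Lay) (Z : Tc) :
    Bx (Nat → Nat → Nat → (Nat → Nat → Nat → Nat → Nat → Nat → Nat → Nat → Nat → Nat → Nat → Nat →
    Nat → Nat → Nat → Nat → Nat → Nat → Nat → Nat → Nat → Nat → Nat → Nat → Nat → Nat → Nat → Nat →
    Nat → Nat → Nat → Nat → Nat → Nat → Nat → Nat → Nat → Nat → Nat → Nat → Nat → Nat → Nat → Nat →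
    Nat → Nat → Nat → Nat → Nat → Nat → Nat → Nat → Nat → Nat → Nat → Nat → Nat → Nat → Nat → Nat →
    Nat → Nat → Nat → Nat → Nat → Nat → Nat → Nat → Nat → Nat → Nat → Nat → Nat → Nat → Nat → Nat →
    Nat → Nat → Nat → Nat → Nat → Nat → Nat → Nat → Nat → Nat → Nat → Nat → Nat → Nat → Nat → Nat →
    Nat → Nat → Nat)) :=
  Bx.mk fun a x d d0 d1 d2 d3 d4 d5 d6 d7 d8 d9 d10 d11 d12 d13 d14 d15 d16 d17 d18 d19 d20 d21 d22
  d23 d24 d25 d26 d27 d28 d29 d30 d31 d32 d33 d34 d35 d36 d37 d38 d39 d40 d41 d42 d43 d44 d45 d46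
  d47 d48 d49 d50 d51 d52 d53 d54 d55 d56 d57 d58 d59 d60 d61 d62 d63 d64 d65 d66 d67 d68 d69 d70
  d71 d72 d73 d74 d75 d76 d77 d78 d79 d80 d81 d82 d83 d84 d85 d86 d87 d88 d89 d90 d91 d92 d93 =>
  (fold (Nat.add (Nat.add (Nat.add (Nat.add (Nat.add (Nat.add (Nat.mul (nat_lit 3) (fold (Nat.add
  (Nat.add (Nat.add (Nat.add (Nat.add (Nat.add (Nat.add (Z a x d2) (Z a x d4)) (Z a x d5)) (Z a x
  d7)) (Z a x d17)) (Z a x d19)) (Z a x d30)) (Nat.add (Nat.add (Nat.add (Nat.add (Nat.add (Nat.add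
  (Z a x d33) (Z a x d44)) (Z a x d46)) (Z a x d56)) (Z a x d58)) (Z a x d59)) (Z a x d61))) (mo Y d
  (nat_lit 0)))) (Nat.mul (nat_lit 8) (fold (Nat.add (Nat.add (Nat.add (Nat.add (fold (Nat.add
  (Nat.add (Z a x d26) (Z a x d28)) (Nat.mul (nat_lit 3) (Nat.add (Nat.add (Nat.add (Nat.add
  (Nat.add (Nat.add (Nat.add (Nat.add (Nat.add (Z a x d3) (Z a x d6)) (Z a x d18)) (Z a x d29)) (Z a
  x d31)) (Z a x d32)) (Z a x d34)) (Z a x d45)) (Z a x d57)) (Z a x d60)))) (mo Y d (nat_lit 0)))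
  (Z a x d35)) (Z a x d37)) (Nat.mul (nat_lit 4) (Nat.add (Z a x d9) (Z a x d54)))) (Nat.mul
  (nat_lit 2) (Nat.add (Nat.add (Nat.add (Nat.add (Nat.add (Z a x d8) (Z a x d10)) (Z a x d27)) (Z a
  x d36)) (Z a x d53)) (Z a x d55)))) (mo Y d (nat_lit 0))))) (Z a x d)) (Z a x d1)) (Z a x d62))
  (Nat.mul (nat_lit 2) (Nat.add (Z a x d0) (Z a x d63)))) (Z a x d64)) (mo Y d (nat_lit 0)))

/-- compiled program -/
def b11_65r : Prog3 := fun Y Z => Bx.mk fun a x d =>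
  ((b11m96D d).1 ((b11_65e Y Z).1 a x d))

/-- compiled program -/
def b11_66e (Y : Lay) (Z : Tc) :
    Bx (Nat → Nat → Nat → (Nat → Nat → Nat → Nat → Nat → Nat → Nat → Nat → Nat → Nat → Nat → Nat →
    Nat → Nat → Nat → Nat → Nat → Nat → Nat → Nat → Nat → Nat → Nat → Nat → Nat → Nat → Nat → Nat →
    Nat → Nat → Nat → Nat → Nat → Nat → Nat → Nat → Nat → Nat → Nat → Nat → Nat → Nat → Nat → Nat →
    Nat → Nat → Nat → Nat → Nat → Nat → Nat → Nat → Nat → Nat → Nat → Nat → Nat → Nat → Nat → Nat →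
    Nat → Nat → Nat → Nat → Nat → Nat → Nat → Nat → Nat → Nat → Nat → Nat → Nat → Nat → Nat → Nat →
    Nat → Nat → Nat → Nat → Nat → Nat → Nat → Nat → Nat → Nat → Nat → Nat → Nat → Nat → Nat → Nat →
    Nat → Nat → Nat)) :=
  Bx.mk fun a x d d0 d1 d2 d3 d4 d5 d6 d7 d8 d9 d10 d11 d12 d13 d14 d15 d16 d17 d18 d19 d20 d21 d22
  d23 d24 d25 d26 d27 d28 d29 d30 d31 d32 d33 d34 d35 d36 d37 d38 d39 d40 d41 d42 d43 d44 d45 d46
  d47 d48 d49 d50 d51 d52 d53 d54 d55 d56 d57 d58 d59 d60 d61 d62 d63 d64 d65 d66 d67 d68 d69 d70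
  d71 d72 d73 d74 d75 d76 d77 d78 d79 d80 d81 d82 d83 d84 d85 d86 d87 d88 d89 d90 d91 d92 d93 =>
  (fold (Nat.add (Nat.add (Nat.add (Nat.add (Nat.add (Nat.add (Nat.mul (nat_lit 3) (fold (Nat.add
  (Nat.add (Nat.add (Nat.add (Nat.add (Nat.add (Nat.add (Z a x d0) (Z a x d1)) (Z a x d9)) (Z a x
  d10)) (Z a x d17)) (Z a x d20)) (Z a x d32)) (Nat.add (Nat.add (Nat.add (Nat.add (Nat.add (Z a x
  d44) (Z a x d47)) (Z a x d54)) (Z a x d55)) (Z a x d63)) (Z a x d64))) (mo Y d (nat_lit 0))))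
  (Nat.mul (nat_lit 8) (fold (Nat.add (Nat.add (Nat.add (Nat.add (Nat.mul (nat_lit 4) (Nat.add (Z a
  x d29) (Z a x d35))) (Z a x d26)) (Z a x d38)) (Nat.mul (nat_lit 2) (Nat.add (Z a x d11) (Z a x
  d53)))) (Nat.mul (nat_lit 3) (Nat.add (Nat.add (Nat.add (Nat.add (Nat.add (Z a x d5) (Z a x d27))
  (Z a x d28)) (Z a x d36)) (Z a x d37)) (Z a x d59)))) (mo Y d (nat_lit 0))))) (Z a x d)) (Z a x
  d8)) (Z a x d56)) (Nat.mul (nat_lit 4) (Nat.add (Z a x d2) (Z a x d62)))) (Z a x d65)) (mo Y d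
  (nat_lit 0)))

/-- compiled program -/
def b11_66r : Prog3 := fun Y Z => Bx.mk fun a x d =>
  ((b11m96D d).1 ((b11_66e Y Z).1 a x d))

/-- compiled program -/
def b11_67e (Y : Lay) (Z : Tc) :
    Bx (Nat → Nat → Nat → (Nat → Nat → Nat → Nat → Nat → Nat → Nat → Nat → Nat → Nat → Nat → Nat →
    Nat → Nat → Nat → Nat → Nat → Nat → Nat → Nat → Nat → Nat → Nat → Nat → Nat → Nat → Nat → Nat →
    Nat → Nat → Nat → Nat → Nat → Nat → Nat → Nat → Nat → Nat → Nat → Nat → Nat → Nat → Nat → Nat →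
    Nat → Nat → Nat → Nat → Nat → Nat → Nat → Nat → Nat → Nat → Nat → Nat → Nat → Nat → Nat → Nat →
    Nat → Nat → Nat → Nat → Nat → Nat → Nat → Nat → Nat → Nat → Nat → Nat → Nat → Nat → Nat → Nat →
    Nat → Nat → Nat → Nat → Nat → Nat → Nat → Nat → Nat → Nat → Nat → Nat → Nat → Nat → Nat → Nat →
    Nat → Nat → Nat)) :=
  Bx.mk fun a x d d0 d1 d2 d3 d4 d5 d6 d7 d8 d9 d10 d11 d12 d13 d14 d15 d16 d17 d18 d19 d20 d21 d22
  d23 d24 d25 d26 d27 d28 d29 d30 d31 d32 d33 d34 d35 d36 d37 d38 d39 d40 d41 d42 d43 d44 d45 d46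
  d47 d48 d49 d50 d51 d52 d53 d54 d55 d56 d57 d58 d59 d60 d61 d62 d63 d64 d65 d66 d67 d68 d69 d70
  d71 d72 d73 d74 d75 d76 d77 d78 d79 d80 d81 d82 d83 d84 d85 d86 d87 d88 d89 d90 d91 d92 d93 =>
  (fold (Nat.add (Nat.add (Nat.add (Nat.add (Nat.add (Nat.add (Nat.add (Nat.add (fold (Nat.add
  (Nat.mul (nat_lit 8) (fold (Nat.add (Nat.add (Nat.add (fold (Nat.add (Nat.mul (nat_lit 2) (Nat.add
  (Nat.add (Nat.add (Z a x d2) (Z a x d12)) (Z a x d53)) (Z a x d63))) (Nat.mul (nat_lit 3) (Nat.add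
  (Nat.add (Nat.add (Nat.add (Nat.add (Nat.add (Nat.add (Z a x d1) (Z a x d5)) (Z a x d6)) (Z a x
  d10)) (Z a x d55)) (Z a x d59)) (Z a x d60)) (Z a x d64)))) (mo Y d (nat_lit 0))) (Z a x d26))
  (Nat.mul (nat_lit 4) (Nat.add (Nat.add (Nat.add (Z a x d27) (Z a x d30)) (Z a x d35)) (Z a x
  d38)))) (Z a x d39)) (mo Y d (nat_lit 0)))) (Nat.mul (nat_lit 4) (Nat.add (Nat.add (Nat.add
  (Nat.add (Nat.add (Z a x d0) (Z a x d3)) (Z a x d9)) (Z a x d56)) (Z a x d62)) (Z a x d65)))) (mo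
  Y d (nat_lit 0))) (Nat.mul (nat_lit 3) (fold (Nat.add (Nat.add (Nat.add (Nat.add (Nat.add (Nat.add
  (Nat.add (Nat.add (Nat.add (Nat.add (Nat.add (Z a x d17) (Z a x d18)) (Z a x d20)) (Z a x d21)) (Z
  a x d28)) (Z a x d32)) (Z a x d33)) (Z a x d37)) (Z a x d44)) (Z a x d45)) (Z a x d47)) (Z a x
  d48)) (mo Y d (nat_lit 0))))) (Z a x d)) (Z a x d8)) (Z a x d11)) (Nat.mul (nat_lit 2) (Nat.add (Z
  a x d29) (Z a x d36)))) (Z a x d54)) (Z a x d57)) (Z a x d66)) (mo Y d (nat_lit 0)))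

/-- compiled program -/
def b11_67r : Prog3 := fun Y Z => Bx.mk fun a x d =>
  ((b11m96D d).1 ((b11_67e Y Z).1 a x d))

/-- compiled program -/
def b11_68e (Y : Lay) (Z : Tc) :
    Bx (Nat → Nat → Nat → (Nat → Nat → Nat → Nat → Nat → Nat → Nat → Nat → Nat → Nat → Nat → Nat →
    Nat → Nat → Nat → Nat → Nat → Nat → Nat → Nat → Nat → Nat → Nat → Nat → Nat → Nat → Nat → Nat →
    Nat → Nat → Nat → Nat → Nat → Nat → Nat → Nat → Nat → Nat → Nat → Nat → Nat → Nat → Nat → Nat →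
    Nat → Nat → Nat → Nat → Nat → Nat → Nat → Nat → Nat → Nat → Nat → Nat → Nat → Nat → Nat → Nat →
    Nat → Nat → Nat → Nat → Nat → Nat → Nat → Nat → Nat → Nat → Nat → Nat → Nat → Nat → Nat → Nat →
    Nat → Nat → Nat → Nat → Nat → Nat → Nat → Nat → Nat → Nat → Nat → Nat → Nat → Nat → Nat → Nat →
    Nat → Nat → Nat)) :=
  Bx.mk fun a x d d0 d1 d2 d3 d4 d5 d6 d7 d8 d9 d10 d11 d12 d13 d14 d15 d16 d17 d18 d19 d20 d21 d22
  d23 d24 d25 d26 d27 d28 d29 d30 d31 d32 d33 d34 d35 d36 d37 d38 d39 d40 d41 d42 d43 d44 d45 d46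
  d47 d48 d49 d50 d51 d52 d53 d54 d55 d56 d57 d58 d59 d60 d61 d62 d63 d64 d65 d66 d67 d68 d69 d70
  d71 d72 d73 d74 d75 d76 d77 d78 d79 d80 d81 d82 d83 d84 d85 d86 d87 d88 d89 d90 d91 d92 d93 =>
  (fold (Nat.add (Nat.add (Nat.add (Nat.add (Nat.add (Nat.add (Nat.add (Nat.add (Nat.add (Nat.add
  (fold (Nat.add (Nat.mul (nat_lit 8) (fold (Nat.add (Nat.add (Nat.add (fold (Nat.add (Nat.add
  (Nat.add (Nat.add (Nat.add (fold (Nat.mul (nat_lit 4) (Nat.add (Nat.add (Nat.add (Nat.add (Nat.add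
  (Nat.add (Nat.add (Z a x d0) (Z a x d9)) (Z a x d29)) (Z a x d31)) (Z a x d35)) (Z a x d37)) (Z a
  x d57)) (Z a x d66))) (mo Y d (nat_lit 0))) (Z a x d12)) (Z a x d26)) (Z a x d28)) (Z a x d38))
  (Nat.mul (nat_lit 3) (Nat.add (Nat.add (Nat.add (Nat.add (Nat.add (Nat.add (Nat.add (Nat.add (Z a
  x d5) (Z a x d7)) (Z a x d18)) (Z a x d21)) (Z a x d33)) (Z a x d45)) (Z a x d48)) (Z a x d59)) (Z
  a x d61)))) (mo Y d (nat_lit 0))) (Z a x d40)) (Z a x d54)) (Nat.mul (nat_lit 2) (Nat.add (Nat.add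
  (Nat.add (Nat.add (Nat.add (Z a x d11) (Z a x d13)) (Z a x d30)) (Z a x d36)) (Z a x d53)) (Z a x
  d55)))) (mo Y d (nat_lit 0)))) (Nat.mul (nat_lit 4) (Nat.add (Nat.add (Nat.add (Nat.add (Nat.add
  (Z a x d2) (Z a x d4)) (Z a x d27)) (Z a x d39)) (Z a x d62)) (Z a x d64)))) (mo Y d (nat_lit 0)))
  (Nat.mul (nat_lit 3) (fold (Nat.add (Nat.add (Nat.add (Nat.add (Nat.add (Nat.add (Nat.add (Nat.add
  (Nat.add (Nat.add (Nat.add (Z a x d6) (Z a x d17)) (Z a x d19)) (Z a x d20)) (Z a x d22)) (Z a x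
  d32)) (Z a x d34)) (Z a x d44)) (Z a x d46)) (Z a x d47)) (Z a x d49)) (Z a x d60)) (mo Y d
  (nat_lit 0))))) (Z a x d)) (Z a x d1)) (Z a x d8)) (Z a x d10)) (Z a x d56)) (Z a x d58)) (Nat.mul
  (nat_lit 2) (Nat.add (Z a x d3) (Z a x d63)))) (Z a x d65)) (Z a x d67)) (mo Y d (nat_lit 0)))

/-- compiled program -/
def b11_68r : Prog3 := fun Y Z => Bx.mk fun a x d =>
  ((b11m96D d).1 ((b11_68e Y Z).1 a x d))

/-- compiled program -/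
def b11_69e (Y : Lay) (Z : Tc) :
    Bx (Nat → Nat → Nat → (Nat → Nat → Nat → Nat → Nat → Nat → Nat → Nat → Nat → Nat → Nat → Nat →
    Nat → Nat → Nat → Nat → Nat → Nat → Nat → Nat → Nat → Nat → Nat → Nat → Nat → Nat → Nat → Nat →
    Nat → Nat → Nat → Nat → Nat → Nat → Nat → Nat → Nat → Nat → Nat → Nat → Nat → Nat → Nat → Nat →
    Nat → Nat → Nat → Nat → Nat → Nat → Nat → Nat → Nat → Nat → Nat → Nat → Nat → Nat → Nat → Nat →
    Nat → Nat → Nat → Nat → Nat → Nat → Nat → Nat → Nat → Nat → Nat → Nat → Nat → Nat → Nat → Nat →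
    Nat → Nat → Nat → Nat → Nat → Nat → Nat → Nat → Nat → Nat → Nat → Nat → Nat → Nat → Nat → Nat →
    Nat → Nat → Nat)) :=
  Bx.mk fun a x d d0 d1 d2 d3 d4 d5 d6 d7 d8 d9 d10 d11 d12 d13 d14 d15 d16 d17 d18 d19 d20 d21 d22
  d23 d24 d25 d26 d27 d28 d29 d30 d31 d32 d33 d34 d35 d36 d37 d38 d39 d40 d41 d42 d43 d44 d45 d46
  d47 d48 d49 d50 d51 d52 d53 d54 d55 d56 d57 d58 d59 d60 d61 d62 d63 d64 d65 d66 d67 d68 d69 d70
  d71 d72 d73 d74 d75 d76 d77 d78 d79 d80 d81 d82 d83 d84 d85 d86 d87 d88 d89 d90 d91 d92 d93 =>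
  (fold (Nat.add (Nat.add (Nat.add (Nat.add (Nat.add (Nat.add (Nat.mul (nat_lit 3) (fold (Nat.add
  (Nat.add (Nat.add (Nat.add (Nat.add (Nat.add (Nat.add (Nat.add (Nat.add (Nat.add (Nat.add (Z a x
  d17) (Z a x d23)) (Z a x d27)) (Z a x d28)) (Z a x d30)) (Z a x d31)) (Z a x d36)) (Z a x d37)) (Z
  a x d39)) (Z a x d40)) (Z a x d44)) (Z a x d50)) (mo Y d (nat_lit 0)))) (Nat.mul (nat_lit 8) (fold
  (Nat.add (Nat.add (Nat.add (Nat.add (Nat.add (Nat.add (Nat.add (Nat.add (Nat.mul (nat_lit 3) (fold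
  (Nat.add (Nat.add (Nat.add (Nat.add (Nat.add (Nat.add (Nat.add (Nat.add (Nat.add (Z a x d0) (Z a x
  d1)) (Z a x d3)) (Z a x d4)) (Z a x d9)) (Z a x d10)) (Z a x d12)) (Z a x d13)) (Z a x d20))
  (Nat.add (Nat.add (Nat.add (Nat.add (Nat.add (Nat.add (Nat.add (Nat.add (Z a x d47) (Z a x d54))
  (Z a x d55)) (Z a x d57)) (Z a x d58)) (Z a x d63)) (Z a x d64)) (Z a x d66)) (Z a x d67))) (mo Y
  d (nat_lit 0)))) (Z a x d11)) (Z a x d26)) (Z a x d32)) (Z a x d35)) (Z a x d41)) (Z a x d56))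
  (Nat.mul (nat_lit 2) (Nat.add (Nat.add (Nat.add (Z a x d8) (Z a x d14)) (Z a x d53)) (Z a x
  d59)))) (Nat.mul (nat_lit 4) (Nat.add (Z a x d2) (Z a x d65)))) (mo Y d (nat_lit 0))))) (Z a x d))
  (Z a x d5)) (Nat.mul (nat_lit 4) (Nat.add (Z a x d29) (Z a x d38)))) (Z a x d62)) (Z a x d68)) (mo
  Y d (nat_lit 0)))

/-- compiled program -/
def b11_69r : Prog3 := fun Y Z => Bx.mk fun a x d =>
  ((b11m96D d).1 ((b11_69e Y Z).1 a x d))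

/-- compiled program -/
def b11_70e (Y : Lay) (Z : Tc) :
    Bx (Nat → Nat → Nat → (Nat → Nat → Nat → Nat → Nat → Nat → Nat → Nat → Nat → Nat → Nat → Nat →
    Nat → Nat → Nat → Nat → Nat → Nat → Nat → Nat → Nat → Nat → Nat → Nat → Nat → Nat → Nat → Nat →
    Nat → Nat → Nat → Nat → Nat → Nat → Nat → Nat → Nat → Nat → Nat → Nat → Nat → Nat → Nat → Nat →
    Nat → Nat → Nat → Nat → Nat → Nat → Nat → Nat → Nat → Nat → Nat → Nat → Nat → Nat → Nat → Nat →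
    Nat → Nat → Nat → Nat → Nat → Nat → Nat → Nat → Nat → Nat → Nat → Nat → Nat → Nat → Nat → Nat →
    Nat → Nat → Nat → Nat → Nat → Nat → Nat → Nat → Nat → Nat → Nat → Nat → Nat → Nat → Nat → Nat →
    Nat → Nat → Nat)) :=
  Bx.mk fun a x d d0 d1 d2 d3 d4 d5 d6 d7 d8 d9 d10 d11 d12 d13 d14 d15 d16 d17 d18 d19 d20 d21 d22
  d23 d24 d25 d26 d27 d28 d29 d30 d31 d32 d33 d34 d35 d36 d37 d38 d39 d40 d41 d42 d43 d44 d45 d46
  d47 d48 d49 d50 d51 d52 d53 d54 d55 d56 d57 d58 d59 d60 d61 d62 d63 d64 d65 d66 d67 d68 d69 d70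
  d71 d72 d73 d74 d75 d76 d77 d78 d79 d80 d81 d82 d83 d84 d85 d86 d87 d88 d89 d90 d91 d92 d93 =>
  (fold (Nat.add (Nat.add (Nat.add (Nat.add (fold (Nat.add (Nat.mul (nat_lit 4) (Nat.add (Nat.add
  (Nat.add (Z a x d9) (Z a x d14)) (Z a x d54)) (Z a x d59))) (Nat.mul (nat_lit 2) (Nat.add (Nat.add
  (Nat.add (Nat.add (Nat.add (Nat.add (Nat.add (Z a x d2) (Z a x d3)) (Z a x d27)) (Z a x d32)) (Z a
  x d36)) (Z a x d41)) (Z a x d65)) (Z a x d66)))) (mo Y d (nat_lit 0))) (fold (Nat.add (Nat.add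
  (Nat.add (Nat.mul (nat_lit 3) (fold (Nat.add (Nat.add (Nat.add (Nat.add (Nat.add (Nat.add (Nat.add
  (Nat.add (Z a x d1) (Z a x d4)) (Z a x d10)) (Z a x d13)) (Z a x d17)) (Z a x d18)) (Z a x d23))
  (Z a x d24)) (Nat.add (Nat.add (Nat.add (Nat.add (Nat.add (Nat.add (Nat.add (Z a x d44) (Z a x
  d45)) (Z a x d50)) (Z a x d51)) (Z a x d55)) (Z a x d58)) (Z a x d64)) (Z a x d67))) (mo Y d
  (nat_lit 0)))) (Nat.mul (nat_lit 8) (fold (Nat.add (fold (Nat.add (Nat.add (Nat.add (Nat.add (Z a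
  x d26) (Z a x d33)) (Z a x d35)) (Z a x d42)) (Nat.mul (nat_lit 3) (Nat.add (Nat.add (Nat.add
  (Nat.add (Nat.add (Nat.add (Nat.add (Z a x d20) (Z a x d21)) (Z a x d28)) (Z a x d31)) (Z a x
  d37)) (Z a x d40)) (Z a x d47)) (Z a x d48)))) (mo Y d (nat_lit 0))) (Nat.mul (nat_lit 2) (Nat.add
  (Nat.add (Nat.add (Nat.add (Nat.add (Nat.add (Nat.add (Nat.add (Nat.add (Nat.add (Nat.add (Z a x
  d0) (Z a x d5)) (Z a x d8)) (Z a x d15)) (Z a x d29)) (Z a x d30)) (Z a x d38)) (Z a x d39)) (Z a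
  x d53)) (Z a x d60)) (Z a x d63)) (Z a x d68)))) (mo Y d (nat_lit 0))))) (Z a x d)) (Nat.mul
  (nat_lit 5) (Nat.add (Nat.add (Nat.add (Z a x d11) (Z a x d12)) (Z a x d56)) (Z a x d57)))) (mo Y
  d (nat_lit 0)))) (Z a x d6)) (Z a x d62)) (Z a x d69)) (mo Y d (nat_lit 0)))

/-- compiled program -/
def b11_70r : Prog3 := fun Y Z => Bx.mk fun a x d =>
  ((b11m96D d).1 ((b11_70e Y Z).1 a x d))

/-- compiled program -/
def b11_71e (Y : Lay) (Z : Tc) :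
    Bx (Nat → Nat → Nat → (Nat → Nat → Nat → Nat → Nat → Nat → Nat → Nat → Nat → Nat → Nat → Nat →
    Nat → Nat → Nat → Nat → Nat → Nat → Nat → Nat → Nat → Nat → Nat → Nat → Nat → Nat → Nat → Nat →
    Nat → Nat → Nat → Nat → Nat → Nat → Nat → Nat → Nat → Nat → Nat → Nat → Nat → Nat → Nat → Nat →
    Nat → Nat → Nat → Nat → Nat → Nat → Nat → Nat → Nat → Nat → Nat → Nat → Nat → Nat → Nat → Nat →
    Nat → Nat → Nat → Nat → Nat → Nat → Nat → Nat → Nat → Nat → Nat → Nat → Nat → Nat → Nat → Nat →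
    Nat → Nat → Nat → Nat → Nat → Nat → Nat → Nat → Nat → Nat → Nat → Nat → Nat → Nat → Nat → Nat →
    Nat → Nat → Nat)) :=
  Bx.mk fun a x d d0 d1 d2 d3 d4 d5 d6 d7 d8 d9 d10 d11 d12 d13 d14 d15 d16 d17 d18 d19 d20 d21 d22
  d23 d24 d25 d26 d27 d28 d29 d30 d31 d32 d33 d34 d35 d36 d37 d38 d39 d40 d41 d42 d43 d44 d45 d46
  d47 d48 d49 d50 d51 d52 d53 d54 d55 d56 d57 d58 d59 d60 d61 d62 d63 d64 d65 d66 d67 d68 d69 d70
  d71 d72 d73 d74 d75 d76 d77 d78 d79 d80 d81 d82 d83 d84 d85 d86 d87 d88 d89 d90 d91 d92 d93 =>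
  (fold (Nat.add (Nat.add (Nat.add (Nat.add (Nat.add (Nat.add (Nat.add (fold (Nat.add (Nat.mul
  (nat_lit 8) (fold (Nat.add (Nat.add (Nat.add (Nat.add (Nat.add (Nat.add (Nat.add (Nat.add (Nat.add
  (fold (Nat.add (Nat.add (Nat.add (Nat.add (Nat.add (Nat.add (Nat.add (Nat.add (Z a x d0) (Z a x
  d6)) (Z a x d11)) (Z a x d13)) (Z a x d26)) (Z a x d28)) (Z a x d32)) (Z a x d34)) (Nat.mul
  (nat_lit 3) (Nat.add (Nat.add (Nat.add (Nat.add (Nat.add (Nat.add (Nat.add (Z a x d18) (Z a x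
  d20)) (Z a x d22)) (Z a x d24)) (Z a x d45)) (Z a x d47)) (Z a x d49)) (Z a x d51)))) (mo Y d
  (nat_lit 0))) (Z a x d35)) (Z a x d37)) (Z a x d41)) (Z a x d43)) (Z a x d56)) (Z a x d58))
  (Nat.mul (nat_lit 2) (Nat.add (Nat.add (Nat.add (Nat.add (Nat.add (Nat.add (Nat.add (Z a x d8) (Z
  a x d10)) (Z a x d14)) (Z a x d16)) (Z a x d53)) (Z a x d55)) (Z a x d59)) (Z a x d61)))) (Z a x
  d63)) (Z a x d69)) (mo Y d (nat_lit 0)))) (Nat.mul (nat_lit 4) (Nat.add (Nat.add (Nat.add (Nat.add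
  (Nat.add (Z a x d3) (Z a x d29)) (Z a x d31)) (Z a x d38)) (Z a x d40)) (Z a x d66)))) (mo Y d
  (nat_lit 0))) (fold (Nat.add (Nat.add (fold (Nat.add (Nat.add (Z a x d) (Z a x d1)) (Nat.mul
  (nat_lit 3) (Nat.add (Nat.add (Nat.add (Nat.add (Nat.add (Nat.add (Nat.add (Nat.add (Nat.add (Z a
  x d17) (Z a x d19)) (Z a x d21)) (Z a x d23)) (Z a x d25)) (Z a x d44)) (Z a x d46)) (Z a x d48))
  (Z a x d50)) (Z a x d52)))) (mo Y d (nat_lit 0))) (Z a x d5)) (Nat.mul (nat_lit 5) (Nat.add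
  (Nat.add (Nat.add (Nat.add (Nat.add (Z a x d2) (Z a x d4)) (Z a x d30)) (Z a x d39)) (Z a x d65))
  (Z a x d67)))) (mo Y d (nat_lit 0)))) (Z a x d7)) (Z a x d12)) (Z a x d27)) (Z a x d33)) (Z a x
  d36)) (Nat.add (Nat.add (Nat.add (Nat.add (Nat.add (Nat.add (Z a x d42) (Z a x d57)) (Nat.mul
  (nat_lit 2) (Nat.add (Nat.add (Nat.add (Z a x d9) (Z a x d15)) (Z a x d54)) (Z a x d60)))) (Z a x
  d62)) (Z a x d64)) (Z a x d68)) (Z a x d70))) (mo Y d (nat_lit 0)))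

/-- compiled program -/
def b11_71r : Prog3 := fun Y Z => Bx.mk fun a x d =>
  ((b11m96D d).1 ((b11_71e Y Z).1 a x d))

/-- compiled program -/
def b11_72e (Y : Lay) (Z : Tc) :
    Bx (Nat → Nat → Nat → (Nat → Nat → Nat → Nat → Nat → Nat → Nat → Nat → Nat → Nat → Nat → Nat →
    Nat → Nat → Nat → Nat → Nat → Nat → Nat → Nat → Nat → Nat → Nat → Nat → Nat → Nat → Nat → Nat →
    Nat → Nat → Nat → Nat → Nat → Nat → Nat → Nat → Nat → Nat → Nat → Nat → Nat → Nat → Nat → Nat →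
    Nat → Nat → Nat → Nat → Nat → Nat → Nat → Nat → Nat → Nat → Nat → Nat → Nat → Nat → Nat → Nat →
    Nat → Nat → Nat → Nat → Nat → Nat → Nat → Nat → Nat → Nat → Nat → Nat → Nat → Nat → Nat → Nat →
    Nat → Nat → Nat → Nat → Nat → Nat → Nat → Nat → Nat → Nat → Nat → Nat → Nat → Nat → Nat → Nat →
    Nat → Nat → Nat)) :=
  Bx.mk fun a x d d0 d1 d2 d3 d4 d5 d6 d7 d8 d9 d10 d11 d12 d13 d14 d15 d16 d17 d18 d19 d20 d21 d22
  d23 d24 d25 d26 d27 d28 d29 d30 d31 d32 d33 d34 d35 d36 d37 d38 d39 d40 d41 d42 d43 d44 d45 d46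
  d47 d48 d49 d50 d51 d52 d53 d54 d55 d56 d57 d58 d59 d60 d61 d62 d63 d64 d65 d66 d67 d68 d69 d70
  d71 d72 d73 d74 d75 d76 d77 d78 d79 d80 d81 d82 d83 d84 d85 d86 d87 d88 d89 d90 d91 d92 d93 =>
  (fold (Nat.add (Nat.add (Nat.add (Nat.add (Nat.add (Nat.add (Nat.mul (nat_lit 8) (fold (Nat.add
  (Nat.add (Nat.add (Nat.mul (nat_lit 2) (Z a x d35)) (Z a x d8)) (Z a x d62)) (Nat.mul (nat_lit 3)
  (Nat.add (Nat.add (Nat.add (Nat.add (Nat.add (Nat.add (Nat.add (Z a x d2) (Z a x d5)) (Z a x d11))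
  (Z a x d14)) (Z a x d56)) (Z a x d59)) (Z a x d65)) (Z a x d68)))) (mo Y d (nat_lit 0)))) (Z a x
  d)) (Z a x d17)) (Nat.mul (nat_lit 3) (Nat.add (Nat.add (Nat.add (Z a x d29) (Z a x d32)) (Z a x
  d38)) (Z a x d41)))) (Nat.mul (nat_lit 2) (Nat.add (Z a x d26) (Z a x d44)))) (Z a x d53)) (Z a x
  d71)) (mo Y d (nat_lit 0)))

/-- compiled program -/
def b11_72r : Prog3 := fun Y Z => Bx.mk fun a x d =>
  ((b11m96D d).1 ((b11_72e Y Z).1 a x d))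

/-- compiled program -/
def b11_73e (Y : Lay) (Z : Tc) :
    Bx (Nat → Nat → Nat → (Nat → Nat → Nat → Nat → Nat → Nat → Nat → Nat → Nat → Nat → Nat → Nat →
    Nat → Nat → Nat → Nat → Nat → Nat → Nat → Nat → Nat → Nat → Nat → Nat → Nat → Nat → Nat → Nat →
    Nat → Nat → Nat → Nat → Nat → Nat → Nat → Nat → Nat → Nat → Nat → Nat → Nat → Nat → Nat → Nat →
    Nat → Nat → Nat → Nat → Nat → Nat → Nat → Nat → Nat → Nat → Nat → Nat → Nat → Nat → Nat → Nat →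
    Nat → Nat → Nat → Nat → Nat → Nat → Nat → Nat → Nat → Nat → Nat → Nat → Nat → Nat → Nat → Nat →
    Nat → Nat → Nat → Nat → Nat → Nat → Nat → Nat → Nat → Nat → Nat → Nat → Nat → Nat → Nat → Nat →
    Nat → Nat → Nat)) :=
  Bx.mk fun a x d d0 d1 d2 d3 d4 d5 d6 d7 d8 d9 d10 d11 d12 d13 d14 d15 d16 d17 d18 d19 d20 d21 d22
  d23 d24 d25 d26 d27 d28 d29 d30 d31 d32 d33 d34 d35 d36 d37 d38 d39 d40 d41 d42 d43 d44 d45 d46
  d47 d48 d49 d50 d51 d52 d53 d54 d55 d56 d57 d58 d59 d60 d61 d62 d63 d64 d65 d66 d67 d68 d69 d70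
  d71 d72 d73 d74 d75 d76 d77 d78 d79 d80 d81 d82 d83 d84 d85 d86 d87 d88 d89 d90 d91 d92 d93 =>
  (fold (Nat.add (Nat.add (Nat.add (Nat.add (Nat.add (Nat.add (Nat.add (Nat.add (Nat.add (fold
  (Nat.add (Nat.mul (nat_lit 8) (fold (Nat.add (Nat.add (Nat.add (Nat.add (Nat.add (Nat.mul (nat_lit
  3) (fold (Nat.add (Nat.add (Nat.add (Nat.add (Nat.add (Nat.add (Nat.add (Nat.add (Z a x d2) (Z a x
  d3)) (Z a x d5)) (Z a x d6)) (Z a x d11)) (Z a x d12)) (Z a x d14)) (Z a x d15)) (Nat.add (Nat.add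
  (Nat.add (Nat.add (Nat.add (Nat.add (Nat.add (Z a x d56) (Z a x d57)) (Z a x d59)) (Z a x d60)) (Z
  a x d65)) (Z a x d66)) (Z a x d68)) (Z a x d69))) (mo Y d (nat_lit 0)))) (Z a x d8)) (Z a x d9))
  (Nat.mul (nat_lit 2) (Nat.add (Z a x d35) (Z a x d36)))) (Z a x d62)) (Z a x d63)) (mo Y d
  (nat_lit 0)))) (Nat.mul (nat_lit 3) (Nat.add (Nat.add (Nat.add (Nat.add (Nat.add (Nat.add (Nat.add
  (Z a x d29) (Z a x d30)) (Z a x d32)) (Z a x d33)) (Z a x d38)) (Z a x d39)) (Z a x d41)) (Z a x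
  d42)))) (mo Y d (nat_lit 0))) (Z a x d)) (Z a x d0)) (Z a x d17)) (Z a x d18)) (Nat.mul (nat_lit
  2) (Nat.add (Nat.add (Nat.add (Z a x d26) (Z a x d27)) (Z a x d44)) (Z a x d45)))) (Z a x d53)) (Z
  a x d54)) (Z a x d71)) (Z a x d72)) (mo Y d (nat_lit 0)))

/-- compiled program -/
def b11_73r : Prog3 := fun Y Z => Bx.mk fun a x d =>
  ((b11m96D d).1 ((b11_73e Y Z).1 a x d))

/-- compiled program -/
def b11_74e (Y : Lay) (Z : Tc) :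
    Bx (Nat → Nat → Nat → (Nat → Nat → Nat → Nat → Nat → Nat → Nat → Nat → Nat → Nat → Nat → Nat →
    Nat → Nat → Nat → Nat → Nat → Nat → Nat → Nat → Nat → Nat → Nat → Nat → Nat → Nat → Nat → Nat →
    Nat → Nat → Nat → Nat → Nat → Nat → Nat → Nat → Nat → Nat → Nat → Nat → Nat → Nat → Nat → Nat →
    Nat → Nat → Nat → Nat → Nat → Nat → Nat → Nat → Nat → Nat → Nat → Nat → Nat → Nat → Nat → Nat →
    Nat → Nat → Nat → Nat → Nat → Nat → Nat → Nat → Nat → Nat → Nat → Nat → Nat → Nat → Nat → Nat →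
    Nat → Nat → Nat → Nat → Nat → Nat → Nat → Nat → Nat → Nat → Nat → Nat → Nat → Nat → Nat → Nat →
    Nat → Nat → Nat)) :=
  Bx.mk fun a x d d0 d1 d2 d3 d4 d5 d6 d7 d8 d9 d10 d11 d12 d13 d14 d15 d16 d17 d18 d19 d20 d21 d22
  d23 d24 d25 d26 d27 d28 d29 d30 d31 d32 d33 d34 d35 d36 d37 d38 d39 d40 d41 d42 d43 d44 d45 d46
  d47 d48 d49 d50 d51 d52 d53 d54 d55 d56 d57 d58 d59 d60 d61 d62 d63 d64 d65 d66 d67 d68 d69 d70
  d71 d72 d73 d74 d75 d76 d77 d78 d79 d80 d81 d82 d83 d84 d85 d86 d87 d88 d89 d90 d91 d92 d93 =>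
  (fold (Nat.add (Nat.add (Nat.add (Nat.add (Nat.add (Nat.add (Nat.add (Nat.add (Nat.add (fold
  (Nat.add (Nat.add (Nat.mul (nat_lit 8) (fold (Nat.add (Nat.add (Nat.add (Nat.add (Nat.add (Nat.add
  (Nat.mul (nat_lit 3) (fold (Nat.add (Nat.add (Nat.add (Nat.add (Nat.add (Nat.add (Nat.add (Nat.add
  (Nat.add (Nat.add (Z a x d2) (Z a x d4)) (Z a x d5)) (Z a x d7)) (Z a x d11)) (Z a x d13)) (Z a x
  d14)) (Z a x d16)) (Z a x d30)) (Z a x d33)) (Nat.add (Nat.add (Nat.add (Nat.add (Nat.add (Nat.add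
  (Nat.add (Nat.add (Nat.add (Z a x d39) (Z a x d42)) (Z a x d56)) (Z a x d58)) (Z a x d59)) (Z a x
  d61)) (Z a x d65)) (Z a x d67)) (Z a x d68)) (Z a x d70))) (mo Y d (nat_lit 0)))) (Z a x d8)) (Z a
  x d10)) (Nat.mul (nat_lit 4) (Z a x d36))) (Z a x d62)) (Nat.mul (nat_lit 2) (Nat.add (Nat.add
  (Nat.add (Z a x d9) (Z a x d35)) (Z a x d37)) (Z a x d63)))) (Z a x d64)) (mo Y d (nat_lit 0))))
  (Nat.mul (nat_lit 4) (Nat.add (Z a x d27) (Z a x d45)))) (Nat.mul (nat_lit 2) (Nat.add (Nat.add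
  (Nat.add (Nat.add (Nat.add (Nat.add (Nat.add (Z a x d0) (Z a x d18)) (Z a x d26)) (Z a x d28)) (Z
  a x d44)) (Z a x d46)) (Z a x d54)) (Z a x d72)))) (mo Y d (nat_lit 0))) (Nat.mul (nat_lit 3)
  (fold (Nat.add (Nat.add (Nat.add (Nat.add (Nat.add (Nat.add (Nat.add (Nat.add (Z a x d3) (Z a x
  d6)) (Z a x d12)) (Z a x d15)) (Z a x d29)) (Z a x d31)) (Z a x d32)) (Z a x d34)) (Nat.add
  (Nat.add (Nat.add (Nat.add (Nat.add (Nat.add (Nat.add (Z a x d38) (Z a x d40)) (Z a x d41)) (Z a x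
  d43)) (Z a x d57)) (Z a x d60)) (Z a x d66)) (Z a x d69))) (mo Y d (nat_lit 0))))) (Z a x d)) (Z a
  x d1)) (Z a x d17)) (Z a x d19)) (Z a x d53)) (Z a x d55)) (Z a x d71)) (Z a x d73)) (mo Y d
  (nat_lit 0)))

/-- compiled program -/
def b11_74r : Prog3 := fun Y Z => Bx.mk fun a x d =>
  ((b11m96D d).1 ((b11_74e Y Z).1 a x d))

/-- compiled program -/
def b11_75e (Y : Lay) (Z : Tc) :
    Bx (Nat → Nat → Nat → (Nat → Nat → Nat → Nat → Nat → Nat → Nat → Nat → Nat → Nat → Nat → Nat →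
    Nat → Nat → Nat → Nat → Nat → Nat → Nat → Nat → Nat → Nat → Nat → Nat → Nat → Nat → Nat → Nat →
    Nat → Nat → Nat → Nat → Nat → Nat → Nat → Nat → Nat → Nat → Nat → Nat → Nat → Nat → Nat → Nat →
    Nat → Nat → Nat → Nat → Nat → Nat → Nat → Nat → Nat → Nat → Nat → Nat → Nat → Nat → Nat → Nat →
    Nat → Nat → Nat → Nat → Nat → Nat → Nat → Nat → Nat → Nat → Nat → Nat → Nat → Nat → Nat → Nat →
    Nat → Nat → Nat → Nat → Nat → Nat → Nat → Nat → Nat → Nat → Nat → Nat → Nat → Nat → Nat → Nat →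
    Nat → Nat → Nat)) :=
  Bx.mk fun a x d d0 d1 d2 d3 d4 d5 d6 d7 d8 d9 d10 d11 d12 d13 d14 d15 d16 d17 d18 d19 d20 d21 d22
  d23 d24 d25 d26 d27 d28 d29 d30 d31 d32 d33 d34 d35 d36 d37 d38 d39 d40 d41 d42 d43 d44 d45 d46
  d47 d48 d49 d50 d51 d52 d53 d54 d55 d56 d57 d58 d59 d60 d61 d62 d63 d64 d65 d66 d67 d68 d69 d70
  d71 d72 d73 d74 d75 d76 d77 d78 d79 d80 d81 d82 d83 d84 d85 d86 d87 d88 d89 d90 d91 d92 d93 =>
  (fold (Nat.add (Nat.add (Nat.add (Nat.add (Nat.add (Nat.add (Nat.add (Nat.add (Nat.add (Nat.mul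
  (nat_lit 3) (fold (Nat.add (Nat.add (Nat.add (Nat.add (Nat.add (Nat.add (Nat.add (Z a x d0) (Z a x
  d1)) (Z a x d5)) (Z a x d14)) (Z a x d18)) (Z a x d19)) (Z a x d36)) (Nat.add (Nat.add (Nat.add
  (Nat.add (Nat.add (Nat.add (Z a x d37) (Z a x d54)) (Z a x d55)) (Z a x d59)) (Z a x d68)) (Z a x
  d72)) (Z a x d73))) (mo Y d (nat_lit 0)))) (Nat.mul (nat_lit 6) (fold (Nat.add (Nat.add (Nat.add
  (Nat.add (Nat.add (Nat.add (Nat.add (Nat.add (Nat.add (Z a x d9) (Z a x d10)) (Z a x d27)) (Z a x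
  d28)) (Z a x d32)) (Z a x d41)) (Z a x d45)) (Z a x d46)) (Z a x d63)) (Z a x d64)) (mo Y d
  (nat_lit 0))))) (Nat.mul (nat_lit 8) (fold (Nat.add (Nat.mul (nat_lit 4) (Nat.add (Nat.add
  (Nat.add (Nat.add (Nat.add (Z a x d8) (Z a x d11)) (Z a x d29)) (Z a x d44)) (Z a x d62)) (Z a x
  d65))) (Nat.mul (nat_lit 2) (Nat.add (Nat.add (Nat.add (Z a x d2) (Z a x d17)) (Z a x d56)) (Z a x
  d71)))) (mo Y d (nat_lit 0))))) (Z a x d)) (Z a x d20)) (Z a x d35)) (Z a x d38)) (Nat.mul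
  (nat_lit 2) (Nat.add (Z a x d26) (Z a x d47)))) (Z a x d53)) (Z a x d74)) (mo Y d (nat_lit 0)))

/-- compiled program -/
def b11_75r : Prog3 := fun Y Z => Bx.mk fun a x d =>
  ((b11m96D d).1 ((b11_75e Y Z).1 a x d))

/-- compiled program -/
def b11_76e (Y : Lay) (Z : Tc) :
    Bx (Nat → Nat → Nat → (Nat → Nat → Nat → Nat → Nat → Nat → Nat → Nat → Nat → Nat → Nat → Nat →
    Nat → Nat → Nat → Nat → Nat → Nat → Nat → Nat → Nat → Nat → Nat → Nat → Nat → Nat → Nat → Nat →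
    Nat → Nat → Nat → Nat → Nat → Nat → Nat → Nat → Nat → Nat → Nat → Nat → Nat → Nat → Nat → Nat →
    Nat → Nat → Nat → Nat → Nat → Nat → Nat → Nat → Nat → Nat → Nat → Nat → Nat → Nat → Nat → Nat →
    Nat → Nat → Nat → Nat → Nat → Nat → Nat → Nat → Nat → Nat → Nat → Nat → Nat → Nat → Nat → Nat →
    Nat → Nat → Nat → Nat → Nat → Nat → Nat → Nat → Nat → Nat → Nat → Nat → Nat → Nat → Nat → Nat →
    Nat → Nat → Nat)) :=
  Bx.mk fun a x d d0 d1 d2 d3 d4 d5 d6 d7 d8 d9 d10 d11 d12 d13 d14 d15 d16 d17 d18 d19 d20 d21 d22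
  d23 d24 d25 d26 d27 d28 d29 d30 d31 d32 d33 d34 d35 d36 d37 d38 d39 d40 d41 d42 d43 d44 d45 d46
  d47 d48 d49 d50 d51 d52 d53 d54 d55 d56 d57 d58 d59 d60 d61 d62 d63 d64 d65 d66 d67 d68 d69 d70
  d71 d72 d73 d74 d75 d76 d77 d78 d79 d80 d81 d82 d83 d84 d85 d86 d87 d88 d89 d90 d91 d92 d93 =>
  (fold (Nat.add (Nat.add (Nat.add (Nat.add (Nat.add (Nat.add (fold (Nat.add (Nat.mul (nat_lit 8)
  (Nat.add (fold (Nat.add (Nat.mul (nat_lit 4) (Nat.add (Nat.add (Nat.add (Nat.add (Nat.add (Z a x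
  d8) (Z a x d12)) (Z a x d30)) (Z a x d44)) (Z a x d62)) (Z a x d66))) (Nat.mul (nat_lit 2)
  (Nat.add (Nat.add (Nat.add (Z a x d3) (Z a x d17)) (Z a x d57)) (Z a x d71)))) (mo Y d (nat_lit
  0))) (fold (Nat.add (Nat.add (Z a x d27) (Z a x d47)) (Nat.mul (nat_lit 3) (Nat.add (Nat.add
  (Nat.add (Nat.add (Nat.add (Nat.add (Nat.add (Nat.add (Z a x d1) (Z a x d19)) (Z a x d32)) (Z a x
  d33)) (Z a x d37)) (Z a x d41)) (Z a x d42)) (Z a x d55)) (Z a x d73)))) (mo Y d (nat_lit 0)))))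
  (Nat.mul (nat_lit 2) (Nat.add (Nat.add (Nat.add (Nat.add (Nat.add (Nat.add (Nat.add (Z a x d9) (Z
  a x d11)) (Z a x d26)) (Z a x d29)) (Z a x d45)) (Z a x d48)) (Z a x d63)) (Z a x d65)))) (mo Y d
  (nat_lit 0))) (fold (Nat.add (Nat.add (Nat.add (Nat.add (Nat.add (Nat.add (Nat.mul (nat_lit 3)
  (fold (Nat.add (Nat.add (Nat.add (Nat.add (Nat.add (Nat.add (Nat.add (Nat.add (Nat.add (Nat.add
  (Nat.add (Z a x d5) (Z a x d6)) (Z a x d10)) (Z a x d14)) (Z a x d15)) (Z a x d28)) (Z a x d46))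
  (Z a x d59)) (Z a x d60)) (Z a x d64)) (Z a x d68)) (Z a x d69)) (mo Y d (nat_lit 0)))) (Z a x d))
  (Z a x d2)) (Z a x d18)) (Z a x d21)) (Z a x d35)) (Nat.mul (nat_lit 4) (Nat.add (Nat.add (Nat.add
  (Nat.add (Nat.add (Z a x d0) (Z a x d20)) (Z a x d36)) (Z a x d38)) (Z a x d54)) (Z a x d74))))
  (mo Y d (nat_lit 0)))) (Z a x d39)) (Z a x d53)) (Z a x d56)) (Z a x d72)) (Z a x d75)) (mo Y d
  (nat_lit 0)))

/-- compiled program -/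
def b11_76r : Prog3 := fun Y Z => Bx.mk fun a x d =>
  ((b11m96D d).1 ((b11_76e Y Z).1 a x d))

/-- compiled program -/
def b11_77e (Y : Lay) (Z : Tc) :
    Bx (Nat → Nat → Nat → (Nat → Nat → Nat → Nat → Nat → Nat → Nat → Nat → Nat → Nat → Nat → Nat →
    Nat → Nat → Nat → Nat → Nat → Nat → Nat → Nat → Nat → Nat → Nat → Nat → Nat → Nat → Nat → Nat →
    Nat → Nat → Nat → Nat → Nat → Nat → Nat → Nat → Nat → Nat → Nat → Nat → Nat → Nat → Nat → Nat →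
    Nat → Nat → Nat → Nat → Nat → Nat → Nat → Nat → Nat → Nat → Nat → Nat → Nat → Nat → Nat → Nat →
    Nat → Nat → Nat → Nat → Nat → Nat → Nat → Nat → Nat → Nat → Nat → Nat → Nat → Nat → Nat → Nat →
    Nat → Nat → Nat → Nat → Nat → Nat → Nat → Nat → Nat → Nat → Nat → Nat → Nat → Nat → Nat → Nat →
    Nat → Nat → Nat)) :=
  Bx.mk fun a x d d0 d1 d2 d3 d4 d5 d6 d7 d8 d9 d10 d11 d12 d13 d14 d15 d16 d17 d18 d19 d20 d21 d22
  d23 d24 d25 d26 d27 d28 d29 d30 d31 d32 d33 d34 d35 d36 d37 d38 d39 d40 d41 d42 d43 d44 d45 d46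
  d47 d48 d49 d50 d51 d52 d53 d54 d55 d56 d57 d58 d59 d60 d61 d62 d63 d64 d65 d66 d67 d68 d69 d70
  d71 d72 d73 d74 d75 d76 d77 d78 d79 d80 d81 d82 d83 d84 d85 d86 d87 d88 d89 d90 d91 d92 d93 =>
  (fold (Nat.add (Nat.add (Nat.add (Nat.add (Nat.add (Nat.add (Nat.add (Nat.add (fold (Nat.add
  (Nat.add (Z a x d) (Z a x d1)) (Nat.mul (nat_lit 3) (Nat.add (Nat.add (Nat.add (Nat.add (Nat.add
  (Nat.add (Nat.add (Nat.add (Nat.add (Z a x d5) (Z a x d7)) (Z a x d14)) (Z a x d16)) (Z a x d33))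
  (Z a x d42)) (Z a x d59)) (Z a x d61)) (Z a x d68)) (Z a x d70)))) (mo Y d (nat_lit 0))) (Nat.mul
  (nat_lit 8) (fold (Nat.add (Nat.add (Nat.add (Nat.add (Nat.add (fold (Nat.add (Nat.mul (nat_lit 4)
  (fold (Nat.add (Nat.add (Nat.add (Nat.add (Nat.add (Nat.add (Nat.add (Nat.add (Nat.add (Z a x d0)
  (Z a x d8)) (Z a x d10)) (Z a x d11)) (Z a x d13)) (Z a x d21)) (Z a x d29)) (Z a x d31)) (Z a x
  d36)) (Nat.add (Nat.add (Nat.add (Nat.add (Nat.add (Nat.add (Nat.add (Nat.add (Z a x d39) (Z a x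
  d44)) (Z a x d46)) (Z a x d54)) (Z a x d62)) (Z a x d64)) (Z a x d65)) (Z a x d67)) (Z a x d75)))
  (mo Y d (nat_lit 0)))) (Nat.mul (nat_lit 2) (Nat.add (Nat.add (Nat.add (Nat.add (Nat.add (Nat.add
  (Nat.add (Z a x d2) (Z a x d4)) (Z a x d9)) (Z a x d12)) (Z a x d17)) (Z a x d19)) (Z a x d30))
  (Nat.add (Nat.add (Nat.add (Nat.add (Nat.add (Nat.add (Z a x d45) (Z a x d56)) (Z a x d58)) (Z a x
  d63)) (Z a x d66)) (Z a x d71)) (Z a x d73))))) (mo Y d (nat_lit 0))) (Z a x d3)) (Z a x d18)) (Z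
  a x d57)) (Nat.mul (nat_lit 3) (Nat.add (Nat.add (Nat.add (Nat.add (Nat.add (Nat.add (Nat.add (Z a
  x d6) (Z a x d15)) (Z a x d32)) (Z a x d34)) (Z a x d41)) (Z a x d43)) (Z a x d60)) (Z a x d69))))
  (Z a x d72)) (mo Y d (nat_lit 0))))) (Z a x d20)) (Z a x d22)) (Z a x d27)) (Z a x d35)) (Z a x
  d37)) (Z a x d38)) (Nat.add (Nat.add (Nat.add (Nat.add (Nat.add (Nat.add (Z a x d40) (Z a x d48))
  (Nat.mul (nat_lit 2) (Nat.add (Nat.add (Nat.add (Z a x d26) (Z a x d28)) (Z a x d47)) (Z a x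
  d49)))) (Z a x d53)) (Z a x d55)) (Z a x d74)) (Z a x d76))) (mo Y d (nat_lit 0)))

/-- compiled program -/
def b11_77r : Prog3 := fun Y Z => Bx.mk fun a x d =>
  ((b11m96D d).1 ((b11_77e Y Z).1 a x d))

/-- compiled program -/
def b11_78e (Y : Lay) (Z : Tc) :
    Bx (Nat → Nat → Nat → (Nat → Nat → Nat → Nat → Nat → Nat → Nat → Nat → Nat → Nat → Nat → Nat →
    Nat → Nat → Nat → Nat → Nat → Nat → Nat → Nat → Nat → Nat → Nat → Nat → Nat → Nat → Nat → Nat →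
    Nat → Nat → Nat → Nat → Nat → Nat → Nat → Nat → Nat → Nat → Nat → Nat → Nat → Nat → Nat → Nat →
    Nat → Nat → Nat → Nat → Nat → Nat → Nat → Nat → Nat → Nat → Nat → Nat → Nat → Nat → Nat → Nat →
    Nat → Nat → Nat → Nat → Nat → Nat → Nat → Nat → Nat → Nat → Nat → Nat → Nat → Nat → Nat → Nat →
    Nat → Nat → Nat → Nat → Nat → Nat → Nat → Nat → Nat → Nat → Nat → Nat → Nat → Nat → Nat → Nat →
    Nat → Nat → Nat)) :=
  Bx.mk fun a x d d0 d1 d2 d3 d4 d5 d6 d7 d8 d9 d10 d11 d12 d13 d14 d15 d16 d17 d18 d19 d20 d21 d22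
  d23 d24 d25 d26 d27 d28 d29 d30 d31 d32 d33 d34 d35 d36 d37 d38 d39 d40 d41 d42 d43 d44 d45 d46
  d47 d48 d49 d50 d51 d52 d53 d54 d55 d56 d57 d58 d59 d60 d61 d62 d63 d64 d65 d66 d67 d68 d69 d70
  d71 d72 d73 d74 d75 d76 d77 d78 d79 d80 d81 d82 d83 d84 d85 d86 d87 d88 d89 d90 d91 d92 d93 =>
  (fold (Nat.add (Nat.add (Nat.add (Nat.add (Nat.add (Nat.add (Nat.add (Nat.mul (nat_lit 3) (fold
  (Nat.add (Nat.add (Nat.add (Nat.add (Nat.add (Nat.add (Nat.add (Nat.add (Z a x d9) (Z a x d10)) (Z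
  a x d12)) (Z a x d13)) (Z a x d27)) (Z a x d28)) (Z a x d30)) (Z a x d31)) (Nat.add (Nat.add
  (Nat.add (Nat.add (Nat.add (Nat.add (Nat.add (Z a x d45) (Z a x d46)) (Z a x d48)) (Z a x d49)) (Z
  a x d63)) (Z a x d64)) (Z a x d66)) (Z a x d67))) (mo Y d (nat_lit 0)))) (Nat.mul (nat_lit 8)
  (fold (Nat.add (Nat.add (Nat.add (Nat.add (Nat.add (Nat.add (Nat.add (Nat.add (Nat.add (Nat.mul
  (nat_lit 3) (fold (Nat.add (Nat.add (Nat.add (Nat.add (Nat.add (Nat.add (Nat.add (Nat.add (Nat.add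
  (Nat.add (Z a x d0) (Z a x d1)) (Z a x d3)) (Z a x d4)) (Z a x d18)) (Z a x d19)) (Z a x d21)) (Z
  a x d22)) (Z a x d36)) (Z a x d37)) (Nat.add (Nat.add (Nat.add (Nat.add (Nat.add (Nat.add (Nat.add
  (Nat.add (Nat.add (Z a x d39) (Z a x d40)) (Z a x d54)) (Z a x d55)) (Z a x d57)) (Z a x d58)) (Z
  a x d72)) (Z a x d73)) (Z a x d75)) (Z a x d76))) (mo Y d (nat_lit 0)))) (Z a x d2)) (Z a x d8))
  (Z a x d14)) (Z a x d20)) (Nat.mul (nat_lit 2) (Nat.add (Nat.add (Nat.add (Z a x d29) (Z a x d35))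
  (Z a x d41)) (Z a x d47)))) (Z a x d56)) (Z a x d62)) (Z a x d68)) (Z a x d74)) (mo Y d (nat_lit
  0))))) (Z a x d)) (Z a x d5)) (Z a x d11)) (Z a x d17)) (Z a x d23)) (Nat.add (Nat.add (Nat.add
  (Nat.add (Nat.add (Nat.mul (nat_lit 2) (Nat.add (Nat.add (Nat.add (Nat.add (Z a x d26) (Z a x
  d32)) (Z a x d38)) (Z a x d44)) (Z a x d50))) (Z a x d53)) (Z a x d59)) (Z a x d65)) (Z a x d71))
  (Z a x d77))) (mo Y d (nat_lit 0)))

/-- compiled program -/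
def b11_78r : Prog3 := fun Y Z => Bx.mk fun a x d =>
  ((b11m96D d).1 ((b11_78e Y Z).1 a x d))

/-- compiled program -/
def b11_79e (Y : Lay) (Z : Tc) :
    Bx (Nat → Nat → Nat → (Nat → Nat → Nat → Nat → Nat → Nat → Nat → Nat → Nat → Nat → Nat → Nat →
    Nat → Nat → Nat → Nat → Nat → Nat → Nat → Nat → Nat → Nat → Nat → Nat → Nat → Nat → Nat → Nat →
    Nat → Nat → Nat → Nat → Nat → Nat → Nat → Nat → Nat → Nat → Nat → Nat → Nat → Nat → Nat → Nat →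
    Nat → Nat → Nat → Nat → Nat → Nat → Nat → Nat → Nat → Nat → Nat → Nat → Nat → Nat → Nat → Nat →
    Nat → Nat → Nat → Nat → Nat → Nat → Nat → Nat → Nat → Nat → Nat → Nat → Nat → Nat → Nat → Nat →
    Nat → Nat → Nat → Nat → Nat → Nat → Nat → Nat → Nat → Nat → Nat → Nat → Nat → Nat → Nat → Nat →
    Nat → Nat → Nat)) :=
  Bx.mk fun a x d d0 d1 d2 d3 d4 d5 d6 d7 d8 d9 d10 d11 d12 d13 d14 d15 d16 d17 d18 d19 d20 d21 d22
  d23 d24 d25 d26 d27 d28 d29 d30 d31 d32 d33 d34 d35 d36 d37 d38 d39 d40 d41 d42 d43 d44 d45 d46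
  d47 d48 d49 d50 d51 d52 d53 d54 d55 d56 d57 d58 d59 d60 d61 d62 d63 d64 d65 d66 d67 d68 d69 d70
  d71 d72 d73 d74 d75 d76 d77 d78 d79 d80 d81 d82 d83 d84 d85 d86 d87 d88 d89 d90 d91 d92 d93 =>
  (fold (Nat.add (Nat.add (Nat.add (Nat.add (Nat.add (Nat.add (Nat.add (fold (Nat.add (Nat.mul
  (nat_lit 8) (fold (Nat.add (Nat.add (Nat.add (fold (Nat.add (Nat.add (Nat.add (Nat.add (Nat.add
  (Nat.mul (nat_lit 4) (fold (Nat.add (Nat.add (Nat.add (Nat.add (Nat.add (Nat.add (Nat.add (Nat.add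
  (Nat.add (Nat.add (Nat.add (Z a x d2) (Z a x d3)) (Z a x d20)) (Z a x d21)) (Z a x d27)) (Z a x
  d32)) (Z a x d45)) (Z a x d50)) (Z a x d56)) (Z a x d57)) (Z a x d74)) (Z a x d75)) (mo Y d
  (nat_lit 0)))) (Z a x d8)) (Z a x d15)) (Z a x d38)) (Z a x d39)) (Nat.mul (nat_lit 3) (Nat.add
  (Nat.add (Nat.add (Nat.add (Nat.add (Nat.add (Nat.add (Z a x d10) (Z a x d13)) (Z a x d28)) (Z a x
  d31)) (Z a x d46)) (Z a x d49)) (Z a x d64)) (Z a x d67)))) (mo Y d (nat_lit 0))) (Z a x d62)) (Z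
  a x d69)) (Nat.mul (nat_lit 2) (Nat.add (Nat.add (Nat.add (Nat.add (Nat.add (Nat.add (Nat.add
  (Nat.add (Nat.add (Z a x d0) (Z a x d5)) (Z a x d18)) (Z a x d23)) (Z a x d35)) (Z a x d42)) (Z a
  x d54)) (Z a x d59)) (Z a x d72)) (Z a x d77)))) (mo Y d (nat_lit 0)))) (Nat.mul (nat_lit 4)
  (Nat.add (Nat.add (Nat.add (Nat.add (Nat.add (Z a x d11) (Z a x d12)) (Z a x d36)) (Z a x d41)) (Z
  a x d65)) (Z a x d66)))) (mo Y d (nat_lit 0))) (fold (Nat.add (Nat.add (Z a x d) (Z a x d6))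
  (Nat.mul (nat_lit 3) (Nat.add (Nat.add (Nat.add (Nat.add (Nat.add (Nat.add (Nat.add (Nat.add
  (Nat.add (Z a x d1) (Z a x d4)) (Z a x d19)) (Z a x d22)) (Z a x d37)) (Z a x d40)) (Z a x d55))
  (Z a x d58)) (Z a x d73)) (Z a x d76)))) (mo Y d (nat_lit 0)))) (Z a x d17)) (Z a x d24)) (Z a x
  d29)) (Z a x d30)) (Z a x d47)) (Nat.add (Nat.add (Nat.add (Nat.add (Nat.add (Z a x d48) (Z a x
  d53)) (Z a x d60)) (Nat.mul (nat_lit 2) (Nat.add (Nat.add (Nat.add (Nat.add (Nat.add (Nat.add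
  (Nat.add (Z a x d9) (Z a x d14)) (Z a x d26)) (Z a x d33)) (Z a x d44)) (Z a x d51)) (Z a x d63))
  (Z a x d68)))) (Z a x d71)) (Z a x d78))) (mo Y d (nat_lit 0)))

/-- compiled program -/
def b11_79r : Prog3 := fun Y Z => Bx.mk fun a x d =>
  ((b11m96D d).1 ((b11_79e Y Z).1 a x d))

/-- compiled program -/
def b11_80e (Y : Lay) (Z : Tc) :
    Bx (Nat → Nat → Nat → (Nat → Nat → Nat → Nat → Nat → Nat → Nat → Nat → Nat → Nat → Nat → Nat →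
    Nat → Nat → Nat → Nat → Nat → Nat → Nat → Nat → Nat → Nat → Nat → Nat → Nat → Nat → Nat → Nat →
    Nat → Nat → Nat → Nat → Nat → Nat → Nat → Nat → Nat → Nat → Nat → Nat → Nat → Nat → Nat → Nat →
    Nat → Nat → Nat → Nat → Nat → Nat → Nat → Nat → Nat → Nat → Nat → Nat → Nat → Nat → Nat → Nat →
    Nat → Nat → Nat → Nat → Nat → Nat → Nat → Nat → Nat → Nat → Nat → Nat → Nat → Nat → Nat → Nat →
    Nat → Nat → Nat → Nat → Nat → Nat → Nat → Nat → Nat → Nat → Nat → Nat → Nat → Nat → Nat → Nat →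
    Nat → Nat → Nat)) :=
  Bx.mk fun a x d d0 d1 d2 d3 d4 d5 d6 d7 d8 d9 d10 d11 d12 d13 d14 d15 d16 d17 d18 d19 d20 d21 d22
  d23 d24 d25 d26 d27 d28 d29 d30 d31 d32 d33 d34 d35 d36 d37 d38 d39 d40 d41 d42 d43 d44 d45 d46
  d47 d48 d49 d50 d51 d52 d53 d54 d55 d56 d57 d58 d59 d60 d61 d62 d63 d64 d65 d66 d67 d68 d69 d70
  d71 d72 d73 d74 d75 d76 d77 d78 d79 d80 d81 d82 d83 d84 d85 d86 d87 d88 d89 d90 d91 d92 d93 =>
  (fold (Nat.add (fold (Nat.add (Nat.add (Nat.add (Nat.add (Nat.add (Nat.add (Nat.add (Nat.add (fold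
  (Nat.add (Nat.add (Nat.add (Nat.add (Z a x d) (Z a x d1)) (Z a x d3)) (Z a x d5)) (Nat.mul
  (nat_lit 2) (Nat.add (Nat.add (Nat.add (Nat.add (Nat.add (Nat.add (Nat.add (Z a x d26) (Z a x
  d28)) (Z a x d30)) (Z a x d32)) (Z a x d34)) (Z a x d36)) (Z a x d38)) (Nat.add (Nat.add (Nat.add
  (Nat.add (Nat.add (Nat.add (Z a x d40) (Z a x d42)) (Z a x d44)) (Z a x d46)) (Z a x d48)) (Z a x
  d50)) (Z a x d52))))) (mo Y d (nat_lit 0))) (Nat.mul (nat_lit 8) (fold (Nat.add (Nat.add (Nat.add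
  (Nat.add (Nat.add (Nat.add (Nat.add (Nat.add (Nat.add (Nat.add (Nat.add (fold (Nat.add (Nat.add
  (Nat.add (Nat.add (Nat.add (Nat.add (Z a x d0) (Z a x d2)) (Z a x d4)) (Z a x d6)) (Z a x d8)) (Z
  a x d10)) (Nat.mul (nat_lit 2) (Nat.add (Nat.add (Nat.add (Nat.add (Nat.add (Nat.add (Nat.add (Z a
  x d27) (Z a x d29)) (Z a x d31)) (Z a x d33)) (Z a x d35)) (Z a x d37)) (Z a x d39)) (Nat.add
  (Nat.add (Nat.add (Nat.add (Nat.add (Z a x d41) (Z a x d43)) (Z a x d45)) (Z a x d47)) (Z a x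
  d49)) (Z a x d51))))) (mo Y d (nat_lit 0))) (Z a x d12)) (Z a x d14)) (Z a x d16)) (Z a x d18)) (Z
  a x d20)) (Z a x d22)) (Z a x d24)) (Z a x d54)) (Z a x d56)) (Z a x d58)) (Nat.add (Nat.add
  (Nat.add (Nat.add (Nat.add (Nat.add (Nat.add (Nat.add (Nat.add (Z a x d60) (Z a x d62)) (Z a x
  d64)) (Z a x d66)) (Z a x d68)) (Z a x d70)) (Z a x d72)) (Z a x d74)) (Z a x d76)) (Z a x d78)))
  (mo Y d (nat_lit 0))))) (Z a x d7)) (Z a x d9)) (Z a x d11)) (Z a x d13)) (Z a x d15)) (Nat.add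
  (Nat.add (Nat.add (Nat.add (Nat.add (Z a x d17) (Z a x d19)) (Z a x d21)) (Z a x d23)) (Z a x
  d25)) (Z a x d53))) (Nat.add (Nat.add (Nat.add (Nat.add (Nat.add (Nat.add (Nat.add (Nat.add
  (Nat.add (Nat.add (Nat.add (Z a x d55) (Z a x d57)) (Z a x d59)) (Z a x d61)) (Z a x d63)) (Z a x
  d65)) (Z a x d67)) (Z a x d69)) (Z a x d71)) (Z a x d73)) (Z a x d75)) (Z a x d77))) (mo Y d
  (nat_lit 0))) (Z a x d79)) (mo Y d (nat_lit 0)))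

/-- compiled program -/
def b11_80r : Prog3 := fun Y Z => Bx.mk fun a x d =>
  ((b11m96D d).1 ((b11_80e Y Z).1 a x d))

/-- compiled program -/
def b11_81e (Y : Lay) (Z : Tc) :
    Bx (Nat → Nat → Nat → (Nat → Nat → Nat → Nat → Nat → Nat → Nat → Nat → Nat → Nat → Nat → Nat →
    Nat → Nat → Nat → Nat → Nat → Nat → Nat → Nat → Nat → Nat → Nat → Nat → Nat → Nat → Nat → Nat →
    Nat → Nat → Nat → Nat → Nat → Nat → Nat → Nat → Nat → Nat → Nat → Nat → Nat → Nat → Nat → Nat →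
    Nat → Nat → Nat → Nat → Nat → Nat → Nat → Nat → Nat → Nat → Nat → Nat → Nat → Nat → Nat → Nat →
    Nat → Nat → Nat → Nat → Nat → Nat → Nat → Nat → Nat → Nat → Nat → Nat → Nat → Nat → Nat → Nat →
    Nat → Nat → Nat → Nat → Nat → Nat → Nat → Nat → Nat → Nat → Nat → Nat → Nat → Nat → Nat → Nat →
    Nat → Nat → Nat)) :=
  Bx.mk fun a x d d0 d1 d2 d3 d4 d5 d6 d7 d8 d9 d10 d11 d12 d13 d14 d15 d16 d17 d18 d19 d20 d21 d22
  d23 d24 d25 d26 d27 d28 d29 d30 d31 d32 d33 d34 d35 d36 d37 d38 d39 d40 d41 d42 d43 d44 d45 d46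
  d47 d48 d49 d50 d51 d52 d53 d54 d55 d56 d57 d58 d59 d60 d61 d62 d63 d64 d65 d66 d67 d68 d69 d70
  d71 d72 d73 d74 d75 d76 d77 d78 d79 d80 d81 d82 d83 d84 d85 d86 d87 d88 d89 d90 d91 d92 d93 =>
  (fold (Nat.add (Nat.add (Nat.mul (nat_lit 3) (Nat.add (Z a x d26) (Z a x d53))) (Z a x d)) (Z a x
  d80)) (mo Y d (nat_lit 0)))

/-- compiled program -/
def b11_81r : Prog3 := fun Y Z => Bx.mk fun a x d =>
  ((b11m96D d).1 ((b11_81e Y Z).1 a x d))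

/-- compiled program -/
def b11_82e (Y : Lay) (Z : Tc) :
    Bx (Nat → Nat → Nat → (Nat → Nat → Nat → Nat → Nat → Nat → Nat → Nat → Nat → Nat → Nat → Nat →
    Nat → Nat → Nat → Nat → Nat → Nat → Nat → Nat → Nat → Nat → Nat → Nat → Nat → Nat → Nat → Nat →
    Nat → Nat → Nat → Nat → Nat → Nat → Nat → Nat → Nat → Nat → Nat → Nat → Nat → Nat → Nat → Nat →
    Nat → Nat → Nat → Nat → Nat → Nat → Nat → Nat → Nat → Nat → Nat → Nat → Nat → Nat → Nat → Nat →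
    Nat → Nat → Nat → Nat → Nat → Nat → Nat → Nat → Nat → Nat → Nat → Nat → Nat → Nat → Nat → Nat →
    Nat → Nat → Nat → Nat → Nat → Nat → Nat → Nat → Nat → Nat → Nat → Nat → Nat → Nat → Nat → Nat →
    Nat → Nat → Nat)) :=
  Bx.mk fun a x d d0 d1 d2 d3 d4 d5 d6 d7 d8 d9 d10 d11 d12 d13 d14 d15 d16 d17 d18 d19 d20 d21 d22
  d23 d24 d25 d26 d27 d28 d29 d30 d31 d32 d33 d34 d35 d36 d37 d38 d39 d40 d41 d42 d43 d44 d45 d46
  d47 d48 d49 d50 d51 d52 d53 d54 d55 d56 d57 d58 d59 d60 d61 d62 d63 d64 d65 d66 d67 d68 d69 d70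
  d71 d72 d73 d74 d75 d76 d77 d78 d79 d80 d81 d82 d83 d84 d85 d86 d87 d88 d89 d90 d91 d92 d93 =>
  (fold (Nat.add (Nat.add (Nat.add (Nat.add (Z a x d) (Z a x d0)) (Nat.mul (nat_lit 3) (Nat.add
  (Nat.add (Nat.add (Z a x d26) (Z a x d27)) (Z a x d53)) (Z a x d54)))) (Z a x d80)) (Z a x d81))
  (mo Y d (nat_lit 0)))

/-- compiled program -/
def b11_82r : Prog3 := fun Y Z => Bx.mk fun a x d =>
  ((b11m96D d).1 ((b11_82e Y Z).1 a x d))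

/-- compiled program -/
def b11_83e (Y : Lay) (Z : Tc) :
    Bx (Nat → Nat → Nat → (Nat → Nat → Nat → Nat → Nat → Nat → Nat → Nat → Nat → Nat → Nat → Nat →
    Nat → Nat → Nat → Nat → Nat → Nat → Nat → Nat → Nat → Nat → Nat → Nat → Nat → Nat → Nat → Nat →
    Nat → Nat → Nat → Nat → Nat → Nat → Nat → Nat → Nat → Nat → Nat → Nat → Nat → Nat → Nat → Nat →
    Nat → Nat → Nat → Nat → Nat → Nat → Nat → Nat → Nat → Nat → Nat → Nat → Nat → Nat → Nat → Nat →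
    Nat → Nat → Nat → Nat → Nat → Nat → Nat → Nat → Nat → Nat → Nat → Nat → Nat → Nat → Nat → Nat →
    Nat → Nat → Nat → Nat → Nat → Nat → Nat → Nat → Nat → Nat → Nat → Nat → Nat → Nat → Nat → Nat →
    Nat → Nat → Nat)) :=
  Bx.mk fun a x d d0 d1 d2 d3 d4 d5 d6 d7 d8 d9 d10 d11 d12 d13 d14 d15 d16 d17 d18 d19 d20 d21 d22
  d23 d24 d25 d26 d27 d28 d29 d30 d31 d32 d33 d34 d35 d36 d37 d38 d39 d40 d41 d42 d43 d44 d45 d46
  d47 d48 d49 d50 d51 d52 d53 d54 d55 d56 d57 d58 d59 d60 d61 d62 d63 d64 d65 d66 d67 d68 d69 d70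
  d71 d72 d73 d74 d75 d76 d77 d78 d79 d80 d81 d82 d83 d84 d85 d86 d87 d88 d89 d90 d91 d92 d93 =>
  (fold (Nat.add (Nat.add (Nat.add (Nat.add (Nat.add (Nat.add (Z a x d) (Z a x d1)) (Nat.mul
  (nat_lit 6) (Nat.add (Z a x d27) (Z a x d54)))) (Nat.mul (nat_lit 3) (Nat.add (Nat.add (Nat.add (Z
  a x d26) (Z a x d28)) (Z a x d53)) (Z a x d55)))) (Z a x d80)) (Nat.mul (nat_lit 2) (Nat.add (Z a
  x d0) (Z a x d81)))) (Z a x d82)) (mo Y d (nat_lit 0)))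

/-- compiled program -/
def b11_83r : Prog3 := fun Y Z => Bx.mk fun a x d =>
  ((b11m96D d).1 ((b11_83e Y Z).1 a x d))

/-- compiled program -/
def b11_84e (Y : Lay) (Z : Tc) :
    Bx (Nat → Nat → Nat → (Nat → Nat → Nat → Nat → Nat → Nat → Nat → Nat → Nat → Nat → Nat → Nat →
    Nat → Nat → Nat → Nat → Nat → Nat → Nat → Nat → Nat → Nat → Nat → Nat → Nat → Nat → Nat → Nat →
    Nat → Nat → Nat → Nat → Nat → Nat → Nat → Nat → Nat → Nat → Nat → Nat → Nat → Nat → Nat → Nat →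
    Nat → Nat → Nat → Nat → Nat → Nat → Nat → Nat → Nat → Nat → Nat → Nat → Nat → Nat → Nat → Nat →
    Nat → Nat → Nat → Nat → Nat → Nat → Nat → Nat → Nat → Nat → Nat → Nat → Nat → Nat → Nat → Nat →
    Nat → Nat → Nat → Nat → Nat → Nat → Nat → Nat → Nat → Nat → Nat → Nat → Nat → Nat → Nat → Nat →
    Nat → Nat → Nat)) :=
  Bx.mk fun a x d d0 d1 d2 d3 d4 d5 d6 d7 d8 d9 d10 d11 d12 d13 d14 d15 d16 d17 d18 d19 d20 d21 d22
  d23 d24 d25 d26 d27 d28 d29 d30 d31 d32 d33 d34 d35 d36 d37 d38 d39 d40 d41 d42 d43 d44 d45 d46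
  d47 d48 d49 d50 d51 d52 d53 d54 d55 d56 d57 d58 d59 d60 d61 d62 d63 d64 d65 d66 d67 d68 d69 d70
  d71 d72 d73 d74 d75 d76 d77 d78 d79 d80 d81 d82 d83 d84 d85 d86 d87 d88 d89 d90 d91 d92 d93 =>
  (fold (Nat.add (Nat.add (Nat.add (Nat.add (Z a x d) (Z a x d2)) (Z a x d80)) (Nat.mul (nat_lit 3)
  (Nat.add (Nat.add (Nat.add (Nat.add (Nat.add (Nat.add (Nat.add (Z a x d0) (Z a x d1)) (Z a x d26))
  (Z a x d29)) (Z a x d53)) (Z a x d56)) (Z a x d81)) (Z a x d82)))) (Z a x d83)) (mo Y d (nat_lit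
  0)))

/-- compiled program -/
def b11_84r : Prog3 := fun Y Z => Bx.mk fun a x d =>
  ((b11m96D d).1 ((b11_84e Y Z).1 a x d))

/-- compiled program -/
def b11_85e (Y : Lay) (Z : Tc) :
    Bx (Nat → Nat → Nat → (Nat → Nat → Nat → Nat → Nat → Nat → Nat → Nat → Nat → Nat → Nat → Nat →
    Nat → Nat → Nat → Nat → Nat → Nat → Nat → Nat → Nat → Nat → Nat → Nat → Nat → Nat → Nat → Nat →
    Nat → Nat → Nat → Nat → Nat → Nat → Nat → Nat → Nat → Nat → Nat → Nat → Nat → Nat → Nat → Nat →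
    Nat → Nat → Nat → Nat → Nat → Nat → Nat → Nat → Nat → Nat → Nat → Nat → Nat → Nat → Nat → Nat →
    Nat → Nat → Nat → Nat → Nat → Nat → Nat → Nat → Nat → Nat → Nat → Nat → Nat → Nat → Nat → Nat →
    Nat → Nat → Nat → Nat → Nat → Nat → Nat → Nat → Nat → Nat → Nat → Nat → Nat → Nat → Nat → Nat →
    Nat → Nat → Nat)) :=
  Bx.mk fun a x d d0 d1 d2 d3 d4 d5 d6 d7 d8 d9 d10 d11 d12 d13 d14 d15 d16 d17 d18 d19 d20 d21 d22
  d23 d24 d25 d26 d27 d28 d29 d30 d31 d32 d33 d34 d35 d36 d37 d38 d39 d40 d41 d42 d43 d44 d45 d46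
  d47 d48 d49 d50 d51 d52 d53 d54 d55 d56 d57 d58 d59 d60 d61 d62 d63 d64 d65 d66 d67 d68 d69 d70
  d71 d72 d73 d74 d75 d76 d77 d78 d79 d80 d81 d82 d83 d84 d85 d86 d87 d88 d89 d90 d91 d92 d93 =>
  (fold (Nat.add (Nat.add (fold (Nat.add (Nat.add (Nat.add (Nat.add (Z a x d) (Z a x d3)) (Nat.mul
  (nat_lit 3) (Nat.add (Nat.add (Nat.add (Nat.add (Nat.add (Nat.add (Nat.add (Z a x d26) (Z a x
  d27)) (Z a x d29)) (Z a x d30)) (Z a x d53)) (Z a x d54)) (Z a x d56)) (Z a x d57)))) (Z a x d80))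
  (Z a x d84)) (mo Y d (nat_lit 0))) (Nat.mul (nat_lit 6) (Nat.add (Z a x d1) (Z a x d82))))
  (Nat.mul (nat_lit 4) (Nat.add (Nat.add (Nat.add (Z a x d0) (Z a x d2)) (Z a x d81)) (Z a x d83))))
  (mo Y d (nat_lit 0)))

/-- compiled program -/
def b11_85r : Prog3 := fun Y Z => Bx.mk fun a x d =>
  ((b11m96D d).1 ((b11_85e Y Z).1 a x d))

/-- compiled program -/
def b11_86e (Y : Lay) (Z : Tc) :
    Bx (Nat → Nat → Nat → (Nat → Nat → Nat → Nat → Nat → Nat → Nat → Nat → Nat → Nat → Nat → Nat →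
    Nat → Nat → Nat → Nat → Nat → Nat → Nat → Nat → Nat → Nat → Nat → Nat → Nat → Nat → Nat → Nat →
    Nat → Nat → Nat → Nat → Nat → Nat → Nat → Nat → Nat → Nat → Nat → Nat → Nat → Nat → Nat → Nat →
    Nat → Nat → Nat → Nat → Nat → Nat → Nat → Nat → Nat → Nat → Nat → Nat → Nat → Nat → Nat → Nat →
    Nat → Nat → Nat → Nat → Nat → Nat → Nat → Nat → Nat → Nat → Nat → Nat → Nat → Nat → Nat → Nat →
    Nat → Nat → Nat → Nat → Nat → Nat → Nat → Nat → Nat → Nat → Nat → Nat → Nat → Nat → Nat → Nat →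
    Nat → Nat → Nat)) :=
  Bx.mk fun a x d d0 d1 d2 d3 d4 d5 d6 d7 d8 d9 d10 d11 d12 d13 d14 d15 d16 d17 d18 d19 d20 d21 d22
  d23 d24 d25 d26 d27 d28 d29 d30 d31 d32 d33 d34 d35 d36 d37 d38 d39 d40 d41 d42 d43 d44 d45 d46
  d47 d48 d49 d50 d51 d52 d53 d54 d55 d56 d57 d58 d59 d60 d61 d62 d63 d64 d65 d66 d67 d68 d69 d70
  d71 d72 d73 d74 d75 d76 d77 d78 d79 d80 d81 d82 d83 d84 d85 d86 d87 d88 d89 d90 d91 d92 d93 =>
  (fold (Nat.add (fold (Nat.add (fold (Nat.add (Nat.add (Nat.add (Nat.add (Nat.add (Nat.add (Nat.add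
  (Nat.add (Z a x d) (Z a x d1)) (Z a x d2)) (Z a x d4)) (Nat.mul (nat_lit 6) (Nat.add (Nat.add
  (Nat.add (Z a x d27) (Z a x d30)) (Z a x d54)) (Z a x d57)))) (Z a x d80)) (Z a x d82)) (Z a x
  d83)) (Z a x d85)) (mo Y d (nat_lit 0))) (Nat.mul (nat_lit 3) (Nat.add (Nat.add (Nat.add (Nat.add
  (Nat.add (Nat.add (Nat.add (Z a x d26) (Z a x d28)) (Z a x d29)) (Z a x d31)) (Z a x d53)) (Z a x
  d55)) (Z a x d56)) (Z a x d58)))) (mo Y d (nat_lit 0))) (Nat.mul (nat_lit 5) (Nat.add (Nat.add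
  (Nat.add (Z a x d0) (Z a x d3)) (Z a x d81)) (Z a x d84)))) (mo Y d (nat_lit 0)))

/-- compiled program -/
def b11_86r : Prog3 := fun Y Z => Bx.mk fun a x d =>
  ((b11m96D d).1 ((b11_86e Y Z).1 a x d))

/-- compiled program -/
def b11_87e (Y : Lay) (Z : Tc) :
    Bx (Nat → Nat → Nat → (Nat → Nat → Nat → Nat → Nat → Nat → Nat → Nat → Nat → Nat → Nat → Nat →
    Nat → Nat → Nat → Nat → Nat → Nat → Nat → Nat → Nat → Nat → Nat → Nat → Nat → Nat → Nat → Nat →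
    Nat → Nat → Nat → Nat → Nat → Nat → Nat → Nat → Nat → Nat → Nat → Nat → Nat → Nat → Nat → Nat →
    Nat → Nat → Nat → Nat → Nat → Nat → Nat → Nat → Nat → Nat → Nat → Nat → Nat → Nat → Nat → Nat →
    Nat → Nat → Nat → Nat → Nat → Nat → Nat → Nat → Nat → Nat → Nat → Nat → Nat → Nat → Nat → Nat →
    Nat → Nat → Nat → Nat → Nat → Nat → Nat → Nat → Nat → Nat → Nat → Nat → Nat → Nat → Nat → Nat →
    Nat → Nat → Nat)) :=
  Bx.mk fun a x d d0 d1 d2 d3 d4 d5 d6 d7 d8 d9 d10 d11 d12 d13 d14 d15 d16 d17 d18 d19 d20 d21 d22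
  d23 d24 d25 d26 d27 d28 d29 d30 d31 d32 d33 d34 d35 d36 d37 d38 d39 d40 d41 d42 d43 d44 d45 d46
  d47 d48 d49 d50 d51 d52 d53 d54 d55 d56 d57 d58 d59 d60 d61 d62 d63 d64 d65 d66 d67 d68 d69 d70
  d71 d72 d73 d74 d75 d76 d77 d78 d79 d80 d81 d82 d83 d84 d85 d86 d87 d88 d89 d90 d91 d92 d93 =>
  (fold (Nat.add (Nat.add (Nat.add (Nat.add (Nat.add (Nat.add (Nat.mul (nat_lit 6) (fold (Nat.add
  (Nat.add (Nat.add (Nat.add (Nat.add (Nat.add (Nat.add (Nat.add (Nat.add (Z a x d0) (Z a x d1)) (Z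
  a x d3)) (Z a x d4)) (Z a x d29)) (Z a x d56)) (Z a x d81)) (Z a x d82)) (Z a x d84)) (Z a x d85))
  (mo Y d (nat_lit 0)))) (Z a x d)) (Z a x d5)) (Nat.mul (nat_lit 3) (Nat.add (Nat.add (Nat.add (Z a
  x d26) (Z a x d32)) (Z a x d53)) (Z a x d59)))) (Z a x d80)) (Nat.mul (nat_lit 2) (Nat.add (Z a x
  d2) (Z a x d83)))) (Z a x d86)) (mo Y d (nat_lit 0)))

/-- compiled program -/
def b11_87r : Prog3 := fun Y Z => Bx.mk fun a x d =>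
  ((b11m96D d).1 ((b11_87e Y Z).1 a x d))

/-- compiled program -/
def b11_88e (Y : Lay) (Z : Tc) :
    Bx (Nat → Nat → Nat → (Nat → Nat → Nat → Nat → Nat → Nat → Nat → Nat → Nat → Nat → Nat → Nat →
    Nat → Nat → Nat → Nat → Nat → Nat → Nat → Nat → Nat → Nat → Nat → Nat → Nat → Nat → Nat → Nat →
    Nat → Nat → Nat → Nat → Nat → Nat → Nat → Nat → Nat → Nat → Nat → Nat → Nat → Nat → Nat → Nat →
    Nat → Nat → Nat → Nat → Nat → Nat → Nat → Nat → Nat → Nat → Nat → Nat → Nat → Nat → Nat → Nat →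
    Nat → Nat → Nat → Nat → Nat → Nat → Nat → Nat → Nat → Nat → Nat → Nat → Nat → Nat → Nat → Nat →
    Nat → Nat → Nat → Nat → Nat → Nat → Nat → Nat → Nat → Nat → Nat → Nat → Nat → Nat → Nat → Nat →
    Nat → Nat → Nat)) :=
  Bx.mk fun a x d d0 d1 d2 d3 d4 d5 d6 d7 d8 d9 d10 d11 d12 d13 d14 d15 d16 d17 d18 d19 d20 d21 d22
  d23 d24 d25 d26 d27 d28 d29 d30 d31 d32 d33 d34 d35 d36 d37 d38 d39 d40 d41 d42 d43 d44 d45 d46
  d47 d48 d49 d50 d51 d52 d53 d54 d55 d56 d57 d58 d59 d60 d61 d62 d63 d64 d65 d66 d67 d68 d69 d70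
  d71 d72 d73 d74 d75 d76 d77 d78 d79 d80 d81 d82 d83 d84 d85 d86 d87 d88 d89 d90 d91 d92 d93 =>
  (fold (Nat.add (Nat.add (Nat.add (Nat.add (Nat.add (Nat.mul (nat_lit 3) (fold (Nat.add (Nat.add
  (Nat.add (Nat.add (Nat.add (Nat.add (Nat.add (Nat.add (Nat.add (Nat.add (Nat.add (Z a x d1) (Z a x
  d4)) (Z a x d26)) (Z a x d27)) (Z a x d32)) (Z a x d33)) (Z a x d53)) (Z a x d54)) (Z a x d59)) (Z
  a x d60)) (Z a x d82)) (Z a x d85)) (mo Y d (nat_lit 0)))) (Nat.mul (nat_lit 8) (fold (Nat.add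
  (Nat.add (Nat.add (Nat.add (Nat.add (Z a x d2) (Z a x d3)) (Nat.mul (nat_lit 3) (Nat.add (Nat.add
  (Nat.add (Z a x d29) (Z a x d30)) (Z a x d56)) (Z a x d57)))) (Z a x d83)) (Z a x d84)) (Nat.mul
  (nat_lit 2) (Nat.add (Nat.add (Nat.add (Z a x d0) (Z a x d5)) (Z a x d81)) (Z a x d86)))) (mo Y d
  (nat_lit 0))))) (Z a x d)) (Z a x d6)) (Z a x d80)) (Z a x d87)) (mo Y d (nat_lit 0)))

/-- compiled program -/
def b11_88r : Prog3 := fun Y Z => Bx.mk fun a x d =>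
  ((b11m96D d).1 ((b11_88e Y Z).1 a x d))

/-- compiled program -/
def b11_89e (Y : Lay) (Z : Tc) :
    Bx (Nat → Nat → Nat → (Nat → Nat → Nat → Nat → Nat → Nat → Nat → Nat → Nat → Nat → Nat → Nat →
    Nat → Nat → Nat → Nat → Nat → Nat → Nat → Nat → Nat → Nat → Nat → Nat → Nat → Nat → Nat → Nat →
    Nat → Nat → Nat → Nat → Nat → Nat → Nat → Nat → Nat → Nat → Nat → Nat → Nat → Nat → Nat → Nat →
    Nat → Nat → Nat → Nat → Nat → Nat → Nat → Nat → Nat → Nat → Nat → Nat → Nat → Nat → Nat → Nat →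
    Nat → Nat → Nat → Nat → Nat → Nat → Nat → Nat → Nat → Nat → Nat → Nat → Nat → Nat → Nat → Nat →
    Nat → Nat → Nat → Nat → Nat → Nat → Nat → Nat → Nat → Nat → Nat → Nat → Nat → Nat → Nat → Nat →
    Nat → Nat → Nat)) :=
  Bx.mk fun a x d d0 d1 d2 d3 d4 d5 d6 d7 d8 d9 d10 d11 d12 d13 d14 d15 d16 d17 d18 d19 d20 d21 d22
  d23 d24 d25 d26 d27 d28 d29 d30 d31 d32 d33 d34 d35 d36 d37 d38 d39 d40 d41 d42 d43 d44 d45 d46
  d47 d48 d49 d50 d51 d52 d53 d54 d55 d56 d57 d58 d59 d60 d61 d62 d63 d64 d65 d66 d67 d68 d69 d70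
  d71 d72 d73 d74 d75 d76 d77 d78 d79 d80 d81 d82 d83 d84 d85 d86 d87 d88 d89 d90 d91 d92 d93 =>
  (fold (Nat.add (Nat.add (Nat.add (Nat.add (Nat.add (Nat.add (Nat.add (Nat.add (fold (Nat.add
  (Nat.add (Z a x d) (Z a x d1)) (Nat.mul (nat_lit 3) (Nat.add (Nat.add (Nat.add (Nat.add (Nat.add
  (Nat.add (Nat.add (Nat.add (Nat.add (Z a x d26) (Z a x d28)) (Z a x d30)) (Z a x d32)) (Z a x
  d34)) (Z a x d53)) (Z a x d55)) (Z a x d57)) (Z a x d59)) (Z a x d61)))) (mo Y d (nat_lit 0)))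
  (Nat.mul (nat_lit 8) (fold (Nat.add (Nat.add (Nat.add (Nat.add (Nat.add (Z a x d0) (Z a x d6))
  (Nat.mul (nat_lit 3) (Nat.add (Nat.add (Nat.add (Nat.add (Nat.add (Nat.add (Nat.add (Z a x d27) (Z
  a x d29)) (Z a x d31)) (Z a x d33)) (Z a x d54)) (Z a x d56)) (Z a x d58)) (Z a x d60)))) (Z a x
  d81)) (Nat.mul (nat_lit 2) (Nat.add (Z a x d3) (Z a x d84)))) (Z a x d87)) (mo Y d (nat_lit 0)))))
  (Z a x d5)) (Z a x d7)) (Z a x d80)) (Z a x d82)) (Nat.mul (nat_lit 2) (Nat.add (Nat.add (Nat.add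
  (Z a x d2) (Z a x d4)) (Z a x d83)) (Z a x d85)))) (Z a x d86)) (Z a x d88)) (mo Y d (nat_lit 0)))

/-- compiled program -/
def b11_89r : Prog3 := fun Y Z => Bx.mk fun a x d =>
  ((b11m96D d).1 ((b11_89e Y Z).1 a x d))

/-- compiled program -/
def b11_90e (Y : Lay) (Z : Tc) :
    Bx (Nat → Nat → Nat → (Nat → Nat → Nat → Nat → Nat → Nat → Nat → Nat → Nat → Nat → Nat → Nat →
    Nat → Nat → Nat → Nat → Nat → Nat → Nat → Nat → Nat → Nat → Nat → Nat → Nat → Nat → Nat → Nat →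
    Nat → Nat → Nat → Nat → Nat → Nat → Nat → Nat → Nat → Nat → Nat → Nat → Nat → Nat → Nat → Nat →
    Nat → Nat → Nat → Nat → Nat → Nat → Nat → Nat → Nat → Nat → Nat → Nat → Nat → Nat → Nat → Nat →
    Nat → Nat → Nat → Nat → Nat → Nat → Nat → Nat → Nat → Nat → Nat → Nat → Nat → Nat → Nat → Nat →
    Nat → Nat → Nat → Nat → Nat → Nat → Nat → Nat → Nat → Nat → Nat → Nat → Nat → Nat → Nat → Nat →
    Nat → Nat → Nat)) :=
  Bx.mk fun a x d d0 d1 d2 d3 d4 d5 d6 d7 d8 d9 d10 d11 d12 d13 d14 d15 d16 d17 d18 d19 d20 d21 d22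
  d23 d24 d25 d26 d27 d28 d29 d30 d31 d32 d33 d34 d35 d36 d37 d38 d39 d40 d41 d42 d43 d44 d45 d46
  d47 d48 d49 d50 d51 d52 d53 d54 d55 d56 d57 d58 d59 d60 d61 d62 d63 d64 d65 d66 d67 d68 d69 d70
  d71 d72 d73 d74 d75 d76 d77 d78 d79 d80 d81 d82 d83 d84 d85 d86 d87 d88 d89 d90 d91 d92 d93 =>
  (fold (Nat.add (Nat.add (Nat.add (Nat.add (Z a x d) (Z a x d8)) (Z a x d80)) (Nat.mul (nat_lit 3)
  (Nat.add (Nat.add (Nat.add (Nat.add (Nat.add (Nat.add (Nat.add (Z a x d2) (Z a x d5)) (Z a x d26))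
  (Z a x d35)) (Z a x d53)) (Z a x d62)) (Z a x d83)) (Z a x d86)))) (Z a x d89)) (mo Y d (nat_lit
  0)))

/-- compiled program -/
def b11_90r : Prog3 := fun Y Z => Bx.mk fun a x d =>
  ((b11m96D d).1 ((b11_90e Y Z).1 a x d))

/-- compiled program -/
def b11_91e (Y : Lay) (Z : Tc) :
    Bx (Nat → Nat → Nat → (Nat → Nat → Nat → Nat → Nat → Nat → Nat → Nat → Nat → Nat → Nat → Nat →
    Nat → Nat → Nat → Nat → Nat → Nat → Nat → Nat → Nat → Nat → Nat → Nat → Nat → Nat → Nat → Nat →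
    Nat → Nat → Nat → Nat → Nat → Nat → Nat → Nat → Nat → Nat → Nat → Nat → Nat → Nat → Nat → Nat →
    Nat → Nat → Nat → Nat → Nat → Nat → Nat → Nat → Nat → Nat → Nat → Nat → Nat → Nat → Nat → Nat →
    Nat → Nat → Nat → Nat → Nat → Nat → Nat → Nat → Nat → Nat → Nat → Nat → Nat → Nat → Nat → Nat →
    Nat → Nat → Nat → Nat → Nat → Nat → Nat → Nat → Nat → Nat → Nat → Nat → Nat → Nat → Nat → Nat →
    Nat → Nat → Nat)) :=
  Bx.mk fun a x d d0 d1 d2 d3 d4 d5 d6 d7 d8 d9 d10 d11 d12 d13 d14 d15 d16 d17 d18 d19 d20 d21 d22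
  d23 d24 d25 d26 d27 d28 d29 d30 d31 d32 d33 d34 d35 d36 d37 d38 d39 d40 d41 d42 d43 d44 d45 d46
  d47 d48 d49 d50 d51 d52 d53 d54 d55 d56 d57 d58 d59 d60 d61 d62 d63 d64 d65 d66 d67 d68 d69 d70
  d71 d72 d73 d74 d75 d76 d77 d78 d79 d80 d81 d82 d83 d84 d85 d86 d87 d88 d89 d90 d91 d92 d93 =>
  (fold (Nat.add (Nat.add (Nat.add (Nat.add (Nat.add (Nat.add (Nat.add (Nat.add (Nat.mul (nat_lit 3)
  (fold (Nat.add (Nat.add (Nat.add (Nat.add (Nat.add (Nat.add (Nat.add (Nat.add (Z a x d2) (Z a x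
  d3)) (Z a x d5)) (Z a x d6)) (Z a x d26)) (Z a x d27)) (Z a x d35)) (Z a x d36)) (Nat.add (Nat.add
  (Nat.add (Nat.add (Nat.add (Nat.add (Nat.add (Z a x d53) (Z a x d54)) (Z a x d62)) (Z a x d63)) (Z
  a x d83)) (Z a x d84)) (Z a x d86)) (Z a x d87))) (mo Y d (nat_lit 0)))) (Z a x d)) (Z a x d0)) (Z
  a x d8)) (Z a x d9)) (Z a x d80)) (Z a x d81)) (Z a x d89)) (Z a x d90)) (mo Y d (nat_lit 0)))

/-- compiled program -/
def b11_91r : Prog3 := fun Y Z => Bx.mk fun a x d =>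
  ((b11m96D d).1 ((b11_91e Y Z).1 a x d))

/-- compiled program -/
def b11_92e (Y : Lay) (Z : Tc) :
    Bx (Nat → Nat → Nat → (Nat → Nat → Nat → Nat → Nat → Nat → Nat → Nat → Nat → Nat → Nat → Nat →
    Nat → Nat → Nat → Nat → Nat → Nat → Nat → Nat → Nat → Nat → Nat → Nat → Nat → Nat → Nat → Nat →
    Nat → Nat → Nat → Nat → Nat → Nat → Nat → Nat → Nat → Nat → Nat → Nat → Nat → Nat → Nat → Nat →
    Nat → Nat → Nat → Nat → Nat → Nat → Nat → Nat → Nat → Nat → Nat → Nat → Nat → Nat → Nat → Nat →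
    Nat → Nat → Nat → Nat → Nat → Nat → Nat → Nat → Nat → Nat → Nat → Nat → Nat → Nat → Nat → Nat →
    Nat → Nat → Nat → Nat → Nat → Nat → Nat → Nat → Nat → Nat → Nat → Nat → Nat → Nat → Nat → Nat →
    Nat → Nat → Nat)) :=
  Bx.mk fun a x d d0 d1 d2 d3 d4 d5 d6 d7 d8 d9 d10 d11 d12 d13 d14 d15 d16 d17 d18 d19 d20 d21 d22
  d23 d24 d25 d26 d27 d28 d29 d30 d31 d32 d33 d34 d35 d36 d37 d38 d39 d40 d41 d42 d43 d44 d45 d46
  d47 d48 d49 d50 d51 d52 d53 d54 d55 d56 d57 d58 d59 d60 d61 d62 d63 d64 d65 d66 d67 d68 d69 d70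
  d71 d72 d73 d74 d75 d76 d77 d78 d79 d80 d81 d82 d83 d84 d85 d86 d87 d88 d89 d90 d91 d92 d93 =>
  (fold (Nat.add (Nat.add (Nat.add (Nat.add (Nat.add (Nat.add (Nat.add (Nat.add (Nat.add (Nat.add
  (Nat.mul (nat_lit 3) (fold (Nat.add (Nat.add (Nat.add (Nat.add (Nat.add (Nat.add (Nat.add (Nat.add
  (Z a x d2) (Z a x d4)) (Z a x d5)) (Z a x d7)) (Z a x d26)) (Z a x d28)) (Z a x d35)) (Z a x d37))
  (Nat.add (Nat.add (Nat.add (Nat.add (Nat.add (Nat.add (Nat.add (Z a x d53) (Z a x d55)) (Z a x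
  d62)) (Z a x d64)) (Z a x d83)) (Z a x d85)) (Z a x d86)) (Z a x d88))) (mo Y d (nat_lit 0))))
  (Nat.mul (nat_lit 6) (fold (Nat.add (Nat.add (Nat.add (Nat.add (Nat.add (Nat.add (Nat.add (Z a x
  d3) (Z a x d6)) (Z a x d27)) (Z a x d36)) (Z a x d54)) (Z a x d63)) (Z a x d84)) (Z a x d87)) (mo
  Y d (nat_lit 0))))) (Z a x d)) (Z a x d1)) (Z a x d8)) (Z a x d10)) (Z a x d80)) (Z a x d82)) (Z a
  x d89)) (Nat.mul (nat_lit 2) (Nat.add (Nat.add (Nat.add (Z a x d0) (Z a x d9)) (Z a x d81)) (Z a x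
  d90)))) (Z a x d91)) (mo Y d (nat_lit 0)))

/-- compiled program -/
def b11_92r : Prog3 := fun Y Z => Bx.mk fun a x d =>
  ((b11m96D d).1 ((b11_92e Y Z).1 a x d))

/-- compiled program -/
def b11_93e (Y : Lay) (Z : Tc) :
    Bx (Nat → Nat → Nat → (Nat → Nat → Nat → Nat → Nat → Nat → Nat → Nat → Nat → Nat → Nat → Nat →
    Nat → Nat → Nat → Nat → Nat → Nat → Nat → Nat → Nat → Nat → Nat → Nat → Nat → Nat → Nat → Nat →
    Nat → Nat → Nat → Nat → Nat → Nat → Nat → Nat → Nat → Nat → Nat → Nat → Nat → Nat → Nat → Nat →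
    Nat → Nat → Nat → Nat → Nat → Nat → Nat → Nat → Nat → Nat → Nat → Nat → Nat → Nat → Nat → Nat →
    Nat → Nat → Nat → Nat → Nat → Nat → Nat → Nat → Nat → Nat → Nat → Nat → Nat → Nat → Nat → Nat →
    Nat → Nat → Nat → Nat → Nat → Nat → Nat → Nat → Nat → Nat → Nat → Nat → Nat → Nat → Nat → Nat →
    Nat → Nat → Nat)) :=
  Bx.mk fun a x d d0 d1 d2 d3 d4 d5 d6 d7 d8 d9 d10 d11 d12 d13 d14 d15 d16 d17 d18 d19 d20 d21 d22
  d23 d24 d25 d26 d27 d28 d29 d30 d31 d32 d33 d34 d35 d36 d37 d38 d39 d40 d41 d42 d43 d44 d45 d46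
  d47 d48 d49 d50 d51 d52 d53 d54 d55 d56 d57 d58 d59 d60 d61 d62 d63 d64 d65 d66 d67 d68 d69 d70
  d71 d72 d73 d74 d75 d76 d77 d78 d79 d80 d81 d82 d83 d84 d85 d86 d87 d88 d89 d90 d91 d92 d93 =>
  (fold (Nat.add (Nat.add (Nat.add (fold (Nat.add (Nat.add (Nat.add (Nat.mul (nat_lit 3) (fold
  (Nat.add (Nat.add (Nat.add (Nat.add (Nat.add (Nat.add (Nat.add (Nat.add (Z a x d0) (Z a x d1)) (Z
  a x d9)) (Z a x d10)) (Z a x d26)) (Z a x d29)) (Z a x d35)) (Z a x d38)) (Nat.add (Nat.add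
  (Nat.add (Nat.add (Nat.add (Nat.add (Nat.add (Z a x d53) (Z a x d56)) (Z a x d62)) (Z a x d65)) (Z
  a x d81)) (Z a x d82)) (Z a x d90)) (Z a x d91))) (mo Y d (nat_lit 0)))) (Z a x d)) (Nat.mul
  (nat_lit 6) (Nat.add (Z a x d5) (Z a x d86)))) (Nat.mul (nat_lit 4) (Nat.add (Nat.add (Nat.add (Z
  a x d2) (Z a x d8)) (Z a x d83)) (Z a x d89)))) (mo Y d (nat_lit 0))) (Z a x d11)) (Z a x d80)) (Z
  a x d92)) (mo Y d (nat_lit 0)))

/-- compiled program -/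
def b11_93r : Prog3 := fun Y Z => Bx.mk fun a x d =>
  ((b11m96D d).1 ((b11_93e Y Z).1 a x d))

/-- compiled program -/
def b11_94e (Y : Lay) (Z : Tc) :
    Bx (Nat → Nat → Nat → (Nat → Nat → Nat → Nat → Nat → Nat → Nat → Nat → Nat → Nat → Nat → Nat →
    Nat → Nat → Nat → Nat → Nat → Nat → Nat → Nat → Nat → Nat → Nat → Nat → Nat → Nat → Nat → Nat →
    Nat → Nat → Nat → Nat → Nat → Nat → Nat → Nat → Nat → Nat → Nat → Nat → Nat → Nat → Nat → Nat →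
    Nat → Nat → Nat → Nat → Nat → Nat → Nat → Nat → Nat → Nat → Nat → Nat → Nat → Nat → Nat → Nat →
    Nat → Nat → Nat → Nat → Nat → Nat → Nat → Nat → Nat → Nat → Nat → Nat → Nat → Nat → Nat → Nat →
    Nat → Nat → Nat → Nat → Nat → Nat → Nat → Nat → Nat → Nat → Nat → Nat → Nat → Nat → Nat → Nat →
    Nat → Nat → Nat)) :=
  Bx.mk fun a x d d0 d1 d2 d3 d4 d5 d6 d7 d8 d9 d10 d11 d12 d13 d14 d15 d16 d17 d18 d19 d20 d21 d22
  d23 d24 d25 d26 d27 d28 d29 d30 d31 d32 d33 d34 d35 d36 d37 d38 d39 d40 d41 d42 d43 d44 d45 d46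
  d47 d48 d49 d50 d51 d52 d53 d54 d55 d56 d57 d58 d59 d60 d61 d62 d63 d64 d65 d66 d67 d68 d69 d70
  d71 d72 d73 d74 d75 d76 d77 d78 d79 d80 d81 d82 d83 d84 d85 d86 d87 d88 d89 d90 d91 d92 d93 =>
  (fold (Nat.add (Nat.add (Nat.add (Nat.add (Nat.add (Nat.add (fold (Nat.mul (nat_lit 4) (Nat.add
  (Nat.add (Nat.add (Nat.add (Nat.add (Nat.add (Nat.add (Z a x d0) (Z a x d3)) (Z a x d8)) (Z a x
  d11)) (Z a x d81)) (Z a x d84)) (Z a x d89)) (Z a x d92))) (mo Y d (nat_lit 0))) (Nat.mul (nat_lit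
  3) (fold (Nat.add (Nat.add (Nat.add (Nat.add (Nat.add (Nat.add (Nat.add (Nat.add (Z a x d26) (Z a
  x d27)) (Z a x d29)) (Z a x d30)) (Z a x d35)) (Z a x d36)) (Z a x d38)) (Z a x d39)) (Nat.add
  (Nat.add (Nat.add (Nat.add (Nat.add (Nat.add (Nat.add (Z a x d53) (Z a x d54)) (Z a x d56)) (Z a x
  d57)) (Z a x d62)) (Z a x d63)) (Z a x d65)) (Z a x d66))) (mo Y d (nat_lit 0))))) (Nat.mul
  (nat_lit 8) (fold (Nat.add (Nat.mul (nat_lit 2) (Nat.add (Nat.add (Nat.add (Z a x d2) (Z a x d9))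
  (Z a x d83)) (Z a x d90))) (Nat.mul (nat_lit 3) (Nat.add (Nat.add (Nat.add (Nat.add (Nat.add
  (Nat.add (Nat.add (Z a x d1) (Z a x d5)) (Z a x d6)) (Z a x d10)) (Z a x d82)) (Z a x d86)) (Z a x
  d87)) (Z a x d91)))) (mo Y d (nat_lit 0))))) (Z a x d)) (Z a x d12)) (Z a x d80)) (Z a x d93)) (mo
  Y d (nat_lit 0)))

/-- compiled program -/
def b11_94r : Prog3 := fun Y Z => Bx.mk fun a x d =>
  ((b11m96D d).1 ((b11_94e Y Z).1 a x d))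

/-- compiled programs -/
def b11r : List Prog3 :=
  [zero3, b11_1r, b11_2r, b11_3r, b11_4r, b11_5r, b11_6r, b11_7r, b11_8r, b11_9r, b11_10r, b11_11r,
  b11_12r, b11_13r, b11_14r, b11_15r, b11_16r, b11_17r, b11_18r, b11_19r, b11_20r, b11_21r, b11_22r,
  b11_23r, b11_24r, b11_25r, b11_26r, b11_27r, b11_28r, b11_29r, b11_30r, b11_31r, b11_32r, b11_33r,
  b11_34r, b11_35r, b11_36r, b11_37r, b11_38r, b11_39r, b11_40r, b11_41r, b11_42r, b11_43r, b11_44r,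
  b11_45r, b11_46r, b11_47r, b11_48r, b11_49r, b11_50r, b11_51r, b11_52r, b11_53r, b11_54r, b11_55r,
  b11_56r, b11_57r, b11_58r, b11_59r, b11_60r, b11_61r, b11_62r, b11_63r, b11_64r, b11_65r, b11_66r,
  b11_67r, b11_68r, b11_69r, b11_70r, b11_71r, b11_72r, b11_73r, b11_74r, b11_75r, b11_76r, b11_77r,
  b11_78r, b11_79r, b11_80r, b11_81r, b11_82r, b11_83r, b11_84r, b11_85r, b11_86r, b11_87r, b11_88r,
  b11_89r, b11_90r, b11_91r, b11_92r, b11_93r, b11_94r]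

end Vale.Agent.P236X
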