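import Vale.Agent.P236X.TA

/-!
# P236 / X : compiled programs with three keys (TB)
-/

set_option linter.unusedVariables false

noncomputable section

namespace Vale.Agent.P236X

/-- keys -/
def g3cmD (c : Nat) :
    Bx ((Nat → Nat) → Nat) :=
  bs1 Nat c (nat_lit 1)

/-- keys -/
def g3cmI (c : Nat) :
    Bx ((Nat → Nat → (Nat → Nat)) → (Nat → Nat)) :=
  bx2 (Nat → Nat) c (nat_lit 6755399441055747) (nat_lit 7318349394477184)

/-- compiled program -/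
def g3ce (Y : Lay) (Z : Tc) :
    Bx (Nat → Nat → Nat → (Nat → Nat → (Nat → Nat))) :=
  Bx.mk fun a x d a0 a1 d0 => (fold (Nat.add (Nat.mul (nat_lit 8) (Z a0 x d0)) (Z a1 x d)) (mo Y d
  (nat_lit 0)))

/-- compiled program -/
def g3cr : Prog3 := fun Y Z => Bx.mk fun a x d =>
  ((g3cmD d).1 ((g3cmI a).1 ((g3ce Y Z).1 a x d)))

/-- keys -/
def g4cmD (c : Nat) :
    Bx ((Nat → Nat → Nat → Nat) → Nat) :=
  bs3 Nat c (nat_lit 1) (nat_lit 2) (nat_lit 3)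

/-- keys -/
def g4cmI (c : Nat) :
    Bx ((Nat → Nat → Nat → Nat → (Nat → Nat → Nat → Nat)) → (Nat → Nat → Nat → Nat)) :=
  bx4 (Nat → Nat → Nat → Nat) c (nat_lit 20829148276588678) (nat_lit 21392098230010115) (nat_lit
  21955048183431552) (nat_lit 22517998136868864)

/-- compiled program -/
def g4ce (Y : Lay) (Z : Tc) :
    Bx (Nat → Nat → Nat → (Nat → Nat → Nat → Nat → (Nat → Nat → Nat → Nat))) :=
  Bx.mk fun a x d a0 a1 a2 a3 d0 d1 d2 => (fold (Nat.add (Nat.add (Nat.mul (nat_lit 8) (Z a2 x d0))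
  (Z a3 x d)) (mv Y (nat_lit 1) (Nat.add (Z a1 x d1) (Z a0 x d2)))) (mo Y d (nat_lit 0)))

/-- compiled program -/
def g4cr : Prog3 := fun Y Z => Bx.mk fun a x d =>
  ((g4cmD d).1 ((g4cmI a).1 ((g4ce Y Z).1 a x d)))

/-- keys -/
def w2cmI (c : Nat) :
    Bx ((Nat → Nat) → Nat) :=
  bx1 Nat c (nat_lit 2251799813685249)

/-- keys -/
def w2cmD (c : Nat) :
    Bx ((Nat → (Nat → Nat)) → (Nat → Nat)) :=
  bs1 (Nat → Nat) c (nat_lit 4)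

/-- compiled program -/
def w2ce (Y : Lay) (Z : Tc) :
    Bx (Nat → Nat → Nat → (Nat → (Nat → Nat))) :=
  Bx.mk fun a x d d0 a0 => (fold (Nat.add (Nat.add (Nat.add (Nat.mul (nat_lit 3) (Z a0 x d)) (mw Y
  (nat_lit 128) (Z a x d0))) (mv Y (nat_lit 3) (Nat.mul (nat_lit 2) (Z a x d0)))) (mv Y (nat_lit 1)
  (Z a x d0))) (mo Y d (nat_lit 0)))

/-- compiled program -/
def w2cr : Prog3 := fun Y Z => Bx.mk fun a x d =>
  ((w2cmI a).1 ((w2cmD d).1 ((w2ce Y Z).1 a x d)))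

/-- keys -/
def b34cmI (c : Nat) :
    Bx ((Nat → Nat → (Nat → Nat)) → (Nat → Nat)) :=
  bx2 (Nat → Nat) c (nat_lit 7318349394477184) (nat_lit 14636698788954368)

/-- keys -/
def b34cmX (c : Nat) :
    Bx ((Nat → Nat → Nat → (Nat → Nat → (Nat → Nat))) → (Nat → Nat → (Nat → Nat))) :=
  bx3 (Nat → Nat → (Nat → Nat)) c (nat_lit 7318383754215424) (nat_lit 14636767508430848) (nat_lit
  22522396183363584)

/-- compiled program -/
def b34ce (Y : Lay) (Z : Tc) :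
    Bx (Nat → Nat → Nat → (Nat → Nat → Nat → (Nat → Nat → (Nat → Nat)))) :=
  Bx.mk fun a x d x0 x1 x2 a0 a1 d0 => (fold (Nat.add (Nat.add (Nat.add (mv Y (nat_lit 1) (Nat.mul
  (nat_lit 8) (Nat.add (Z a1 x0 d0) (Z a0 x1 d0)))) (Z a0 x d)) (Z a x2 d)) (Nat.mul (nat_lit 6)
  (Nat.add (Z a1 x0 d0) (Z a0 x1 d0)))) (mo Y d (nat_lit 0)))

/-- compiled program -/
def b34cr : Prog3 := fun Y Z => Bx.mk fun a x d =>
  ((g3cmD d).1 ((b34cmI a).1 ((b34cmX x).1 ((b34ce Y Z).1 a x d))))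

/-- keys -/
def b23cmI (c : Nat) :
    Bx ((Nat → Nat → (Nat → Nat)) → (Nat → Nat)) :=
  bx2 (Nat → Nat) c (nat_lit 2251799813685249) (nat_lit 4503599627370498)

/-- keys -/
def b23cmX (c : Nat) :
    Bx ((Nat → Nat → Nat → (Nat → Nat → (Nat → Nat))) → (Nat → Nat → (Nat → Nat))) :=
  bx3 (Nat → Nat → (Nat → Nat)) c (nat_lit 2251800082120704) (nat_lit 4503600164241408) (nat_lit
  7318383754215424)

/-- compiled program -/
def b23ce (Y : Lay) (Z : Tc) :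
    Bx (Nat → Nat → Nat → (Nat → Nat → Nat → (Nat → Nat → (Nat → Nat)))) :=
  Bx.mk fun a x d x0 x1 x2 a0 a1 d0 => (fold (Nat.add (Nat.add (Nat.add (mv Y (nat_lit 1) (Nat.mul
  (nat_lit 8) (Nat.add (Z a1 x0 d0) (Z a0 x1 d0)))) (Z a0 x d)) (Z a x2 d)) (Nat.mul (nat_lit 6)
  (Nat.add (Z a1 x0 d0) (Z a0 x1 d0)))) (mo Y d (nat_lit 0)))

/-- compiled program -/
def b23cr : Prog3 := fun Y Z => Bx.mk fun a x d =>
  ((g3cmD d).1 ((b23cmI a).1 ((b23cmX x).1 ((b23ce Y Z).1 a x d))))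

/-- keys -/
def b12cmX (c : Nat) :
    Bx ((Nat → Nat) → Nat) :=
  bx1 Nat c (nat_lit 2251800082120704)

/-- keys -/
def b12cmD (c : Nat) :
    Bx ((Nat → Nat → Nat → (Nat → Nat)) → (Nat → Nat)) :=
  bs3 (Nat → Nat) c (nat_lit 1) (nat_lit 2) (nat_lit 3)

/-- compiled program -/
def b12ce (Y : Lay) (Z : Tc) :
    Bx (Nat → Nat → Nat → (Nat → Nat → Nat → (Nat → Nat))) :=
  Bx.mk fun a x d d0 d1 d2 x0 => (fold (Nat.add (Nat.add (Z a x0 d) (Z a x d0)) (mv Y (nat_lit 1)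
  (Nat.mul (nat_lit 8) (Nat.add (Z a x d1) (Z a x d2))))) (mo Y d (nat_lit 0)))

/-- compiled program -/
def b12cr : Prog3 := fun Y Z => Bx.mk fun a x d =>
  ((b12cmX x).1 ((b12cmD d).1 ((b12ce Y Z).1 a x d)))

/-- keys -/
def b13_13mX (c : Nat) :
    Bx ((Nat → Nat → Nat → Nat → Nat) → Nat) :=
  bx4 Nat c (nat_lit 2251800082120704) (nat_lit 4503600164241408) (nat_lit 6755400246362112)
  (nat_lit 7318383754215424)

/-- keys -/
def b13_13mD (c : Nat) :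
    Bx ((Nat → Nat → Nat → Nat → Nat → Nat → Nat → Nat → Nat → Nat → Nat → Nat → (Nat → Nat → Nat →
    Nat → Nat)) → (Nat → Nat → Nat → Nat → Nat)) :=
  bs12 (Nat → Nat → Nat → Nat → Nat) c (nat_lit 1) (nat_lit 2) (nat_lit 3) (nat_lit 4) (nat_lit 5)
  (nat_lit 6) (nat_lit 7) (nat_lit 8) (nat_lit 9) (nat_lit 10) (nat_lit 11) (nat_lit 12)

/-- compiled program -/
def b13_13e (Y : Lay) (Z : Tc) :
    Bx (Nat → Nat → Nat → (Nat → Nat → Nat → Nat → Nat → Nat → Nat → Nat → Nat → Nat → Nat → Nat →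
    (Nat → Nat → Nat → Nat → Nat))) :=
  Bx.mk fun a x d d0 d1 d2 d3 d4 d5 d6 d7 d8 d9 d10 d11 x0 x1 x2 x3 => (fold (Nat.add (Nat.add
  (Nat.add (fold (Nat.add (Nat.add (Nat.add (Z a x3 d) (Z a x2 d0)) (mv Y (nat_lit 1) (Nat.mul
  (nat_lit 8) (Nat.add (Z a x1 d1) (Z a x0 d2))))) (mw Y (nat_lit 128) (Nat.add (Nat.mul (nat_lit 8)
  (fold (Nat.add (Nat.add (Z a x d6) (Z a x d9)) (Nat.mul (nat_lit 3) (Nat.add (Nat.add (Z a x d4)
  (Z a x d5)) (Nat.add (Z a x d10) (Z a x d11))))) (mo Y d (nat_lit 4)))) (Nat.mul (nat_lit 3)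
  (Nat.add (Z a x d7) (Z a x d8)))))) (mo Y d (nat_lit 0))) (mv Y (nat_lit 2) (Nat.add (Nat.add
  (Nat.add (Z a x1 d2) (Z a x1 d3)) (Nat.mul (nat_lit 2) (Nat.add (Z a x0 d3) (Z a x0 d4))))
  (Nat.add (Z a x d4) (Z a x d5))))) (mv Y (nat_lit 3) (Nat.add (Nat.add (Z a x0 d5) (Z a x d6))
  (Nat.mul (nat_lit 2) (Nat.add (Nat.add (Nat.add (Z a x0 d4) (Z a x d5)) (Z a x0 d6)) (Z a x
  d7)))))) (mv Y (nat_lit 4) (Nat.mul (nat_lit 2) (Nat.add (Nat.add (Z a x d7) (Z a x d8)) (Nat.add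
  (Nat.add (Z a x d4) (Z a x d5)) (Nat.add (Z a x d10) (Z a x d11))))))) (mo Y d (nat_lit 0)))

/-- compiled program -/
def b13_13r : Prog3 := fun Y Z => Bx.mk fun a x d =>
  ((b13_13mX x).1 ((b13_13mD d).1 ((b13_13e Y Z).1 a x d)))

/-- compiled program -/
def b13_4e (Y : Lay) (Z : Tc) :
    Bx (Nat → Nat → Nat → (Nat → Nat → Nat → Nat → Nat → Nat → Nat → Nat → Nat → Nat → Nat → Nat →
    (Nat → Nat → Nat → Nat → Nat))) :=
  Bx.mk fun a x d d0 d1 d2 d3 d4 d5 d6 d7 d8 d9 d10 d11 x0 x1 x2 x3 => (fold (Nat.add (Nat.add (fold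
  (Nat.add (Nat.add (Nat.add (Z a x3 d) (Z a x2 d0)) (mv Y (nat_lit 1) (Nat.mul (nat_lit 8) (Nat.add
  (Z a x1 d1) (Z a x0 d2))))) (mw Y (nat_lit 128) (Nat.add (Nat.mul (nat_lit 8) (fold (Nat.add
  (Nat.add (Z a x d6) (Z a x d9)) (Nat.mul (nat_lit 3) (Nat.add (Nat.add (Nat.add (Z a x d4) (Z a x
  d5)) (Z a x d10)) (Z a x d11)))) (mo Y d (nat_lit 4)))) (Nat.mul (nat_lit 3) (Nat.add (Z a x d7)
  (Z a x d8)))))) (mo Y d (nat_lit 0))) (mv Y (nat_lit 2) (Nat.add (Nat.add (Nat.add (Z a x1 d2) (Z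
  a x1 d3)) (Nat.mul (nat_lit 2) (Nat.add (Z a x0 d3) (Z a x0 d4)))) (Nat.add (Z a x d4) (Z a x
  d5))))) (mv Y (nat_lit 3) (Nat.add (Nat.add (Z a x0 d5) (Z a x d6)) (Nat.mul (nat_lit 2) (Nat.add
  (Nat.add (Nat.add (Z a x0 d4) (Z a x d5)) (Z a x0 d6)) (Z a x d7)))))) (mo Y d (nat_lit 0)))

/-- compiled program -/
def b13_4r : Prog3 := fun Y Z => Bx.mk fun a x d =>
  ((b13_13mX x).1 ((b13_13mD d).1 ((b13_4e Y Z).1 a x d)))

/-- keys -/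
def b24_13mI (c : Nat) :
    Bx ((Nat → Nat → Nat → Nat → Nat → Nat → Nat → Nat → (Nat → Nat → Nat → Nat → Nat)) → (Nat → Nat
    → Nat → Nat → Nat)) :=
  bx8 (Nat → Nat → Nat → Nat → Nat) c (nat_lit 2251799813685249) (nat_lit 4503599627370498) (nat_lit
  6755399441055747) (nat_lit 9007199254740996) (nat_lit 11258999068426245) (nat_lit
  13510798882111494) (nat_lit 15762598695796743) (nat_lit 18014398509481992)

/-- keys -/
def b24_13mX (c : Nat) :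
    Bx ((Nat → Nat → Nat → Nat → Nat → Nat → Nat → Nat → Nat → Nat → Nat → Nat → Nat → Nat → Nat →
    Nat → Nat → Nat → (Nat → Nat → Nat → Nat → Nat → Nat → Nat → Nat → (Nat → Nat → Nat → Nat →
    Nat))) → (Nat → Nat → Nat → Nat → Nat → Nat → Nat → Nat → (Nat → Nat → Nat → Nat → Nat))) :=
  bx18 (Nat → Nat → Nat → Nat → Nat → Nat → Nat → Nat → (Nat → Nat → Nat → Nat → Nat)) c (nat_lit
  2251800082120704) (nat_lit 4503600164241408) (nat_lit 6755400246362112) (nat_lit 7318383754215424)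
  (nat_lit 9007200328482816) (nat_lit 9570183836336128) (nat_lit 11259000410603520) (nat_lit
  11821983918456832) (nat_lit 13510800492724224) (nat_lit 14073784000577536) (nat_lit
  14636767508430848) (nat_lit 15762600574844928) (nat_lit 16325584082698240) (nat_lit
  16888567590551552) (nat_lit 18014400656965632) (nat_lit 19140367672672256) (nat_lit
  20266200739086336) (nat_lit 22522396183363584)

/-- compiled program -/
def b24_13e (Y : Lay) (Z : Tc) :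
    Bx (Nat → Nat → Nat → (Nat → Nat → Nat → Nat → Nat → Nat → Nat → Nat → Nat → Nat → Nat → Nat →
    Nat → Nat → Nat → Nat → Nat → Nat → (Nat → Nat → Nat → Nat → Nat → Nat → Nat → Nat → (Nat → Nat
    → Nat → Nat → Nat)))) :=
  Bx.mk fun a x d x0 x1 x2 x3 x4 x5 x6 x7 x8 x9 x10 x11 x12 x13 x14 x15 x16 x17 a0 a1 a2 a3 a4 a5 a6
  a7 d0 d1 d2 d3 => (fold (Nat.add (Nat.add (fold (Nat.add (Nat.add (Nat.add (Nat.add (fold (Nat.add
  (mv Y (nat_lit 4) (Nat.mul (nat_lit 2) (Nat.add (Nat.add (Nat.add (Z a7 x0 d3) (Z a6 x1 d3))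
  (Nat.add (Z a1 x11 d3) (Z a0 x14 d3))) (Nat.add (Z a4 x4 d3) (Z a3 x6 d3))))) (mv Y (nat_lit 1)
  (Nat.add (Nat.mul (nat_lit 8) (fold (Nat.add (Nat.add (Nat.add (Z a1 x3 d0) (Z a0 x10 d0))
  (Nat.add (Z a5 x2 d3) (Z a2 x8 d3))) (Nat.mul (nat_lit 3) (Nat.add (Nat.add (Nat.add (Z a3 x0 d1)
  (Z a2 x1 d1)) (Nat.add (Z a1 x13 d1) (Z a0 x15 d1))) (Nat.add (Nat.add (Z a7 x0 d3) (Z a6 x1 d3))
  (Nat.add (Z a1 x11 d3) (Z a0 x14 d3)))))) (mo Y d (nat_lit 1)))) (Nat.mul (nat_lit 3) (Nat.add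
  (Nat.add (Z a2 x5 d1) (Z a1 x7 d1)) (Nat.add (Z a4 x4 d3) (Z a3 x6 d3))))))) (mo Y d (nat_lit 0)))
  (mw Y (nat_lit 128) (Nat.add (Nat.mul (nat_lit 8) (fold (Nat.add (Nat.add (Z a5 x2 d3) (Z a2 x8
  d3)) (Nat.mul (nat_lit 3) (Nat.add (Nat.add (Z a7 x0 d3) (Z a6 x1 d3)) (Nat.add (Z a1 x11 d3) (Z
  a0 x14 d3))))) (mo Y d (nat_lit 4)))) (Nat.mul (nat_lit 3) (Nat.add (Z a4 x4 d3) (Z a3 x6 d3))))))
  (Z a0 x16 d)) (Z a x17 d)) (Nat.mul (nat_lit 6) (Nat.add (Z a1 x3 d0) (Z a0 x10 d0)))) (mo Y d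
  (nat_lit 0))) (mv Y (nat_lit 2) (Nat.add (Nat.add (Nat.add (Z a3 x0 d1) (Z a2 x1 d1)) (Nat.add (Z
  a1 x13 d1) (Z a0 x15 d1))) (Nat.mul (nat_lit 2) (Nat.add (Z a2 x5 d1) (Z a1 x7 d1)))))) (mv Y
  (nat_lit 3) (Nat.add (Nat.add (Nat.add (Nat.mul (nat_lit 2) (Nat.add (Nat.add (Nat.add (Z a4 x1
  d2) (Z a2 x4 d2)) (Z a3 x7 d2)) (Z a1 x12 d2))) (Z a3 x2 d2)) (Z a2 x9 d2)) (Nat.add (Z a5 x2 d3)
  (Z a2 x8 d3))))) (mo Y d (nat_lit 0)))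

/-- compiled program -/
def b24_13r : Prog3 := fun Y Z => Bx.mk fun a x d =>
  ((b11m4D d).1 ((b24_13mI a).1 ((b24_13mX x).1 ((b24_13e Y Z).1 a x d))))

/-- compiled program -/
def b24_4e (Y : Lay) (Z : Tc) :
    Bx (Nat → Nat → Nat → (Nat → Nat → Nat → Nat → Nat → Nat → Nat → Nat → Nat → Nat → Nat → Nat →
    Nat → Nat → Nat → Nat → Nat → Nat → (Nat → Nat → Nat → Nat → Nat → Nat → Nat → Nat → (Nat → Nat
    → Nat → Nat → Nat)))) :=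
  Bx.mk fun a x d x0 x1 x2 x3 x4 x5 x6 x7 x8 x9 x10 x11 x12 x13 x14 x15 x16 x17 a0 a1 a2 a3 a4 a5 a6
  a7 d0 d1 d2 d3 => (fold (Nat.add (fold (Nat.add (Nat.add (Nat.add (Nat.add (fold (Nat.add (Nat.mul
  (nat_lit 6) (Nat.add (Z a1 x3 d0) (Z a0 x10 d0))) (mv Y (nat_lit 1) (Nat.add (Nat.mul (nat_lit 8)
  (fold (Nat.add (Nat.add (Nat.add (Z a1 x3 d0) (Z a0 x10 d0)) (Nat.add (Z a5 x2 d3) (Z a2 x8 d3)))
  (Nat.mul (nat_lit 3) (Nat.add (Nat.add (Nat.add (Z a3 x0 d1) (Z a2 x1 d1)) (Nat.add (Z a1 x13 d1)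
  (Z a0 x15 d1))) (Nat.add (Nat.add (Z a7 x0 d3) (Z a6 x1 d3)) (Nat.add (Z a1 x11 d3) (Z a0 x14
  d3)))))) (mo Y d (nat_lit 1)))) (Nat.mul (nat_lit 3) (Nat.add (Nat.add (Z a2 x5 d1) (Z a1 x7 d1))
  (Nat.add (Z a4 x4 d3) (Z a3 x6 d3))))))) (mo Y d (nat_lit 0))) (mw Y (nat_lit 128) (Nat.add
  (Nat.mul (nat_lit 8) (fold (Nat.add (Nat.add (Z a5 x2 d3) (Z a2 x8 d3)) (Nat.mul (nat_lit 3)
  (Nat.add (Nat.add (Z a7 x0 d3) (Z a6 x1 d3)) (Nat.add (Z a1 x11 d3) (Z a0 x14 d3))))) (mo Y d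
  (nat_lit 4)))) (Nat.mul (nat_lit 3) (Nat.add (Z a4 x4 d3) (Z a3 x6 d3)))))) (Z a0 x16 d)) (Z a x17
  d)) (mv Y (nat_lit 3) (Nat.add (Nat.add (Nat.add (Nat.mul (nat_lit 2) (Nat.add (Nat.add (Nat.add
  (Z a4 x1 d2) (Z a2 x4 d2)) (Z a3 x7 d2)) (Z a1 x12 d2))) (Z a3 x2 d2)) (Z a2 x9 d2)) (Nat.add (Z
  a5 x2 d3) (Z a2 x8 d3))))) (mo Y d (nat_lit 0))) (mv Y (nat_lit 2) (Nat.add (Nat.add (Nat.add (Z
  a3 x0 d1) (Z a2 x1 d1)) (Nat.add (Z a1 x13 d1) (Z a0 x15 d1))) (Nat.mul (nat_lit 2) (Nat.add (Z a2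
  x5 d1) (Z a1 x7 d1)))))) (mo Y d (nat_lit 0)))

/-- compiled program -/
def b24_4r : Prog3 := fun Y Z => Bx.mk fun a x d =>
  ((b11m4D d).1 ((b24_13mI a).1 ((b24_13mX x).1 ((b24_4e Y Z).1 a x d))))

/-- keys -/
def w3_13mI (c : Nat) :
    Bx ((Nat → Nat → Nat → Nat) → Nat) :=
  bx3 Nat c (nat_lit 2251799813685249) (nat_lit 6755399441055747) (nat_lit 7318349394477184)

/-- keys -/
def w3_13mD (c : Nat) :
    Bx ((Nat → Nat → Nat → (Nat → Nat → Nat → Nat)) → (Nat → Nat → Nat → Nat)) :=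
  bs3 (Nat → Nat → Nat → Nat) c (nat_lit 1) (nat_lit 9) (nat_lit 13)

/-- compiled program -/
def w3_13e (Y : Lay) (Z : Tc) :
    Bx (Nat → Nat → Nat → (Nat → Nat → Nat → (Nat → Nat → Nat → Nat))) :=
  Bx.mk fun a x d d0 d1 d2 a0 a1 a2 => (fold (Nat.add (Nat.add (Nat.add (Nat.add (Nat.add (Nat.add
  (Nat.add (Nat.add (fold (Nat.add (Nat.add (Nat.add (Nat.add (mv Y (nat_lit 16384) (Z a x d2))
  (Nat.mul (nat_lit 3) (Nat.add (Z a2 x d) (Z a1 x d0)))) (mw Y (nat_lit 384) (Nat.mul (nat_lit 8)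
  (Z a x d2)))) (mv Y (nat_lit 1) (Nat.add (mw Y (nat_lit 256) (Nat.mul (nat_lit 6) (Nat.add (Z a0 x
  d1) (Z a x d2)))) (Z a1 x d0)))) (mv Y (nat_lit 3) (Nat.add (mw Y (nat_lit 128) (Nat.mul (nat_lit
  2) (Z a x d2))) (Nat.mul (nat_lit 2) (Z a x d2))))) (mo Y d (nat_lit 0))) (mv Y (nat_lit 4) (mw Y
  (nat_lit 256) (Z a x d2)))) (mv Y (nat_lit 7) (mw Y (nat_lit 128) (Nat.mul (nat_lit 2) (Z a x
  d2))))) (mv Y (nat_lit 2) (mw Y (nat_lit 256) (Nat.mul (nat_lit 2) (Z a x d2))))) (mv Y (nat_lit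
  5) (mw Y (nat_lit 128) (Nat.mul (nat_lit 2) (Z a x d2))))) (mv Y (nat_lit 9) (Nat.add (Nat.mul
  (nat_lit 2) (Z a0 x d1)) (Z a x d2)))) (mv Y (nat_lit 8) (Nat.mul (nat_lit 2) (Z a x d2)))) (mv Y
  (nat_lit 6) (Z a x d2))) (mw Y (nat_lit 128) (Z a x d2))) (mo Y d (nat_lit 0)))

/-- compiled program -/
def w3_13r : Prog3 := fun Y Z => Bx.mk fun a x d =>
  ((w3_13mI a).1 ((w3_13mD d).1 ((w3_13e Y Z).1 a x d)))

/-- compiled program -/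
def w3_5e (Y : Lay) (Z : Tc) :
    Bx (Nat → Nat → Nat → (Nat → Nat → Nat → (Nat → Nat → Nat → Nat))) :=
  Bx.mk fun a x d d0 d1 d2 a0 a1 a2 => (fold (Nat.add (Nat.add (Nat.add (fold (Nat.add (Nat.add
  (Nat.add (Nat.add (mv Y (nat_lit 16384) (Z a x d2)) (Nat.mul (nat_lit 3) (Nat.add (Z a2 x d) (Z a1
  x d0)))) (Nat.mul (nat_lit 8) (mw Y (nat_lit 384) (Z a x d2)))) (mv Y (nat_lit 1) (Nat.add (mw Y
  (nat_lit 256) (Nat.mul (nat_lit 6) (Nat.add (Z a0 x d1) (Z a x d2)))) (Z a1 x d0)))) (mv Y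
  (nat_lit 3) (Nat.mul (nat_lit 2) (Nat.add (mw Y (nat_lit 128) (Z a x d2)) (Z a x d2))))) (mo Y d
  (nat_lit 0))) (mv Y (nat_lit 4) (mw Y (nat_lit 256) (Z a x d2)))) (mv Y (nat_lit 2) (Nat.mul
  (nat_lit 2) (mw Y (nat_lit 256) (Z a x d2))))) (mw Y (nat_lit 128) (Z a x d2))) (mo Y d (nat_lit
  0)))

/-- compiled program -/
def w3_5r : Prog3 := fun Y Z => Bx.mk fun a x d =>
  ((w3_13mI a).1 ((w3_13mD d).1 ((w3_5e Y Z).1 a x d)))

/-- compiled program -/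
def w3_4e (Y : Lay) (Z : Tc) :
    Bx (Nat → Nat → Nat → (Nat → Nat → Nat → (Nat → Nat → Nat → Nat))) :=
  Bx.mk fun a x d d0 d1 d2 a0 a1 a2 => (fold (Nat.add (Nat.add (fold (Nat.add (Nat.add (Nat.add
  (Nat.add (mv Y (nat_lit 16384) (Z a x d2)) (Nat.mul (nat_lit 3) (Nat.add (Z a2 x d) (Z a1 x d0))))
  (mw Y (nat_lit 384) (Nat.mul (nat_lit 8) (Z a x d2)))) (mv Y (nat_lit 1) (Nat.add (mw Y (nat_lit
  256) (Nat.mul (nat_lit 6) (Nat.add (Z a0 x d1) (Z a x d2)))) (Z a1 x d0)))) (mv Y (nat_lit 3)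
  (Nat.add (mw Y (nat_lit 128) (Nat.mul (nat_lit 2) (Z a x d2))) (Nat.mul (nat_lit 2) (Z a x d2)))))
  (mo Y d (nat_lit 0))) (mv Y (nat_lit 2) (mw Y (nat_lit 256) (Nat.mul (nat_lit 2) (Z a x d2)))))
  (mw Y (nat_lit 128) (Z a x d2))) (mo Y d (nat_lit 0)))

/-- compiled program -/
def w3_4r : Prog3 := fun Y Z => Bx.mk fun a x d =>
  ((w3_13mI a).1 ((w3_13mD d).1 ((w3_4e Y Z).1 a x d)))

/-- keys -/
def b22m2I (c : Nat) :
    Bx ((Nat → Nat → Nat) → Nat) :=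
  bx2 Nat c (nat_lit 2251799813685249) (nat_lit 4503599627370498)

/-- keys -/
def b22m2X (c : Nat) :
    Bx ((Nat → Nat → (Nat → Nat → Nat)) → (Nat → Nat → Nat)) :=
  bx2 (Nat → Nat → Nat) c (nat_lit 2251800082120704) (nat_lit 4503600164241408)

/-- compiled program -/
def b22_1e (Y : Lay) (Z : Tc) :
    Bx (Nat → Nat → Nat → (Nat → Nat → (Nat → Nat → Nat))) :=
  Bx.mk fun a x d x0 x1 a0 a1 => (fold (Nat.add (Z a0 x d) (Z a x0 d)) (mo Y d (nat_lit 0)))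

/-- compiled program -/
def b22_1r : Prog3 := fun Y Z => Bx.mk fun a x d =>
  ((b22m2I a).1 ((b22m2X x).1 ((b22_1e Y Z).1 a x d)))

/-- compiled program -/
def b22_2e (Y : Lay) (Z : Tc) :
    Bx (Nat → Nat → Nat → (Nat → Nat → (Nat → Nat → Nat))) :=
  Bx.mk fun a x d x0 x1 a0 a1 => (fold (Nat.add (Nat.add (Nat.mul (nat_lit 2) (Z a0 x0 d)) (Z a1 x
  d)) (Z a x1 d)) (mo Y d (nat_lit 0)))

/-- compiled program -/
def b22_2r : Prog3 := fun Y Z => Bx.mk fun a x d =>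
  ((b22m2I a).1 ((b22m2X x).1 ((b22_2e Y Z).1 a x d)))

/-- keys -/
def b22m4I (c : Nat) :
    Bx ((Nat → Nat → Nat → Nat → Nat) → Nat) :=
  bx4 Nat c (nat_lit 2251799813685249) (nat_lit 4503599627370498) (nat_lit 6755399441055747)
  (nat_lit 9007199254740996)

/-- keys -/
def b22m4X (c : Nat) :
    Bx ((Nat → Nat → Nat → Nat → (Nat → Nat → Nat → Nat → Nat)) → (Nat → Nat → Nat → Nat → Nat)) :=
  bx4 (Nat → Nat → Nat → Nat → Nat) c (nat_lit 2251800082120704) (nat_lit 4503600164241408) (nat_lit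
  6755400246362112) (nat_lit 9007200328482816)

/-- compiled program -/
def b22_3e (Y : Lay) (Z : Tc) :
    Bx (Nat → Nat → Nat → (Nat → Nat → Nat → Nat → (Nat → Nat → Nat → Nat → Nat))) :=
  Bx.mk fun a x d x0 x1 x2 x3 a0 a1 a2 a3 => (fold (Nat.add (Nat.add (Nat.mul (nat_lit 3) (Nat.add
  (Z a1 x0 d) (Z a0 x1 d))) (Z a2 x d)) (Z a x2 d)) (mo Y d (nat_lit 0)))

/-- compiled program -/
def b22_3r : Prog3 := fun Y Z => Bx.mk fun a x d =>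
  ((b22m4I a).1 ((b22m4X x).1 ((b22_3e Y Z).1 a x d)))

/-- compiled program -/
def b22_4e (Y : Lay) (Z : Tc) :
    Bx (Nat → Nat → Nat → (Nat → Nat → Nat → Nat → (Nat → Nat → Nat → Nat → Nat))) :=
  Bx.mk fun a x d x0 x1 x2 x3 a0 a1 a2 a3 => (fold (Nat.add (Nat.add (Nat.add (Nat.mul (nat_lit 4)
  (Nat.add (Z a2 x0 d) (Z a0 x2 d))) (Nat.mul (nat_lit 6) (Z a1 x1 d))) (Z a3 x d)) (Z a x3 d)) (mo
  Y d (nat_lit 0)))

/-- compiled program -/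
def b22_4r : Prog3 := fun Y Z => Bx.mk fun a x d =>
  ((b22m4I a).1 ((b22m4X x).1 ((b22_4e Y Z).1 a x d)))

/-- keys -/
def b22m8I (c : Nat) :
    Bx ((Nat → Nat → Nat → Nat → Nat → Nat → Nat → Nat → Nat) → Nat) :=
  bx8 Nat c (nat_lit 2251799813685249) (nat_lit 4503599627370498) (nat_lit 6755399441055747)
  (nat_lit 9007199254740996) (nat_lit 11258999068426245) (nat_lit 13510798882111494) (nat_lit
  15762598695796743) (nat_lit 18014398509481992)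

/-- keys -/
def b22m8X (c : Nat) :
    Bx ((Nat → Nat → Nat → Nat → Nat → Nat → Nat → Nat → (Nat → Nat → Nat → Nat → Nat → Nat → Nat →
    Nat → Nat)) → (Nat → Nat → Nat → Nat → Nat → Nat → Nat → Nat → Nat)) :=
  bx8 (Nat → Nat → Nat → Nat → Nat → Nat → Nat → Nat → Nat) c (nat_lit 2251800082120704) (nat_lit
  4503600164241408) (nat_lit 6755400246362112) (nat_lit 9007200328482816) (nat_lit
  11259000410603520) (nat_lit 13510800492724224) (nat_lit 15762600574844928) (nat_lit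
  18014400656965632)

/-- compiled program -/
def b22_5e (Y : Lay) (Z : Tc) :
    Bx (Nat → Nat → Nat → (Nat → Nat → Nat → Nat → Nat → Nat → Nat → Nat → (Nat → Nat → Nat → Nat →
    Nat → Nat → Nat → Nat → Nat))) :=
  Bx.mk fun a x d x0 x1 x2 x3 x4 x5 x6 x7 a0 a1 a2 a3 a4 a5 a6 a7 => (fold (Nat.add (Nat.add
  (Nat.add (Nat.add (Nat.mul (nat_lit 5) (Nat.add (Z a3 x0 d) (Z a0 x3 d))) (Z a4 x d)) (Z a2 x1 d))
  (Z a1 x2 d)) (Z a x4 d)) (mo Y d (nat_lit 0)))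

/-- compiled program -/
def b22_5r : Prog3 := fun Y Z => Bx.mk fun a x d =>
  ((b22m8I a).1 ((b22m8X x).1 ((b22_5e Y Z).1 a x d)))

/-- compiled program -/
def b22_6e (Y : Lay) (Z : Tc) :
    Bx (Nat → Nat → Nat → (Nat → Nat → Nat → Nat → Nat → Nat → Nat → Nat → (Nat → Nat → Nat → Nat →
    Nat → Nat → Nat → Nat → Nat))) :=
  Bx.mk fun a x d x0 x1 x2 x3 x4 x5 x6 x7 a0 a1 a2 a3 a4 a5 a6 a7 => (fold (Nat.add (Nat.add
  (Nat.add (Nat.mul (nat_lit 2) (Z a2 x2 d)) (Nat.mul (nat_lit 6) (Nat.add (Nat.add (Nat.add (Z a4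
  x0 d) (Z a3 x1 d)) (Z a1 x3 d)) (Z a0 x4 d)))) (Z a5 x d)) (Z a x5 d)) (mo Y d (nat_lit 0)))

/-- compiled program -/
def b22_6r : Prog3 := fun Y Z => Bx.mk fun a x d =>
  ((b22m8I a).1 ((b22m8X x).1 ((b22_6e Y Z).1 a x d)))

/-- compiled program -/
def b22_7e (Y : Lay) (Z : Tc) :
    Bx (Nat → Nat → Nat → (Nat → Nat → Nat → Nat → Nat → Nat → Nat → Nat → (Nat → Nat → Nat → Nat →
    Nat → Nat → Nat → Nat → Nat))) :=
  Bx.mk fun a x d x0 x1 x2 x3 x4 x5 x6 x7 a0 a1 a2 a3 a4 a5 a6 a7 => (fold (Nat.add (fold (Nat.add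
  (Nat.add (Nat.add (Nat.mul (nat_lit 7) (Nat.add (Z a5 x0 d) (Z a0 x5 d))) (Nat.mul (nat_lit 8)
  (Nat.add (Z a3 x2 d) (Z a2 x3 d)))) (Z a6 x d)) (Z a x6 d)) (mo Y d (nat_lit 0))) (Nat.mul
  (nat_lit 3) (Nat.add (Z a4 x1 d) (Z a1 x4 d)))) (mo Y d (nat_lit 0)))

/-- compiled program -/
def b22_7r : Prog3 := fun Y Z => Bx.mk fun a x d =>
  ((b22m8I a).1 ((b22m8X x).1 ((b22_7e Y Z).1 a x d)))

/-- compiled program -/
def b22_8e (Y : Lay) (Z : Tc) :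
    Bx (Nat → Nat → Nat → (Nat → Nat → Nat → Nat → Nat → Nat → Nat → Nat → (Nat → Nat → Nat → Nat →
    Nat → Nat → Nat → Nat → Nat))) :=
  Bx.mk fun a x d x0 x1 x2 x3 x4 x5 x6 x7 a0 a1 a2 a3 a4 a5 a6 a7 => (fold (Nat.add (Nat.add
  (Nat.add (Nat.add (Nat.add (Nat.add (Nat.mul (nat_lit 2) (Nat.add (Z a4 x2 d) (Z a2 x4 d)))
  (Nat.mul (nat_lit 7) (Z a3 x3 d))) (Nat.mul (nat_lit 8) (Nat.add (Z a6 x0 d) (Z a0 x6 d)))) (Z a7
  x d)) (Z a5 x1 d)) (Z a1 x5 d)) (Z a x7 d)) (mo Y d (nat_lit 0)))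

/-- compiled program -/
def b22_8r : Prog3 := fun Y Z => Bx.mk fun a x d =>
  ((b22m8I a).1 ((b22m8X x).1 ((b22_8e Y Z).1 a x d)))

/-- keys -/
def b22m16I (c : Nat) :
    Bx ((Nat → Nat → Nat → Nat → Nat → Nat → Nat → Nat → Nat → Nat → Nat → Nat → Nat → Nat → Nat →
    Nat → Nat) → Nat) :=
  bx16 Nat c (nat_lit 2251799813685249) (nat_lit 4503599627370498) (nat_lit 6755399441055747)
  (nat_lit 9007199254740996) (nat_lit 11258999068426245) (nat_lit 13510798882111494) (nat_lit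
  15762598695796743) (nat_lit 18014398509481992) (nat_lit 20266198323167241) (nat_lit
  22517998136852490) (nat_lit 24769797950537739) (nat_lit 27021597764222988) (nat_lit
  29273397577908237) (nat_lit 31525197391593486) (nat_lit 33776997205278735) (nat_lit
  36028797018963984)

/-- keys -/
def b22m16X (c : Nat) :
    Bx ((Nat → Nat → Nat → Nat → Nat → Nat → Nat → Nat → Nat → Nat → Nat → Nat → Nat → Nat → Nat →
    Nat → (Nat → Nat → Nat → Nat → Nat → Nat → Nat → Nat → Nat → Nat → Nat → Nat → Nat → Nat → Nat →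
    Nat → Nat)) → (Nat → Nat → Nat → Nat → Nat → Nat → Nat → Nat → Nat → Nat → Nat → Nat → Nat → Nat
    → Nat → Nat → Nat)) :=
  bx16 (Nat → Nat → Nat → Nat → Nat → Nat → Nat → Nat → Nat → Nat → Nat → Nat → Nat → Nat → Nat →
  Nat → Nat) c (nat_lit 2251800082120704) (nat_lit 4503600164241408) (nat_lit 6755400246362112)
  (nat_lit 9007200328482816) (nat_lit 11259000410603520) (nat_lit 13510800492724224) (nat_lit
  15762600574844928) (nat_lit 18014400656965632) (nat_lit 20266200739086336) (nat_lit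
  22518000821207040) (nat_lit 24769800903327744) (nat_lit 27021600985448448) (nat_lit
  29273401067569152) (nat_lit 31525201149689856) (nat_lit 33777001231810560) (nat_lit
  36028801313931264)

/-- compiled program -/
def b22_9e (Y : Lay) (Z : Tc) :
    Bx (Nat → Nat → Nat → (Nat → Nat → Nat → Nat → Nat → Nat → Nat → Nat → Nat → Nat → Nat → Nat →
    Nat → Nat → Nat → Nat → (Nat → Nat → Nat → Nat → Nat → Nat → Nat → Nat → Nat → Nat → Nat → Nat →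
    Nat → Nat → Nat → Nat → Nat))) :=
  Bx.mk fun a x d x0 x1 x2 x3 x4 x5 x6 x7 x8 x9 x10 x11 x12 x13 x14 x15 a0 a1 a2 a3 a4 a5 a6 a7 a8
  a9 a10 a11 a12 a13 a14 a15 => (fold (Nat.add (Nat.add (Nat.mul (nat_lit 3) (Nat.add (Z a5 x2 d) (Z
  a2 x5 d))) (Z a8 x d)) (Z a x8 d)) (mo Y d (nat_lit 0)))

/-- compiled program -/
def b22_9r : Prog3 := fun Y Z => Bx.mk fun a x d =>
  ((b22m16I a).1 ((b22m16X x).1 ((b22_9e Y Z).1 a x d)))

/-- compiled program -/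
def b22_10e (Y : Lay) (Z : Tc) :
    Bx (Nat → Nat → Nat → (Nat → Nat → Nat → Nat → Nat → Nat → Nat → Nat → Nat → Nat → Nat → Nat →
    Nat → Nat → Nat → Nat → (Nat → Nat → Nat → Nat → Nat → Nat → Nat → Nat → Nat → Nat → Nat → Nat →
    Nat → Nat → Nat → Nat → Nat))) :=
  Bx.mk fun a x d x0 x1 x2 x3 x4 x5 x6 x7 x8 x9 x10 x11 x12 x13 x14 x15 a0 a1 a2 a3 a4 a5 a6 a7 a8
  a9 a10 a11 a12 a13 a14 a15 => (fold (Nat.add (Nat.add (Nat.add (Nat.add (Nat.mul (nat_lit 3)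
  (Nat.add (Nat.add (Nat.add (Z a6 x2 d) (Z a5 x3 d)) (Z a3 x5 d)) (Z a2 x6 d))) (Z a9 x d)) (Z a8
  x0 d)) (Z a0 x8 d)) (Z a x9 d)) (mo Y d (nat_lit 0)))

/-- compiled program -/
def b22_10r : Prog3 := fun Y Z => Bx.mk fun a x d =>
  ((b22m16I a).1 ((b22m16X x).1 ((b22_10e Y Z).1 a x d)))

/-- compiled program -/
def b22_11e (Y : Lay) (Z : Tc) :
    Bx (Nat → Nat → Nat → (Nat → Nat → Nat → Nat → Nat → Nat → Nat → Nat → Nat → Nat → Nat → Nat →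
    Nat → Nat → Nat → Nat → (Nat → Nat → Nat → Nat → Nat → Nat → Nat → Nat → Nat → Nat → Nat → Nat →
    Nat → Nat → Nat → Nat → Nat))) :=
  Bx.mk fun a x d x0 x1 x2 x3 x4 x5 x6 x7 x8 x9 x10 x11 x12 x13 x14 x15 a0 a1 a2 a3 a4 a5 a6 a7 a8
  a9 a10 a11 a12 a13 a14 a15 => (fold (Nat.add (Nat.add (Nat.add (Nat.add (Nat.add (Nat.add (Nat.mul
  (nat_lit 2) (Nat.add (Z a9 x0 d) (Z a0 x9 d))) (Nat.mul (nat_lit 3) (Nat.add (Nat.add (Nat.add (Z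
  a7 x2 d) (Z a5 x4 d)) (Z a4 x5 d)) (Z a2 x7 d)))) (Nat.mul (nat_lit 6) (Nat.add (Z a6 x3 d) (Z a3
  x6 d)))) (Z a10 x d)) (Z a8 x1 d)) (Z a1 x8 d)) (Z a x10 d)) (mo Y d (nat_lit 0)))

/-- compiled program -/
def b22_11r : Prog3 := fun Y Z => Bx.mk fun a x d =>
  ((b22m16I a).1 ((b22m16X x).1 ((b22_11e Y Z).1 a x d)))

/-- compiled program -/
def b22_12e (Y : Lay) (Z : Tc) :
    Bx (Nat → Nat → Nat → (Nat → Nat → Nat → Nat → Nat → Nat → Nat → Nat → Nat → Nat → Nat → Nat →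
    Nat → Nat → Nat → Nat → (Nat → Nat → Nat → Nat → Nat → Nat → Nat → Nat → Nat → Nat → Nat → Nat →
    Nat → Nat → Nat → Nat → Nat))) :=
  Bx.mk fun a x d x0 x1 x2 x3 x4 x5 x6 x7 x8 x9 x10 x11 x12 x13 x14 x15 a0 a1 a2 a3 a4 a5 a6 a7 a8
  a9 a10 a11 a12 a13 a14 a15 => (fold (Nat.add (Nat.add (Nat.add (Nat.add (Nat.mul (nat_lit 3)
  (Nat.add (Nat.add (Nat.add (Z a10 x0 d) (Z a9 x1 d)) (Z a1 x9 d)) (Z a0 x10 d))) (Nat.mul (nat_lit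
  4) (Nat.add (Z a8 x2 d) (Z a2 x8 d)))) (Nat.mul (nat_lit 6) (Z a5 x5 d))) (Z a11 x d)) (Z a x11
  d)) (mo Y d (nat_lit 0)))

/-- compiled program -/
def b22_12r : Prog3 := fun Y Z => Bx.mk fun a x d =>
  ((b22m16I a).1 ((b22m16X x).1 ((b22_12e Y Z).1 a x d)))

/-- compiled program -/
def b22_13e (Y : Lay) (Z : Tc) :
    Bx (Nat → Nat → Nat → (Nat → Nat → Nat → Nat → Nat → Nat → Nat → Nat → Nat → Nat → Nat → Nat →
    Nat → Nat → Nat → Nat → (Nat → Nat → Nat → Nat → Nat → Nat → Nat → Nat → Nat → Nat → Nat → Nat →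
    Nat → Nat → Nat → Nat → Nat))) :=
  Bx.mk fun a x d x0 x1 x2 x3 x4 x5 x6 x7 x8 x9 x10 x11 x12 x13 x14 x15 a0 a1 a2 a3 a4 a5 a6 a7 a8
  a9 a10 a11 a12 a13 a14 a15 => (fold (Nat.add (Nat.add (fold (Nat.add (Nat.add (Nat.mul (nat_lit 6)
  (Nat.add (Nat.add (Nat.add (Z a10 x1 d) (Z a6 x5 d)) (Z a5 x6 d)) (Z a1 x10 d))) (Z a12 x d)) (Z a
  x12 d)) (mo Y d (nat_lit 0))) (Nat.mul (nat_lit 4) (Nat.add (Nat.add (Nat.add (Z a11 x0 d) (Z a8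
  x3 d)) (Z a3 x8 d)) (Z a0 x11 d)))) (Nat.mul (nat_lit 7) (Nat.add (Z a9 x2 d) (Z a2 x9 d)))) (mo Y
  d (nat_lit 0)))

/-- compiled program -/
def b22_13r : Prog3 := fun Y Z => Bx.mk fun a x d =>
  ((b22m16I a).1 ((b22m16X x).1 ((b22_13e Y Z).1 a x d)))

/-- compiled program -/
def b22_14e (Y : Lay) (Z : Tc) :
    Bx (Nat → Nat → Nat → (Nat → Nat → Nat → Nat → Nat → Nat → Nat → Nat → Nat → Nat → Nat → Nat →
    Nat → Nat → Nat → Nat → (Nat → Nat → Nat → Nat → Nat → Nat → Nat → Nat → Nat → Nat → Nat → Nat →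
    Nat → Nat → Nat → Nat → Nat))) :=
  Bx.mk fun a x d x0 x1 x2 x3 x4 x5 x6 x7 x8 x9 x10 x11 x12 x13 x14 x15 a0 a1 a2 a3 a4 a5 a6 a7 a8
  a9 a10 a11 a12 a13 a14 a15 => (fold (Nat.add (Nat.add (Nat.add (Nat.add (Nat.add (Nat.add (fold
  (Nat.add (Nat.add (Nat.mul (nat_lit 2) (Nat.add (Z a9 x3 d) (Z a3 x9 d))) (Nat.mul (nat_lit 4)
  (Nat.add (Nat.add (Nat.add (Z a10 x2 d) (Z a8 x4 d)) (Z a4 x8 d)) (Z a2 x10 d)))) (Nat.mul
  (nat_lit 6) (Nat.add (Z a7 x5 d) (Z a5 x7 d)))) (mo Y d (nat_lit 0))) (Nat.mul (nat_lit 3) (Z a6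
  x6 d))) (Nat.mul (nat_lit 5) (Nat.add (Z a12 x0 d) (Z a0 x12 d)))) (Z a13 x d)) (Z a11 x1 d)) (Z
  a1 x11 d)) (Z a x13 d)) (mo Y d (nat_lit 0)))

/-- compiled program -/
def b22_14r : Prog3 := fun Y Z => Bx.mk fun a x d =>
  ((b22m16I a).1 ((b22m16X x).1 ((b22_14e Y Z).1 a x d)))

/-- compiled program -/
def b22_15e (Y : Lay) (Z : Tc) :
    Bx (Nat → Nat → Nat → (Nat → Nat → Nat → Nat → Nat → Nat → Nat → Nat → Nat → Nat → Nat → Nat →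
    Nat → Nat → Nat → Nat → (Nat → Nat → Nat → Nat → Nat → Nat → Nat → Nat → Nat → Nat → Nat → Nat →
    Nat → Nat → Nat → Nat → Nat))) :=
  Bx.mk fun a x d x0 x1 x2 x3 x4 x5 x6 x7 x8 x9 x10 x11 x12 x13 x14 x15 a0 a1 a2 a3 a4 a5 a6 a7 a8
  a9 a10 a11 a12 a13 a14 a15 => (fold (Nat.add (Nat.add (Nat.add (Nat.add (Nat.mul (nat_lit 8) (fold
  (Nat.add (Nat.mul (nat_lit 3) (Nat.add (Nat.add (Nat.add (Nat.add (Nat.add (Nat.add (Nat.add (Z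
  a13 x0 d) (Z a12 x1 d)) (Z a10 x3 d)) (Z a9 x4 d)) (Z a4 x9 d)) (Z a3 x10 d)) (Z a1 x12 d)) (Z a0
  x13 d))) (Nat.mul (nat_lit 4) (Nat.add (Z a11 x2 d) (Z a2 x11 d)))) (mo Y d (nat_lit 0)))) (Z a14
  x d)) (Z a8 x5 d)) (Z a5 x8 d)) (Z a x14 d)) (mo Y d (nat_lit 0)))

/-- compiled program -/
def b22_15r : Prog3 := fun Y Z => Bx.mk fun a x d =>
  ((b22m16I a).1 ((b22m16X x).1 ((b22_15e Y Z).1 a x d)))

/-- compiled program -/
def b22_16e (Y : Lay) (Z : Tc) :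
    Bx (Nat → Nat → Nat → (Nat → Nat → Nat → Nat → Nat → Nat → Nat → Nat → Nat → Nat → Nat → Nat →
    Nat → Nat → Nat → Nat → (Nat → Nat → Nat → Nat → Nat → Nat → Nat → Nat → Nat → Nat → Nat → Nat →
    Nat → Nat → Nat → Nat → Nat))) :=
  Bx.mk fun a x d x0 x1 x2 x3 x4 x5 x6 x7 x8 x9 x10 x11 x12 x13 x14 x15 a0 a1 a2 a3 a4 a5 a6 a7 a8
  a9 a10 a11 a12 a13 a14 a15 => (fold (Nat.add (Nat.add (fold (Nat.add (Nat.add (Nat.add (Nat.add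
  (Nat.mul (nat_lit 7) (Nat.add (Nat.add (Nat.add (Z a14 x0 d) (Z a9 x5 d)) (Z a5 x9 d)) (Z a0 x14
  d))) (Z a15 x d)) (Z a8 x6 d)) (Z a6 x8 d)) (Z a x15 d)) (mo Y d (nat_lit 0))) (Nat.mul (nat_lit
  2) (Nat.add (Nat.add (Nat.add (Z a12 x2 d) (Z a11 x3 d)) (Z a3 x11 d)) (Z a2 x12 d)))) (Nat.mul
  (nat_lit 3) (Nat.add (Nat.add (Nat.add (Z a13 x1 d) (Z a10 x4 d)) (Z a4 x10 d)) (Z a1 x13 d))))
  (mo Y d (nat_lit 0)))

/-- compiled program -/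
def b22_16r : Prog3 := fun Y Z => Bx.mk fun a x d =>
  ((b22m16I a).1 ((b22m16X x).1 ((b22_16e Y Z).1 a x d)))

/-- keys -/
def b22m24I (c : Nat) :
    Bx ((Nat → Nat → Nat → Nat → Nat → Nat → Nat → Nat → Nat → Nat → Nat → Nat → Nat → Nat → Nat →
    Nat → Nat → Nat → Nat → Nat → Nat → Nat → Nat → Nat) → Nat) :=
  bx23 Nat c (nat_lit 2251799813685249) (nat_lit 4503599627370498) (nat_lit 6755399441055747)
  (nat_lit 9007199254740996) (nat_lit 11258999068426245) (nat_lit 13510798882111494) (nat_lit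
  15762598695796743) (nat_lit 18014398509481992) (nat_lit 20266198323167241) (nat_lit
  22517998136852490) (nat_lit 24769797950537739) (nat_lit 27021597764222988) (nat_lit
  29273397577908237) (nat_lit 31525197391593486) (nat_lit 33776997205278735) (nat_lit
  36028797018963984) (nat_lit 38280596832649233) (nat_lit 40532396646334482) (nat_lit
  42784196460019731) (nat_lit 45035996273704980) (nat_lit 47287796087390229) (nat_lit
  49539595901075478) (nat_lit 51791395714760727)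

/-- keys -/
def b22m24X (c : Nat) :
    Bx ((Nat → Nat → Nat → Nat → Nat → Nat → Nat → Nat → Nat → Nat → Nat → Nat → Nat → Nat → Nat →
    Nat → Nat → Nat → Nat → Nat → Nat → Nat → Nat → (Nat → Nat → Nat → Nat → Nat → Nat → Nat → Nat →
    Nat → Nat → Nat → Nat → Nat → Nat → Nat → Nat → Nat → Nat → Nat → Nat → Nat → Nat → Nat → Nat))
    → (Nat → Nat → Nat → Nat → Nat → Nat → Nat → Nat → Nat → Nat → Nat → Nat → Nat → Nat → Nat → Nat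
    → Nat → Nat → Nat → Nat → Nat → Nat → Nat → Nat)) :=
  bx23 (Nat → Nat → Nat → Nat → Nat → Nat → Nat → Nat → Nat → Nat → Nat → Nat → Nat → Nat → Nat →
  Nat → Nat → Nat → Nat → Nat → Nat → Nat → Nat → Nat) c (nat_lit 2251800082120704) (nat_lit
  4503600164241408) (nat_lit 6755400246362112) (nat_lit 9007200328482816) (nat_lit
  11259000410603520) (nat_lit 13510800492724224) (nat_lit 15762600574844928) (nat_lit
  18014400656965632) (nat_lit 20266200739086336) (nat_lit 22518000821207040) (nat_lit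
  24769800903327744) (nat_lit 27021600985448448) (nat_lit 29273401067569152) (nat_lit
  31525201149689856) (nat_lit 33777001231810560) (nat_lit 36028801313931264) (nat_lit
  38280601396051968) (nat_lit 40532401478172672) (nat_lit 42784201560293376) (nat_lit
  45036001642414080) (nat_lit 47287801724534784) (nat_lit 49539601806655488) (nat_lit
  51791401888776192)

/-- compiled program -/
def b22_17e (Y : Lay) (Z : Tc) :
    Bx (Nat → Nat → Nat → (Nat → Nat → Nat → Nat → Nat → Nat → Nat → Nat → Nat → Nat → Nat → Nat →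
    Nat → Nat → Nat → Nat → Nat → Nat → Nat → Nat → Nat → Nat → Nat → (Nat → Nat → Nat → Nat → Nat →
    Nat → Nat → Nat → Nat → Nat → Nat → Nat → Nat → Nat → Nat → Nat → Nat → Nat → Nat → Nat → Nat →
    Nat → Nat → Nat))) :=
  Bx.mk fun a x d x0 x1 x2 x3 x4 x5 x6 x7 x8 x9 x10 x11 x12 x13 x14 x15 x16 x17 x18 x19 x20 x21 x22
  a0 a1 a2 a3 a4 a5 a6 a7 a8 a9 a10 a11 a12 a13 a14 a15 a16 a17 a18 a19 a20 a21 a22 => (fold
  (Nat.add (Nat.add (Nat.add (Nat.add (Nat.add (Nat.add (Nat.add (Nat.add (Nat.add (Nat.mul (nat_lit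
  8) (fold (Nat.add (Nat.add (Nat.add (Nat.add (Nat.mul (nat_lit 4) (Nat.add (Nat.add (Nat.add (Z
  a13 x2 d) (Z a11 x4 d)) (Z a4 x11 d)) (Z a2 x13 d))) (Z a15 x0 d)) (Z a9 x6 d)) (Z a6 x9 d)) (Z a0
  x15 d)) (mo Y d (nat_lit 0)))) (Nat.mul (nat_lit 4) (Nat.add (Z a12 x3 d) (Z a3 x12 d)))) (Z a16 x
  d)) (Z a14 x1 d)) (Z a10 x5 d)) (Z a8 x7 d)) (Z a7 x8 d)) (Z a5 x10 d)) (Z a1 x14 d)) (Z a x16 d))
  (mo Y d (nat_lit 0)))

/-- compiled program -/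
def b22_17r : Prog3 := fun Y Z => Bx.mk fun a x d =>
  ((b22m24I a).1 ((b22m24X x).1 ((b22_17e Y Z).1 a x d)))

/-- compiled program -/
def b22_18e (Y : Lay) (Z : Tc) :
    Bx (Nat → Nat → Nat → (Nat → Nat → Nat → Nat → Nat → Nat → Nat → Nat → Nat → Nat → Nat → Nat →
    Nat → Nat → Nat → Nat → Nat → Nat → Nat → Nat → Nat → Nat → Nat → (Nat → Nat → Nat → Nat → Nat →
    Nat → Nat → Nat → Nat → Nat → Nat → Nat → Nat → Nat → Nat → Nat → Nat → Nat → Nat → Nat → Nat →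
    Nat → Nat → Nat))) :=
  Bx.mk fun a x d x0 x1 x2 x3 x4 x5 x6 x7 x8 x9 x10 x11 x12 x13 x14 x15 x16 x17 x18 x19 x20 x21 x22
  a0 a1 a2 a3 a4 a5 a6 a7 a8 a9 a10 a11 a12 a13 a14 a15 a16 a17 a18 a19 a20 a21 a22 => (fold
  (Nat.add (Nat.add (Nat.add (Nat.mul (nat_lit 2) (Z a8 x8 d)) (Nat.mul (nat_lit 6) (Nat.add
  (Nat.add (Nat.add (Z a14 x2 d) (Z a11 x5 d)) (Z a5 x11 d)) (Z a2 x14 d)))) (Z a17 x d)) (Z a x17
  d)) (mo Y d (nat_lit 0)))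

/-- compiled program -/
def b22_18r : Prog3 := fun Y Z => Bx.mk fun a x d =>
  ((b22m24I a).1 ((b22m24X x).1 ((b22_18e Y Z).1 a x d)))

/-- compiled program -/
def b22_19e (Y : Lay) (Z : Tc) :
    Bx (Nat → Nat → Nat → (Nat → Nat → Nat → Nat → Nat → Nat → Nat → Nat → Nat → Nat → Nat → Nat →
    Nat → Nat → Nat → Nat → Nat → Nat → Nat → Nat → Nat → Nat → Nat → (Nat → Nat → Nat → Nat → Nat →
    Nat → Nat → Nat → Nat → Nat → Nat → Nat → Nat → Nat → Nat → Nat → Nat → Nat → Nat → Nat → Nat →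
    Nat → Nat → Nat))) :=
  Bx.mk fun a x d x0 x1 x2 x3 x4 x5 x6 x7 x8 x9 x10 x11 x12 x13 x14 x15 x16 x17 x18 x19 x20 x21 x22
  a0 a1 a2 a3 a4 a5 a6 a7 a8 a9 a10 a11 a12 a13 a14 a15 a16 a17 a18 a19 a20 a21 a22 => (fold
  (Nat.add (Nat.add (Nat.add (Nat.add (Nat.add (Nat.mul (nat_lit 6) (fold (Nat.add (Nat.add (Nat.add
  (Nat.add (Nat.add (Nat.add (Nat.add (Z a15 x2 d) (Z a14 x3 d)) (Z a12 x5 d)) (Z a11 x6 d)) (Z a6
  x11 d)) (Z a5 x12 d)) (Z a3 x14 d)) (Z a2 x15 d)) (mo Y d (nat_lit 0)))) (Nat.mul (nat_lit 2)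
  (Nat.add (Z a9 x8 d) (Z a8 x9 d)))) (Z a18 x d)) (Z a17 x0 d)) (Z a0 x17 d)) (Z a x18 d)) (mo Y d
  (nat_lit 0)))

/-- compiled program -/
def b22_19r : Prog3 := fun Y Z => Bx.mk fun a x d =>
  ((b22m24I a).1 ((b22m24X x).1 ((b22_19e Y Z).1 a x d)))

/-- compiled program -/
def b22_20e (Y : Lay) (Z : Tc) :
    Bx (Nat → Nat → Nat → (Nat → Nat → Nat → Nat → Nat → Nat → Nat → Nat → Nat → Nat → Nat → Nat →
    Nat → Nat → Nat → Nat → Nat → Nat → Nat → Nat → Nat → Nat → Nat → (Nat → Nat → Nat → Nat → Nat →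
    Nat → Nat → Nat → Nat → Nat → Nat → Nat → Nat → Nat → Nat → Nat → Nat → Nat → Nat → Nat → Nat →
    Nat → Nat → Nat))) :=
  Bx.mk fun a x d x0 x1 x2 x3 x4 x5 x6 x7 x8 x9 x10 x11 x12 x13 x14 x15 x16 x17 x18 x19 x20 x21 x22
  a0 a1 a2 a3 a4 a5 a6 a7 a8 a9 a10 a11 a12 a13 a14 a15 a16 a17 a18 a19 a20 a21 a22 => (fold
  (Nat.add (Nat.add (fold (Nat.add (Nat.add (Nat.add (Nat.add (Nat.add (Nat.mul (nat_lit 6) (fold
  (Nat.add (Nat.add (Nat.add (Nat.add (Nat.add (Nat.add (Nat.add (Z a16 x2 d) (Z a14 x4 d)) (Z a13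
  x5 d)) (Z a11 x7 d)) (Z a7 x11 d)) (Z a5 x13 d)) (Z a4 x14 d)) (Z a2 x16 d)) (mo Y d (nat_lit
  0)))) (Nat.mul (nat_lit 2) (Nat.add (Nat.add (Nat.add (Z a18 x0 d) (Z a10 x8 d)) (Z a8 x10 d)) (Z
  a0 x18 d)))) (Nat.mul (nat_lit 3) (Nat.add (Nat.add (Nat.add (Z a15 x3 d) (Z a12 x6 d)) (Z a6 x12
  d)) (Z a3 x15 d)))) (Nat.mul (nat_lit 4) (Z a9 x9 d))) (Z a19 x d)) (Z a17 x1 d)) (mo Y d (nat_lit
  0))) (Z a1 x17 d)) (Z a x19 d)) (mo Y d (nat_lit 0)))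

/-- compiled program -/
def b22_20r : Prog3 := fun Y Z => Bx.mk fun a x d =>
  ((b22m24I a).1 ((b22m24X x).1 ((b22_20e Y Z).1 a x d)))

/-- compiled program -/
def b22_21e (Y : Lay) (Z : Tc) :
    Bx (Nat → Nat → Nat → (Nat → Nat → Nat → Nat → Nat → Nat → Nat → Nat → Nat → Nat → Nat → Nat →
    Nat → Nat → Nat → Nat → Nat → Nat → Nat → Nat → Nat → Nat → Nat → (Nat → Nat → Nat → Nat → Nat →
    Nat → Nat → Nat → Nat → Nat → Nat → Nat → Nat → Nat → Nat → Nat → Nat → Nat → Nat → Nat → Nat →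
    Nat → Nat → Nat))) :=
  Bx.mk fun a x d x0 x1 x2 x3 x4 x5 x6 x7 x8 x9 x10 x11 x12 x13 x14 x15 x16 x17 x18 x19 x20 x21 x22
  a0 a1 a2 a3 a4 a5 a6 a7 a8 a9 a10 a11 a12 a13 a14 a15 a16 a17 a18 a19 a20 a21 a22 => (fold
  (Nat.add (Nat.add (Nat.add (Nat.mul (nat_lit 8) (fold (Nat.add (Nat.add (Nat.add (Nat.mul (nat_lit
  2) (Nat.add (Z a17 x2 d) (Z a2 x17 d))) (Nat.mul (nat_lit 3) (Nat.add (Z a10 x9 d) (Z a9 x10 d))))
  (Z a11 x8 d)) (Z a8 x11 d)) (mo Y d (nat_lit 0)))) (Nat.mul (nat_lit 3) (Nat.add (Nat.add (Nat.add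
  (Nat.add (Nat.add (Z a19 x0 d) (Z a18 x1 d)) (Z a14 x5 d)) (Z a5 x14 d)) (Z a1 x18 d)) (Z a0 x19
  d)))) (Z a20 x d)) (Z a x20 d)) (mo Y d (nat_lit 0)))

/-- compiled program -/
def b22_21r : Prog3 := fun Y Z => Bx.mk fun a x d =>
  ((b22m24I a).1 ((b22m24X x).1 ((b22_21e Y Z).1 a x d)))

/-- compiled program -/
def b22_22e (Y : Lay) (Z : Tc) :
    Bx (Nat → Nat → Nat → (Nat → Nat → Nat → Nat → Nat → Nat → Nat → Nat → Nat → Nat → Nat → Nat →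
    Nat → Nat → Nat → Nat → Nat → Nat → Nat → Nat → Nat → Nat → Nat → (Nat → Nat → Nat → Nat → Nat →
    Nat → Nat → Nat → Nat → Nat → Nat → Nat → Nat → Nat → Nat → Nat → Nat → Nat → Nat → Nat → Nat →
    Nat → Nat → Nat))) :=
  Bx.mk fun a x d x0 x1 x2 x3 x4 x5 x6 x7 x8 x9 x10 x11 x12 x13 x14 x15 x16 x17 x18 x19 x20 x21 x22
  a0 a1 a2 a3 a4 a5 a6 a7 a8 a9 a10 a11 a12 a13 a14 a15 a16 a17 a18 a19 a20 a21 a22 => (fold
  (Nat.add (Nat.add (Nat.add (fold (Nat.add (Nat.add (Nat.add (Nat.mul (nat_lit 8) (fold (Nat.add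
  (Nat.add (Nat.add (Nat.add (Nat.mul (nat_lit 2) (Nat.add (Z a17 x3 d) (Z a3 x17 d))) (Nat.mul
  (nat_lit 3) (Nat.add (Z a19 x1 d) (Z a1 x19 d)))) (Nat.mul (nat_lit 4) (Nat.add (Z a11 x9 d) (Z a9
  x11 d)))) (Z a12 x8 d)) (Z a8 x12 d)) (mo Y d (nat_lit 0)))) (Nat.mul (nat_lit 3) (Nat.add
  (Nat.add (Nat.add (Nat.add (Z a15 x5 d) (Z a14 x6 d)) (Z a10 x10 d)) (Z a6 x14 d)) (Z a5 x15 d))))
  (Nat.mul (nat_lit 4) (Nat.add (Z a20 x0 d) (Z a0 x20 d)))) (Z a21 x d)) (mo Y d (nat_lit 0))) (Z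
  a18 x2 d)) (Z a2 x18 d)) (Z a x21 d)) (mo Y d (nat_lit 0)))

/-- compiled program -/
def b22_22r : Prog3 := fun Y Z => Bx.mk fun a x d =>
  ((b22m24I a).1 ((b22m24X x).1 ((b22_22e Y Z).1 a x d)))

/-- compiled program -/
def b22_23e (Y : Lay) (Z : Tc) :
    Bx (Nat → Nat → Nat → (Nat → Nat → Nat → Nat → Nat → Nat → Nat → Nat → Nat → Nat → Nat → Nat →
    Nat → Nat → Nat → Nat → Nat → Nat → Nat → Nat → Nat → Nat → Nat → (Nat → Nat → Nat → Nat → Nat →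
    Nat → Nat → Nat → Nat → Nat → Nat → Nat → Nat → Nat → Nat → Nat → Nat → Nat → Nat → Nat → Nat →
    Nat → Nat → Nat))) :=
  Bx.mk fun a x d x0 x1 x2 x3 x4 x5 x6 x7 x8 x9 x10 x11 x12 x13 x14 x15 x16 x17 x18 x19 x20 x21 x22
  a0 a1 a2 a3 a4 a5 a6 a7 a8 a9 a10 a11 a12 a13 a14 a15 a16 a17 a18 a19 a20 a21 a22 => (fold
  (Nat.add (Nat.add (Nat.add (Nat.add (Nat.add (Nat.add (Nat.mul (nat_lit 8) (fold (Nat.add (Nat.add
  (Nat.add (Nat.add (Nat.add (Nat.add (Nat.add (Nat.add (Nat.mul (nat_lit 2) (Nat.add (Nat.add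
  (Nat.add (Z a19 x2 d) (Z a17 x4 d)) (Z a4 x17 d)) (Z a2 x19 d))) (Nat.mul (nat_lit 3) (Nat.add (Z
  a15 x6 d) (Z a6 x15 d)))) (Nat.mul (nat_lit 4) (Nat.add (Z a21 x0 d) (Z a0 x21 d)))) (Z a18 x3 d))
  (Z a13 x8 d)) (Z a11 x10 d)) (Z a10 x11 d)) (Z a8 x13 d)) (Z a3 x18 d)) (mo Y d (nat_lit 0))))
  (Nat.mul (nat_lit 3) (Nat.add (Nat.add (Nat.add (Z a16 x5 d) (Z a14 x7 d)) (Z a7 x14 d)) (Z a5 x16
  d)))) (Nat.mul (nat_lit 4) (Nat.add (Z a12 x9 d) (Z a9 x12 d)))) (Z a22 x d)) (Z a20 x1 d)) (Z a1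
  x20 d)) (Z a x22 d)) (mo Y d (nat_lit 0)))

/-- compiled program -/
def b22_23r : Prog3 := fun Y Z => Bx.mk fun a x d =>
  ((b22m24I a).1 ((b22m24X x).1 ((b22_23e Y Z).1 a x d)))

/-- compiled programs -/
def b22r : List Prog3 :=
  [zero3, b22_1r, b22_2r, b22_3r, b22_4r, b22_5r, b22_6r, b22_7r, b22_8r, b22_9r, b22_10r, b22_11r,
  b22_12r, b22_13r, b22_14r, b22_15r, b22_16r, b22_17r, b22_18r, b22_19r, b22_20r, b22_21r, b22_22r,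
  b22_23r]

/-- keys -/
def b33m1I (c : Nat) :
    Bx ((Nat → Nat) → Nat) :=
  bx1 Nat c (nat_lit 7318349394477184)

/-- keys -/
def b33m1X (c : Nat) :
    Bx ((Nat → (Nat → Nat)) → (Nat → Nat)) :=
  bx1 (Nat → Nat) c (nat_lit 7318383754215424)

/-- compiled program -/
def b33_1e (Y : Lay) (Z : Tc) :
    Bx (Nat → Nat → Nat → (Nat → (Nat → Nat))) :=
  Bx.mk fun a x d x0 a0 => (fold (Nat.add (Z a0 x d) (Z a x0 d)) (mo Y d (nat_lit 0)))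

/-- compiled program -/
def b33_1r : Prog3 := fun Y Z => Bx.mk fun a x d =>
  ((b33m1I a).1 ((b33m1X x).1 ((b33_1e Y Z).1 a x d)))

/-- keys -/
def b33m2I (c : Nat) :
    Bx ((Nat → Nat → Nat) → Nat) :=
  bx2 Nat c (nat_lit 7318349394477184) (nat_lit 14636698788954368)

/-- keys -/
def b33m2X (c : Nat) :
    Bx ((Nat → Nat → (Nat → Nat → Nat)) → (Nat → Nat → Nat)) :=
  bx2 (Nat → Nat → Nat) c (nat_lit 7318383754215424) (nat_lit 14636767508430848)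

/-- compiled program -/
def b33_2e (Y : Lay) (Z : Tc) :
    Bx (Nat → Nat → Nat → (Nat → Nat → (Nat → Nat → Nat))) :=
  Bx.mk fun a x d x0 x1 a0 a1 => (fold (Nat.add (Nat.add (Nat.mul (nat_lit 2) (Z a0 x0 d)) (Z a1 x
  d)) (Z a x1 d)) (mo Y d (nat_lit 0)))

/-- compiled program -/
def b33_2r : Prog3 := fun Y Z => Bx.mk fun a x d =>
  ((b33m2I a).1 ((b33m2X x).1 ((b33_2e Y Z).1 a x d)))

/-- keys -/
def b33m4I (c : Nat) :
    Bx ((Nat → Nat → Nat → Nat → Nat) → Nat) :=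
  bx4 Nat c (nat_lit 7318349394477184) (nat_lit 14636698788954368) (nat_lit 21955048183431552)
  (nat_lit 29273397577908736)

/-- keys -/
def b33m4X (c : Nat) :
    Bx ((Nat → Nat → Nat → Nat → (Nat → Nat → Nat → Nat → Nat)) → (Nat → Nat → Nat → Nat → Nat)) :=
  bx4 (Nat → Nat → Nat → Nat → Nat) c (nat_lit 7318383754215424) (nat_lit 14636767508430848)
  (nat_lit 21955151262646272) (nat_lit 29273535016861696)

/-- compiled program -/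
def b33_3e (Y : Lay) (Z : Tc) :
    Bx (Nat → Nat → Nat → (Nat → Nat → Nat → Nat → (Nat → Nat → Nat → Nat → Nat))) :=
  Bx.mk fun a x d x0 x1 x2 x3 a0 a1 a2 a3 => (fold (Nat.add (Nat.add (Nat.mul (nat_lit 3) (Nat.add
  (Z a1 x0 d) (Z a0 x1 d))) (Z a2 x d)) (Z a x2 d)) (mo Y d (nat_lit 0)))

/-- compiled program -/
def b33_3r : Prog3 := fun Y Z => Bx.mk fun a x d =>
  ((b33m4I a).1 ((b33m4X x).1 ((b33_3e Y Z).1 a x d)))

/-- compiled program -/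
def b33_4e (Y : Lay) (Z : Tc) :
    Bx (Nat → Nat → Nat → (Nat → Nat → Nat → Nat → (Nat → Nat → Nat → Nat → Nat))) :=
  Bx.mk fun a x d x0 x1 x2 x3 a0 a1 a2 a3 => (fold (Nat.add (Nat.add (Nat.add (Nat.mul (nat_lit 4)
  (Nat.add (Z a2 x0 d) (Z a0 x2 d))) (Nat.mul (nat_lit 6) (Z a1 x1 d))) (Z a3 x d)) (Z a x3 d)) (mo
  Y d (nat_lit 0)))

/-- compiled program -/
def b33_4r : Prog3 := fun Y Z => Bx.mk fun a x d =>
  ((b33m4I a).1 ((b33m4X x).1 ((b33_4e Y Z).1 a x d)))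

/-- keys -/
def b33m8I (c : Nat) :
    Bx ((Nat → Nat → Nat → Nat → Nat → Nat → Nat → Nat) → Nat) :=
  bx7 Nat c (nat_lit 7318349394477184) (nat_lit 14636698788954368) (nat_lit 21955048183431552)
  (nat_lit 29273397577908736) (nat_lit 36591746972385920) (nat_lit 43910096366863104) (nat_lit
  51228445761340288)

/-- keys -/
def b33m8X (c : Nat) :
    Bx ((Nat → Nat → Nat → Nat → Nat → Nat → Nat → (Nat → Nat → Nat → Nat → Nat → Nat → Nat → Nat))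
    → (Nat → Nat → Nat → Nat → Nat → Nat → Nat → Nat)) :=
  bx7 (Nat → Nat → Nat → Nat → Nat → Nat → Nat → Nat) c (nat_lit 7318383754215424) (nat_lit
  14636767508430848) (nat_lit 21955151262646272) (nat_lit 29273535016861696) (nat_lit
  36591918771077120) (nat_lit 43910302525292544) (nat_lit 51228686279507968)

/-- compiled program -/
def b33_5e (Y : Lay) (Z : Tc) :
    Bx (Nat → Nat → Nat → (Nat → Nat → Nat → Nat → Nat → Nat → Nat → (Nat → Nat → Nat → Nat → Nat →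
    Nat → Nat → Nat))) :=
  Bx.mk fun a x d x0 x1 x2 x3 x4 x5 x6 a0 a1 a2 a3 a4 a5 a6 => (fold (Nat.add (Nat.add (Nat.add
  (Nat.add (Nat.mul (nat_lit 5) (Nat.add (Z a3 x0 d) (Z a0 x3 d))) (Z a4 x d)) (Z a2 x1 d)) (Z a1 x2
  d)) (Z a x4 d)) (mo Y d (nat_lit 0)))

/-- compiled program -/
def b33_5r : Prog3 := fun Y Z => Bx.mk fun a x d =>
  ((b33m8I a).1 ((b33m8X x).1 ((b33_5e Y Z).1 a x d)))

/-- compiled program -/
def b33_6e (Y : Lay) (Z : Tc) :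
    Bx (Nat → Nat → Nat → (Nat → Nat → Nat → Nat → Nat → Nat → Nat → (Nat → Nat → Nat → Nat → Nat →
    Nat → Nat → Nat))) :=
  Bx.mk fun a x d x0 x1 x2 x3 x4 x5 x6 a0 a1 a2 a3 a4 a5 a6 => (fold (Nat.add (Nat.add (Nat.add
  (Nat.mul (nat_lit 2) (Z a2 x2 d)) (Nat.mul (nat_lit 6) (Nat.add (Nat.add (Nat.add (Z a4 x0 d) (Z
  a3 x1 d)) (Z a1 x3 d)) (Z a0 x4 d)))) (Z a5 x d)) (Z a x5 d)) (mo Y d (nat_lit 0)))

/-- compiled program -/
def b33_6r : Prog3 := fun Y Z => Bx.mk fun a x d =>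
  ((b33m8I a).1 ((b33m8X x).1 ((b33_6e Y Z).1 a x d)))

/-- compiled program -/
def b33_7e (Y : Lay) (Z : Tc) :
    Bx (Nat → Nat → Nat → (Nat → Nat → Nat → Nat → Nat → Nat → Nat → (Nat → Nat → Nat → Nat → Nat →
    Nat → Nat → Nat))) :=
  Bx.mk fun a x d x0 x1 x2 x3 x4 x5 x6 a0 a1 a2 a3 a4 a5 a6 => (fold (Nat.add (fold (Nat.add
  (Nat.add (Nat.add (Nat.mul (nat_lit 7) (Nat.add (Z a5 x0 d) (Z a0 x5 d))) (Nat.mul (nat_lit 8)
  (Nat.add (Z a3 x2 d) (Z a2 x3 d)))) (Z a6 x d)) (Z a x6 d)) (mo Y d (nat_lit 0))) (Nat.mul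
  (nat_lit 3) (Nat.add (Z a4 x1 d) (Z a1 x4 d)))) (mo Y d (nat_lit 0)))

/-- compiled program -/
def b33_7r : Prog3 := fun Y Z => Bx.mk fun a x d =>
  ((b33m8I a).1 ((b33m8X x).1 ((b33_7e Y Z).1 a x d)))

/-- compiled programs -/
def b33r : List Prog3 :=
  [zero3, b33_1r, b33_2r, b33_3r, b33_4r, b33_5r, b33_6r, b33_7r]

/-- keys -/
def b44m1I (c : Nat) :
    Bx ((Nat → Nat) → Nat) :=
  bx1 Nat c (nat_lit 22517998136868864)

/-- keys -/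
def b44m1X (c : Nat) :
    Bx ((Nat → (Nat → Nat)) → (Nat → Nat)) :=
  bx1 (Nat → Nat) c (nat_lit 22522396183363584)

/-- compiled program -/
def b44_1e (Y : Lay) (Z : Tc) :
    Bx (Nat → Nat → Nat → (Nat → (Nat → Nat))) :=
  Bx.mk fun a x d x0 a0 => (fold (Nat.add (Z a0 x d) (Z a x0 d)) (mo Y d (nat_lit 0)))

/-- compiled program -/
def b44_1r : Prog3 := fun Y Z => Bx.mk fun a x d =>
  ((b44m1I a).1 ((b44m1X x).1 ((b44_1e Y Z).1 a x d)))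

/-- keys -/
def b44m2I (c : Nat) :
    Bx ((Nat → Nat → Nat) → Nat) :=
  bx2 Nat c (nat_lit 22517998136868864) (nat_lit 45035996273737728)

/-- keys -/
def b44m2X (c : Nat) :
    Bx ((Nat → Nat → (Nat → Nat → Nat)) → (Nat → Nat → Nat)) :=
  bx2 (Nat → Nat → Nat) c (nat_lit 22522396183363584) (nat_lit 45044792366727168)

/-- compiled program -/
def b44_2e (Y : Lay) (Z : Tc) :
    Bx (Nat → Nat → Nat → (Nat → Nat → (Nat → Nat → Nat))) :=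
  Bx.mk fun a x d x0 x1 a0 a1 => (fold (Nat.add (Nat.add (Nat.mul (nat_lit 2) (Z a0 x0 d)) (Z a1 x
  d)) (Z a x1 d)) (mo Y d (nat_lit 0)))

/-- compiled program -/
def b44_2r : Prog3 := fun Y Z => Bx.mk fun a x d =>
  ((b44m2I a).1 ((b44m2X x).1 ((b44_2e Y Z).1 a x d)))

/-- compiled programs -/
def b44r : List Prog3 :=
  [zero3, b44_1r, b44_2r]

end Vale.Agent.P236X
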